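import Vale.Agent.P097.Defs

/-!
# P097T: the ring of real analytic functions on a strip, its derivations and symmetries
-/

set_option linter.all false

noncomputable section

namespace Vale.Agent.P097T.Gm

open Filter Topology Set

/-- The real strip `|w| < ε`. -/
def Lam (ε : ℝ) : Set (ℝ × ℝ) := {q | |q.2| < ε}

theorem isOpen_Lam (ε : ℝ) : IsOpen (Lam ε) :=
  isOpen_lt (continuous_abs.comp continuous_snd) continuous_const

theorem convex_Lam (ε : ℝ) : Convex ℝ (Lam ε) := by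
  have : Lam ε = univ ×ˢ Ioo (-ε) ε := by
    ext q
    simp [Lam, abs_lt]
  rw [this]
  exact convex_univ.prod (convex_Ioo _ _)

/-- `f` is real analytic on the strip. -/
abbrev An (ε : ℝ) (f : ℝ × ℝ → ℂ) : Prop := AnalyticOnNhd ℝ f (Lam ε)

/-- The ring of complex valued real analytic functions on the strip. -/
def Rg (ε : ℝ) : Subalgebra ℂ (Lam ε → ℂ) where
  carrier := {φ | ∃ f : ℝ × ℝ → ℂ, An ε f ∧ φ = fun q => f q.1}
  mul_mem' := by
    rintro _ _ ⟨f, hf, rfl⟩ ⟨g, hg, rfl⟩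
    exact ⟨fun q => f q * g q, hf.mul hg, rfl⟩
  add_mem' := by
    rintro _ _ ⟨f, hf, rfl⟩ ⟨g, hg, rfl⟩
    exact ⟨fun q => f q + g q, hf.add hg, rfl⟩
  algebraMap_mem' c := ⟨fun _ => c, analyticOnNhd_const, rfl⟩

variable {ε : ℝ}

/-- The class of an analytic function. -/
def mk (f : ℝ × ℝ → ℂ) (hf : An ε f) : Rg ε := ⟨fun q => f q.1, f, hf, rfl⟩

theorem mk_surj (φ : Rg ε) : ∃ f hf, φ = mk f hf := by
  obtain ⟨_, f, hf, rfl⟩ := φ
  exact ⟨f, hf, rfl⟩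

theorem mk_eq {f g : ℝ × ℝ → ℂ} {hf : An ε f} {hg : An ε g} :
    mk f hf = mk g hg ↔ ∀ q ∈ Lam ε, f q = g q := by
  constructor
  · intro h q hq
    exact congrFun (congrArg Subtype.val h) ⟨q, hq⟩
  · intro h
    exact Subtype.ext (funext fun q => h q.1 q.2)

theorem mk_add {f g : ℝ × ℝ → ℂ} (hf : An ε f) (hg : An ε g) :
    mk f hf + mk g hg = mk (fun q => f q + g q) (hf.add hg) := rfl

theorem mk_mul {f g : ℝ × ℝ → ℂ} (hf : An ε f) (hg : An ε g) :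
    mk f hf * mk g hg = mk (fun q => f q * g q) (hf.mul hg) := rfl

theorem mk_neg {f : ℝ × ℝ → ℂ} (hf : An ε f) : -mk f hf = mk (fun q => -f q) hf.neg := rfl

theorem mk_sub {f g : ℝ × ℝ → ℂ} (hf : An ε f) (hg : An ε g) :
    mk f hf - mk g hg = mk (fun q => f q - g q) (hf.sub hg) := rfl

theorem mk_const (c : ℂ) :
    algebraMap ℂ (Rg ε) c = mk (fun _ => c) analyticOnNhd_const := rfl

theorem mk_zero : (0 : Rg ε) = mk (fun _ => 0) analyticOnNhd_const := rfl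

theorem mk_one : (1 : Rg ε) = mk (fun _ => 1) analyticOnNhd_const := rfl

theorem mk_eq_zero {f : ℝ × ℝ → ℂ} {hf : An ε f} : mk f hf = 0 ↔ ∀ q ∈ Lam ε, f q = 0 := by
  rw [mk_zero, mk_eq]

/-- A representative. -/
def rep (φ : Rg ε) : ℝ × ℝ → ℂ := φ.2.choose

theorem an_rep (φ : Rg ε) : An ε (rep φ) := φ.2.choose_spec.1

theorem mk_rep (φ : Rg ε) : mk (rep φ) (an_rep φ) = φ := Subtype.ext φ.2.choose_spec.2.symm

theorem rep_mk {f : ℝ × ℝ → ℂ} (hf : An ε f) : ∀ q ∈ Lam ε, rep (mk f hf) q = f q :=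
  mk_eq.1 (mk_rep _)

theorem zero_of_ev {f : ℝ × ℝ → ℂ} (hf : An ε f) {q : ℝ × ℝ} (hq : q ∈ Lam ε)
    (h : ∀ᶠ z in 𝓝 q, f z = 0) : ∀ z ∈ Lam ε, f z = 0 :=
  hf.eqOn_zero_of_preconnected_of_eventuallyEq_zero (convex_Lam ε).isPreconnected hq h

instance : NoZeroDivisors (Rg ε) := ⟨fun {a b} h => by
  obtain ⟨f, hf, rfl⟩ := mk_surj a
  obtain ⟨g, hg, rfl⟩ := mk_surj b
  rw [mk_mul, mk_eq_zero] at h
  rw [mk_eq_zero, mk_eq_zero]
  by_contra k
  push Not at k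
  obtain ⟨⟨q, hq, k1⟩, ⟨r, hr, k2⟩⟩ := k
  refine k2 (zero_of_ev hg hq ?_ r hr)
  filter_upwards [(hf q hq).continuousAt.eventually_ne k1, (isOpen_Lam ε).mem_nhds hq]
    with z h1 h2
  exact (mul_eq_zero.1 (h z h2)).resolve_left h1⟩

theorem zero_mem [h : Fact (0 < ε)] (x : ℝ) : (x, (0 : ℝ)) ∈ Lam ε := by
  simpa [Lam] using h.out

instance [Fact (0 < ε)] : Nontrivial (Rg ε) := ⟨0, 1, fun h => by
  rw [mk_zero, mk_one, mk_eq] at h
  exact zero_ne_one (h _ (zero_mem 0))⟩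

instance [Fact (0 < ε)] : IsDomain (Rg ε) := NoZeroDivisors.to_isDomain _

theorem an_der {f : ℝ × ℝ → ℂ} (hf : An ε f) (v : ℝ × ℝ) : An ε fun q => fderiv ℝ f q v :=
  fun q hq => ((ContinuousLinearMap.apply ℝ ℂ v).analyticAt _).comp (hf q hq).fderiv

theorem fderiv_congr {f g : ℝ × ℝ → ℂ} (h : ∀ q ∈ Lam ε, f q = g q) {q : ℝ × ℝ}
    (hq : q ∈ Lam ε) : fderiv ℝ f q = fderiv ℝ g q :=
  Filter.EventuallyEq.fderiv_eq (by
    filter_upwards [(isOpen_Lam ε).mem_nhds hq] with z hz using h z hz)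

/-- The directional derivative, as a function. -/
def derF (v : ℝ × ℝ) (φ : Rg ε) : Rg ε := mk (fun q => fderiv ℝ (rep φ) q v) (an_der (an_rep φ) v)

theorem derF_mk (v : ℝ × ℝ) {f : ℝ × ℝ → ℂ} (hf : An ε f) :
    derF v (mk f hf) = mk (fun q => fderiv ℝ f q v) (an_der hf v) :=
  mk_eq.2 fun q hq => by rw [fderiv_congr (rep_mk hf) hq]

/-- The directional derivative. -/
def der (v : ℝ × ℝ) : Derivation ℂ (Rg ε) (Rg ε) :=
  Derivation.mk'
    { toFun := derF v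
      map_add' := fun a b => by
        obtain ⟨f, hf, rfl⟩ := mk_surj a
        obtain ⟨g, hg, rfl⟩ := mk_surj b
        rw [mk_add, derF_mk, derF_mk, derF_mk, mk_add, mk_eq]
        intro q hq
        rw [fderiv_fun_add (hf q hq).differentiableAt (hg q hq).differentiableAt]
        rfl
      map_smul' := fun c a => by
        obtain ⟨f, hf, rfl⟩ := mk_surj a
        rw [RingHom.id_apply, Algebra.smul_def, Algebra.smul_def, mk_const, mk_mul, derF_mk,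
          derF_mk, mk_mul, mk_eq]
        intro q hq
        rw [fderiv_const_mul (hf q hq).differentiableAt]
        rfl }
    (fun a b => by
      obtain ⟨f, hf, rfl⟩ := mk_surj a
      obtain ⟨g, hg, rfl⟩ := mk_surj b
      show derF v _ = _ * derF v _ + _ * derF v _
      rw [mk_mul, derF_mk, derF_mk, derF_mk, mk_mul, mk_mul, mk_add, mk_eq]
      intro q hq
      rw [fderiv_fun_mul (hf q hq).differentiableAt (hg q hq).differentiableAt]
      rfl)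

theorem der_mk (v : ℝ × ℝ) {f : ℝ × ℝ → ℂ} (hf : An ε f) :
    der v (mk f hf) = mk (fun q => fderiv ℝ f q v) (an_der hf v) := derF_mk v hf

/-- The linear map `(x, w) ↦ (x + c w, s w)`. -/
def lin (c s : ℝ) : ℝ × ℝ →L[ℝ] ℝ × ℝ :=
  (ContinuousLinearMap.fst ℝ ℝ ℝ + c • ContinuousLinearMap.snd ℝ ℝ ℝ).prod
    (s • ContinuousLinearMap.snd ℝ ℝ ℝ)

theorem lin_apply (c s : ℝ) (q : ℝ × ℝ) : lin c s q = (q.1 + c * q.2, s * q.2) := rfl

theorem lin_mem {c s : ℝ} (hs : |s| = 1) {q : ℝ × ℝ} (hq : q ∈ Lam ε) : lin c s q ∈ Lam ε := by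
  show |s * q.2| < ε
  rw [abs_mul, hs, one_mul]
  exact hq

theorem an_lin {f : ℝ × ℝ → ℂ} (hf : An ε f) (c : ℝ) {s : ℝ} (hs : |s| = 1) :
    An ε fun q => f (lin c s q) :=
  fun q hq => (hf _ (lin_mem hs hq)).comp ((lin c s).analyticAt q)

/-- Composition with `(x, w) ↦ (x + c w, s w)`, `s = ± 1`. -/
def pre (c s : ℝ) (hs : |s| = 1) : Rg ε →ₐ[ℂ] Rg ε where
  toFun φ := ⟨fun q => φ.1 ⟨lin c s q.1, lin_mem hs q.2⟩, by
    obtain ⟨f, hf, rfl⟩ := mk_surj φ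
    exact ⟨fun q => f (lin c s q), an_lin hf c hs, rfl⟩⟩
  map_one' := rfl
  map_mul' _ _ := rfl
  map_zero' := rfl
  map_add' _ _ := rfl
  commutes' _ := rfl

theorem pre_mk (c s : ℝ) (hs : |s| = 1) {f : ℝ × ℝ → ℂ} (hf : An ε f) :
    pre c s hs (mk f hf) = mk (fun q => f (lin c s q)) (an_lin hf c hs) := rfl

/-- The shift `f (x, w) ↦ f (x + w, w)`. -/
def shR : Rg ε ≃ₐ[ℂ] Rg ε :=
  AlgEquiv.ofAlgHom (pre 1 1 abs_one) (pre (-1) 1 abs_one)
    (AlgHom.ext fun a => by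
      obtain ⟨f, hf, rfl⟩ := mk_surj a
      rw [AlgHom.comp_apply, pre_mk, pre_mk, AlgHom.id_apply, mk_eq]
      intro q _
      simp [lin_apply])
    (AlgHom.ext fun a => by
      obtain ⟨f, hf, rfl⟩ := mk_surj a
      rw [AlgHom.comp_apply, pre_mk, pre_mk, AlgHom.id_apply, mk_eq]
      intro q _
      simp [lin_apply])

theorem abs_m1 : |(-1 : ℝ)| = 1 := by simp

/-- The reversal `f (x, w) ↦ f (x, -w)`. -/
def ioR : Rg ε ≃ₐ[ℂ] Rg ε :=
  AlgEquiv.ofAlgHom (pre 0 (-1) abs_m1) (pre 0 (-1) abs_m1)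
    (AlgHom.ext fun a => by
      obtain ⟨f, hf, rfl⟩ := mk_surj a
      rw [AlgHom.comp_apply, pre_mk, pre_mk, AlgHom.id_apply, mk_eq]
      intro q _
      simp [lin_apply])
    (AlgHom.ext fun a => by
      obtain ⟨f, hf, rfl⟩ := mk_surj a
      rw [AlgHom.comp_apply, pre_mk, pre_mk, AlgHom.id_apply, mk_eq]
      intro q _
      simp [lin_apply])

theorem shR_mk {f : ℝ × ℝ → ℂ} (hf : An ε f) :
    shR (mk f hf) = mk (fun q => f (lin 1 1 q)) (an_lin hf 1 abs_one) := rfl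

theorem ioR_mk {f : ℝ × ℝ → ℂ} (hf : An ε f) :
    ioR (mk f hf) = mk (fun q => f (lin 0 (-1) q)) (an_lin hf 0 abs_m1) := rfl

theorem an_conj {f : ℝ × ℝ → ℂ} (hf : An ε f) : An ε fun q => (starRingEnd ℂ) (f q) :=
  fun q hq => (Complex.conjCLE.toContinuousLinearMap.analyticAt _).comp (hf q hq)

/-- Complex conjugation of the values. -/
def cjR : Rg ε →+* Rg ε where
  toFun φ := ⟨fun q => (starRingEnd ℂ) (φ.1 q), by
    obtain ⟨f, hf, rfl⟩ := mk_surj φ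
    exact ⟨fun q => (starRingEnd ℂ) (f q), an_conj hf, rfl⟩⟩
  map_one' := Subtype.ext (funext fun q => map_one _)
  map_mul' _ _ := Subtype.ext (funext fun q => map_mul _ _ _)
  map_zero' := Subtype.ext (funext fun q => map_zero _)
  map_add' _ _ := Subtype.ext (funext fun q => map_add _ _ _)

theorem cjR_mk {f : ℝ × ℝ → ℂ} (hf : An ε f) :
    cjR (mk f hf) = mk (fun q => (starRingEnd ℂ) (f q)) (an_conj hf) := rfl

theorem an_w : An ε fun q => ((q.2 : ℝ) : ℂ) := fun q _ =>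
  (Complex.ofRealCLM.analyticAt _).comp analyticAt_snd

/-- The coordinate `w`. -/
def wR : Rg ε := mk (fun q => ((q.2 : ℝ) : ℂ)) an_w

/-- The least subalgebra which contains `T` and is closed under both partial derivatives. -/
def dring (T : Set (Rg ε)) : Subalgebra ℂ (Rg ε) :=
  sInf {B | T ⊆ B ∧ ∀ z ∈ B, der (1, 0) z ∈ B ∧ der (0, 1) z ∈ B}

theorem sub_dring (T : Set (Rg ε)) : T ⊆ dring T := fun z hz => by
  have : z ∈ dring T := by
    rw [dring, Algebra.mem_sInf]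
    exact fun F hF => hF.1 hz
  exact this

theorem dring_le {T : Set (Rg ε)} {B : Subalgebra ℂ (Rg ε)} (h1 : T ⊆ B)
    (h2 : ∀ z ∈ B, der (1, 0) z ∈ B ∧ der (0, 1) z ∈ B) : dring T ≤ B := sInf_le ⟨h1, h2⟩

theorem dring_closed (T : Set (Rg ε)) :
    ∀ z ∈ dring T, der (1, 0) z ∈ dring T ∧ der (0, 1) z ∈ dring T := by
  intro z hz
  simp only [dring, Algebra.mem_sInf] at hz ⊢
  exact ⟨fun F hF => (hF.2 z (hz F hF)).1, fun F hF => (hF.2 z (hz F hF)).2⟩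

/-- The field of quotients. -/
abbrev Eg (ε : ℝ) : Type := FractionRing (Rg ε)

/-! ## The billiard in normal form -/

/-- The normal form of a table which is integrable near the boundary: the billiard map sends the
phase point `(ψ, δ) (x, w)` to `(ψ, δ) (x + w, w)`. -/
structure NF (h : ℝ → ℝ) (ε : ℝ) (ψ δ : ℝ × ℝ → ℝ) : Prop where
  pos : 0 < ε
  tab : P097.IsTable h
  aψ : AnalyticOnNhd ℝ ψ (Lam ε)
  aδ : AnalyticOnNhd ℝ δ (Lam ε)
  per : ∀ q ∈ Lam ε, ψ (q.1 + 1, q.2) = ψ q + 2 * Real.pi ∧ δ (q.1 + 1, q.2) = δ q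
  sym : ∀ q ∈ Lam ε, ψ (q.1, -q.2) = ψ q ∧ δ (q.1, -q.2) = -δ q
  step : ∀ x w : ℝ, 0 < w → w < ε →
    P097.Step h (ψ (x, w)) (δ (x, w)) (ψ (x + w, w)) (δ (x + w, w))
  dψ : ∀ x : ℝ, fderiv ℝ ψ (x, 0) (1, 0) ≠ 0
  dδ : ∀ x : ℝ, fderiv ℝ δ (x, 0) (0, 1) ≠ 0

/-- The normal angle of the line `L (x, w)`, which leaves the phase point `(x - w / 2, w)`. -/
def lφ (ψ δ : ℝ × ℝ → ℝ) (q : ℝ × ℝ) : ℝ := ψ (lin (-1 / 2) 1 q) + δ (lin (-1 / 2) 1 q)

/-- The offset of the line `L (x, w)`. -/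
def lp (h : ℝ → ℝ) (ψ δ : ℝ × ℝ → ℝ) (q : ℝ × ℝ) : ℝ :=
  h (ψ (lin (-1 / 2) 1 q)) * Real.cos (δ (lin (-1 / 2) 1 q)) +
    deriv h (ψ (lin (-1 / 2) 1 q)) * Real.sin (δ (lin (-1 / 2) 1 q))

/-- The line `L (x, w)` is `Z = la * W + lb` in isotropic coordinates `Z = X + i Y`,
`W = X - i Y`. -/
def la (ψ δ : ℝ × ℝ → ℝ) (q : ℝ × ℝ) : ℂ := -Complex.exp (lφ ψ δ q * Complex.I) ^ 2

def lb (h : ℝ → ℝ) (ψ δ : ℝ × ℝ → ℝ) (q : ℝ × ℝ) : ℂ :=
  2 * lp h ψ δ q * Complex.exp (lφ ψ δ q * Complex.I)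

theorem an_real {f : ℝ × ℝ → ℝ} (hf : AnalyticOnNhd ℝ f (Lam ε)) : An ε fun q => (f q : ℂ) :=
  fun q hq => (Complex.ofRealCLM.analyticAt _).comp (hf q hq)

theorem anr_lin {f : ℝ × ℝ → ℝ} (hf : AnalyticOnNhd ℝ f (Lam ε)) (c : ℝ) {s : ℝ} (hs : |s| = 1) :
    AnalyticOnNhd ℝ (fun q => f (lin c s q)) (Lam ε) :=
  fun q hq => (hf _ (lin_mem hs hq)).comp ((lin c s).analyticAt q)

namespace NF

variable {h : ℝ → ℝ} {ψ δ : ℝ × ℝ → ℝ} (N : NF h ε ψ δ)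
include N

theorem an_lφ : AnalyticOnNhd ℝ (lφ ψ δ) (Lam ε) :=
  (anr_lin N.aψ _ abs_one).add (anr_lin N.aδ _ abs_one)

theorem an_lp : AnalyticOnNhd ℝ (lp h ψ δ) (Lam ε) := fun q hq =>
  (((N.tab.1 _).comp (anr_lin N.aψ _ abs_one q hq)).mul
    (Real.analyticAt_cos.comp (anr_lin N.aδ _ abs_one q hq))).add
  (((N.tab.1 _).deriv.comp (anr_lin N.aψ _ abs_one q hq)).mul
    (Real.analyticAt_sin.comp (anr_lin N.aδ _ abs_one q hq)))

theorem an_u : An ε fun q => Complex.exp (lφ ψ δ q * Complex.I) := fun q hq =>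
  (analyticAt_cexp.restrictScalars (𝕜 := ℝ)).comp
    ((an_real N.an_lφ q hq).mul analyticAt_const)

theorem an_la : An ε (la ψ δ) := fun q hq => ((N.an_u q hq).pow 2).neg

theorem an_lb : An ε (lb h ψ δ) := fun q hq =>
  (analyticAt_const.mul (an_real N.an_lp q hq)).mul (N.an_u q hq)

/-- The slope of the line `L j`. -/
def aR (j : ℤ) : Rg ε := Gm.mk (fun q => la ψ δ (lin j 1 q)) (an_lin N.an_la j abs_one)

/-- The intercept of the line `L j`. -/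
def bR (j : ℤ) : Rg ε := Gm.mk (fun q => lb h ψ δ (lin j 1 q)) (an_lin N.an_lb j abs_one)

/-- The differential ring of the lines `L j`, `j ∈ J`. -/
def B (J : Set ℤ) : Subalgebra ℂ (Rg ε) := dring (N.aR '' J ∪ N.bR '' J)

end NF

end Vale.Agent.P097T.Gm
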