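import Vale.Agent.P097T.QCore
import Vale.Agent.P097T.GermDefs

/-!
# P097T: block (U) of T3, definitions and statements

A generic real leaf `w` gives a field embedding of `K univ` in germs of functions of one variable.
-/

set_option linter.all false

noncomputable section

namespace Vale.Agent.P097T.U

open Filter Topology Set Metric Polynomial Vale.Agent.P097T.Q

/-- The strip `0 ≤ Im z < t`, for `t ≤ 0` the real line. -/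
def St (t : ℝ) : Set ℂ := {z | z.im = 0 ∨ (0 < z.im ∧ z.im < t)}

/-- The rectangle over the real point `x₀`. -/
def Rect (x₀ δ T : ℝ) : Set ℂ := {z | |z.re - x₀| < δ ∧ -δ < z.im ∧ z.im < T}

/-- The point `x + i t`. -/
def pt (x t : ℝ) : ℂ := (x : ℂ) + (t : ℂ) * Complex.I

/-- Germs along `V` of functions which are meromorphic on `W`. -/
def MS (V : Ultrafilter ℂ) (W : Set ℂ) : Subfield (Germ (V : Filter ℂ) ℂ) where
  carrier := {m | ∃ g : ℂ → ℂ, MeromorphicOn g W ∧ m = (g : Germ (V : Filter ℂ) ℂ)}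
  mul_mem' := by
    rintro _ _ ⟨f, hf, rfl⟩ ⟨g, hg, rfl⟩
    exact ⟨f * g, hf.mul hg, rfl⟩
  one_mem' := ⟨1, MeromorphicOn.const 1, rfl⟩
  add_mem' := by
    rintro _ _ ⟨f, hf, rfl⟩ ⟨g, hg, rfl⟩
    exact ⟨f + g, hf.add hg, rfl⟩
  zero_mem' := ⟨0, MeromorphicOn.const 0, rfl⟩
  neg_mem' := by
    rintro _ ⟨f, hf, rfl⟩
    exact ⟨-f, hf.neg, rfl⟩
  inv_mem' := by
    rintro _ ⟨f, hf, rfl⟩
    exact ⟨f⁻¹, hf.inv, rfl⟩

/-- Germs along `V` of functions which are analytic at the origin. -/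
def OA (V : Ultrafilter ℂ) : Subring (Germ (V : Filter ℂ) ℂ) where
  carrier := {m | ∃ g : ℂ → ℂ, AnalyticAt ℂ g 0 ∧ m = (g : Germ (V : Filter ℂ) ℂ)}
  mul_mem' := by
    rintro _ _ ⟨f, hf, rfl⟩ ⟨g, hg, rfl⟩
    exact ⟨f * g, hf.mul hg, rfl⟩
  one_mem' := ⟨1, analyticAt_const, rfl⟩
  add_mem' := by
    rintro _ _ ⟨f, hf, rfl⟩ ⟨g, hg, rfl⟩
    exact ⟨f + g, hf.add hg, rfl⟩
  zero_mem' := ⟨0, analyticAt_const, rfl⟩
  neg_mem' := by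
    rintro _ ⟨f, hf, rfl⟩
    exact ⟨-f, hf.neg, rfl⟩

theorem MS_anti (V : Ultrafilter ℂ) {W W' : Set ℂ} (h : W ⊆ W') : MS V W' ≤ MS V W := by
  rintro _ ⟨g, hg, rfl⟩
  exact ⟨g, hg.mono_set h, rfl⟩

/-- Monic separable polynomials split. -/
def Hen (O : Type) [CommRing O] : Prop :=
  ∀ q : O[X], q.Monic → q.Separable → ∃ s : Multiset O, q = (s.map fun r => X - C r).prod

/-- The shift on `K univ`. -/
def sh {A : Type} [Field A] [CharZero A] (C : QChain A) (s : ℤ) (c : C.K univ) : C.K univ :=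
  ⟨(C.S ^ s) c, C.zpow_K s (J := univ) (fun _ _ => mem_univ _) _ c.2⟩

/-- The hypotheses of the algebraic core. -/
structure Good {A : Type} [Field A] [CharZero A] (C : QChain A) : Prop where
  ne : C.Xp ≠ C.Xm
  burg : C.Burg C.Xp
  ref : C.Ref
  fd : C.FD
  ev : C.Ev'

/-- The restriction to a generic leaf. -/
structure Leaf {A : Type} [Field A] [CharZero A] (C : QChain A) (V : Ultrafilter ℂ)
    (x₀ w δ T : ℝ) (lf : C.K univ →+* Germ (V : Filter ℂ) ℂ) : Prop where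
  hV : (V : Filter ℂ) ≤ 𝓝[≠] (x₀ : ℂ)
  irr : Irrational w
  l0 : ∀ c, lf c ∈ MS V (St 0)
  lS : ∀ c (g : ℂ → ℂ) (s k : ℤ), MeromorphicOn g (St 0) → lf c = (g : Germ (V : Filter ℂ) ℂ) →
    lf (sh C s c) = ((fun z => g (z + ((s * w + k : ℝ) : ℂ)) : ℂ → ℂ) : Germ (V : Filter ℂ) ℂ)
  lT : ∀ c : C.K univ, (c : A) ∈ C.K {0} → lf c ∈ MS V (Rect x₀ δ T)

/-- Hensel for analytic germs. -/
def Spec_HEN : Prop := ∀ V : Ultrafilter ℂ, (V : Filter ℂ) ≤ 𝓝[≠] 0 → Hen (OA V)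

/-- Germs at the points of the top line, from below. -/
def Spec_TOP : Prop := ∀ (V : Ultrafilter ℂ) (x₀ t : ℝ), (V : Filter ℂ) ≤ 𝓝[≠] (x₀ : ℂ) → 0 < t →
  ∃ (W : Ultrafilter ℂ) (Φ : ℝ → (MS V (St t) →+* Germ (W : Filter ℂ) ℂ)),
    (W : Filter ℂ) ≤ 𝓝[≠] 0 ∧
    (∀ (x : ℝ) (m : MS V (St t)) (g : ℂ → ℂ), MeromorphicOn g (St t) →
      (m : Germ (V : Filter ℂ) ℂ) = (g : Germ (V : Filter ℂ) ℂ) →
      Φ x m = ((fun s => g (pt x t + s) : ℂ → ℂ) : Germ (W : Filter ℂ) ℂ)) ∧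
    ∀ (x : ℝ) (m : MS V (St t)), Φ x m ∈ MS W {0} →
      (m : Germ (V : Filter ℂ) ℂ) ∈ MS V (St t ∪ {pt x t})

/-- Gluing with the rectangle. -/
def Spec_GL1 : Prop := ∀ (V : Ultrafilter ℂ) (x₀ δ T t r : ℝ), (V : Filter ℂ) ≤ 𝓝[≠] (x₀ : ℂ) →
  0 ≤ t → 0 < r → r < δ → t + r < T →
  MS V (St t) ⊓ MS V (Rect x₀ δ T) ≤ MS V (St t ∪ ball (pt x₀ t) r)

/-- Gluing along the top line. -/
def Spec_GL2 : Prop := ∀ (V : Ultrafilter ℂ) (x₀ t r : ℝ) (m : Germ (V : Filter ℂ) ℂ),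
  (V : Filter ℂ) ≤ 𝓝[≠] (x₀ : ℂ) → 0 ≤ t → 0 < r →
  (∀ x : ℝ, m ∈ MS V (St t ∪ ball (pt x t) r)) → m ∈ MS V (St (t + r / 2))

/-- Gluing an increasing union. -/
def Spec_GL3 : Prop := ∀ (V : Ultrafilter ℂ) (x₀ t : ℝ) (m : Germ (V : Filter ℂ) ℂ),
  (V : Filter ℂ) ≤ 𝓝[≠] (x₀ : ℂ) → (∀ t' < t, m ∈ MS V (St t')) → m ∈ MS V (St t)

/-- Irrational rotations. -/
def Spec_ROT : Prop := ∀ w : ℝ, Irrational w →
  (∀ (y r : ℝ) (N : ℤ), 0 < r →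
    (∃ j k : ℤ, N ≤ j ∧ |j * w + k - y| < r) ∧ ∃ j k : ℤ, j ≤ N ∧ |j * w + k - y| < r) ∧
  ∀ (B : Set ℝ) (x : ℝ), (∀ y ∈ B, ∀ k : ℤ, y + k ∈ B) → (∀ y, ∀ᶠ z in 𝓝[≠] y, z ∉ B) →
    ∀ᶠ s : ℤ in cofinite, x + s * w ∉ B

/-- The core in terms of an embedding. -/
def Spec_UA : Prop := ∀ (A : Type) [Field A] [CharZero A] [IsAlgClosed A] (C : QChain A), Good C →
  ∀ (M : Type) [Field M] (Φ : C.K univ →+* M) (O : Subring M) (F : Subfield M) (J : Set ℤ),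
    Hen O → (∀ z ∈ O, z ∈ F) → (∀ N, ∃ j ∈ J, N ≤ j) → (∀ N, ∃ j ∈ J, j ≤ N) →
    (∀ c : C.K univ, (c : A) ∈ C.K J → Φ c ∈ F) →
    (∀ c : C.K univ, ∀ᶠ s : ℤ in cofinite, Φ (sh C s c) ∈ O) →
    ∀ c : C.K univ, ((c : A) = C.a 0 ∨ (c : A) = C.b 0) → Φ c ∈ F

/-- On a generic leaf everything is meromorphic up to the height of the rectangle. -/
def Spec_U1 : Prop := ∀ (A : Type) [Field A] [CharZero A] [IsAlgClosed A] (C : QChain A), Good C →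
  ∀ (V : Ultrafilter ℂ) (x₀ w δ T : ℝ) (lf : C.K univ →+* Germ (V : Filter ℂ) ℂ), 0 < δ →
    Leaf C V x₀ w δ T lf → ∀ c, lf c ∈ MS V (St T)

/-- The chain consists of real analytic functions. -/
structure Model {A : Type} [Field A] [CharZero A] (C : QChain A) (ε : ℝ)
    (ι : Gm.Rg ε →+* A) (a b : ℝ × ℝ → ℂ) : Prop where
  inj : Function.Injective ι
  an_a : Gm.An ε a
  an_b : Gm.An ε b
  per : ∀ q ∈ Gm.Lam ε, a (q.1 + 1, q.2) = a q ∧ b (q.1 + 1, q.2) = b q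
  a0 : C.a 0 = ι (Gm.mk a an_a)
  b0 : C.b 0 = ι (Gm.mk b an_b)
  dx : ∀ f, C.dx (ι f) = ι (Gm.der (1, 0) f)
  dw : ∀ f, C.dw (ι f) = ι (Gm.der (0, 1) f)
  sh : ∀ f, C.S (ι f) = ι (Gm.shR f)

/-- `F` is a holomorphic extension of `f` to the tube over the rectangle. -/
def Tube (f : ℝ × ℝ → ℂ) (x₀ δ T η : ℝ) : Prop :=
  ∃ F : ℂ × ℂ → ℂ, AnalyticOnNhd ℂ F (Rect x₀ δ T ×ˢ ball 0 η) ∧
    ∀ x w : ℝ, |x - x₀| < δ → |w| < η → F (x, w) = f (x, w)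

/-- All but countably many leaves are generic. -/
def Spec_U2 : Prop := ∀ (A : Type) [Field A] [CharZero A] (C : QChain A) (ε : ℝ)
  (ι : Gm.Rg ε →+* A) (a b : ℝ × ℝ → ℂ) (x₀ δ T η : ℝ), Model C ε ι a b → 0 < δ → 0 < T →
  0 < η → η ≤ ε → Tube a x₀ δ T η → Tube b x₀ δ T η →
  ∃ Z : Set ℝ, Z.Countable ∧ ∀ w ∉ Z, |w| < η →
    ∃ (V : Ultrafilter ℂ) (lf : C.K univ →+* Germ (V : Filter ℂ) ℂ),
      Leaf C V x₀ w δ T lf ∧ (∀ᶠ z in (V : Filter ℂ), z.im = 0) ∧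
      ∀ (f : ℝ × ℝ → ℂ) (hf : Gm.An ε f) (c : C.K univ), (c : A) = ι (Gm.mk f hf) →
        lf c = ((fun z => f (z.re, w) : ℂ → ℂ) : Germ (V : Filter ℂ) ℂ)

/-- Block (U): on all but countably many real leaves every analytic function of the differential
field of the lines is meromorphic up to the height of the tube. -/
def Spec_U : Prop := ∀ (A : Type) [Field A] [CharZero A] [IsAlgClosed A] (C : QChain A) (ε : ℝ)
  (ι : Gm.Rg ε →+* A) (a b : ℝ × ℝ → ℂ) (x₀ δ T η : ℝ), Good C → Model C ε ι a b → 0 < δ →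
  0 < T → 0 < η → η ≤ ε → Tube a x₀ δ T η → Tube b x₀ δ T η →
  ∃ Z : Set ℝ, Z.Countable ∧ ∀ w ∉ Z, |w| < η →
    ∀ (f : ℝ × ℝ → ℂ) (hf : Gm.An ε f), ι (Gm.mk f hf) ∈ C.K univ →
      ∃ g : ℂ → ℂ, MeromorphicOn g (St T) ∧ ∀ x : ℝ, g x = f (x, w)

end Vale.Agent.P097T.U
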