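import Vale.Agent.P097T.EndDefs
import Vale.Agent.P097.H500.StripExt

/-!
# P097T: uniqueness of the Lazutkin parametrisation, the first strip, gluing of extensions
-/

set_option linter.all false

noncomputable section

namespace Vale.Agent.P097T

open Filter Topology Set Metric Vale.Agent.P097

namespace Glue

theorem smono {a b : ℝ} (h : a ≤ b) : Strip a ⊆ Strip b := fun z hz =>
  lt_of_lt_of_le (show |z.im| < a from hz) h

theorem per_deriv {f : ℝ → ℝ} {T : ℝ} (hf : ∀ x, f (x + T) = f x) (x : ℝ) :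
    deriv f (x + T) = deriv f x := by
  rw [← deriv_comp_add_const, funext hf]

theorem lin {h p : ℝ → ℝ} {c : ℝ} (hT : IsTable h) (hp : Laz h p c) {σ Y : ℝ → ℝ}
    (h0 : ∀ t, 0 < σ t) (h3 : ∀ t, σ t ^ 3 = h t + deriv (deriv h) t)
    (hY : ∀ t, HasDerivAt Y (σ t) t) : ∃ k, 0 < k ∧ ∀ x, Y (p x) = k * x + Y (p 0) := by
  have h1 : ∀ x, σ (p x) * deriv p x = σ (p 0) * deriv p 0 := fun x =>
    (Odd.strictMono_pow (by decide : Odd 3)).injective (by
      simp only [mul_pow, h3, hp.eq])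
  refine ⟨σ (p 0) * deriv p 0, mul_pos (h0 _) (hp.pos 0), fun x => ?_⟩
  have h2 : ∀ x, HasDerivAt (fun x => Y (p x) - σ (p 0) * deriv p 0 * x) 0 x := fun x => by
    have := ((hY (p x)).comp x (hp.an x).differentiableAt.hasDerivAt).sub
      ((hasDerivAt_id x).const_mul (σ (p 0) * deriv p 0))
    rw [h1 x, mul_one, sub_self] at this
    exact this
  have h4 := is_const_of_deriv_eq_zero (fun x => (h2 x).differentiableAt) (fun x => (h2 x).deriv) x 0
  simp only [mul_zero, sub_zero] at h4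
  linarith

theorem an_bdry {h p : ℝ → ℝ} {c : ℝ} (hT : IsTable h) (hp : Laz h p c) (x : ℝ) :
    AnalyticAt ℝ (fun x => bdry h (p x)) x := by
  have e : ∀ {f : ℝ → ℝ}, AnalyticAt ℝ f x → AnalyticAt ℝ (fun x => ((f x : ℝ) : ℂ)) x :=
    fun hf => (Complex.ofRealCLM.analyticAt _).comp hf
  unfold bdry
  exact ((e ((hT.1 _).comp (hp.an x))).add ((e ((hT.1 _).deriv.comp (hp.an x))).mul
    analyticAt_const)).mul ((analyticAt_cexp.restrictScalars (𝕜 := ℝ)).comp
      ((e (hp.an x)).mul analyticAt_const))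

theorem per_bdry {h p : ℝ → ℝ} {c : ℝ} (hT : IsTable h) (hp : Laz h p c) (x : ℝ) :
    bdry h (p (x + 1)) = bdry h (p x) := by
  unfold bdry
  rw [hp.per, hT.2.1, per_deriv hT.2.1]
  push_cast
  rw [add_mul (p x : ℂ), Complex.exp_add, Complex.exp_two_pi_mul_I, mul_one]

theorem ini' {h p : ℝ → ℝ} {c : ℝ} (hT : IsTable h) (hp : Laz h p c) : ∃ (r : ℝ) (Z W : ℂ → ℂ),
    0 < r ∧ DifferentiableOn ℂ Z (Strip r) ∧ DifferentiableOn ℂ W (Strip r) ∧
      (∀ x : ℝ, Z x = bdry h (p x)) ∧ ∀ x : ℝ, W x = (starRingEnd ℂ) (bdry h (p x)) := by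
  obtain ⟨a, A, ha, hA, hA'⟩ := H500.strip_ext (F := fun x => (bdry h (p x)).re) one_pos
    (fun x => (Complex.reCLM.analyticAt _).comp (an_bdry hT hp x))
    fun x => by simp only [per_bdry hT hp]
  obtain ⟨b, B, hb, hB, hB'⟩ := H500.strip_ext (F := fun x => (bdry h (p x)).im) one_pos
    (fun x => (Complex.imCLM.analyticAt _).comp (an_bdry hT hp x))
    fun x => by simp only [per_bdry hT hp]
  have h1 : DifferentiableOn ℂ A (Strip (min a b)) :=
    hA.mono (smono (min_le_left _ _))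
  have h2 : DifferentiableOn ℂ B (Strip (min a b)) :=
    hB.mono (smono (min_le_right _ _))
  refine ⟨min a b, fun z => A z + B z * Complex.I, fun z => A z - B z * Complex.I, lt_min ha hb,
    h1.add (h2.mul_const _), h1.sub (h2.mul_const _), fun x => ?_, fun x => ?_⟩
  · simp only [hA', hB', Complex.re_add_im]
  · simp only [hA', hB']
    apply Complex.ext <;> simp

theorem real_mem {r : ℝ} (hr : 0 < r) (x : ℝ) : (x : ℂ) ∈ Strip r := by
  simpa [Strip] using hr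

theorem eq_real {f g : ℂ → ℂ} {m : ℝ} (hf : MeromorphicAt f m) (hg : MeromorphicAt g m)
    (h : ∀ x : ℝ, f x = g x) : f =ᶠ[𝓝[≠] (m : ℂ)] g := by
  refine (hf.frequently_eq_iff_eventuallyEq hg).1 ?_
  have h1 : Tendsto (fun y : ℝ => (y : ℂ)) (𝓝[≠] m) (𝓝[≠] (m : ℂ)) :=
    tendsto_nhdsWithin_iff.2 ⟨Complex.continuous_ofReal.continuousAt.tendsto.mono_left
      nhdsWithin_le_nhds, eventually_nhdsWithin_of_forall fun y hy h' =>
        hy (Complex.ofReal_injective h')⟩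
  exact h1.frequently (Frequently.of_forall h)

/-- identity theorem for meromorphic functions on a strip -/
theorem mer_eq {r : ℝ} {f g : ℂ → ℂ} (hf : MeromorphicOn f (Strip r))
    (hg : MeromorphicOn g (Strip r)) (h : ∀ x : ℝ, f x = g x) {y : ℂ} (hy : y ∈ Strip r) :
    f =ᶠ[𝓝[≠] y] g := by
  have hr : 0 < r := lt_of_le_of_lt (abs_nonneg _) hy
  have h0 := real_mem hr 0
  have h1 : meromorphicOrderAt (f - g) y = ⊤ := by
    by_contra h1
    refine (hf.sub hg).meromorphicOrderAt_ne_top_of_isPreconnected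
      (H500.convex_str r).isPreconnected hy h0 h1 (meromorphicOrderAt_eq_top_iff.2 ?_)
    exact (eq_real (hf _ h0) (hg _ h0) h).mono fun z hz => sub_eq_zero.2 hz
  exact (meromorphicOrderAt_eq_top_iff.1 h1).mono fun z hz => sub_eq_zero.1 hz

theorem glue1 {R s : ℝ} {F : ℝ → ℂ} {G : ℂ → ℂ} (hs : 0 < s) (hG : DifferentiableOn ℂ G (Strip s))
    (hGF : ∀ x : ℝ, G x = F x) (hR : 0 < R) {Z : ℝ → ℂ → ℂ}
    (hZ : ∀ r, 0 < r → r < R → MeromorphicOn (Z r) (Strip r) ∧ ∀ x : ℝ, Z r x = F x) :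
    ∃ Z', MeromorphicOn Z' (Strip R) ∧ ∀ x : ℝ, Z' x = F x := by
  let ρ : ℂ → ℝ := fun y => (|y.im| + R) / 2
  have hρ : ∀ y ∈ Strip R, 0 < ρ y ∧ ρ y < R ∧ y ∈ Strip (ρ y) := fun y hy => by
    have h1 : |y.im| < R := hy
    have h2 := abs_nonneg y.im
    refine ⟨by simp only [ρ]; linarith, by simp only [ρ]; linarith, ?_⟩
    show |y.im| < (|y.im| + R) / 2
    linarith
  refine ⟨fun y => toMeromorphicNFAt (Z (ρ y)) y y, fun y₀ hy₀ => ?_, fun x => ?_⟩
  · obtain ⟨h1, h2, h3⟩ := hρ y₀ hy₀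
    obtain ⟨h4, h5⟩ := hZ _ h1 h2
    refine (h4 y₀ h3).congr ((h4.toMeromorphicNFOn_eq_self_on_nhdsNE h3).symm.trans
      (eventually_nhdsWithin_of_eventually_nhds ?_))
    filter_upwards [(H500.isOpen_str (ρ y₀)).mem_nhds h3] with y hy
    obtain ⟨h6, h7, h8⟩ := hρ y (lt_trans hy h2)
    obtain ⟨h9, h10⟩ := hZ _ h6 h7
    rw [(toMeromorphicNFOn_eq_toMeromorphicNFAt_on_nhds h4 hy).self_of_nhds]
    exact (toMeromorphicNFAt_eventuallyEq_nhds_congr (mer_eq (r := min (ρ y₀) (ρ y))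
      (h4.mono_set (smono (min_le_left _ _)))
      (h9.mono_set (smono (min_le_right _ _)))
      (fun x => (h5 x).trans (h10 x).symm) (lt_min hy h8))).self_of_nhds
  · obtain ⟨h1, h2, h3⟩ := hρ x (real_mem hR x)
    obtain ⟨h4, h5⟩ := hZ _ h1 h2
    have h6 := hG.analyticAt ((H500.isOpen_str s).mem_nhds (real_mem hs x))
    beta_reduce
    rw [(toMeromorphicNFAt_eventuallyEq_nhds_congr (eq_real (h4 _ h3) h6.meromorphicAt
      fun x => (h5 x).trans (hGF x).symm)).self_of_nhds,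
      toMeromorphicNFAt_eq_self.2 h6.meromorphicNFAt, hGF]

end Glue

open Glue

theorem lazu : Spec_LAZU := by
  intro h p q c d hT hp hq
  let σ : ℝ → ℝ := fun t => (h t + deriv (deriv h) t) ^ ((3 : ℕ) : ℝ)⁻¹
  have h0 : ∀ t, 0 < σ t := fun t => Real.rpow_pos_of_pos (hT.2.2 t) _
  have h3 : ∀ t, σ t ^ 3 = h t + deriv (deriv h) t := fun t =>
    Real.rpow_inv_natCast_pow (hT.2.2 t).le (by norm_num)
  have hc : Continuous σ := (continuous_iff_continuousAt.2 fun t =>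
    ((hT.1 t).add (hT.1 t).deriv.deriv).continuousAt).rpow_const fun t => Or.inl (hT.2.2 t).ne'
  have hper : Function.Periodic σ (2 * Real.pi) := fun t => by
    simp only [σ, hT.2.1, per_deriv (per_deriv hT.2.1)]
  let Y : ℝ → ℝ := fun t => ∫ s in (0 : ℝ)..t, σ s
  have hY : ∀ t, HasDerivAt Y (σ t) t := fun t => (hc.integral_hasStrictDerivAt 0 t).hasDerivAt
  have hYp : ∀ t, Y (t + 2 * Real.pi) - Y t = ∫ s in (0 : ℝ)..0 + 2 * Real.pi, σ s := fun t => by
    rw [← hper.intervalIntegral_add_eq t 0]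
    exact intervalIntegral.integral_interval_sub_left (hc.intervalIntegrable _ _)
      (hc.intervalIntegrable _ _)
  obtain ⟨k, hk, h1⟩ := lin hT hp h0 h3 hY
  obtain ⟨l, -, h2⟩ := lin hT hq h0 h3 hY
  have h4 : k = l := by
    have a1 := h1 (0 + 1)
    have a2 := h2 (0 + 1)
    rw [hp.per] at a1
    rw [hq.per] at a2
    linarith [hYp (p 0), hYp (q 0)]
  refine ⟨(Y (q 0) - Y (p 0)) / k, fun x =>
    (strictMono_of_hasDerivAt_pos hY h0).injective ?_⟩
  rw [h1, h2, ← h4]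
  field_simp
  ring

theorem ini : Spec_INI := by
  intro h p c hT hp
  obtain ⟨r, Z, W, hr, h1, h2, h3, h4⟩ := ini' hT hp
  exact ⟨r, Z, W, hr, (h1.analyticOnNhd (H500.isOpen_str r)).meromorphicOn,
    (h2.analyticOnNhd (H500.isOpen_str r)).meromorphicOn, h3, h4⟩

theorem glue : Spec_GLUE := by
  refine ⟨fun h p c R hT hp hR H => ?_, fun p H => ?_⟩
  · obtain ⟨s, A, B, hs, h1, h2, h3, h4⟩ := ini' hT hp
    choose! Z W hZW using H
    obtain ⟨Z', h5, h6⟩ := glue1 hs h1 h3 hR fun r a b => ⟨(hZW r a b).mZ, (hZW r a b).eZ⟩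
    obtain ⟨W', h7, h8⟩ := glue1 hs h2 h4 hR fun r a b => ⟨(hZW r a b).mW, (hZW r a b).eW⟩
    exact ⟨Z', W', h5, h7, h6, h8⟩
  · choose! ψ hψ using H
    have h0 : ∀ y : ℂ, 0 < |y.im| + 1 := fun y => by positivity
    refine ⟨fun y => ψ (|y.im| + 1) y, fun y₀ _ => ?_, fun x => (hψ _ (h0 _)).eq x⟩
    have h1 := (H500.isOpen_str (|y₀.im| + 1)).mem_nhds (lt_add_one |y₀.im|)
    refine (((hψ _ (h0 y₀)).hol.differentiableAt h1).congr_of_eventuallyEq
      ?_).differentiableWithinAt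
    filter_upwards [h1] with y hy
    exact H500.strip_eq (lt_min (h0 y) (h0 y₀))
      ((hψ _ (h0 y)).hol.mono (smono (min_le_left _ _)))
      ((hψ _ (h0 y₀)).hol.mono (smono (min_le_right _ _)))
      (fun x => ((hψ _ (h0 y)).eq x).trans ((hψ _ (h0 y₀)).eq x).symm) y
      (lt_min (lt_add_one _) hy)

end Vale.Agent.P097T
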