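import Vale.Agent.P097T.EndN0
import Vale.Agent.P097T.EndGlue

/-!
# P097T: the natural boundary theorem and the class theorem, from T3 and the steps of the endgame
-/

set_option linter.all false

noncomputable section

namespace Vale.Agent.P097T

open Filter Topology Set Metric Complex Vale.Agent.P097 Vale.Agent.P097A EB

namespace EA

variable {h p : ℝ → ℝ} {c : ℝ}

theorem nform (hI : H402.IntBd h) : ∃ ε η Φ J, NForm h ε η Φ J := by
  obtain ⟨ε, η, Φ, J, h1, h2, h3, h4, h5, h6, h7, h8, h9, -⟩ := hI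
  exact ⟨ε, η, Φ, J, h1, h2, h3, h4, h5, h6, h7, h8, h9⟩

theorem mer_mono {Z W : ℂ → ℂ} {U V : Set ℂ} (E : MerExt h p Z W V) (k : U ⊆ V) :
    MerExt h p Z W U := ⟨E.mZ.mono_set k, E.mW.mono_set k, E.eZ, E.eW⟩

theorem hol_mono {ψ : ℂ → ℂ} {U V : Set ℂ} (E : HolExt p ψ V) (k : U ⊆ V) : HolExt p ψ U :=
  ⟨E.hol.mono k, E.eq⟩

theorem hol_shift {q : ℝ → ℝ} {ψ : ℂ → ℂ} {U V : Set ℂ} {a : ℝ} (E : HolExt p ψ V)
    (e : ∀ x, q x = p (x + a)) (k : ∀ y ∈ U, y + a ∈ V) : HolExt q (fun y => ψ (y + a)) U :=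
  ⟨E.hol.comp (f := fun y : ℂ => y + a) (s := U) (by fun_prop) k, fun x => by
    rw [e, ← E.eq, ofReal_add]⟩

/-- a property of radii which holds for a first radius, passes to limits and can be enlarged -/
theorem radii {Q : ℝ → Prop} {r : ℝ} (mono : ∀ s t, s ≤ t → Q t → Q s) (h0 : ∃ s, 0 < s ∧ Q s)
    (gl : ∀ R, 0 < R → (∀ s, 0 < s → s < R → Q s) → Q R)
    (st : ∀ R, 0 < R → R ≤ r → Q R → ∃ s, R < s ∧ Q s) : ∃ s, r < s ∧ 0 < s ∧ Q s := by
  by_contra k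
  push Not at k
  obtain ⟨s₀, k0, k1⟩ := h0
  have b : r ∈ upperBounds {s | 0 < s ∧ Q s} := fun s m => not_lt.1 fun m' => k s m' m.1 m.2
  have n : {s | 0 < s ∧ Q s}.Nonempty := ⟨s₀, k0, k1⟩
  have R0 : 0 < sSup {s | 0 < s ∧ Q s} := k0.trans_le (le_csSup ⟨r, b⟩ ⟨k0, k1⟩)
  obtain ⟨s, m1, m2⟩ := st _ R0 (csSup_le n b) (gl _ R0 fun s _ m => by
    obtain ⟨t, m3, m4⟩ := exists_lt_of_lt_csSup n m
    exact mono s t m4.le m3.2)
  exact m1.not_ge (le_csSup ⟨r, b⟩ ⟨R0.trans m1, m2⟩)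

theorem glueH {R : ℝ} (hR : 0 < R) (H : ∀ r, 0 < r → r < R → ∃ ψ, HolExt p ψ (Strip r)) :
    ∃ ψ, HolExt p ψ (Strip R) := by
  choose! ψ hψ using H
  have h0 : ∀ y ∈ Strip R, 0 < (|y.im| + R) / 2 ∧ (|y.im| + R) / 2 < R ∧
      y ∈ Strip ((|y.im| + R) / 2) := fun y hy => by
    have h1 : |y.im| < R := hy
    have h2 := abs_nonneg y.im
    exact ⟨by linarith, by linarith, show |y.im| < _ by linarith⟩
  refine ⟨fun y => ψ ((|y.im| + R) / 2) y, fun y₀ m => ?_, fun x =>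
    (hψ _ (h0 _ (real_mem hR x)).1 (h0 _ (real_mem hR x)).2.1).eq x⟩
  obtain ⟨a1, a2, a3⟩ := h0 y₀ m
  have h1 := (strip_open _).mem_nhds a3
  refine (((hψ _ a1 a2).hol.differentiableAt h1).congr_of_eventuallyEq ?_).differentiableWithinAt
  filter_upwards [h1] with y hy
  obtain ⟨b1, b2, b3⟩ := h0 y (lt_trans hy a2)
  exact H500.strip_eq (lt_min b1 a1) ((hψ _ b1 b2).hol.mono (Glue.smono (min_le_left _ _)))
    ((hψ _ a1 a2).hol.mono (Glue.smono (min_le_right _ _)))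
    (fun x => ((hψ _ b1 b2).eq x).trans ((hψ _ a1 a2).eq x).symm) y (lt_min b3 hy)

theorem preconn_glue {U S : Set ℂ} (hc : IsPreconnected U) (h1 : S ⊆ U) (h2 : U ⊆ closure S)
    (h : ∀ x ∈ U, ∃ O : Set ℂ, O ∈ 𝓝 x ∧ IsPreconnected (O ∩ S)) : IsPreconnected S := by
  rintro A B hA hB hAB ⟨a, haS, haA⟩ ⟨b, hbS, hbB⟩
  obtain ⟨x, hx, hx1, hx2⟩ := isPreconnected_closed_iff.1 hc (closure (S ∩ A)) (closure (S ∩ B))
    isClosed_closure isClosed_closure
    (by rwa [← closure_union, ← inter_union_distrib_left, inter_eq_left.2 hAB])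
    ⟨a, h1 haS, subset_closure ⟨haS, haA⟩⟩ ⟨b, h1 hbS, subset_closure ⟨hbS, hbB⟩⟩
  obtain ⟨O, hO, hpre⟩ := h x hx
  obtain ⟨u, huO, huS, huA⟩ := mem_closure_iff_nhds.1 hx1 O hO
  obtain ⟨v, hvO, hvS, hvB⟩ := mem_closure_iff_nhds.1 hx2 O hO
  obtain ⟨z, ⟨-, hzS⟩, hz⟩ := hpre A B hA hB (fun y hy => hAB hy.2) ⟨u, ⟨huO, huS⟩, huA⟩
    ⟨v, ⟨hvO, hvS⟩, hvB⟩
  exact ⟨z, hzS, hz⟩

/-- a countable set does not disconnect a domain -/
theorem preconn_diff {T Z : Set ℂ} (hT : IsOpen T) (hc : IsPreconnected T) (hZ : Z.Countable) :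
    IsPreconnected (T \ Z) := by
  refine preconn_glue hc sdiff_subset ((hZ.dense_compl ℂ).open_subset_closure_inter hT)
    fun x hx => ?_
  obtain ⟨r, hr, h⟩ := Metric.isOpen_iff.1 hT x hx
  set e : OpenPartialHomeomorph ℂ ℂ := OpenPartialHomeomorph.univBall x r
  have h1 : e.source = univ := OpenPartialHomeomorph.univBall_source x r
  have h2 : e.target = ball x r := OpenPartialHomeomorph.univBall_target x hr
  have h3 := ((hZ.preimage_of_injOn (f := e) (e.injOn.mono (by simp [h1]))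
    ).isConnected_compl_of_one_lt_rank (by simp)).isPreconnected.image e
    (e.continuousOn.mono (by simp [h1]))
  refine ⟨_, ball_mem_nhds x hr, ?_⟩
  rwa [show ball x r ∩ (T \ Z) = e '' (e ⁻¹' Z)ᶜ by
    rw [← preimage_compl, image_preimage_eq_inter_range, ← image_univ, ← h1,
      e.image_source_eq_target, h2]
    exact Set.ext fun w => ⟨fun hw => ⟨hw.2.2, hw.1⟩, fun hw => ⟨hw.2, h hw.2, hw.1⟩⟩]

theorem p_mono (hL : Laz h p c) : StrictMono p := strictMono_of_deriv_pos hL.pos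

theorem p_surj (hL : Laz h p c) : Function.Surjective p := by
  have k : ∀ n : ℕ, ∀ x, p (x + n) = p x + n * (2 * Real.pi) := fun n x => by
    induction n with
    | zero => simp
    | succ n ih =>
      push_cast
      rw [← add_assoc, hL.per, ih]
      ring
  intro y
  obtain ⟨n, hn⟩ := exists_nat_ge |y - p 0|
  have h1 := k n 0
  have h2 := k n (-n)
  have h3 : (n : ℝ) ≤ n * (2 * Real.pi) :=
    le_mul_of_one_le_right n.cast_nonneg (by linarith [Real.two_le_pi])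
  rw [neg_add_cancel] at h2
  rw [abs_le] at hn
  exact mem_range_of_exists_le_of_exists_ge
    (continuous_iff_continuousAt.2 fun x => (hL.an x).continuousAt)
    ⟨-n, by linarith [hn.1]⟩ ⟨0 + n, by linarith [hn.2]⟩

theorem der {ψ : ℂ → ℂ} {V : Set ℂ} (hL : Laz h p c) (E : HolExt p ψ V) (hV : IsOpen V) {x : ℝ}
    (hx : (x : ℂ) ∈ V) : deriv ψ x = (deriv p x : ℝ) :=
  (E.hol.differentiableAt (hV.mem_nhds hx)).hasDerivAt.comp_ofReal.unique
    ((hL.an x).differentiableAt.hasDerivAt.ofReal_comp.congr_of_eventuallyEq (.of_forall E.eq))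

/-- the coefficients of the equation for the normal angle -/
def co (D : ℕ) (a : ℕ → ℂ → ℂ) (c : ℂ) (j : ℕ) (z : ℂ) : ℂ :=
  ∑ k ∈ Finset.range (D + 1), if j = 3 * (D - k) then a k z * c ^ k else 0

theorem co_ode {S : Set ℂ} {D : ℕ} {a : ℕ → ℂ → ℂ} {c : ℂ} (O : Ode S D a) (c0 : c ≠ 0) :
    Ode S (3 * D) (co D a c) := by
  refine ⟨O.cnt, O.cl, fun j => DifferentiableOn.fun_sum fun k _ => ?_, ?_⟩
  · split_ifs
    exacts [(O.hol k).mul_const _, differentiableOn_const _]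
  · obtain ⟨k, k1, z, k2, k3⟩ := O.ne
    refine ⟨3 * (D - k), by omega, z, k2, ?_⟩
    rw [co, Finset.sum_eq_single_of_mem k (Finset.mem_range.2 (by omega)) fun l l1 l2 =>
      if_neg (by have := Finset.mem_range.1 l1; omega), if_pos rfl]
    exact mul_ne_zero k3 (pow_ne_zero _ c0)

theorem co_P {D : ℕ} {a : ℕ → ℂ → ℂ} (z u v : ℂ) :
    odeP (3 * D) (co D a (v * u ^ 3)) (z, u) = odeP D a (z, v) * u ^ (3 * D) := by
  simp only [odeP, co, Finset.sum_mul, ite_mul, zero_mul]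
  rw [Finset.sum_comm]
  refine Finset.sum_congr rfl fun k m => ?_
  rw [Finset.sum_ite_eq', if_pos (Finset.mem_range.2 (by omega))]
  obtain ⟨l, rfl⟩ := Nat.exists_eq_add_of_le (Nat.lt_succ_iff.1 (Finset.mem_range.1 m))
  rw [Nat.add_sub_cancel_left]
  ring

/-- the equation holds on the whole domain -/
theorem sol {S V : Set ℂ} {D : ℕ} {a : ℕ → ℂ → ℂ} {ψ₀ : ℝ} {ψ : ℂ → ℂ} (hL : Laz h p c)
    (c0 : (c : ℂ) ≠ 0) (O : Ode S D a) (h0 : (ψ₀ : ℂ) ∉ S)
    (e : ∀ᶠ ψ in 𝓝 ψ₀, odeP D a ((ψ : ℝ), (h ψ + deriv (deriv h) ψ : ℝ)) = 0) (E : HolExt p ψ V)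
    (hV : IsOpen V) (hc : IsPreconnected V) (hR : ∀ x : ℝ, (x : ℂ) ∈ V) :
    Sol S (3 * D) (co D a c) ψ V := by
  obtain ⟨x, rfl⟩ := p_surj hL ψ₀
  have aψ := E.hol.analyticOnNhd hV
  have k1 : {y | y ∈ V ∧ ψ y ∈ S}.Countable := by
    refine (O.cnt.biUnion fun s _ => (?_ : {y | y ∈ V ∧ ψ y = s}.Countable)).mono
      fun y m => mem_biUnion m.2 (And.intro m.1 rfl)
    refine (HereditarilyLindelofSpace.isLindelof _).countable_of_isDiscrete
      (isDiscrete_iff_nhdsNE.2 fun y hy => ?_)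
    rw [inf_principal_eq_bot]
    rcases (aψ y hy.1).eventually_eq_or_eventually_ne (g := fun _ => s) analyticAt_const with m | m
    · have m1 := aψ.eqOn_of_preconnected_of_eventuallyEq analyticOnNhd_const hc hy.1 m
      have m2 := (m1 (hR 0)).trans (m1 (hR 1)).symm
      rw [E.eq, E.eq, ofReal_inj] at m2
      exact absurd ((p_mono hL).injective m2) zero_ne_one
    · filter_upwards [m] with z m1 m2 using m1 m2.2
  have k2 : IsOpen (V \ {y | y ∈ V ∧ ψ y ∈ S}) := by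
    convert E.hol.continuousOn.isOpen_inter_preimage hV O.cl.isOpen_compl using 1
    ext y
    simp only [mem_diff, mem_setOf_eq, mem_inter_iff, mem_preimage, mem_compl_iff]
    tauto
  intro y m1 m2
  refine an_id (f := fun y => odeP (3 * D) (co D a c) (ψ y, deriv ψ y)) (g := fun _ => 0)
    (DifferentiableOn.analyticOnNhd (DifferentiableOn.fun_sum fun k _ => ?_) k2)
    analyticOnNhd_const (preconn_diff hV hc k1) (x := x) ⟨hR x, fun m => h0 (E.eq x ▸ m.2)⟩ ?_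
    ⟨m1, fun m => m2 m.2⟩
  · exact (((co_ode O c0).hol k).comp (E.hol.mono sdiff_subset) fun z m n => m.2 (And.intro m.1 n)).mul
      ((aψ.deriv.differentiableOn.mono sdiff_subset).pow k)
  · filter_upwards [(hL.an x).continuousAt.tendsto.eventually e] with t m
    rw [der hL E hV (hR t), E.eq, ← hL.eq t, ofReal_mul, ofReal_pow, co_P, m, zero_mul]

end EA

open EA

theorem nb (T3 : Spec_T3) (LAZ : Spec_LAZ) (LINK : Spec_LINK) : Spec_NB := by
  intro h p c r ρ ψ y₀ hT hI hL r0 ρ0 hy E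
  by_contra k
  obtain ⟨k1, k2⟩ := not_or.1 k
  obtain ⟨ε, η, Φ, J, N⟩ := nform hI
  obtain ⟨d, hq⟩ := LAZ h ε η Φ J hT N
  obtain ⟨a, e⟩ := lazu h p _ c d hT hL hq
  have E' := hol_shift (U := Strip r ∪ ball (y₀ - a) ρ) E e fun y m => m.imp
    (fun m => by simpa [Strip] using m) fun m => by
      rw [mem_ball, dist_eq_norm] at m ⊢
      rwa [show y + a - y₀ = y - (y₀ - a) by ring]
  obtain ⟨s, s1, s0, Z, W, F⟩ := radii (r := r)
    (Q := fun s => ∃ Z W, MerExt h (fun x => (Φ (x, 0)).1) Z W (Strip s))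
    (fun s t m ⟨Z, W, F⟩ => ⟨Z, W, mer_mono F (Glue.smono m)⟩)
    (by
      obtain ⟨s, Z, W, m⟩ := ini h _ d hT hq
      exact ⟨s, m.1, Z, W, m.2⟩)
    (fun R R0 => glue.1 h _ d R hT hq R0) fun R R0 m ⟨Z, W, F⟩ => by
      obtain ⟨y₁, ρ₁, m1, m2, m3⟩ : ∃ (y₁ : ℂ) (ρ₁ : ℝ), 0 < ρ₁ ∧ y₁.im = R ∧
          Strip R ∪ ball y₁ ρ₁ ⊆ Strip r ∪ ball (y₀ - a) ρ := by
        rcases m.eq_or_lt with rfl | m
        · exact ⟨y₀ - a, ρ, ρ0, by simp [hy], subset_rfl⟩
        · refine ⟨R * I, r - R, sub_pos.2 m, by simp, fun y n => Or.inl (n.elim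
            (fun n => Glue.smono m.le n) fun n => ?_)⟩
          have n1 := (abs_im_le_norm (y - R * I)).trans_lt (mem_ball_iff_norm.1 n)
          simp only [sub_im, mul_im, ofReal_re, I_im, ofReal_im, I_re, mul_one, mul_zero,
            add_zero, abs_lt] at n1
          exact (abs_lt.2 ⟨by linarith [n1.1], by linarith [n1.2]⟩ : |y.im| < r)
      obtain ⟨Z', W', ρ', y₂, n1, n2, F'⟩ :=
        LINK h _ d R ρ₁ Z W _ y₁ hT hq R0 m1 m2 F (hol_mono E' m3)
      obtain ⟨s, Z₂, W₂, n3⟩ := (T3 h ε η Φ J Z' W' R ρ' y₂ hT hI N R0 n1 n2 F').resolve_left k1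
      exact ⟨s, n3.1, Z₂, W₂, n3.2⟩
  obtain ⟨χ, G⟩ := (n0 h _ d s Z W hT hI hq s0 F).resolve_left k1
  exact k2 ⟨s, _, s1, hol_shift (a := -a) G (fun x => by rw [e, neg_add_cancel_right])
    fun y m => by simpa [Strip] using m⟩

theorem cor (LAZ : Spec_LAZ) (NB : Spec_NB) (TOP : Spec_TOP) (ENT : Spec_ENT) : Spec_COR := by
  intro h S D a ψ₀ hT hI O h0 e
  by_contra k
  obtain ⟨ε, η, Φ, J, N⟩ := nform hI
  obtain ⟨c, hL⟩ := LAZ h ε η Φ J hT N
  generalize (fun x => (Φ (x, 0)).1) = p at hL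
  have c0 : (c : ℂ) ≠ 0 := ofReal_ne_zero.2 (c_pos hT hL).ne'
  obtain ⟨ψ, E⟩ := glue.2 p fun r r0 => by
    obtain ⟨s, s1, -, ψ, E⟩ := radii (r := r) (Q := fun s => ∃ ψ, HolExt p ψ (Strip s))
      (fun s t m ⟨ψ, E⟩ => ⟨ψ, hol_mono E (Glue.smono m)⟩)
      (by
        obtain ⟨s, Z, W, m⟩ := ini h p c hT hL
        exact ⟨s, m.1, (n0 h p c s Z W hT hI hL m.1 m.2).resolve_left k⟩)
      (fun R => glueH) fun R R0 _ ⟨ψ, E⟩ => by
        obtain ⟨y₀, ρ, χ, m1, m2, m3, m4⟩ := TOP S _ _ ψ R R0 (co_ode O c0) E.hol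
          ⟨_, real_mem R0 0, by
            rw [der hL E (strip_open R) (real_mem R0 0)]
            exact ofReal_ne_zero.2 (hL.pos 0).ne'⟩
          (sol hL c0 O h0 e E (strip_open R) (strip_convex R).isPreconnected (real_mem R0))
        obtain ⟨s, χ', n⟩ := (NB h p c R ρ χ y₀ hT hI hL R0 m2 m1
          ⟨m3, fun x => (m4 (real_mem R0 x)).trans (E.eq x)⟩).resolve_left k
        exact ⟨s, n.1, χ', n.2⟩
    exact ⟨ψ, hol_mono E (Glue.smono s1.le)⟩
  have d := differentiableOn_univ.1 E.hol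
  have k1 := ENT S _ _ ψ (co_ode O c0) d
    (sol hL c0 O h0 e E isOpen_univ isPreconnected_univ fun _ => mem_univ _)
    (fun y => an_id (f := fun y => ψ (y + 1)) (g := fun y => ψ y + 2 * Real.pi)
      (fun z _ => Differentiable.analyticAt (by fun_prop) z)
      (fun z _ => Differentiable.analyticAt (by fun_prop) z) isPreconnected_univ (x := 0)
      (mem_univ _) (.of_forall fun t => by
        have := E.eq (t + 1)
        rw [hL.per, ofReal_add, ofReal_add, ← E.eq] at this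
        simpa using this) (mem_univ y))
    fun x x' m => (p_mono hL).injective (by rwa [E.eq, E.eq, ofReal_inj] at m)
  have k2 : (fun y => h y + deriv (deriv h) y) = fun _ => c / (2 * Real.pi) ^ 3 := by
    funext y
    obtain ⟨x, rfl⟩ := p_surj hL y
    have m := k1 x
    rw [der hL E isOpen_univ (mem_univ _)] at m
    have m1 : deriv p x = 2 * Real.pi := by exact_mod_cast m
    rw [← hL.eq x, m1, mul_div_cancel_right₀ _ (by positivity)]
  refine k (Ell.real_ell hT (ψ₀ := 0) (c := 1 / (c / (2 * Real.pi) ^ 3) ^ 2) (.of_forall fun x => ?_))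
  rw [k2, congrFun k2 x]
  simp

end Vale.Agent.P097T
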