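import Vale.Agent.P097T.EndDefs

/-!
# P097T: the boundary of the normal form is the Lazutkin parametrisation
-/

set_option linter.all false

noncomputable section

namespace Vale.Agent.P097T

open Filter Topology Set Real Vale.Agent.P097

namespace Lz

variable {h : ℝ → ℝ}

theorem sup (u v : ℝ) : (bdry h u * Complex.exp ((-(u + v) : ℝ) * Complex.I)).re =
    h u * cos v + deriv h u * sin v := by
  rw [bdry, mul_assoc, ← Complex.exp_add, ← add_mul, ← Complex.ofReal_add,
    show u + -(u + v) = -v by ring, Complex.mul_re, Complex.exp_ofReal_mul_I_re,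
    Complex.exp_ofReal_mul_I_im]
  simp

/-- both ends of a chord lie on one line -/
theorem chord {a α b β : ℝ} (s : Step h a α b β) :
    h b * cos β - deriv h b * sin β = h a * cos α + deriv h a * sin α := by
  obtain ⟨-, -, -, -, e1, l, -, e2⟩ := s
  have k1 := sup (h := h) b (-β)
  rw [show b + -β = a + α by linarith, e2, add_mul, Complex.add_re, sup, mul_assoc, mul_assoc,
    ← Complex.exp_add, ← add_mul, ← Complex.ofReal_add, add_neg_cancel] at k1
  simp at k1
  linarith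

theorem dfst {γ : ℝ → ℝ × ℝ} {u : ℝ × ℝ} (d : HasDerivAt γ u 0) :
    HasDerivAt (fun t => (γ t).1) u.1 0 :=
  (ContinuousLinearMap.fst ℝ ℝ ℝ).hasFDerivAt.comp_hasDerivAt 0 d

theorem dsnd {γ : ℝ → ℝ × ℝ} {u : ℝ × ℝ} (d : HasDerivAt γ u 0) :
    HasDerivAt (fun t => (γ t).2) u.2 0 :=
  (ContinuousLinearMap.snd ℝ ℝ ℝ).hasFDerivAt.comp_hasDerivAt 0 d

/-- the derivative of the billiard map -/
theorem dir (T : IsTable h) {γ γ' : ℝ → ℝ × ℝ} {u u' : ℝ × ℝ} (d : HasDerivAt γ u 0)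
    (d' : HasDerivAt γ' u' 0) (s : ∀ᶠ t in 𝓝 0, Step h (γ t).1 (γ t).2 (γ' t).1 (γ' t).2) :
    u'.1 - u'.2 = u.1 + u.2 ∧
      deriv h (γ' 0).1 * cos (γ' 0).2 * (u'.1 - u'.2) - sin (γ' 0).2 *
        (deriv (deriv h) (γ' 0).1 * u'.1 + h (γ' 0).1 * u'.2) =
      deriv h (γ 0).1 * cos (γ 0).2 * (u.1 + u.2) + sin (γ 0).2 *
        (deriv (deriv h) (γ 0).1 * u.1 - h (γ 0).1 * u.2) := by
  have h0 := fun x => (T.1 x).differentiableAt.hasDerivAt
  have h1 := fun x => (T.1 x).deriv.differentiableAt.hasDerivAt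
  have a1 := dfst d
  have a2 := dsnd d
  have b1 := dfst d'
  have b2 := dsnd d'
  refine ⟨(b1.fun_sub b2).unique ((a1.fun_add a2).congr_of_eventuallyEq (s.mono fun t k => ?_)), ?_⟩
  · have := k.2.2.2.2.1
    show _ - _ = _ + _
    linarith
  have := ((((h0 _).comp 0 b1).fun_mul b2.cos).fun_sub (((h1 _).comp 0 b1).fun_mul b2.sin)).unique
    (((((h0 _).comp 0 a1).fun_mul a2.cos).fun_add (((h1 _).comp 0 a1).fun_mul a2.sin)).congr_of_eventuallyEq
      (s.mono fun t k => chord k))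
  simp only [Function.comp] at this
  linarith

theorem alg {a b c e a' b' c' e' f g k s f' g' k' s' : ℝ} (e1 : a' - c' = a + c)
    (e2 : g' * (a' - c') - s' * (k' * a' + f' * c') = g * (a + c) + s * (k * a - f * c))
    (e3 : a' + b' - (c' + e') = b + e)
    (e4 : g' * (a' + b' - (c' + e')) - s' * (k' * (a' + b') + f' * (c' + e')) =
      g * (b + e) + s * (k * b - f * e)) :
    (f' + k') * s' * (a' * e' - b' * c') = (f + k) * s * (a * e - b * c) := by
  linear_combination (b + e) * e2 - (a + c) * e4 +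
    (g' * (a' - c') - s' * (k' * a' + f' * c')) * e3 -
    (g' * (a' + b' - (c' + e')) - s' * (k' * (a' + b') + f' * (c' + e'))) * e1

end Lz

open Lz

/-- **LAZ** -/
theorem laz : Spec_LAZ := by
  rintro h ε η Φ J T ⟨ε0, -, aΦ, -, -, -, h3, h4, h5⟩
  have z : |(0 : ℝ)| < ε := by simpa
  let L := fun q => fderiv ℝ Φ q
  have ln : ∀ q v : ℝ × ℝ, |q.2| < ε → HasDerivAt (fun t : ℝ => Φ (q + t • v)) (L q v) 0 :=
    fun q v k => HasFDerivAt.comp_hasDerivAt_of_eq 0 (aΦ q k).differentiableAt.hasFDerivAt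
      ((((hasDerivAt_id (0 : ℝ)).smul_const v).const_add q).congr_deriv (one_smul _ _)) (by simp)
  let ρ := fun x => h x + deriv (deriv h) x
  let K := fun q : ℝ × ℝ => ρ (Φ q).1 * sin (Φ q).2 *
    ((L q (1, 0)).1 * (L q (0, 1)).2 - (L q (0, 1)).1 * (L q (1, 0)).2)
  have key : ∀ x w, 0 < w → w < ε → K (x + w, w) = K (x, w) ∧
      (L (x + w, w) (1, 0)).1 + (L (x + w, w) (0, 1)).1 - (L (x + w, w) (1, 0)).2 -
        (L (x + w, w) (0, 1)).2 = (L (x, w) (0, 1)).1 + (L (x, w) (0, 1)).2 := fun x w w0 w1 => by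
    have k : |w| < ε := by rwa [abs_of_pos w0]
    obtain ⟨e1, e2⟩ := dir T (ln (x, w) (1, 0) k) (ln (x + w, w) (1, 0) k)
      (.of_forall fun t => by simpa [add_right_comm x w t] using h5 (x + t) w w0 w1)
    obtain ⟨e3, e4⟩ := dir T (ln (x, w) (0, 1) k) (ln (x + w, w) ((1, 0) + (0, 1)) k) (by
      filter_upwards [Ioo_mem_nhds (neg_neg_of_pos w0) (sub_pos.2 w1)] with t m
      simpa [add_assoc] using h5 x (w + t) (by linarith [m.1]) (by linarith [m.2]))
    simp only [map_add, zero_smul, add_zero, Prod.fst_add, Prod.snd_add] at e1 e2 e3 e4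
    exact ⟨alg e1 e2 e3 e4, by linarith⟩
  have z0 : ∀ y, (Φ (y, 0)).2 = 0 := fun y => by
    have := congrArg Prod.snd (h4 y 0 z)
    rw [neg_zero] at this
    linarith
  have ap : ∀ x, AnalyticAt ℝ (fun x => (Φ (x, 0)).1) x := fun x =>
    analyticAt_fst.comp ((aΦ (x, 0) z).comp_of_eq (by fun_prop) rfl)
  have c0 : ∀ x, (L (x, 0) (1, 0)).2 = 0 := fun x =>
    (dsnd (ln (x, 0) (1, 0) z)).unique (by simpa [z0] using hasDerivAt_const (0 : ℝ) (0 : ℝ))
  have a0 : ∀ x, deriv (fun x => (Φ (x, 0)).1) x = (L (x, 0) (1, 0)).1 := fun x => by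
    have d := (ap x).differentiableAt.hasDerivAt
    refine HasDerivAt.unique ?_ (dfst (ln (x, 0) (1, 0) z))
    simpa using HasDerivAt.comp_const_add (f := fun x => (Φ (x, 0)).1) x 0 (by rwa [add_zero])
  have cL : ∀ x v (f : ℝ → ℝ), Continuous f → f 0 = x →
      Tendsto (fun w => L (f w, w) v) (𝓝[>] 0) (𝓝 (L (x, 0) v)) := fun x v f cf f0 => by
    have t : Tendsto (fun w => (f w, w)) (𝓝 0) (𝓝 (x, 0)) :=
      f0 ▸ (cf.prodMk continuous_id).tendsto 0
    exact (((aΦ.fderiv (x, 0) z).continuousAt.clm_apply continuousAt_const).tendsto.comp t).mono_left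
      nhdsWithin_le_nhds
  have e0 : ∀ x, (L (x, 0) (1, 0)).1 = 2 * (L (x, 0) (0, 1)).2 := fun x => by
    have A := fun v => cL x v (fun w => x + w) (by fun_prop) (add_zero x)
    have B := fun v => cL x v (fun _ => x) (by fun_prop) rfl
    have := tendsto_nhds_unique_of_eventuallyEq
      ((((A (1, 0)).fst_nhds.add (A (0, 1)).fst_nhds).sub (A (1, 0)).snd_nhds).sub (A (0, 1)).snd_nhds)
      ((B (0, 1)).fst_nhds.add (B (0, 1)).snd_nhds) (by
        filter_upwards [Ioo_mem_nhdsGT ε0] with w m using (key x w m.1 m.2).2)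
    linarith [c0 x]
  let k := fun x => ρ (Φ (x, 0)).1 * deriv (fun x => (Φ (x, 0)).1) x ^ 3
  have lim : ∀ x, Tendsto (fun w => w⁻¹ * K (x, w)) (𝓝[>] 0) (𝓝 (k x / 4)) := fun x => by
    have B := fun v => cL x v (fun _ => x) (by fun_prop) rfl
    have d := ln (x, 0) (0, 1) z
    have r : Tendsto (fun w : ℝ => ρ (Φ ((x, 0) + w • (0, 1))).1) (𝓝[>] 0) _ :=
      (((T.1 _).add (T.1 _).deriv.deriv).continuousAt.tendsto.comp
        (dfst d).continuousAt.tendsto).mono_left nhdsWithin_le_nhds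
    have := (r.mul (dsnd d).sin.tendsto_slope_zero_right).mul
      (((B (1, 0)).fst_nhds.mul (B (0, 1)).snd_nhds).sub ((B (0, 1)).fst_nhds.mul (B (1, 0)).snd_nhds))
    convert this using 2
    · simp [K, z0]
      ring
    · simp [k, ρ, z0, c0, a0, e0]
      ring
  have it : ∀ x w, 0 < w → w < ε → ∀ n : ℕ, K (x + n * w, w) = K (x, w) := fun x w w0 w1 n => by
    induction n with
    | zero => simp
    | succ n ih => rw [← ih, ← (key (x + n * w) w w0 w1).1, Nat.cast_succ, add_mul, one_mul, add_assoc]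
  have mono : ∀ x y, x < y → k y = k x := fun x y l => by
    have t : Tendsto (fun n : ℕ => (y - x) / n) atTop (𝓝[>] 0) :=
      tendsto_nhdsWithin_iff.2 ⟨tendsto_const_div_atTop_nhds_zero_nat _,
        (eventually_gt_atTop 0).mono fun n m => div_pos (sub_pos.2 l) (Nat.cast_pos.2 m)⟩
    have := tendsto_nhds_unique_of_eventuallyEq ((lim y).comp t) ((lim x).comp t) (by
      filter_upwards [t.eventually (Ioo_mem_nhdsGT ε0), eventually_gt_atTop 0] with n m n0
      have := it x _ m.1 m.2 n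
      rw [mul_div_cancel₀ _ (Nat.cast_pos.2 n0).ne', add_sub_cancel] at this
      simp only [Function.comp, this])
    linarith
  have cst : ∀ x, k x = k 0 := fun x =>
    (mono x (|x| + 1) (by linarith [le_abs_self x])).symm.trans (mono 0 _ (by positivity))
  have per : ∀ x, (Φ (x + 1, 0)).1 = (Φ (x, 0)).1 + 2 * π := fun x => by rw [h3 x 0 z]
  have kp : 0 < k 0 := by
    by_contra m
    have := antitone_of_deriv_nonpos (fun x => (ap x).differentiableAt) (fun x => ?_)
      (show (0 : ℝ) ≤ 0 + 1 by simp)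
    · simp only [per] at this
      linarith [pi_pos]
    by_contra n
    exact m (cst x ▸ mul_pos (T.2.2 _) (pow_pos (not_le.1 n) 3))
  refine ⟨k 0, ap, per, fun x => ?_, cst⟩
  rw [← cst x] at kp
  exact (Odd.pow_pos_iff (n := 3) (by decide)).1 ((mul_pos_iff_of_pos_left (T.2.2 _)).1 kp)

end Vale.Agent.P097T
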