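import Vale.Agent.P097T.EndDefs

/-!
# P097T: where the normal angle continues with non-zero derivative the boundary point continues
-/

set_option linter.all false

noncomputable section

namespace Vale.Agent.P097T

open Filter Topology Set Metric Complex Vale.Agent.P097 Vale.Agent.P097A

namespace Link

/-- identity theorem for meromorphic functions -/
theorem idm {F : ℂ → ℂ} {U : Set ℂ} (mF : MeromorphicOn F U) (cU : IsPreconnected U) {a z : ℂ}
    (ha : a ∈ U) (e : ∀ᶠ w in 𝓝[≠] a, F w = 0) (hz : z ∈ U) : ∀ᶠ w in 𝓝[≠] z, F w = 0 := by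
  by_contra k
  exact mF.meromorphicOrderAt_ne_top_of_isPreconnected cU hz ha
    (fun t => k (meromorphicOrderAt_eq_top_iff.1 t)) (meromorphicOrderAt_eq_top_iff.2 e)

/-- a meromorphic function whose derivative continues to a disc continues to the disc -/
theorem ext1 {Z g : ℂ → ℂ} {V : Set ℂ} {y : ℂ} {ρ : ℝ} (oV : IsOpen V) (cV : Convex ℝ V)
    (mZ : MeromorphicOn Z V) {b : ℂ} (hb : b ∈ V ∩ ball y ρ) (hg : DifferentiableOn ℂ g (ball y ρ))
    (e : ∀ᶠ w in 𝓝[≠] b, deriv Z w = g w) :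
    ∃ Z', MeromorphicOn Z' (V ∪ ball y ρ) ∧ ∀ z ∉ ball y ρ, Z' z = Z z := by
  classical
  obtain ⟨P, hP⟩ := hg.isExactOn_ball
  have dP : DifferentiableOn ℂ P (ball y ρ) := fun z hz =>
    (hP z hz).differentiableAt.differentiableWithinAt
  have aP : AnalyticOnNhd ℂ P (ball y ρ) := dP.analyticOnNhd isOpen_ball
  have oU : IsOpen (V ∩ ball y ρ) := oV.inter isOpen_ball
  obtain ⟨a, ha⟩ := (eventually_nhdsNE_eventually_nhds_iff.2 (e.and
    ((mZ b hb.1).eventually_analyticAt.and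
      (mem_nhdsWithin_of_mem_nhds (oU.mem_nhds hb))))).exists
  obtain ⟨ε, ε0, hε⟩ := Metric.eventually_nhds_iff_ball.1 ha
  obtain ⟨k, hk⟩ := isOpen_ball.exists_eq_add_of_deriv_eq (𝕜 := ℂ) (f := Z) (g := P)
    (convex_ball a ε).isPreconnected
    (fun z hz => (hε z hz).2.1.differentiableAt.differentiableWithinAt)
    (fun z hz => (hP z (hε z hz).2.2.2).differentiableAt.differentiableWithinAt)
    (fun z hz => (hε z hz).1.trans (hP z (hε z hz).2.2.2).deriv.symm)
  have aQ : AnalyticOnNhd ℂ (fun z => P z + k) (ball y ρ) := fun z hz =>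
    (aP z hz).add analyticAt_const
  have mD : MeromorphicOn (fun z => Z z - (P z + k)) (V ∩ ball y ρ) := fun z hz =>
    (mZ z hz.1).sub (aQ z hz.2).meromorphicAt
  have e0 : ∀ z ∈ V ∩ ball y ρ, ∀ᶠ w in 𝓝[≠] z, Z w - (P w + k) = 0 := fun z hz =>
    idm mD (cV.inter (convex_ball y ρ)).isPreconnected (hε a (mem_ball_self ε0)).2.2
      (mem_nhdsWithin_of_mem_nhds (mem_of_superset (ball_mem_nhds a ε0) fun w hw =>
        sub_eq_zero.2 (hk hw))) hz
  refine ⟨(ball y ρ).piecewise (fun z => P z + k) Z, fun z hz => ?_,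
    fun z hz => piecewise_eq_of_notMem _ _ _ hz⟩
  rcases hz with hz | hz
  · refine (mZ z hz).congr ?_
    filter_upwards [(mZ z hz).eventually_analyticAt,
      mem_nhdsWithin_of_mem_nhds (oV.mem_nhds hz)] with w k1 k2
    by_cases k3 : w ∈ ball y ρ
    · rw [piecewise_eq_of_mem _ _ _ k3, ← sub_eq_zero]
      exact tendsto_nhds_unique_of_eventuallyEq
        ((k1.sub (aQ w k3)).continuousAt.tendsto.mono_left nhdsWithin_le_nhds) tendsto_const_nhds
        (e0 w ⟨k2, k3⟩)
    · rw [piecewise_eq_of_notMem _ _ _ k3]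
  · refine (aQ z hz).meromorphicAt.congr ?_
    filter_upwards [mem_nhdsWithin_of_mem_nhds (isOpen_ball.mem_nhds hz)] with w k3
    rw [piecewise_eq_of_mem _ _ _ k3]

theorem st_open (r : ℝ) : IsOpen (Strip r) :=
  isOpen_lt (continuous_abs.comp Complex.continuous_im) continuous_const

theorem st_conv (r : ℝ) : Convex ℝ (Strip r) := by
  have e : Strip r = {c : ℂ | c.im < r} ∩ {c : ℂ | -r < c.im} := by
    ext z
    simp [Strip, abs_lt, and_comm]
  rw [e]
  exact (convex_halfSpace_im_lt r).inter (convex_halfSpace_im_gt (-r))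

theorem st_re {r : ℝ} (hr : 0 < r) (x : ℝ) : (x : ℂ) ∈ Strip r := by simpa [Strip] using hr

/-- a disc centred on the top line meets the strip -/
theorem st_ball {r ρ : ℝ} {y : ℂ} (hr : 0 < r) (hρ : 0 < ρ) (hy : y.im = r) :
    ∃ b, b ∈ Strip r ∩ ball y ρ := by
  have m := lt_min hr hρ
  have m1 := min_le_left r ρ
  have m2 := min_le_right r ρ
  refine ⟨y - ((min r ρ / 2 : ℝ) : ℂ) * I, ?_, ?_⟩
  · simp only [Strip, mem_setOf_eq, sub_im, mul_im, ofReal_re, I_im, ofReal_im, I_re, hy, abs_lt]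
    constructor <;> linarith
  · rw [mem_ball, dist_eq_norm, sub_sub_cancel_left, norm_neg, norm_mul, norm_I, norm_real,
      Real.norm_of_nonneg (by linarith)]
    linarith

theorem tne (x : ℝ) (y : ℂ) : Tendsto (fun t : ℝ => y + t) (𝓝[≠] x) (𝓝[≠] (y + x)) := by
  refine tendsto_nhdsWithin_iff.2 ⟨(Continuous.tendsto (by fun_prop) x).mono_left
    nhdsWithin_le_nhds, ?_⟩
  filter_upwards [self_mem_nhdsWithin] with t ht
  simpa using ht

/-- the relation `Z' q = G` passes from the real line to the strip -/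
theorem rel {Z q G : ℂ → ℂ} {f f' : ℝ → ℂ} {r : ℝ} (hr : 0 < r) (mZ : MeromorphicOn Z (Strip r))
    (aq : AnalyticOnNhd ℂ q (Strip r)) (aG : AnalyticOnNhd ℂ G (Strip r)) (eZ : ∀ x : ℝ, Z x = f x)
    (df : ∀ x, HasDerivAt f (f' x) x) (e : ∀ x : ℝ, f' x * q x = G x) {z : ℂ} (hz : z ∈ Strip r) :
    ∀ᶠ w in 𝓝[≠] z, deriv Z w * q w - G w = 0 := by
  have mF : MeromorphicOn (fun w => deriv Z w * q w - G w) (Strip r) := fun w hw =>
    ((mZ w hw).deriv.mul (aq w hw).meromorphicAt).sub (aG w hw).meromorphicAt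
  have h0 := st_re hr 0
  refine idm mF (st_conv r).isPreconnected h0
    ((mF _ h0).frequently_zero_iff_eventuallyEq_zero.1 ?_) hz
  have t : Tendsto (fun t : ℝ => (t : ℂ)) (𝓝[≠] 0) (𝓝[≠] ((0 : ℝ) : ℂ)) := by
    simpa using tne 0 0
  refine t.frequently (Eventually.frequently ?_)
  filter_upwards [t.eventually (mZ _ h0).eventually_analyticAt] with x hx
  have d := hx.differentiableAt.hasDerivAt.comp_ofReal
  rw [funext eZ] at d
  rw [d.unique (df x), e, sub_self]

theorem d_bdry {h : ℝ → ℝ} (hT : IsTable h) (a : ℝ) : HasDerivAt (bdry h)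
    (((h a + deriv (deriv h) a : ℝ) : ℂ) * I * exp (a * I)) a := by
  have d0 := (hT.1 a).differentiableAt.hasDerivAt.ofReal_comp
  have d1 := (hT.1 a).deriv.differentiableAt.hasDerivAt.ofReal_comp
  have d2 : HasDerivAt (fun t : ℝ => exp ((t : ℂ) * I)) (exp (a * I) * (1 * I)) a :=
    (((hasDerivAt_id (a : ℂ)).mul_const I).cexp).comp_ofReal
  refine ((d0.add (d1.mul_const I)).mul d2).congr_deriv ?_
  simp only [Pi.add_apply]
  push_cast
  linear_combination ((deriv h a : ℝ) : ℂ) * exp (a * I) * I_mul_I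

end Link

open Link

theorem link : Spec_LINK := by
  intro h p c r ρ Z W ψ y₀ hT hL hr hρ hy hM hH
  have oV : IsOpen (Strip r ∪ ball y₀ ρ) := (st_open r).union isOpen_ball
  obtain ⟨b₀, hb₀⟩ := st_ball hr hρ hy
  have cV : IsPreconnected (Strip r ∪ ball y₀ ρ) :=
    (st_conv r).isPreconnected.union b₀ hb₀.1 hb₀.2 (convex_ball _ _).isPreconnected
  have aψ : AnalyticOnNhd ℂ ψ (Strip r ∪ ball y₀ ρ) := hH.hol.analyticOnNhd oV
  have dψ : ∀ x : ℝ, deriv ψ x = (deriv p x : ℝ) := fun x => by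
    have d := (aψ x (Or.inl (st_re hr x))).differentiableAt.hasDerivAt.comp_ofReal
    rw [funext hH.eq] at d
    exact d.unique (hL.an x).differentiableAt.hasDerivAt.ofReal_comp
  have y0 : y₀ ∈ Strip r ∪ ball y₀ ρ := Or.inr (mem_ball_self hρ)
  have ne : ∀ᶠ w in 𝓝[≠] y₀, deriv ψ w ≠ 0 :=
    (aψ.deriv y₀ y0).eventually_eq_zero_or_eventually_ne_zero.resolve_left fun k => by
      have := aψ.deriv.eqOn_zero_of_preconnected_of_eventuallyEq_zero cV y0 k
        (Or.inl (st_re hr 0))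
      rw [dψ] at this
      exact (hL.pos 0).ne' (ofReal_eq_zero.1 this)
  have t : Tendsto (fun t : ℝ => y₀ + t) (𝓝[≠] 0) (𝓝[≠] y₀) := by simpa using tne 0 y₀
  obtain ⟨s, hs⟩ := (t.eventually (eventually_nhdsNE_eventually_nhds_iff.2 (ne.and
    (mem_nhdsWithin_of_mem_nhds (ball_mem_nhds y₀ hρ))))).exists
  obtain ⟨ε, ε0, hε⟩ := Metric.eventually_nhds_iff_ball.1 hs
  have y1 : (y₀ + s).im = r := by simp [hy]
  generalize y₀ + s = y₁ at hε y1
  have ρ0 := lt_min hr ε0
  have sub : ∀ z ∈ ball y₁ (min r ε), deriv ψ z ≠ 0 ∧ z ∈ ball y₀ ρ := fun z hz =>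
    hε z (ball_subset_ball (min_le_right _ _) hz)
  have off : ∀ x : ℝ, (x : ℂ) ∉ ball y₁ (min r ε) := fun x hx => by
    have k := abs_im_le_norm (y₁ - x)
    rw [mem_ball, dist_comm, dist_eq_norm] at hx
    simp only [sub_im, ofReal_im, sub_zero, y1, abs_of_pos hr] at k
    linarith [min_le_left r ε]
  obtain ⟨b, hb⟩ := st_ball hr ρ0 y1
  have key : ∀ (Y G : ℂ → ℂ) (f f' : ℝ → ℂ), MeromorphicOn Y (Strip r) →
      AnalyticOnNhd ℂ G (Strip r ∪ ball y₀ ρ) → (∀ x : ℝ, Y x = f x) →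
      (∀ x, HasDerivAt f (f' x) x) → (∀ x : ℝ, f' x * (deriv p x : ℝ) ^ 2 = G x) →
      ∃ Y', MeromorphicOn Y' (Strip r ∪ ball y₁ (min r ε)) ∧ ∀ x : ℝ, Y' x = f x := by
    intro Y G f f' mY aG eY df e
    obtain ⟨Y', k1, k2⟩ := ext1 (g := fun w => G w / deriv ψ w ^ 2) (st_open r) (st_conv r) mY hb
      (fun z hz => ((aG z (Or.inr (sub z hz).2)).div ((aψ.deriv z (Or.inr (sub z hz).2)).pow 2)
        (pow_ne_zero 2 (sub z hz).1)).differentiableAt.differentiableWithinAt) (by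
      filter_upwards [rel (q := fun w => deriv ψ w ^ 2) hr mY
        (fun z hz => (aψ.deriv z (Or.inl hz)).pow 2) (aG.mono subset_union_left) eY df
        (fun x => by rw [dψ, e]) hb.1,
        mem_nhdsWithin_of_mem_nhds (isOpen_ball.mem_nhds hb.2)] with w k1 k2
      rw [eq_div_iff (pow_ne_zero 2 (sub w k2).1), ← sub_eq_zero, k1])
    exact ⟨Y', k1, fun x => (k2 x (off x)).trans (eY x)⟩
  have db := fun x => (d_bdry hT (p x)).scomp x (hL.an x).differentiableAt.hasDerivAt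
  have ec := fun x => congrArg (fun t : ℝ => (t : ℂ)) (hL.eq x)
  obtain ⟨Z', z1, z2⟩ := key Z (fun w => c * I * exp (ψ w * I)) _ _ hM.mZ
    (fun z hz => by have := aψ z hz; fun_prop) hM.eZ db fun x => by
      have := ec x
      rw [hH.eq, real_smul]
      push_cast at this ⊢
      linear_combination I * exp (p x * I) * this
  obtain ⟨W', w1, w2⟩ := key W (fun w => -(c * I * exp (-(ψ w * I)))) _ _ hM.mW
    (fun z hz => by have := aψ z hz; fun_prop) hM.eW (fun x => (db x).star) fun x => by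
      have := ec x
      rw [hH.eq, real_smul]
      simp only [star_def, map_mul, conj_ofReal, conj_I, ← exp_conj, mul_neg]
      push_cast at this ⊢
      linear_combination -I * exp (-(p x * I)) * this
  exact ⟨Z', W', _, y₁, ρ0, y1, z1, w1, z2, w2⟩

end Vale.Agent.P097T
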