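import Vale.Agent.P097T.EndDefs
import Vale.Agent.P167.BVP.Flat

/-!
# P097T: boundary uniqueness and cluster sets on half discs
-/

set_option linter.all false

noncomputable section

namespace Vale.Agent.P097T

open Filter Topology Set Metric

theorem bu : Spec_BU := by
  intro f y ε hε hf hl
  classical
  obtain ⟨g, hg⟩ : ∃ g : ℂ → ℂ, g = fun z => if 0 < z.im then f (y - z) else 0 := ⟨_, rfl⟩
  have hop : IsOpen (ball y ε ∩ {z : ℂ | z.im < y.im}) :=
    isOpen_ball.inter (isOpen_lt Complex.continuous_im continuous_const)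
  have hmem : ∀ z ∈ ball ((0 : ℝ) : ℂ) ε, y - z ∈ ball y ε := by
    intro z hz
    simpa [mem_ball, dist_eq_norm] using hz
  have hd : ∀ z ∈ ball ((0 : ℝ) : ℂ) ε, 0 < z.im → DifferentiableAt ℂ g z := by
    intro z hz h0
    have h1 : DifferentiableAt ℂ f (y - z) :=
      hf.differentiableAt (hop.mem_nhds ⟨hmem z hz, by simp [h0]⟩)
    have h2 : DifferentiableAt ℂ (fun z => f (y - z)) z := h1.comp z (by fun_prop)
    refine h2.congr_of_eventuallyEq ?_
    filter_upwards [(isOpen_lt continuous_const Complex.continuous_im).mem_nhds h0] with u hu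
    rw [hg]
    exact if_pos hu
  have hc : ContinuousOn g (ball ((0 : ℝ) : ℂ) ε ∩ {z | 0 ≤ z.im}) := by
    rintro z ⟨hz, h0⟩
    rcases (show 0 ≤ z.im from h0).lt_or_eq with h | h
    · exact (hd z hz h).continuousAt.continuousWithinAt
    · have hg0 : g z = 0 := by
        rw [hg]; exact if_neg (by rw [← h]; exact lt_irrefl _)
      unfold ContinuousWithinAt
      rw [hg0, hg]
      refine Tendsto.if_nhdsWithin ?_ tendsto_const_nhds
      refine (hl (y - z) (hmem z hz) (by simp [← h])).comp ?_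
      refine tendsto_nhdsWithin_iff.2 ⟨?_, ?_⟩
      · exact ((continuous_const.sub continuous_id).tendsto z).mono_left nhdsWithin_le_nhds
      · filter_upwards [self_mem_nhdsWithin] with u hu
        have : 0 < u.im := hu.2
        simp [this]
  obtain ⟨G, hG, hGg, -⟩ := Vale.Agent.P167.BVP.schwarz hc hd (fun z _ h => by simp [hg, h])
  have hA : AnalyticOnNhd ℂ G (ball ((0 : ℝ) : ℂ) ε) := hG.analyticOnNhd isOpen_ball
  have ht : Tendsto (fun t : ℝ => (t : ℂ)) (𝓝[≠] 0) (𝓝[≠] ((0 : ℝ) : ℂ)) := by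
    refine tendsto_nhdsWithin_iff.2 ⟨(Complex.continuous_ofReal.tendsto 0).mono_left
      nhdsWithin_le_nhds, ?_⟩
    filter_upwards [self_mem_nhdsWithin] with t ht
    simpa using ht
  have hfr : ∃ᶠ z in 𝓝[≠] ((0 : ℝ) : ℂ), G z = 0 := by
    refine ht.frequently (Eventually.frequently ?_)
    have h1 : ∀ᶠ t : ℝ in 𝓝[≠] 0, (t : ℂ) ∈ ball ((0 : ℝ) : ℂ) ε :=
      (ht.mono_right nhdsWithin_le_nhds).eventually (ball_mem_nhds _ hε)
    filter_upwards [h1] with t h1
    rw [hGg t h1 (by simp), hg]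
    simp
  have hz := hA.eqOn_zero_of_preconnected_of_frequently_eq_zero (convex_ball _ _).isPreconnected
    (mem_ball_self hε) hfr
  intro z hz1 hz2
  have hm : y - z ∈ ball ((0 : ℝ) : ℂ) ε := by
    rw [mem_ball, dist_eq_norm] at hz1 ⊢
    rw [← norm_neg] at hz1
    simpa using hz1
  have hi : 0 < (y - z).im := by simp [hz2]
  have h1 := hz hm
  rw [hGg _ hm hi.le, hg] at h1
  simpa [hz2] using h1

namespace EndTop

/-- the lower half disc -/
def HD (y : ℂ) (δ : ℝ) : Set ℂ := ball y δ ∩ {u | u.im < y.im}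

/-- the approach from below -/
def Fl (y : ℂ) : Filter ℂ := 𝓝[{u | u.im < y.im}] y

theorem hd_open (y : ℂ) (δ : ℝ) : IsOpen (HD y δ) :=
  isOpen_ball.inter (isOpen_lt Complex.continuous_im continuous_const)

theorem hd_convex (y : ℂ) (δ : ℝ) : Convex ℝ (HD y δ) :=
  (convex_ball _ _).inter (convex_halfSpace_im_lt _)

theorem mem_fl {y : ℂ} {s : Set ℂ} : s ∈ Fl y ↔ ∃ δ > 0, HD y δ ⊆ s :=
  Metric.mem_nhdsWithin_iff

theorem hd_mem (y : ℂ) {δ : ℝ} (h : 0 < δ) : HD y δ ∈ Fl y := mem_fl.2 ⟨δ, h, Subset.rfl⟩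

theorem hd_mono (y : ℂ) {δ δ' : ℝ} (h : δ ≤ δ') : HD y δ ⊆ HD y δ' :=
  inter_subset_inter_left _ (ball_subset_ball h)

theorem hd_mem' {y z : ℂ} {δ : ℝ} (hz : z ∈ ball y δ) (hi : z.im = y.im) : HD y δ ∈ Fl z := by
  unfold Fl HD
  rw [hi]
  exact inter_mem (mem_nhdsWithin_of_mem_nhds (isOpen_ball.mem_nhds hz)) self_mem_nhdsWithin

theorem fl_neBot (y : ℂ) : (Fl y).NeBot := by
  refine mem_closure_iff_nhdsWithin_neBot.1 ?_
  rw [Complex.closure_setOf_im_lt]
  exact le_refl y.im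

theorem fl_le (y : ℂ) : Fl y ≤ 𝓝 y := nhdsWithin_le_nhds

theorem hd_sub_strip {y : ℂ} {R δ : ℝ} (hy : y.im = R) (hδ : δ ≤ R) : HD y δ ⊆ Strip R := by
  rintro u ⟨h1, h2⟩
  have h3 : |(u - y).im| ≤ ‖u - y‖ := Complex.abs_im_le_norm _
  rw [mem_ball, dist_eq_norm] at h1
  have h4 : u.im < y.im := h2
  rw [Complex.sub_im] at h3
  have := (abs_le.1 h3).1
  have := norm_nonneg (u - y)
  show |u.im| < R
  exact abs_lt.2 ⟨by linarith, by linarith⟩

theorem strip_open (R : ℝ) : IsOpen (Strip R) :=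
  isOpen_lt (continuous_abs.comp Complex.continuous_im) continuous_const

theorem strip_convex (R : ℝ) : Convex ℝ (Strip R) := by
  have : Strip R = {u : ℂ | -R < u.im} ∩ {u : ℂ | u.im < R} := by
    ext u; simp [Strip, abs_lt]
  rw [this]
  exact (convex_halfSpace_im_gt _).inter (convex_halfSpace_im_lt _)

/-- a countable set does not contain a half disc -/
theorem not_cnt {y : ℂ} {δ : ℝ} (hδ : 0 < δ) {T : Set ℂ} (hT : T.Countable) :
    ∃ u ∈ HD y δ, u ∉ T := by
  haveI := fl_neBot y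
  obtain ⟨u, h1, h2⟩ := (hT.dense_compl ℝ).exists_mem_open (hd_open y δ)
    (Filter.nonempty_of_mem (hd_mem y hδ))
  exact ⟨u, h2, h1⟩

/-- boundary uniqueness on half discs -/
theorem bu' {f : ℂ → ℂ} {y : ℂ} {δ : ℝ} (hδ : 0 < δ) (hf : DifferentiableOn ℂ f (HD y δ))
    (hl : ∀ z ∈ ball y δ, z.im = y.im → Tendsto f (Fl z) (𝓝 0)) : ∀ z ∈ HD y δ, f z = 0 := by
  intro z hz
  refine bu f y δ hδ hf (fun u hu hi => ?_) z hz.1 hz.2
  have := hl u hu hi
  unfold Fl at this
  rwa [hi] at this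

/-- a countable cluster set with a finite point is one point -/
theorem clus {f : ℂ → ℂ} {y l : ℂ} {δ : ℝ} (hδ : 0 < δ) (hf : ContinuousOn f (HD y δ))
    {T : Set ℂ} (hT : T.Countable) (hc : ∀ c, MapClusterPt c (Fl y) f → c ∈ T)
    (hl : MapClusterPt l (Fl y) f) : Tendsto f (Fl y) (𝓝 l) := by
  rw [Metric.tendsto_nhds]
  intro ε hε
  obtain ⟨t, ht, ht0, htε⟩ := ((hT.image (fun c => dist c l)).dense_compl ℝ).exists_mem_open
    isOpen_Ioo (nonempty_Ioo.2 hε)
  have h1 : ∀ᶠ u in Fl y, f u ∉ sphere l t := by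
    by_contra hcon
    obtain ⟨a, ha, hb⟩ := (isCompact_sphere l t).exists_mapClusterPt_of_frequently (l := Fl y)
      (f := f) (by simpa [not_eventually] using hcon)
    exact ht ⟨a, hc a hb, ha⟩
  obtain ⟨δ', hδ', hsub⟩ := mem_fl.1 (inter_mem h1 (hd_mem y hδ))
  have h2 : ∃ᶠ u in Fl y, f u ∈ ball l t :=
    mapClusterPt_iff_frequently.1 hl _ (ball_mem_nhds l ht0)
  obtain ⟨u₀, hu₀, hu₁⟩ := (h2.and_eventually (hd_mem y hδ')).exists
  filter_upwards [hd_mem y hδ'] with u hu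
  by_contra hcon
  have hcont : ContinuousOn (fun u => dist (f u) l) (HD y δ') :=
    (continuous_id.dist (continuous_const (y := l))).comp_continuousOn
      (hf.mono (fun u hu => (hsub hu).2))
  obtain ⟨v, hv, hvt⟩ := (hd_convex y δ').isPreconnected.intermediate_value hu₁ hu hcont
    (show t ∈ Icc (dist (f u₀) l) (dist (f u) l) from
      ⟨le_of_lt hu₀, by linarith [not_lt.1 hcon]⟩)
  exact (hsub hv).1 hvt

/-- a function with bounded derivative on a half disc has limits on the diameter -/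
theorem lim_of_bd {f : ℂ → ℂ} {y z : ℂ} {δ M : ℝ} (hf : DifferentiableOn ℂ f (HD y δ))
    (hM : ∀ u ∈ HD y δ, ‖deriv f u‖ ≤ M) (hz : z ∈ ball y δ) (hi : z.im = y.im) :
    ∃ l, Tendsto f (Fl z) (𝓝 l) := by
  haveI := fl_neBot z
  have hL : LipschitzOnWith M.toNNReal f (HD y δ) :=
    (hd_convex y δ).lipschitzOnWith_of_nnnorm_deriv_le
      (fun u hu => hf.differentiableAt ((hd_open y δ).mem_nhds hu))
      (fun u hu => by
        rw [← NNReal.coe_le_coe, coe_nnnorm]
        exact (hM u hu).trans (Real.le_coe_toNNReal M))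
  have hC : Cauchy (Fl z) := cauchy_nhds.mono (fl_le z)
  exact cauchy_map_iff_exists_tendsto.1
    (hC.map_of_le hL.uniformContinuousOn (le_principal_iff.2 (hd_mem' hz hi)))

/-- trapping: the derivative is bounded as long as the values are in a disc -/
theorem trap {f : ℂ → ℂ} {y a u₀ : ℂ} {δ e M : ℝ} (hf : DifferentiableOn ℂ f (HD y δ))
    (hM : ∀ u ∈ HD y δ, f u ∈ closedBall a (2 * e) → ‖deriv f u‖ ≤ M) (hM0 : 0 ≤ M)
    (hδ : M * (2 * δ) < e) (hu₀ : u₀ ∈ HD y δ) (h0 : f u₀ ∈ ball a e) :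
    ∀ u ∈ HD y δ, f u ∈ closedBall a (2 * e) := by
  intro u hu
  have hseg : ∀ t ∈ Icc (0 : ℝ) 1, u₀ + (t : ℂ) * (u - u₀) ∈ HD y δ := by
    intro t ht
    have := (hd_convex y δ).add_smul_sub_mem hu₀ hu ht
    simpa using this
  have hder : ∀ t ∈ Icc (0 : ℝ) 1, HasDerivAt (fun t : ℝ => f (u₀ + (t : ℂ) * (u - u₀)) - a)
      (deriv f (u₀ + (t : ℂ) * (u - u₀)) * (u - u₀)) t := by
    intro t ht
    have h1 := (hf.differentiableAt ((hd_open y δ).mem_nhds (hseg t ht))).hasDerivAt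
    have h2 : HasDerivAt (fun s : ℂ => u₀ + s * (u - u₀)) (u - u₀) (t : ℂ) := by
      simpa using ((hasDerivAt_id (t : ℂ)).mul_const (u - u₀)).const_add u₀
    exact ((h1.comp (t : ℂ) h2).sub_const a).comp_ofReal
  have hdist : ‖u - u₀‖ ≤ 2 * δ := by
    have h1 := hu.1
    have h2 := hu₀.1
    rw [mem_ball] at h1 h2
    have := dist_triangle_right u u₀ y
    rw [← dist_eq_norm]
    linarith
  have he : 0 < e := lt_of_le_of_lt dist_nonneg (mem_ball.1 h0)
  have key := image_norm_le_of_norm_deriv_right_lt_deriv_boundary (a := 0) (b := 1)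
    (f := fun t : ℝ => f (u₀ + (t : ℂ) * (u - u₀)) - a)
    (f' := fun t : ℝ => deriv f (u₀ + (t : ℂ) * (u - u₀)) * (u - u₀))
    (fun t ht => (hder t ht).continuousAt.continuousWithinAt)
    (fun t ht => (hder t (Ico_subset_Icc_self ht)).hasDerivWithinAt)
    (B := fun t => e + t * e) (B' := fun _ => e)
    (by
      have := mem_ball.1 h0
      rw [dist_eq_norm] at this
      simpa using this.le)
    (fun t => by simpa using ((hasDerivAt_id t).mul_const e).const_add e)
    (fun t ht hB => by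
      have h1 := hM _ (hseg t (Ico_subset_Icc_self ht)) (by
        rw [mem_closedBall, dist_eq_norm, hB]
        nlinarith [ht.2])
      rw [norm_mul]
      exact lt_of_le_of_lt (mul_le_mul h1 hdist (norm_nonneg _) hM0) hδ)
    (show (1 : ℝ) ∈ Icc (0 : ℝ) 1 from ⟨zero_le_one, le_rfl⟩)
  rw [mem_closedBall, dist_eq_norm]
  simp only [Complex.ofReal_one, one_mul, add_sub_cancel] at key
  linarith

end EndTop

end Vale.Agent.P097T
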