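import Vale.Agent.P097T.Core1

/-!
# P097T: the algebraic core of T3 (case D is automatic, pushing)
-/

set_option linter.all false

noncomputable section

namespace Vale.Agent.P097T

open Filter Polynomial

variable {A : Type} [Field A] [Algebra ℂ A]

namespace Chain

variable (C : Chain A)

/-- `r` is a reversal. -/
def Rev (r : A ≃ₐ[ℂ] A) : Prop :=
  (∀ j, r (C.a j) = C.a (-j)) ∧ (∀ j, r (C.b j) = C.b (-j)) ∧
    (∀ z, C.dx (r z) = r (C.dx z)) ∧ ∀ z, C.dw (r z) = -r (C.dw z)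

/-- Evenness of third points, the reversal may depend on the point. -/
def Ev' : Prop := ∀ X : A, C.Burg X → X = C.Xp ∨ X = C.Xm ∨ ∃ r, C.Rev r ∧ r X = X

theorem Ev.ev' {C : Chain A} (h : C.Ev) : C.Ev' := fun X hX =>
  (h X hX).imp_right fun h => h.imp_right fun h => ⟨C.ρ, ⟨C.ρ_a, C.ρ_b, C.ρ_dx, C.ρ_dw⟩, h⟩

/-- The same chain with another reversal. -/
def withRev (r : A ≃ₐ[ℂ] A) (h : C.Rev r) : Chain A :=
  { C with ρ := r, ρ_a := h.1, ρ_b := h.2.1, ρ_dx := h.2.2.1, ρ_dw := h.2.2.2 }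

/-- `τ` fixes the line `L j`. -/
def Fx (τ : A ≃ₐ[ℂ] A) (j : ℤ) : Prop := τ (C.a j) = C.a j ∧ τ (C.b j) = C.b j

theorem fix_K {τ : A ≃ₐ[ℂ] A} (hτ : C.Dif τ) {J : Set ℤ} (h : ∀ j ∈ J, C.Fx τ j) :
    ∀ z ∈ C.K J, τ z = z := by
  refine C.fix_dfield hτ ?_
  rintro _ (⟨j, hj, rfl⟩ | ⟨j, hj, rfl⟩)
  · exact (h j hj).1
  · exact (h j hj).2

theorem fix_Xp {τ : A ≃ₐ[ℂ] A} (h0 : C.Fx τ 0) (h1 : C.Fx τ 1) : τ C.Xp = C.Xp := by
  simp only [Xp, map_div₀, map_neg, map_sub, h0.1, h0.2, h1.1, h1.2]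

theorem fix_Xm {τ : A ≃ₐ[ℂ] A} (h0 : C.Fx τ 0) (h1 : C.Fx τ (-1)) : τ C.Xm = C.Xm := by
  simp only [Xm, map_div₀, map_neg, map_sub, h0.1, h0.2, h1.1, h1.2]

theorem ref_m (h : C.Ref) : C.a (-1) ∈ C.dfield {C.a 0, C.b 0, C.Xm} ∧
    C.b (-1) ∈ C.dfield {C.a 0, C.b 0, C.Xm} := by
  have k : ∀ z ∈ C.dfield {C.a 0, C.b 0, C.Xp}, C.ρ z ∈ C.dfield {C.a 0, C.b 0, C.Xm} := by
    refine C.map_dfield C.tri_ρ ?_ (C.dfield_closed _)
    rintro t (rfl | rfl | rfl)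
    · rw [C.ρ_a, neg_zero]
      exact C.sub_dfield _ (by simp)
    · rw [C.ρ_b, neg_zero]
      exact C.sub_dfield _ (by simp)
    · rw [C.ρ_Xp]
      exact C.sub_dfield _ (by simp)
  rw [← C.ρ_a 1, ← C.ρ_b 1]
  exact ⟨k _ h.1, k _ h.2⟩

theorem fx_one (h : C.Ref) {τ : A ≃ₐ[ℂ] A} (hτ : C.Dif τ) (h0 : C.Fx τ 0)
    (hX : τ C.Xp = C.Xp) : C.Fx τ 1 := by
  have k := C.fix_dfield hτ (T := {C.a 0, C.b 0, C.Xp}) (by
    rintro t (rfl | rfl | rfl)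
    exacts [h0.1, h0.2, hX])
  exact ⟨k _ h.1, k _ h.2⟩

theorem fx_neg_one (h : C.Ref) {τ : A ≃ₐ[ℂ] A} (hτ : C.Dif τ) (h0 : C.Fx τ 0)
    (hX : τ C.Xm = C.Xm) : C.Fx τ (-1) := by
  have k := C.fix_dfield hτ (T := {C.a 0, C.b 0, C.Xm}) (by
    rintro t (rfl | rfl | rfl)
    exacts [h0.1, h0.2, hX])
  exact ⟨k _ (C.ref_m h).1, k _ (C.ref_m h).2⟩

theorem fx_conj (τ : A ≃ₐ[ℂ] A) (s j : ℤ) :
    C.Fx (C.S ^ s * τ * C.S ^ (-s)) j ↔ C.Fx τ (j - s) := by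
  unfold Fx
  simp only [AlgEquiv.mul_apply]
  rw [(C.zpow_ab (-s) j).1, (C.zpow_ab (-s) j).2]
  have e1 : C.a j = (C.S ^ s) (C.a (j - s)) := by rw [(C.zpow_ab s _).1, sub_add_cancel]
  have e2 : C.b j = (C.S ^ s) (C.b (j - s)) := by rw [(C.zpow_ab s _).2, sub_add_cancel]
  rw [← sub_eq_add_neg]
  conv_lhs => rw [e1, e2]
  rw [(C.S ^ s).injective.eq_iff, (C.S ^ s).injective.eq_iff]

theorem fx_conjρ (τ : A ≃ₐ[ℂ] A) (j : ℤ) (h : C.Fx τ (-j)) : C.Fx (C.ρ * τ * C.ρ⁻¹) j := by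
  have ea : C.ρ⁻¹ (C.a j) = C.a (-j) := by
    have := C.ρ_a (-j)
    rw [neg_neg] at this
    rw [← this]
    exact C.ρ.symm_apply_apply _
  have eb : C.ρ⁻¹ (C.b j) = C.b (-j) := by
    have := C.ρ_b (-j)
    rw [neg_neg] at this
    rw [← this]
    exact C.ρ.symm_apply_apply _
  unfold Fx
  simp only [AlgEquiv.mul_apply]
  rw [ea, eb, h.1, h.2, C.ρ_a, C.ρ_b, neg_neg]
  exact ⟨rfl, rfl⟩

theorem ρ_K {J J' : Set ℤ} (h : ∀ j ∈ J, -j ∈ J') : ∀ z ∈ C.K J, C.ρ z ∈ C.K J' := by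
  refine C.map_dfield C.tri_ρ ?_ (C.K_closed _)
  rintro _ (⟨j, hj, rfl⟩ | ⟨j, hj, rfl⟩)
  · rw [C.ρ_a]
    exact C.a_mem (h j hj)
  · rw [C.ρ_b]
    exact C.b_mem (h j hj)

theorem zpow_K (s : ℤ) {J J' : Set ℤ} (h : ∀ j ∈ J, j + s ∈ J') :
    ∀ z ∈ C.K J, (C.S ^ s) z ∈ C.K J' := by
  refine C.map_dfield (C.tri_zpow s) ?_ (C.K_closed _)
  rintro _ (⟨j, hj, rfl⟩ | ⟨j, hj, rfl⟩)
  · rw [(C.zpow_ab s j).1]
    exact C.a_mem (h j hj)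
  · rw [(C.zpow_ab s j).2]
    exact C.b_mem (h j hj)

/-- Case (D) is automatic. -/
theorem caseD (hB : C.Burg C.Xp) (hR : C.Ref) (hF : C.FD) (hE : C.Ev') (hne : C.Xp ≠ C.Xm)
    {τ : A ≃ₐ[ℂ] A} (hτ : C.Dif τ) {m : ℤ} (hm : 1 < m) (h1 : ¬C.Fx τ 1)
    (h0 : ∀ j ≤ 0, C.Fx τ j) (hm' : C.Fx τ m) : C.Xm ∈ acl (C.K (Set.Ici 0)) := by
  have f0 := h0 0 le_rfl
  have n1 : τ C.Xp ≠ C.Xp := fun h => h1 (C.fx_one hR hτ f0 h)
  have n2 : τ C.Xp ≠ C.Xm := fun h => hne (τ.injective (by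
    rw [h, C.fix_Xm f0 (h0 _ (by norm_num))]))
  obtain ⟨r, hr, hX⟩ := ((hE _ (C.burg_dif hτ f0.1 f0.2 hB)).resolve_left n1).resolve_left n2
  have a1 : C.Xp ∈ acl (C.K {0, m}) := by
    have := hF 1 m one_pos hm
    have a0 : C.a 0 ∈ acl (C.K {0, m}) := le_acl _ (C.a_mem (by simp))
    have b0 : C.b 0 ∈ acl (C.K {0, m}) := le_acl _ (C.b_mem (by simp))
    exact div_mem (neg_mem (sub_mem (mem_acl.2 this.2) b0)) (sub_mem (mem_acl.2 this.1) a0)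
  have a2 : τ C.Xp ∈ acl (C.K {0, m}) := by
    refine acl_map τ (fun z hz => ?_) a1
    rw [C.fix_K hτ (J := {0, m}) (by
      rintro j (rfl | rfl)
      exacts [f0, hm']) z hz]
    exact hz
  have a3 : τ C.Xp ∈ acl (C.K (Set.Iic 0)) := by
    rw [← hX]
    refine acl_map r ((C.withRev r hr).ρ_K ?_) a2
    rintro j (rfl | rfl)
    · simp
    · simp only [Set.mem_Iic]
      omega
  have a4 : C.Xp ∈ acl (C.K (Set.Iic 0)) := by
    have := acl_map (F' := C.K (Set.Iic 0)) τ⁻¹ (fun z hz => by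
      have e := C.fix_K hτ (J := Set.Iic 0) h0 z hz
      have e' : τ⁻¹ z = z := by
        conv_lhs => rw [← e]
        exact τ.symm_apply_apply z
      rw [e']
      exact hz) a3
    have e : τ⁻¹ (τ C.Xp) = C.Xp := τ.symm_apply_apply _
    rwa [e] at this
  rw [← C.ρ_Xp]
  refine acl_map C.ρ (C.ρ_K fun j hj => ?_) a4
  simp only [Set.mem_Iic, Set.mem_Ici] at hj ⊢
  omega

theorem all_alg (hR : C.Ref) (hD : C.Xm ∈ acl (C.K (Set.Ici 0))) (n : ℕ) :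
    C.K (Set.Ici (-(n : ℤ))) ≤ acl (C.K (Set.Ici 0)) := by
  have one : C.K (Set.Ici (-1)) ≤ acl (C.K (Set.Ici 0)) := by
    have cl := C.acl_closed (C.K_closed (Set.Ici 0))
    have k : C.dfield {C.a 0, C.b 0, C.Xm} ≤ acl (C.K (Set.Ici 0)) := by
      refine C.dfield_le ?_ cl
      rintro t (rfl | rfl | rfl)
      · exact le_acl _ (C.a_mem (by simp))
      · exact le_acl _ (C.b_mem (by simp))
      · exact hD
    refine C.K_le (fun j hj => ?_) cl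
    rcases eq_or_lt_of_le (Set.mem_Ici.1 hj) with rfl | h
    · exact ⟨k (C.ref_m hR).1, k (C.ref_m hR).2⟩
    · have : j ∈ Set.Ici (0 : ℤ) := by
        simp only [Set.mem_Ici]
        omega
      exact ⟨le_acl _ (C.a_mem this), le_acl _ (C.b_mem this)⟩
  induction n with
  | zero => simpa using le_acl _
  | succ n ih =>
    refine C.K_le (fun j hj => ?_) (C.acl_closed (C.K_closed _))
    have hj' : j + n ∈ Set.Ici (-1 : ℤ) := by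
      simp only [Set.mem_Ici] at hj ⊢
      push_cast at hj
      omega
    have k : ∀ z ∈ acl (C.K (Set.Ici 0)), (C.S ^ (-(n : ℤ))) z ∈ acl (C.K (Set.Ici 0)) := by
      intro z hz
      refine acl_le ih (acl_map _ (C.zpow_K _ fun i hi => ?_) hz)
      simp only [Set.mem_Ici] at hi ⊢
      omega
    have ka := k _ (one (C.a_mem hj'))
    have kb := k _ (one (C.b_mem hj'))
    rw [(C.zpow_ab _ _).1, add_neg_cancel_right] at ka
    rw [(C.zpow_ab _ _).2, add_neg_cancel_right] at kb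
    exact ⟨ka, kb⟩

/-- A uniform window. -/
theorem window (hD : C.Xm ∈ acl (C.K (Set.Ici 0))) : ∃ n : ℕ, ∀ τ, C.Dif τ →
    (∀ j, 0 ≤ j → C.Fx τ j) → (∃ M : ℤ, ∀ j ≤ M, C.Fx τ j) →
    ∃ σ, C.Dif σ ∧ (∀ j, 0 ≤ j → C.Fx σ j) ∧ (∀ j ≤ -(n : ℤ) - 1, C.Fx σ j) ∧
      σ C.Xm = τ C.Xm := by
  classical
  obtain ⟨p, p0, hc, hr⟩ := (alg_iff _ _).1 (mem_acl.1 hD)
  let P : A → ℕ → Prop := fun Q n => ∃ σ, C.Dif σ ∧ (∀ j, 0 ≤ j → C.Fx σ j) ∧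
    (∀ j ≤ -(n : ℤ) - 1, C.Fx σ j) ∧ σ C.Xm = Q
  let f : A → ℕ := fun Q => if h : ∃ n, P Q n then h.choose else 0
  refine ⟨p.roots.toFinset.sup f, fun τ hτ h0 ⟨M, hM⟩ => ?_⟩
  have hP : ∃ n, P (τ C.Xm) n :=
    ⟨M.natAbs, τ, hτ, h0, fun j hj => hM j (by omega), rfl⟩
  have hm : τ C.Xm ∈ p.roots.toFinset := by
    rw [Multiset.mem_toFinset, mem_roots p0]
    have e : p.map (τ : A →+* A) = p := by
      ext i
      rw [coeff_map]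
      exact C.fix_K hτ (J := Set.Ici 0) h0 _ (hc i)
    have := hr.map (f := (τ : A →+* A))
    rwa [e] at this
  have hf : P (τ C.Xm) (f (τ C.Xm)) := by
    simp only [f, dif_pos hP]
    exact hP.choose_spec
  obtain ⟨σ, s1, s2, s3, s4⟩ := hf
  refine ⟨σ, s1, s2, fun j hj => s3 j ?_, s4⟩
  have : f (τ C.Xm) ≤ p.roots.toFinset.sup f := Finset.le_sup hm
  omega

/-- A configuration: `β` moves finitely many lines, `N` is the last index moved by `β⁻¹ ν β`. -/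
def Cfg (ν : A ≃ₐ[ℂ] A) (n : ℕ) (β : A ≃ₐ[ℂ] A) (N : ℤ) : Prop :=
  C.Dif β ∧ ¬C.Fx (β⁻¹ * ν * β) N ∧ (∀ j, N < j → C.Fx (β⁻¹ * ν * β) j) ∧
    (∃ M : ℤ, ∀ j ≤ M, C.Fx (β⁻¹ * ν * β) j) ∧ ∀ j, N + n ≤ j → C.Fx β j

theorem last_moved (τ : A ≃ₐ[ℂ] A) {c M : ℤ} (hc : ¬C.Fx τ c) (hM : ∀ j, M ≤ j → C.Fx τ j) :
    ∃ N, c ≤ N ∧ ¬C.Fx τ N ∧ ∀ j, N < j → C.Fx τ j := by
  obtain ⟨N, hN, hmax⟩ := Int.exists_greatest_of_bdd (P := fun j => ¬C.Fx τ j)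
    ⟨M, fun j hj => by
      by_contra h
      exact hj (hM j (by omega))⟩ ⟨c, hc⟩
  refine ⟨N, hmax c hc, hN, fun j hj => ?_⟩
  by_contra h
  have := hmax j h
  omega

theorem fx_conj_of {τ γ : A ≃ₐ[ℂ] A} {j : ℤ} (h1 : C.Fx γ j) (h2 : C.Fx τ j) :
    C.Fx (γ⁻¹ * τ * γ) j := by
  unfold Fx
  simp only [AlgEquiv.mul_apply]
  rw [h1.1, h1.2, h2.1, h2.2]
  constructor
  · conv_lhs => rw [← h1.1]
    exact γ.symm_apply_apply _
  · conv_lhs => rw [← h1.2]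
    exact γ.symm_apply_apply _

/-- The pushing step. -/
theorem push_step (hB : C.Burg C.Xp) (hR : C.Ref) (hE : C.Ev') (hne : C.Xp ≠ C.Xm)
    {ν : A ≃ₐ[ℂ] A} (hν : C.Dif ν) {n : ℕ} (hn : ∀ τ, C.Dif τ →
      (∀ j, 0 ≤ j → C.Fx τ j) → (∃ M : ℤ, ∀ j ≤ M, C.Fx τ j) →
      ∃ σ, C.Dif σ ∧ (∀ j, 0 ≤ j → C.Fx σ j) ∧ (∀ j ≤ -(n : ℤ) - 1, C.Fx σ j) ∧
        σ C.Xm = τ C.Xm)
    {β : A ≃ₐ[ℂ] A} {N : ℤ} (h : C.Cfg ν n β N) : ∃ β' N', N < N' ∧ C.Cfg ν n β' N' := by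
  obtain ⟨hβ, h1, h2, ⟨M, h3⟩, h4⟩ := h
  set τ := β⁻¹ * ν * β with hτd
  have hτ : C.Dif τ := (hβ.inv.mul hν).mul hβ
  set c : ℤ := N + 1 with hc
  set τc := C.S ^ (-c) * τ * C.S ^ (- -c) with hτc
  have dc : C.Dif τc := hτ.conjS (-c)
  have fc : ∀ j, C.Fx τc j ↔ C.Fx τ (j + c) := fun j => by
    rw [hτc, C.fx_conj, sub_neg_eq_add]
  have f0 : ∀ j, 0 ≤ j → C.Fx τc j := fun j hj => (fc j).2 (h2 _ (by omega))
  have n1 : τc C.Xm ≠ C.Xm := fun e => h1 (by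
    have := (fc _).1 (C.fx_neg_one hR dc (f0 0 le_rfl) e)
    rwa [show (-1 + c : ℤ) = N by omega] at this)
  have n2 : τc C.Xm ≠ C.Xp := fun e => hne (τc.injective (by
    rw [e, C.fix_Xp (f0 0 le_rfl) (f0 1 zero_le_one)]))
  have hBm : C.Burg C.Xm := by
    rw [← C.ρ_Xp]
    exact C.burg_ρ hB
  obtain ⟨r, hr, hX⟩ :=
    ((hE _ (C.burg_dif dc (f0 0 le_rfl).1 (f0 0 le_rfl).2 hBm)).resolve_left n2).resolve_left n1
  obtain ⟨σ, s1, s2, s3, s4⟩ := hn τc dc f0 ⟨M - c, fun j hj => (fc j).2 (h3 _ (by omega))⟩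
  set σ' := r * σ * r⁻¹ with hσ'
  have d' : C.Dif σ' := Dif.conjρ (C := C.withRev r hr) s1
  have g1 : ∀ j, (j ≤ 0 ∨ (n : ℤ) + 1 ≤ j) → C.Fx σ' j := by
    intro j hj
    refine (C.withRev r hr).fx_conjρ σ j ?_
    rcases hj with hj | hj
    · exact s2 _ (by omega)
    · exact s3 _ (by omega)
  have g2 : σ' C.Xp = τc C.Xm := by
    have e : r C.Xm = C.Xp := (C.withRev r hr).ρ_Xm
    have e' : r⁻¹ C.Xp = C.Xm := by
      rw [← e]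
      exact r.symm_apply_apply _
    simp only [hσ', AlgEquiv.mul_apply]
    rw [e', s4, hX]
  set γ := C.S ^ c * σ' * C.S ^ (-c) with hγ
  have dγ : C.Dif γ := d'.conjS c
  have g3 : ∀ j, (j ≤ c ∨ c + n + 1 ≤ j) → C.Fx γ j := fun j hj =>
    (C.fx_conj σ' c j).2 (g1 _ (by omega))
  have e1 : (β * γ)⁻¹ * ν * (β * γ) = γ⁻¹ * τ * γ := by
    rw [hτd]
    group
  have e2 : γ⁻¹ * τ * γ = C.S ^ c * (σ'⁻¹ * τc * σ') * C.S ^ (-c) := by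
    rw [hγ, hτc]
    group
  have m1 : ¬C.Fx (γ⁻¹ * τ * γ) (c + 1) := by
    rw [e2, C.fx_conj, show c + 1 - c = 1 by ring]
    intro k
    have k0 : C.Fx (σ'⁻¹ * τc * σ') 0 := C.fx_conj_of (g1 0 (Or.inl le_rfl)) (f0 0 le_rfl)
    have k1 := C.fix_Xp k0 k
    simp only [AlgEquiv.mul_apply] at k1
    have k2 : τc (σ' C.Xp) = σ' C.Xp := by
      conv_rhs => rw [← k1]
      exact (σ'.apply_symm_apply _).symm
    rw [g2] at k2
    exact n1 (τc.injective k2)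
  obtain ⟨N', l1, l2, l3⟩ := C.last_moved (γ⁻¹ * τ * γ) m1 (M := c + n + 1)
    (fun j hj => C.fx_conj_of (g3 j (Or.inr hj)) (h2 j (by omega)))
  refine ⟨β * γ, N', by omega, hβ.mul dγ, by rwa [e1], by rwa [e1], ⟨min M c, fun j hj => ?_⟩,
    fun j hj => ?_⟩
  · rw [e1]
    exact C.fx_conj_of (g3 j (Or.inl (by omega))) (h3 j (by omega))
  · have k1 := g3 j (Or.inr (by omega))
    have k2 := h4 j (by omega)
    unfold Fx
    simp only [AlgEquiv.mul_apply]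
    rw [k1.1, k1.2]
    exact k2

theorem fin_one {ν : A ≃ₐ[ℂ] A} (hν : C.Mono ν) {z : A} (hz : z ∈ acl (C.K (Set.Ici 0))) :
    ∀ᶠ s : ℤ in cofinite, ∀ β, C.Dif β → (∀ j, s ≤ j → C.Fx β j) →
      ν (β ((C.S ^ s) z)) = β ((C.S ^ s) z) := by
  haveI : CharZero A := charZero_of_injective_algebraMap (algebraMap ℂ A).injective
  have hi : IsIntegral (C.K (Set.Ici 0)) z := (mem_acl.1 hz).isIntegral
  set q := minpoly (C.K (Set.Ici 0)) z with hq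
  set p := q.map (algebraMap (C.K (Set.Ici 0)) A) with hp
  have hc : ∀ i, p.coeff i ∈ C.K (Set.Ici 0) := fun i => by
    rw [hp, coeff_map]
    exact (q.coeff i).2
  have hr : p.IsRoot z := by
    rw [IsRoot, hp, eval_map_algebraMap]
    exact minpoly.aeval _ z
  filter_upwards [hν.2.2 p ((minpoly.monic hi).map _) (minpoly.irreducible hi).separable.map
    (fun i => C.K_mono (Set.subset_univ _) (hc i))] with s hs β hβ hf
  refine hs _ ?_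
  have e : (p.map ((C.S ^ s : A ≃ₐ[ℂ] A) : A →+* A)).map (β : A →+* A) =
      p.map ((C.S ^ s : A ≃ₐ[ℂ] A) : A →+* A) := by
    ext i
    rw [coeff_map, coeff_map]
    refine C.fix_K hβ (J := Set.Ici s) hf _ (C.zpow_K s (J := Set.Ici 0) (fun j hj => ?_) _ (hc i))
    simp only [Set.mem_Ici] at hj ⊢
    omega
  have := (hr.map (f := ((C.S ^ s : A ≃ₐ[ℂ] A) : A →+* A))).map (f := (β : A →+* A))
  rwa [e] at this

theorem fin_fx {ν : A ≃ₐ[ℂ] A} (hν : C.Mono ν) : ∀ᶠ s : ℤ in cofinite, C.Fx ν s := by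
  filter_upwards [C.fin_one hν (le_acl _ (C.a_mem (j := 0) (by simp))),
    C.fin_one hν (le_acl _ (C.b_mem (j := 0) (by simp)))] with s h1 h2
  have k1 := h1 1 C.dif_one fun j _ => ⟨rfl, rfl⟩
  have k2 := h2 1 C.dif_one fun j _ => ⟨rfl, rfl⟩
  rw [(C.zpow_ab s 0).1, zero_add] at k1
  rw [(C.zpow_ab s 0).2, zero_add] at k2
  exact ⟨k1, k2⟩

theorem bdd {P : ℤ → Prop} (h : ∀ᶠ s : ℤ in cofinite, P s) :
    ∃ M : ℤ, ∀ s, (M ≤ s ∨ s ≤ -M) → P s := by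
  rw [Int.cofinite_eq, eventually_sup, eventually_atBot, eventually_atTop] at h
  obtain ⟨⟨M1, h1⟩, ⟨M2, h2⟩⟩ := h
  refine ⟨max (-M1) M2, fun s hs => ?_⟩
  rcases hs with hs | hs
  · exact h2 s (by omega)
  · exact h1 s (by omega)

theorem core' (hne : C.Xp ≠ C.Xm) (hB : C.Burg C.Xp) (hR : C.Ref) (hF : C.FD) (hE : C.Ev')
    (ν : A ≃ₐ[ℂ] A) : ¬C.Mono ν := by
  intro hν
  obtain ⟨M, hM⟩ := bdd (C.fin_fx hν)
  have h0 : ¬C.Fx ν 0 := fun h => hν.2.1.elim (fun k => k h.1) fun k => k h.2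
  obtain ⟨i, hi, hmin⟩ := Int.exists_least_of_bdd (P := fun j => ¬C.Fx ν j)
    ⟨-M, fun j hj => by
      by_contra h
      exact hj (hM j (Or.inr (by omega)))⟩ ⟨0, h0⟩
  have hiM : i < M := by
    by_contra h
    exact hi (hM i (Or.inl (by omega)))
  have hD : C.Xm ∈ acl (C.K (Set.Ici 0)) := by
    refine C.caseD hB hR hF hE hne (hν.1.conjS (1 - i)) (m := M + 1 - i) (by omega) ?_ ?_ ?_
    · rw [C.fx_conj]
      rwa [show 1 - (1 - i) = i by ring]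
    · intro j hj
      rw [C.fx_conj]
      by_contra h
      have := hmin _ h
      omega
    · rw [C.fx_conj]
      exact hM _ (Or.inl (by omega))
  obtain ⟨n, hn⟩ := C.window hD
  have e1 : (1 : A ≃ₐ[ℂ] A)⁻¹ * ν * 1 = ν := by group
  obtain ⟨N0, -, l2, l3⟩ := C.last_moved ν h0 (M := M) fun j hj => hM j (Or.inl hj)
  have c0 : C.Cfg ν n 1 N0 := ⟨C.dif_one, by rwa [e1], by rwa [e1],
    ⟨-M, fun j hj => by
      rw [e1]
      exact hM j (Or.inr hj)⟩, fun j _ => ⟨rfl, rfl⟩⟩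
  have all : ∀ k : ℕ, ∃ β N, N0 + k ≤ N ∧ C.Cfg ν n β N := by
    intro k
    induction k with
    | zero => exact ⟨1, N0, by simp, c0⟩
    | succ k ih =>
      obtain ⟨β, N, h1, h2⟩ := ih
      obtain ⟨β', N', h3, h4⟩ := C.push_step hB hR hE hne hν.1 hn h2
      exact ⟨β', N', by push_cast; omega, h4⟩
  have hj : (-(n : ℤ)) ∈ Set.Ici (-(n : ℤ)) := Set.mem_Ici.2 le_rfl
  obtain ⟨M', hM'⟩ := bdd ((C.fin_one hν (C.all_alg hR hD n (C.a_mem hj))).and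
    (C.fin_one hν (C.all_alg hR hD n (C.b_mem hj))))
  obtain ⟨β, N, h1, h2⟩ := all (M' - N0).natAbs
  obtain ⟨k1, k2⟩ := hM' (N + n) (Or.inl (by omega))
  have k3 := k1 β h2.1 h2.2.2.2.2
  have k4 := k2 β h2.1 h2.2.2.2.2
  rw [(C.zpow_ab _ _).1, show -(n : ℤ) + (N + n) = N by ring] at k3
  rw [(C.zpow_ab _ _).2, show -(n : ℤ) + (N + n) = N by ring] at k4
  refine h2.2.1 ⟨?_, ?_⟩
  · simp only [AlgEquiv.mul_apply]
    rw [k3]
    exact β.symm_apply_apply _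
  · simp only [AlgEquiv.mul_apply]
    rw [k4]
    exact β.symm_apply_apply _

end Chain

/-- The algebraic core, the reversal in the evenness hypothesis may depend on the point. -/
def Spec_CORE' : Prop := ∀ (A : Type) [Field A] [Algebra ℂ A] (C : Chain A),
  C.Xp ≠ C.Xm → C.Burg C.Xp → C.Ref → C.FD → C.Ev' → ∀ ν, ¬C.Mono ν

theorem core' : Spec_CORE' := fun A _ _ C h1 h2 h3 h4 h5 ν => C.core' h1 h2 h3 h4 h5 ν

theorem core : Spec_CORE := fun A _ _ C h1 h2 h3 h4 h5 ν => C.core' h1 h2 h3 h4 h5.ev' ν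

end Vale.Agent.P097T
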