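import Vale.Agent.P097T.CoreDefs

/-!
# P097T: differential subfields, algebraic closures, automorphisms
-/

set_option linter.all false

noncomputable section

namespace Vale.Agent.P097T

open Filter Polynomial

theorem alg_iff {k A : Type} [Field k] [Field A] [Algebra k A] (F : IntermediateField k A) (z : A) :
    IsAlgebraic F z ↔ ∃ p : A[X], p ≠ 0 ∧ (∀ i, p.coeff i ∈ F) ∧ p.IsRoot z := by
  constructor
  · rintro ⟨p, p0, hp⟩
    refine ⟨p.map (algebraMap F A), Polynomial.map_ne_zero p0, fun i => ?_, ?_⟩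
    · rw [coeff_map]
      exact (p.coeff i).2
    · rw [IsRoot, eval_map_algebraMap]
      exact hp
  · rintro ⟨p, p0, hc, hz⟩
    have hl : p ∈ Polynomial.lifts (algebraMap F A) := by
      rw [lifts_iff_coeff_lifts]
      intro n
      exact ⟨⟨p.coeff n, hc n⟩, rfl⟩
    obtain ⟨q, hq⟩ := (mem_lifts p).1 hl
    refine ⟨q, ?_, ?_⟩
    · rintro rfl
      exact p0 (by rw [← hq, Polynomial.map_zero])
    · rw [← eval_map_algebraMap, hq]
      exact hz

variable {A : Type} [Field A] [Algebra ℂ A]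

/-- The elements which are algebraic over `F`. -/
def acl (F : IntermediateField ℂ A) : IntermediateField ℂ A :=
  (algebraicClosure F A).restrictScalars ℂ

theorem mem_acl {F : IntermediateField ℂ A} {z : A} : z ∈ acl F ↔ IsAlgebraic F z := by
  rw [acl, IntermediateField.mem_restrictScalars, mem_algebraicClosure_iff]

theorem le_acl (F : IntermediateField ℂ A) : F ≤ acl F := fun z hz =>
  mem_acl.2 (isAlgebraic_algebraMap (⟨z, hz⟩ : F))

theorem acl_map {F F' : IntermediateField ℂ A} (σ : A ≃ₐ[ℂ] A) (h : ∀ z ∈ F, σ z ∈ F') {z : A}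
    (hz : z ∈ acl F) : σ z ∈ acl F' := by
  rw [mem_acl, alg_iff] at hz ⊢
  obtain ⟨p, p0, hc, hr⟩ := hz
  refine ⟨p.map (σ : A →+* A), Polynomial.map_ne_zero p0, fun i => ?_, ?_⟩
  · rw [coeff_map]
    exact h _ (hc i)
  · have := hr.map (f := (σ : A →+* A))
    exact this

theorem acl_mono {F F' : IntermediateField ℂ A} (h : F ≤ F') : acl F ≤ acl F' := fun z hz =>
  acl_map (1 : A ≃ₐ[ℂ] A) (fun y hy => h hy) hz

theorem acl_le {F F' : IntermediateField ℂ A} (h : F ≤ acl F') : acl F ≤ acl F' := by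
  intro z hz
  have h1 : z ∈ acl (acl F') := acl_mono h hz
  rw [mem_acl, alg_iff] at h1
  have h2 : IsAlgebraic (algebraicClosure F' A) z := (alg_iff _ z).2 h1
  rw [mem_acl]
  exact (isIntegral_trans z h2.isIntegral).isAlgebraic

theorem der_acl (D : Derivation ℂ A A) {F : IntermediateField ℂ A} (h : ∀ z ∈ F, D z ∈ F) {z : A}
    (hz : z ∈ acl F) : D z ∈ acl F := by
  haveI : CharZero A := charZero_of_injective_algebraMap (algebraMap ℂ A).injective
  have hi : IsIntegral F z := (mem_acl.1 hz).isIntegral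
  set p := minpoly F z with hp
  have hs : p.Separable := (minpoly.irreducible hi).separable
  have h0 : aeval z p = 0 := minpoly.aeval F z
  have h1 : aeval z (derivative p) ≠ 0 := hs.aeval_derivative_ne_zero h0
  have h2 : ∀ q : F[X], aeval z q ∈ acl F := by
    intro q
    rw [aeval_eq_sum_range]
    refine sum_mem fun i _ => ?_
    rw [Algebra.smul_def]
    exact mul_mem (le_acl F (q.coeff i).2) (pow_mem hz _)
  have h3 : ∀ q : F[X], D (aeval z q) - aeval z (derivative q) * D z ∈ acl F := by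
    intro q
    induction q using Polynomial.induction_on' with
    | add q r hq hr =>
      have := add_mem hq hr
      convert this using 1
      simp only [map_add]
      ring
    | monomial n c =>
      have e : D (aeval z (monomial n c)) - aeval z (derivative (monomial n c)) * D z =
          D (c : A) * z ^ n := by
        rw [derivative_monomial, aeval_monomial, aeval_monomial, Derivation.leibniz,
          Derivation.leibniz_pow]
        simp only [smul_eq_mul, nsmul_eq_mul, map_mul, map_natCast]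
        have : algebraMap F A c = (c : A) := rfl
        rw [this]
        ring
      rw [e]
      exact mul_mem (le_acl F (h _ c.2)) (pow_mem hz _)
  have h4 := h3 p
  rw [h0, map_zero, zero_sub] at h4
  have h5 : D z = -(-(aeval z (derivative p) * D z)) / aeval z (derivative p) := by
    field_simp
  rw [h5]
  exact div_mem (neg_mem h4) (h2 _)

namespace Chain

variable (C : Chain A)

theorem sub_dfield (T : Set A) : T ⊆ C.dfield T := fun z hz => by
  have : z ∈ C.dfield T := by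
    rw [dfield, IntermediateField.mem_sInf]
    exact fun F hF => hF.1 hz
  exact this

theorem dfield_le {T : Set A} {F : IntermediateField ℂ A} (h1 : T ⊆ F)
    (h2 : ∀ z ∈ F, C.dx z ∈ F ∧ C.dw z ∈ F) : C.dfield T ≤ F := sInf_le ⟨h1, h2⟩

theorem dfield_closed (T : Set A) :
    ∀ z ∈ C.dfield T, C.dx z ∈ C.dfield T ∧ C.dw z ∈ C.dfield T := by
  intro z hz
  simp only [dfield, IntermediateField.mem_sInf] at hz ⊢
  exact ⟨fun F hF => (hF.2 z (hz F hF)).1, fun F hF => (hF.2 z (hz F hF)).2⟩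

theorem dfield_mono {T T' : Set A} (h : T ⊆ T') : C.dfield T ≤ C.dfield T' :=
  C.dfield_le (h.trans (C.sub_dfield T')) (C.dfield_closed T')

theorem K_mono {J J' : Set ℤ} (h : J ⊆ J') : C.K J ≤ C.K J' :=
  C.dfield_mono (Set.union_subset_union (Set.image_mono h) (Set.image_mono h))

theorem a_mem {J : Set ℤ} {j : ℤ} (h : j ∈ J) : C.a j ∈ C.K J :=
  C.sub_dfield _ (Or.inl ⟨j, h, rfl⟩)

theorem b_mem {J : Set ℤ} {j : ℤ} (h : j ∈ J) : C.b j ∈ C.K J :=
  C.sub_dfield _ (Or.inr ⟨j, h, rfl⟩)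

theorem K_closed (J : Set ℤ) : ∀ z ∈ C.K J, C.dx z ∈ C.K J ∧ C.dw z ∈ C.K J :=
  C.dfield_closed _

theorem K_le {J : Set ℤ} {F : IntermediateField ℂ A} (h1 : ∀ j ∈ J, C.a j ∈ F ∧ C.b j ∈ F)
    (h2 : ∀ z ∈ F, C.dx z ∈ F ∧ C.dw z ∈ F) : C.K J ≤ F := by
  refine C.dfield_le ?_ h2
  rintro _ (⟨j, hj, rfl⟩ | ⟨j, hj, rfl⟩)
  · exact (h1 j hj).1
  · exact (h1 j hj).2

theorem acl_closed {F : IntermediateField ℂ A} (h : ∀ z ∈ F, C.dx z ∈ F ∧ C.dw z ∈ F) :
    ∀ z ∈ acl F, C.dx z ∈ acl F ∧ C.dw z ∈ acl F := fun z hz =>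
  ⟨der_acl C.dx (fun y hy => (h y hy).1) hz, der_acl C.dw (fun y hy => (h y hy).2) hz⟩

theorem fix_dfield {τ : A ≃ₐ[ℂ] A} (hτ : C.Dif τ) {T : Set A} (hT : ∀ t ∈ T, τ t = t) :
    ∀ z ∈ C.dfield T, τ z = z := by
  let F : IntermediateField ℂ A :=
    (AlgHom.equalizer (τ : A →ₐ[ℂ] A) (AlgHom.id ℂ A)).toIntermediateField (by
      intro x hx
      have hx' : τ x = x := hx
      show τ x⁻¹ = x⁻¹
      rw [map_inv₀, hx'])
  have hF : ∀ z, z ∈ F ↔ τ z = z := fun z => Iff.rfl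
  have : C.dfield T ≤ F := by
    refine C.dfield_le (fun t ht => (hF t).2 (hT t ht)) fun z hz => ?_
    rw [hF] at hz
    rw [hF, hF, ← (hτ z).1, ← (hτ z).2, hz]
    exact ⟨rfl, rfl⟩
  exact fun z hz => (hF z).1 (this hz)

/-- `σ` acts on the derivations by a constant triangular matrix. -/
def Tri (σ : A ≃ₐ[ℂ] A) : Prop :=
  ∃ c d : ℂ, ∀ z, σ (C.dx z) = C.dx (σ z) ∧ σ (C.dw z) = c • C.dw (σ z) + d • C.dx (σ z)

theorem map_dfield {σ : A ≃ₐ[ℂ] A} (hσ : C.Tri σ) {T : Set A} {F : IntermediateField ℂ A}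
    (hT : ∀ t ∈ T, σ t ∈ F) (hF : ∀ z ∈ F, C.dx z ∈ F ∧ C.dw z ∈ F) :
    ∀ z ∈ C.dfield T, σ z ∈ F := by
  obtain ⟨c, d, h⟩ := hσ
  have : C.dfield T ≤ F.comap (σ : A →ₐ[ℂ] A) := by
    refine C.dfield_le (fun t ht => hT t ht) fun z hz => ?_
    have hz' : σ z ∈ F := hz
    constructor
    · show σ (C.dx z) ∈ F
      rw [(h z).1]
      exact (hF _ hz').1
    · show σ (C.dw z) ∈ F
      rw [(h z).2]
      exact add_mem (F.smul_mem (hF _ hz').2) (F.smul_mem (hF _ hz').1)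
  exact fun z hz => this hz

theorem Sinv_a (j : ℤ) : C.S⁻¹ (C.a j) = C.a (j - 1) := by
  have := C.S_a (j - 1)
  rw [sub_add_cancel] at this
  rw [← this]
  exact C.S.symm_apply_apply _

theorem Sinv_b (j : ℤ) : C.S⁻¹ (C.b j) = C.b (j - 1) := by
  have := C.S_b (j - 1)
  rw [sub_add_cancel] at this
  rw [← this]
  exact C.S.symm_apply_apply _

theorem zpow_ab (s : ℤ) : ∀ j, (C.S ^ s) (C.a j) = C.a (j + s) ∧ (C.S ^ s) (C.b j) = C.b (j + s) := by
  induction s using Int.induction_on with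
  | zero => intro j; simp
  | succ n ih =>
    intro j
    rw [zpow_add_one, AlgEquiv.mul_apply, AlgEquiv.mul_apply, C.S_a, C.S_b, (ih _).1, (ih _).2]
    constructor <;> congr 1 <;> ring
  | pred n ih =>
    intro j
    rw [zpow_sub_one, AlgEquiv.mul_apply, AlgEquiv.mul_apply, C.Sinv_a, C.Sinv_b, (ih _).1,
      (ih _).2]
    constructor <;> congr 1 <;> ring

theorem zpow_d (s : ℤ) : ∀ z, C.dx ((C.S ^ s) z) = (C.S ^ s) (C.dx z) ∧
    C.dw ((C.S ^ s) z) = (C.S ^ s) (C.dw z) + (s : ℂ) • (C.S ^ s) (C.dx z) := by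
  have i1 : ∀ z, C.dx (C.S⁻¹ z) = C.S⁻¹ (C.dx z) := by
    intro z
    obtain ⟨y, rfl⟩ := C.S.surjective z
    rw [C.S_dx]
    show C.dx (C.S.symm _) = C.S.symm _
    rw [C.S.symm_apply_apply, C.S.symm_apply_apply]
  have i2 : ∀ z, C.dw (C.S⁻¹ z) = C.S⁻¹ (C.dw z) - C.S⁻¹ (C.dx z) := by
    intro z
    obtain ⟨y, rfl⟩ := C.S.surjective z
    rw [C.S_dx, C.S_dw]
    show C.dw (C.S.symm _) = C.S.symm _ - C.S.symm _
    rw [map_add, C.S.symm_apply_apply, C.S.symm_apply_apply, C.S.symm_apply_apply]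
    ring
  induction s using Int.induction_on with
  | zero => intro z; simp
  | succ n ih =>
    intro z
    simp only [zpow_add_one, AlgEquiv.mul_apply]
    rw [(ih _).1, (ih _).2, C.S_dx, C.S_dw, map_add]
    refine ⟨rfl, ?_⟩
    push_cast
    rw [add_smul, one_smul]
    ring
  | pred n ih =>
    intro z
    simp only [zpow_sub_one, AlgEquiv.mul_apply]
    rw [(ih _).1, (ih _).2, i1, i2, map_sub]
    refine ⟨rfl, ?_⟩
    push_cast
    rw [sub_smul, one_smul]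
    ring

theorem tri_zpow (s : ℤ) : C.Tri (C.S ^ s) := by
  refine ⟨1, -s, fun z => ⟨(C.zpow_d s z).1.symm, ?_⟩⟩
  rw [(C.zpow_d s z).2, (C.zpow_d s z).1, one_smul, neg_smul]
  ring

theorem tri_ρ : C.Tri C.ρ := by
  refine ⟨-1, 0, fun z => ⟨(C.ρ_dx z).symm, ?_⟩⟩
  rw [C.ρ_dw]
  simp

theorem dif_one : C.Dif 1 := fun z => ⟨rfl, rfl⟩

theorem Dif.mul {C : Chain A} {σ τ : A ≃ₐ[ℂ] A} (hσ : C.Dif σ) (hτ : C.Dif τ) : C.Dif (σ * τ) := by
  intro z
  simp only [AlgEquiv.mul_apply]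
  rw [(hσ _).1, (hσ _).2, (hτ _).1, (hτ _).2]
  exact ⟨rfl, rfl⟩

theorem Dif.inv {C : Chain A} {σ : A ≃ₐ[ℂ] A} (hσ : C.Dif σ) : C.Dif σ⁻¹ := by
  intro z
  obtain ⟨y, rfl⟩ := σ.surjective z
  rw [(hσ y).1, (hσ y).2]
  show C.dx (σ.symm _) = σ.symm _ ∧ C.dw (σ.symm _) = σ.symm _
  simp only [σ.symm_apply_apply, and_self]

theorem Dif.conjS {C : Chain A} {τ : A ≃ₐ[ℂ] A} (hτ : C.Dif τ) (s : ℤ) :
    C.Dif (C.S ^ s * τ * C.S ^ (-s)) := by
  intro z
  simp only [AlgEquiv.mul_apply]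
  rw [(C.zpow_d s _).1, (C.zpow_d s _).2, (hτ _).1, (hτ _).2, (C.zpow_d (-s) _).1,
    (C.zpow_d (-s) _).2]
  refine ⟨rfl, ?_⟩
  simp only [map_add, map_smul]
  push_cast
  rw [neg_smul]
  ring

theorem Dif.conjρ {C : Chain A} {τ : A ≃ₐ[ℂ] A} (hτ : C.Dif τ) : C.Dif (C.ρ * τ * C.ρ⁻¹) := by
  intro z
  obtain ⟨y, rfl⟩ := C.ρ.surjective z
  have e : ∀ y, C.ρ⁻¹ (C.ρ y) = y := fun y => C.ρ.symm_apply_apply y
  simp only [AlgEquiv.mul_apply]
  rw [e, C.ρ_dx, C.ρ_dw, C.ρ_dx, C.ρ_dw, (hτ _).1, (hτ _).2, e, map_neg, e, map_neg, map_neg]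
  exact ⟨rfl, rfl⟩

theorem ρ_Xm : C.ρ C.Xm = C.Xp := by
  simp only [Xm, Xp, map_div₀, map_neg, map_sub, C.ρ_a, C.ρ_b, neg_neg, neg_zero]

theorem ρ_Xp : C.ρ C.Xp = C.Xm := by
  simp only [Xm, Xp, map_div₀, map_neg, map_sub, C.ρ_a, C.ρ_b, neg_neg, neg_zero]

theorem burg_ρ {X : A} (h : C.Burg X) : C.Burg (C.ρ X) := by
  have ea : C.ρ (C.a 0) = C.a 0 := by rw [C.ρ_a, neg_zero]
  have eb : C.ρ (C.b 0) = C.b 0 := by rw [C.ρ_b, neg_zero]
  have h1 := congrArg C.ρ h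
  simp only [map_mul, map_add] at h1
  unfold Burg
  rw [← ea, ← eb, C.ρ_dx, C.ρ_dx, C.ρ_dx, C.ρ_dw, C.ρ_dw, C.ρ_dw]
  linear_combination -h1

theorem burg_dif {τ : A ≃ₐ[ℂ] A} (hτ : C.Dif τ) (ha : τ (C.a 0) = C.a 0) (hb : τ (C.b 0) = C.b 0)
    {X : A} (h : C.Burg X) : C.Burg (τ X) := by
  have h1 := congrArg τ h
  simp only [map_mul, map_add] at h1
  unfold Burg
  rw [← ha, ← hb, (hτ _).1, (hτ _).1, (hτ _).1, (hτ _).2, (hτ _).2, (hτ _).2]
  exact h1

end Chain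

end Vale.Agent.P097T
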