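import Mathlib

/-!
# P097T: the differential-algebraic core of T3 (definitions)

`A` is a field of functions of `(x, w)`, `a j`, `b j` are the coordinates of the line
`L j : Y = a j * X + b j`, `L j (x, w) = L (x + j w, w)`, `S` is the shift `x ↦ x + w`,
`ρ` is the reversal `w ↦ -w`.
-/

set_option linter.all false

noncomputable section

namespace Vale.Agent.P097T

open Filter Polynomial

/-- A field with two derivations, a chain of lines, a shift and a reversal. -/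
structure Chain (A : Type) [Field A] [Algebra ℂ A] where
  dx : Derivation ℂ A A
  dw : Derivation ℂ A A
  a : ℤ → A
  b : ℤ → A
  S : A ≃ₐ[ℂ] A
  ρ : A ≃ₐ[ℂ] A
  S_a : ∀ j, S (a j) = a (j + 1)
  S_b : ∀ j, S (b j) = b (j + 1)
  ρ_a : ∀ j, ρ (a j) = a (-j)
  ρ_b : ∀ j, ρ (b j) = b (-j)
  S_dx : ∀ z, dx (S z) = S (dx z)
  S_dw : ∀ z, dw (S z) = S (dw z) + S (dx z)
  ρ_dx : ∀ z, dx (ρ z) = ρ (dx z)
  ρ_dw : ∀ z, dw (ρ z) = -ρ (dw z)

namespace Chain

variable {A : Type} [Field A] [Algebra ℂ A] (C : Chain A)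

/-- The least subfield which contains `ℂ` and `T` and is closed under both derivations. -/
def dfield (T : Set A) : IntermediateField ℂ A :=
  sInf {F | T ⊆ F ∧ ∀ z ∈ F, C.dx z ∈ F ∧ C.dw z ∈ F}

/-- The differential field of the lines `L j`, `j ∈ J`. -/
def K (J : Set ℤ) : IntermediateField ℂ A := C.dfield (C.a '' J ∪ C.b '' J)

/-- The abscissa of the forward vertex on `L 0`. -/
def Xp : A := -(C.b 1 - C.b 0) / (C.a 1 - C.a 0)

/-- The abscissa of the backward vertex on `L 0`. -/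
def Xm : A := -(C.b (-1) - C.b 0) / (C.a (-1) - C.a 0)

/-- The point of `L 0` with abscissa `X` moves on a curve. -/
def Burg (X : A) : Prop :=
  C.dx X * (X * C.dw (C.a 0) + C.dw (C.b 0)) = C.dw X * (X * C.dx (C.a 0) + C.dx (C.b 0))

/-- `τ` commutes with both derivations. -/
def Dif (τ : A ≃ₐ[ℂ] A) : Prop := ∀ z, C.dx (τ z) = τ (C.dx z) ∧ C.dw (τ z) = τ (C.dw z)

/-- The reflected line is a differential rational function of the line and the vertex. -/
def Ref : Prop :=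
  C.a 1 ∈ C.dfield {C.a 0, C.b 0, C.Xp} ∧ C.b 1 ∈ C.dfield {C.a 0, C.b 0, C.Xp}

/-- Finite determinacy. -/
def FD : Prop := ∀ i m : ℤ, 0 < i → i < m →
  IsAlgebraic (C.K {0, m}) (C.a i) ∧ IsAlgebraic (C.K {0, m}) (C.b i)

/-- Evenness of third points. -/
def Ev : Prop := ∀ X : A, C.Burg X → X = C.Xp ∨ X = C.Xm ∨ C.ρ X = X

/-- A monodromy with finite range. -/
def Mono (ν : A ≃ₐ[ℂ] A) : Prop :=
  C.Dif ν ∧ (ν (C.a 0) ≠ C.a 0 ∨ ν (C.b 0) ≠ C.b 0) ∧
    ∀ p : A[X], p.Monic → p.Separable → (∀ i, p.coeff i ∈ C.K Set.univ) →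
      ∀ᶠ s : ℤ in cofinite, ∀ r : A, (p.map ((C.S ^ s : A ≃ₐ[ℂ] A) : A →+* A)).IsRoot r → ν r = r

end Chain

/-- The algebraic core: there is no monodromy with finite range. -/
def Spec_CORE : Prop := ∀ (A : Type) [Field A] [Algebra ℂ A] (C : Chain A),
  C.Xp ≠ C.Xm → C.Burg C.Xp → C.Ref → C.FD → C.Ev → ∀ ν, ¬C.Mono ν

end Vale.Agent.P097T
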