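import Vale.Agent.P097T.EndDefs
import Vale.Agent.P097A.All

/-!
# P097T: basic facts on meromorphic continuations of the boundary in the Lazutkin parameter
-/

set_option linter.all false

noncomputable section

namespace Vale.Agent.P097T

open Filter Topology Set Metric Complex Vale.Agent.P097 Vale.Agent.P097A

namespace EB

theorem strip_open (r : ℝ) : IsOpen (Strip r) :=
  isOpen_lt (continuous_abs.comp continuous_im) continuous_const

theorem strip_convex (r : ℝ) : Convex ℝ (Strip r) := by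
  have : Strip r = {z : ℂ | -r < z.im} ∩ {z : ℂ | z.im < r} := by
    ext z
    simp [Strip, abs_lt]
  rw [this]
  exact (convex_halfSpace_im_gt _).inter (convex_halfSpace_im_lt _)

theorem real_mem {r : ℝ} (hr : 0 < r) (x : ℝ) : (x : ℂ) ∈ Strip r := by simpa [Strip] using hr

/-- the identity theorem for meromorphic functions -/
theorem mer_id {f g : ℂ → ℂ} {V : Set ℂ} {x : ℂ} (hf : MeromorphicOn f V) (hg : MeromorphicOn g V)
    (hV : IsPreconnected V) (hx : x ∈ V) (h : ∃ᶠ z in 𝓝[≠] x, f z = g z) :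
    ∀ y ∈ V, f =ᶠ[𝓝[≠] y] g := by
  intro y hy
  by_contra k
  have k1 : meromorphicOrderAt (f - g) y ≠ ⊤ := fun m => k
    ((meromorphicOrderAt_eq_top_iff.1 m).mono fun z hz => sub_eq_zero.1 hz)
  refine (hf.sub hg).meromorphicOrderAt_ne_top_of_isPreconnected hV hy hx k1
    (meromorphicOrderAt_eq_top_iff.2 ?_)
  exact (((hf x hx).frequently_eq_iff_eventuallyEq (hg x hx)).1 h).mono fun z hz => sub_eq_zero.2 hz

theorem freq_real {q : ℂ → Prop} {x : ℝ} (h : ∀ᶠ t : ℝ in 𝓝 x, q t) : ∃ᶠ z in 𝓝[≠] (x : ℂ), q z :=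
  (Ell.tendNE x).frequently (Eventually.frequently (h.filter_mono nhdsWithin_le_nhds))

/-- analytic functions on a connected set which agree on the real line -/
theorem an_id {f g : ℂ → ℂ} {V : Set ℂ} (hf : AnalyticOnNhd ℂ f V) (hg : AnalyticOnNhd ℂ g V)
    (hV : IsPreconnected V) {x : ℝ} (hx : (x : ℂ) ∈ V) (h : ∀ᶠ t : ℝ in 𝓝 x, f t = g t) :
    EqOn f g V :=
  hf.eqOn_of_preconnected_of_frequently_eq hg hV hx (freq_real (q := fun z => f z = g z) h)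

theorem evn {p : ℂ → Prop} {y : ℂ} (h : ∀ᶠ τ in 𝓝[≠] y, p τ) :
    ∀ᶠ τ in 𝓝[≠] y, ∀ᶠ z in 𝓝 τ, p z := by
  filter_upwards [eventually_eventually_nhdsWithin.mpr h, self_mem_nhdsWithin] with τ h1 h2
  rwa [nhdsWithin_eq_nhds.mpr (isOpen_compl_singleton.mem_nhds h2)] at h1

/-- the function which is constant in the Lazutkin parameter -/
def La (Z W : ℂ → ℂ) (τ : ℂ) : ℂ := om Z W τ ^ 4 * (deriv Z τ * deriv W τ)

/-- the real form of `GG` -/
def gR (h : ℝ → ℝ) (ψ : ℝ) : ℝ :=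
  1 / (h ψ + deriv (deriv h) ψ) ^ 2 *
    (1 - deriv (fun y => deriv (fun y => h y + deriv (deriv h) y) y /
      (h y + deriv (deriv h) y)) ψ / 6 + (deriv (fun y => h y + deriv (deriv h) y) ψ /
      (h ψ + deriv (deriv h) ψ)) ^ 2 / 9) ^ 3

theorem gR_per {h : ℝ → ℝ} (hT : IsTable h) (ψ : ℝ) : gR h (ψ + 2 * Real.pi) = gR h ψ := by
  have d : ∀ f : ℝ → ℝ, (∀ x, f (x + 2 * Real.pi) = f x) →
      ∀ x, deriv f (x + 2 * Real.pi) = deriv f x := fun f hf x => by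
    rw [← deriv_comp_add_const]
    congr 1
    exact funext hf
  have h0 := hT.2.1
  have h1 : ∀ x, h (x + 2 * Real.pi) + deriv (deriv h) (x + 2 * Real.pi) =
      h x + deriv (deriv h) x := fun x => by rw [h0, d _ (d _ h0)]
  have h2 := d (fun y => h y + deriv (deriv h) y) h1
  have h3 := d (fun y => deriv (fun y => h y + deriv (deriv h) y) y / (h y + deriv (deriv h) y))
    fun x => by rw [h1, h2]
  simp only [gR]
  rw [h1, h2, h3]

theorem mer_om {Z W : ℂ → ℂ} {y : ℂ} (hZ : MeromorphicAt Z y) (hW : MeromorphicAt W y) :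
    MeromorphicAt (om Z W) y :=
  (hZ.deriv.deriv.div hZ.deriv).sub (hW.deriv.deriv.div hW.deriv)

theorem mer_La {Z W : ℂ → ℂ} {y : ℂ} (hZ : MeromorphicAt Z y) (hW : MeromorphicAt W y) :
    MeromorphicAt (La Z W) y :=
  ((mer_om hZ hW).pow 4).mul (hZ.deriv.mul hW.deriv)

theorem mer_GG {Z W : ℂ → ℂ} {y : ℂ} (hZ : MeromorphicAt Z y) (hW : MeromorphicAt W y) :
    MeromorphicAt (GG Z W) y := by
  have o := mer_om hZ hW
  have k : MeromorphicAt (KK Z W) y := (o.pow 2).div (hZ.deriv.mul hW.deriv)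
  have l : MeromorphicAt (ell Z W) y := k.deriv.div (((MeromorphicAt.const 3 y).mul k).mul o)
  exact k.mul ((((MeromorphicAt.const 1 y).sub (l.deriv.div o)).sub (l.pow 2)).pow 3)

theorem reg_of_La {Z W : ℂ → ℂ} {y : ℂ} (hZ : AnalyticAt ℂ Z y) (hW : AnalyticAt ℂ W y)
    (h : La Z W y ≠ 0) : Reg Z W y := by
  have h1 : om Z W y ≠ 0 := fun k => h (by simp [La, k])
  have h2 : deriv Z y ≠ 0 := fun k => h (by simp [La, k])
  have h3 : deriv W y ≠ 0 := fun k => h (by simp [La, k])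
  refine ⟨hZ, hW, h2, h3, fun k => h1 ?_⟩
  rw [om, div_sub_div _ _ h2 h3, div_eq_zero_iff]
  left
  linear_combination -k

theorem La_comp {Z W B : ℂ → ℂ} {x : ℂ} (hB : AnalyticAt ℂ B x) (hB' : deriv B x ≠ 0)
    (h : Reg Z W (B x)) : La (Z ∘ B) (W ∘ B) x = deriv B x ^ 6 * La Z W (B x) := by
  simp only [La]
  rw [GFun.om_comp hB hB' h, deriv_comp x h.anZ.differentiableAt hB.differentiableAt,
    deriv_comp x h.anW.differentiableAt hB.differentiableAt]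
  ring

theorem La_congr {Z W Z' W' : ℂ → ℂ} {x : ℂ} (hZ : Z =ᶠ[𝓝 x] Z') (hW : W =ᶠ[𝓝 x] W') :
    La Z W x = La Z' W' x := by
  simp only [La]
  rw [(GFun.om_congr hZ hW).self_of_nhds, hZ.deriv_eq, hW.deriv_eq]

variable {h p : ℝ → ℝ} {c : ℝ} {Z W : ℂ → ℂ} {V : Set ℂ}

/-- the local form at a real point -/
theorem loc (hT : IsTable h) (hL : Laz h p c) (E : MerExt h p Z W V) {x : ℝ} (hx : (x : ℂ) ∈ V) :
    ∃ H P : ℂ → ℂ, Ell.Ext H h (p x) ∧ Ell.Ext P p x ∧ Z =ᶠ[𝓝 (x : ℂ)] Zc H ∘ P ∧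
      W =ᶠ[𝓝 (x : ℂ)] Wc H ∘ P := by
  obtain ⟨H, Ha, eH⟩ := zw.2.1 h (p x) (hT.1 _)
  obtain ⟨P, Pa, eP⟩ := zw.2.1 p x (hL.an _)
  have P0 : P x = p x := eP.self_of_nhds
  have k := ((hL.an x).continuousAt.tendsto.eventually (Bridge.ev_rl hT Ha eH)).and eP
  have aZ : AnalyticAt ℂ (Zc H ∘ P) x := (Bridge.an_Z Ha).comp_of_eq Pa P0
  have aW : AnalyticAt ℂ (Wc H ∘ P) x := (Bridge.an_W Ha).comp_of_eq Pa P0
  have k1 : ∀ᶠ t : ℝ in 𝓝 x, Z t = (Zc H ∘ P) t := k.mono fun t ht => by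
    rw [E.eZ, Function.comp_apply, ht.2, ht.1.2.1]
  have k2 : ∀ᶠ t : ℝ in 𝓝 x, W t = (Wc H ∘ P) t := k.mono fun t ht => by
    rw [E.eW, Function.comp_apply, ht.2, ht.1.2.2]
  exact ⟨H, P, ⟨Ha, hT.1 _, eH⟩, ⟨Pa, hL.an _, eP⟩,
    eventuallyEq_nhds_of_eventuallyEq_nhdsNE (((E.mZ x hx).frequently_eq_iff_eventuallyEq
      aZ.meromorphicAt).1 (freq_real (q := fun z => Z z = (Zc H ∘ P) z) k1)) k1.self_of_nhds,
    eventuallyEq_nhds_of_eventuallyEq_nhdsNE (((E.mW x hx).frequently_eq_iff_eventuallyEq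
      aW.meromorphicAt).1 (freq_real (q := fun z => W z = (Wc H ∘ P) z) k2)) k2.self_of_nhds⟩

theorem c_pos (hT : IsTable h) (hL : Laz h p c) : 0 < c :=
  hL.eq 0 ▸ mul_pos (hT.2.2 _) (pow_pos (hL.pos 0) 3)

/-- the data at a real point -/
theorem real_pt (hT : IsTable h) (hL : Laz h p c) (E : MerExt h p Z W V) {x : ℝ}
    (hx : (x : ℂ) ∈ V) : Reg Z W x ∧ (H402.IntBd h → IntAt Z W x) ∧
      om Z W x = 2 * I * (deriv p x : ℝ) ∧ La Z W x = 16 * (c : ℂ) ^ 2 ∧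
      GG Z W x = ((-4 * gR h (p x) : ℝ) : ℂ) := by
  obtain ⟨H, P, eH, eP, e1, e2⟩ := loc hT hL E hx
  have P0 : P x = p x := eP.eq.self_of_nhds
  have P1 : deriv P x = (deriv p x : ℝ) := eP.deriv.eq.self_of_nhds
  have P2 : deriv P x ≠ 0 := by
    rw [P1]
    exact ofReal_ne_zero.2 (hL.pos x).ne'
  have hr : Ell.Ext (Ell.rc H) (fun y => h y + deriv (deriv h) y) (p x) := eH.add eH.deriv.deriv
  have hm : Ell.Ext (Ell.lm H) _ (p x) := hr.deriv.div hr (hT.2.2 _).ne'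
  have r0 := hr.eq.self_of_nhds
  have hO : Ell.Ok H (P x) := by
    rw [P0]
    exact ⟨eH.aF, by rw [r0]; exact_mod_cast (hT.2.2 _).ne'⟩
  have R0 : Reg (Zc H) (Wc H) (P x) := Ell.reg hO.1 hO.2
  obtain ⟨k1, k2⟩ := law'.2.2.2.2 (Zc H) (Wc H) P x eP.aF P2 R0.anZ R0.anW
  obtain ⟨k3, k4⟩ := law'.2.1 _ _ _ _ (x : ℂ) e1.symm e2.symm
  have o1 : om Z W x = 2 * I * (deriv p x : ℝ) := by
    rw [(GFun.om_congr e1 e2).self_of_nhds, GFun.om_comp eP.aF P2 R0, hO.om, P1, mul_comm]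
  refine ⟨k3 (k1.1 R0), fun hI => k4 (k2.1 (by rw [P0]; exact br' h H _ hT hI eH.aF eH.eq)), o1,
    ?_, ?_⟩
  · rw [La_congr e1 e2, La_comp eP.aF P2 R0, La, hO.om, Ell.dZ hO.1, Ell.dW hO.1, P1, P0, r0,
      ← hL.eq x]
    have := Ell.EE (p x)
    push_cast
    generalize ((deriv p x : ℝ) : ℂ) = u
    generalize ((h (p x) : ℝ) : ℂ) + ((deriv (deriv h) (p x) : ℝ) : ℂ) = v
    linear_combination (16 * u ^ 6 * v ^ 2 * (-I ^ 6)) * this +
      (16 * u ^ 6 * v ^ 2 * (-I ^ 4 + I ^ 2 - 1)) * I_mul_I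
  · rw [(GFun.GG_congr e1 e2).self_of_nhds, GFun.GG_comp eP.aF P2 R0, hO.GG, P0, r0,
      hm.eq.self_of_nhds, hm.deriv.eq.self_of_nhds, gR]
    push_cast
    ring

/-- the invariant is constant, so all points are regular off a discrete set -/
theorem ev_reg (hT : IsTable h) (hL : Laz h p c) (E : MerExt h p Z W V) (hV : IsPreconnected V)
    (hR : ∀ x : ℝ, (x : ℂ) ∈ V) :
    ∀ y ∈ V, ∀ᶠ z in 𝓝[≠] y, Reg Z W z ∧ La Z W z = 16 * (c : ℂ) ^ 2 := by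
  intro y hy
  have k := mer_id (f := La Z W) (g := fun _ => 16 * (c : ℂ) ^ 2)
    (fun z hz => mer_La (E.mZ z hz) (E.mW z hz)) (MeromorphicOn.const _) hV (hR 0)
    (freq_real (q := fun z => La Z W z = 16 * (c : ℂ) ^ 2)
      (.of_forall fun t => (real_pt hT hL E (hR t)).2.2.2.1)) y hy
  filter_upwards [k, (E.mZ y hy).eventually_analyticAt, (E.mW y hy).eventually_analyticAt]
    with z k1 k2 k3
  refine ⟨reg_of_La k2 k3 ?_, k1⟩
  rw [k1]
  exact mul_ne_zero (by norm_num) (pow_ne_zero _ (ofReal_ne_zero.2 (c_pos hT hL).ne'))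

/-- integrability spreads -/
theorem spread (hV : IsOpen V) (hc : IsPreconnected V) (hR : ∀ y ∈ V, ∀ᶠ z in 𝓝[≠] y, Reg Z W z)
    {x : ℂ} (hx : x ∈ V) (h1 : Reg Z W x) (h2 : IntAt Z W x) :
    ∀ y ∈ V, ∀ᶠ z in 𝓝[≠] y, IntAt Z W z := by
  intro z hz
  have pr : ∀ D, IsOpen D → IsPreconnected D → (∀ y ∈ D, Reg Z W y) →
      (∃ y ∈ D, IntAt Z W y) → ∀ y ∈ D, IntAt Z W y :=
    fun D k2 k3 k4 ⟨y, k5, k6⟩ => prop' _ D k2 k3 (fun x hx => (law'.1 _ _ _ (k4 x hx)).1) y k5 k6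
  refine hc.induction₂' (fun x y => (∀ᶠ τ in 𝓝[≠] x, IntAt Z W τ) →
    ∀ᶠ τ in 𝓝[≠] y, IntAt Z W τ) (fun x hx => ?_) (fun _ _ _ _ _ _ a b c => b (a c)) hx hz ?_
  · obtain ⟨r, r0, hr⟩ := Metric.eventually_nhds_iff_ball.1 (eventually_nhdsWithin_iff.1 (hR x hx))
    have m1 : ∀ y ∈ ball x r, ∀ᶠ τ in 𝓝[≠] y, τ ∈ ball x r \ {x} := fun y hy => by
      refine Eventually.and (nhdsWithin_le_nhds (isOpen_ball.mem_nhds hy)) ?_
      rcases eq_or_ne y x with rfl | k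
      exacts [self_mem_nhdsWithin, nhdsWithin_le_nhds (eventually_ne_nhds k)]
    have m2 : ∀ y ∈ ball x r, ∀ y' ∈ ball x r, (∀ᶠ τ in 𝓝[≠] y, IntAt Z W τ) →
        ∀ᶠ τ in 𝓝[≠] y', IntAt Z W τ := fun y hy y' hy' k =>
      (m1 y' hy').mono (pr _ (isOpen_ball.sdiff isClosed_singleton)
        (pb x r) (fun τ k => hr τ k.1 k.2) ((m1 y hy).and k).exists)
    exact nhdsWithin_le_nhds (mem_of_superset (ball_mem_nhds x r0) fun y hy =>
      ⟨m2 x (mem_ball_self r0) y hy, m2 y hy x (mem_ball_self r0)⟩)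
  · obtain ⟨r, r0, hr⟩ := Metric.eventually_nhds_iff_ball.1 (law'.1 _ _ _ h1).2
    exact nhdsWithin_le_nhds (mem_of_superset (ball_mem_nhds _ r0)
      (pr _ isOpen_ball (convex_ball _ _).isPreconnected hr ⟨_, mem_ball_self r0, h2⟩))

theorem tend_add (y : ℂ) : Tendsto (fun τ => y + τ) (𝓝[≠] 0) (𝓝[≠] y) :=
  tendsto_nhdsWithin_iff.2
    ⟨(Continuous.tendsto' (by fun_prop) _ _ (add_zero y)).mono_left nhdsWithin_le_nhds,
      eventually_mem_nhdsWithin.mono fun τ k m => k (by simpa using m)⟩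

theorem tend_sub (y : ℂ) : Tendsto (fun z => z - y) (𝓝[≠] y) (𝓝[≠] 0) :=
  tendsto_nhdsWithin_iff.2
    ⟨(Continuous.tendsto' (f := fun z => z - y) (by fun_prop) _ _ (sub_self y)).mono_left nhdsWithin_le_nhds,
      eventually_mem_nhdsWithin.mono fun τ k m => k (sub_eq_zero.1 m)⟩

/-- translation of a place to the origin -/
theorem shift {y : ℂ} (hZ : MeromorphicAt Z y) (hW : MeromorphicAt W y)
    (hR : ∀ᶠ z in 𝓝[≠] y, Reg Z W z ∧ IntAt Z W z) :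
    MeromorphicAt (Z ∘ fun τ => y + τ) 0 ∧ MeromorphicAt (W ∘ fun τ => y + τ) 0 ∧
    ∀ᶠ τ in 𝓝[≠] 0, (Reg (Z ∘ fun τ => y + τ) (W ∘ fun τ => y + τ) τ ∧
      IntAt (Z ∘ fun τ => y + τ) (W ∘ fun τ => y + τ) τ) ∧
      GG (Z ∘ fun τ => y + τ) (W ∘ fun τ => y + τ) τ = GG Z W (y + τ) ∧
      La (Z ∘ fun τ => y + τ) (W ∘ fun τ => y + τ) τ = La Z W (y + τ) ∧
      om (Z ∘ fun τ => y + τ) (W ∘ fun τ => y + τ) τ = om Z W (y + τ) := by
  have aB : ∀ τ, AnalyticAt ℂ (fun τ => y + τ) τ := fun τ => by fun_prop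
  have dB : ∀ τ, deriv (fun τ => y + τ) τ = 1 := fun τ => by simp
  refine ⟨MeromorphicAt.comp_analyticAt (by simpa using hZ) (aB 0),
    MeromorphicAt.comp_analyticAt (by simpa using hW) (aB 0), ?_⟩
  filter_upwards [(tend_add y).eventually hR] with τ k
  have d : deriv (fun τ => y + τ) τ ≠ 0 := by rw [dB]; exact one_ne_zero
  obtain ⟨k1, k2⟩ := law'.2.2.2.2 Z W _ τ (aB τ) d k.1.anZ k.1.anW
  exact ⟨⟨k1.1 k.1, k2.1 k.2⟩, GFun.GG_comp (aB τ) d k.1,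
    by rw [La_comp (aB τ) d k.1, dB, one_pow, one_mul], by rw [GFun.om_comp (aB τ) d k.1, dB, one_mul]⟩

end EB

end Vale.Agent.P097T
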