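import Vale.Agent.P097A.SpecR

/-!
# P097T: the endgame of T3 (definitions and statements of the steps)

`p` is the normal angle as a function of the Lazutkin parameter, `ψ` a holomorphic extension of `p`,
`Z`, `W` meromorphic extensions of the boundary point and of its conjugate.
-/

set_option linter.all false

noncomputable section

namespace Vale.Agent.P097T

open Filter Topology Set Metric Vale.Agent.P097 Vale.Agent.P097A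

/-- The horizontal strip of half width `r`. -/
def Strip (r : ℝ) : Set ℂ := {y | |y.im| < r}

/-- `p` is the normal angle as a function of the Lazutkin parameter (period `1`). -/
structure Laz (h p : ℝ → ℝ) (c : ℝ) : Prop where
  an : ∀ x, AnalyticAt ℝ p x
  per : ∀ x, p (x + 1) = p x + 2 * Real.pi
  pos : ∀ x, 0 < deriv p x
  eq : ∀ x, (h (p x) + deriv (deriv h) (p x)) * deriv p x ^ 3 = c

/-- The normal form of `H402.IntBd`. -/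
def NForm (h : ℝ → ℝ) (ε η : ℝ) (Φ J : ℝ × ℝ → ℝ × ℝ) : Prop :=
  0 < ε ∧ 0 < η ∧
    AnalyticOnNhd ℝ Φ {q | |q.2| < ε} ∧ AnalyticOnNhd ℝ J {p | |p.2| < η} ∧
    (∀ p : ℝ × ℝ, |p.2| < η → |(J p).2| < ε ∧ Φ (J p) = p) ∧
    (∀ q : ℝ × ℝ, |q.2| < ε → J (Φ q) = q) ∧
    (∀ x w : ℝ, |w| < ε → Φ (x + 1, w) = ((Φ (x, w)).1 + 2 * Real.pi, (Φ (x, w)).2)) ∧
    (∀ x w : ℝ, |w| < ε → Φ (x, -w) = ((Φ (x, w)).1, -(Φ (x, w)).2)) ∧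
    (∀ x w : ℝ, 0 < w → w < ε →
      Step h (Φ (x, w)).1 (Φ (x, w)).2 (Φ (x + w, w)).1 (Φ (x + w, w)).2)

/-- `Z`, `W` continue the boundary point and its conjugate meromorphically to `V`. -/
structure MerExt (h p : ℝ → ℝ) (Z W : ℂ → ℂ) (V : Set ℂ) : Prop where
  mZ : MeromorphicOn Z V
  mW : MeromorphicOn W V
  eZ : ∀ x : ℝ, Z x = bdry h (p x)
  eW : ∀ x : ℝ, W x = (starRingEnd ℂ) (bdry h (p x))

/-- `ψ` continues `p` holomorphically to `V`. -/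
structure HolExt (p : ℝ → ℝ) (ψ : ℂ → ℂ) (V : Set ℂ) : Prop where
  hol : DifferentiableOn ℂ ψ V
  eq : ∀ x : ℝ, ψ x = (p x : ℝ)

/-- The coefficients of an algebraic differential equation, holomorphic off a countable set. -/
structure Ode (S : Set ℂ) (D : ℕ) (b : ℕ → ℂ → ℂ) : Prop where
  cnt : S.Countable
  cl : IsClosed S
  hol : ∀ k, DifferentiableOn ℂ (b k) Sᶜ
  ne : ∃ k ≤ D, ∃ z, z ∉ S ∧ b k z ≠ 0

/-- The left side of the equation. -/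
def odeP (D : ℕ) (b : ℕ → ℂ → ℂ) (q : ℂ × ℂ) : ℂ := ∑ k ∈ Finset.range (D + 1), b k q.1 * q.2 ^ k

/-- Its derivative in the second variable. -/
def odeD (D : ℕ) (b : ℕ → ℂ → ℂ) (q : ℂ × ℂ) : ℂ :=
  ∑ k ∈ Finset.range D, ((k : ℂ) + 1) * b (k + 1) q.1 * q.2 ^ k

/-- `ψ` solves the equation on `V`. -/
def Sol (S : Set ℂ) (D : ℕ) (b : ℕ → ℂ → ℂ) (ψ : ℂ → ℂ) (V : Set ℂ) : Prop :=
  ∀ y ∈ V, ψ y ∉ S → odeP D b (ψ y, deriv ψ y) = 0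

/-- the theorem T3: a regular point on the top line -/
def Spec_T3 : Prop := ∀ (h : ℝ → ℝ) (ε η : ℝ) (Φ J : ℝ × ℝ → ℝ × ℝ) (Z W : ℂ → ℂ) (r ρ : ℝ) (y₀ : ℂ),
  IsTable h → H402.IntBd h → NForm h ε η Φ J → 0 < r → 0 < ρ → y₀.im = r →
  MerExt h (fun x => (Φ (x, 0)).1) Z W (Strip r ∪ ball y₀ ρ) →
  H407.IsEllipse h ∨ ∃ (r' : ℝ) (Z' W' : ℂ → ℂ), r < r' ∧
    MerExt h (fun x => (Φ (x, 0)).1) Z' W' (Strip r')

/-- the boundary of the normal form is the Lazutkin parametrisation -/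
def Spec_LAZ : Prop := ∀ (h : ℝ → ℝ) (ε η : ℝ) (Φ J : ℝ × ℝ → ℝ × ℝ), IsTable h →
  NForm h ε η Φ J → ∃ c, Laz h (fun x => (Φ (x, 0)).1) c

/-- the Lazutkin parametrisation is unique up to a shift -/
def Spec_LAZU : Prop := ∀ (h p q : ℝ → ℝ) (c d : ℝ), IsTable h → Laz h p c → Laz h q d →
  ∃ a : ℝ, ∀ x, q x = p (x + a)

/-- there is a first strip -/
def Spec_INI : Prop := ∀ (h p : ℝ → ℝ) (c : ℝ), IsTable h → Laz h p c →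
  ∃ (r : ℝ) (Z W : ℂ → ℂ), 0 < r ∧ MerExt h p Z W (Strip r)

/-- gluing of the extensions to an increasing family of strips -/
def Spec_GLUE : Prop :=
  (∀ (h p : ℝ → ℝ) (c R : ℝ), IsTable h → Laz h p c → 0 < R →
    (∀ r, 0 < r → r < R → ∃ Z W, MerExt h p Z W (Strip r)) → ∃ Z W, MerExt h p Z W (Strip R)) ∧
  (∀ (p : ℝ → ℝ), (∀ r, 0 < r → ∃ ψ, HolExt p ψ (Strip r)) → ∃ ψ, HolExt p ψ univ)

/-- an isotropic tangency in the strip gives an ellipse -/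
def Spec_N0 : Prop := ∀ (h p : ℝ → ℝ) (c r : ℝ) (Z W : ℂ → ℂ), IsTable h → H402.IntBd h →
  Laz h p c → 0 < r → MerExt h p Z W (Strip r) →
  H407.IsEllipse h ∨ ∃ ψ, HolExt p ψ (Strip r)

/-- where the normal angle continues with non-zero derivative the boundary point continues -/
def Spec_LINK : Prop := ∀ (h p : ℝ → ℝ) (c r ρ : ℝ) (Z W ψ : ℂ → ℂ) (y₀ : ℂ), IsTable h →
  Laz h p c → 0 < r → 0 < ρ → y₀.im = r → MerExt h p Z W (Strip r) →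
  HolExt p ψ (Strip r ∪ ball y₀ ρ) →
  ∃ (Z' W' : ℂ → ℂ) (ρ' : ℝ) (y₁ : ℂ), 0 < ρ' ∧ y₁.im = r ∧ MerExt h p Z' W' (Strip r ∪ ball y₁ ρ')

/-- boundary uniqueness -/
def Spec_BU : Prop := ∀ (f : ℂ → ℂ) (y : ℂ) (ε : ℝ), 0 < ε →
  DifferentiableOn ℂ f (ball y ε ∩ {z | z.im < y.im}) →
  (∀ z ∈ ball y ε, z.im = y.im → Tendsto f (𝓝[{u | u.im < y.im}] z) (𝓝 0)) →
  ∀ z ∈ ball y ε, z.im < y.im → f z = 0

/-- reduction to an equation of minimal degree -/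
def Spec_RED : Prop := ∀ (S : Set ℂ) (D : ℕ) (b : ℕ → ℂ → ℂ) (ψ : ℂ → ℂ) (V : Set ℂ), Ode S D b →
  IsOpen V → IsPreconnected V → DifferentiableOn ℂ ψ V → (∃ y ∈ V, deriv ψ y ≠ 0) →
  Sol S D b ψ V →
  ∃ (D' : ℕ) (b' : ℕ → ℂ → ℂ), Ode S D' b' ∧ Sol S D' b' ψ V ∧ {z | z ∉ S ∧ b' D' z = 0}.Countable ∧
    {y | y ∈ V ∧ ψ y ∉ S ∧ odeD D' b' (ψ y, deriv ψ y) * deriv ψ y = 0}.Countable ∧
    {y | y ∈ V ∧ ψ y ∈ S}.Countable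

/-- the local integral at a simple root -/
def Spec_INT : Prop := ∀ (S : Set ℂ) (D : ℕ) (b : ℕ → ℂ → ℂ) (a g : ℂ), Ode S D b → a ∉ S →
  odeP D b (a, g) = 0 → odeD D b (a, g) * g ≠ 0 →
  ∃ K κ : ℂ → ℂ, AnalyticAt ℂ K a ∧ K a = 0 ∧ AnalyticAt ℂ κ 0 ∧ deriv κ 0 ≠ 0 ∧
    (∀ᶠ z in 𝓝 a, κ (K z) = z) ∧
    ∀ᶠ q in 𝓝 (a, g), odeP D b q = 0 → q.2 ≠ 0 ∧ HasDerivAt K q.2⁻¹ q.1

/-- a solution on a strip has a regular point on the top line -/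
def Spec_TOP : Prop := ∀ (S : Set ℂ) (D : ℕ) (b : ℕ → ℂ → ℂ) (ψ : ℂ → ℂ) (R : ℝ), 0 < R →
  Ode S D b → DifferentiableOn ℂ ψ (Strip R) → (∃ y ∈ Strip R, deriv ψ y ≠ 0) →
  Sol S D b ψ (Strip R) →
  ∃ (y₀ : ℂ) (ρ : ℝ) (ψ' : ℂ → ℂ), y₀.im = R ∧ 0 < ρ ∧
    DifferentiableOn ℂ ψ' (Strip R ∪ ball y₀ ρ) ∧ EqOn ψ' ψ (Strip R)

/-- an entire solution is affine -/
def Spec_ENT : Prop := ∀ (S : Set ℂ) (D : ℕ) (b : ℕ → ℂ → ℂ) (ψ : ℂ → ℂ), Ode S D b →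
  Differentiable ℂ ψ → Sol S D b ψ univ → (∀ y, ψ (y + 1) = ψ y + 2 * Real.pi) →
  (∀ x x' : ℝ, ψ x = ψ x' → x = x') → ∀ y, deriv ψ y = 2 * Real.pi

/-- no regular point on the boundary of the maximal strip of the normal angle -/
def Spec_NB : Prop := ∀ (h p : ℝ → ℝ) (c r ρ : ℝ) (ψ : ℂ → ℂ) (y₀ : ℂ), IsTable h → H402.IntBd h →
  Laz h p c → 0 < r → 0 < ρ → y₀.im = r → HolExt p ψ (Strip r ∪ ball y₀ ρ) →
  H407.IsEllipse h ∨ ∃ (r' : ℝ) (ψ' : ℂ → ℂ), r < r' ∧ HolExt p ψ' (Strip r')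

/-- the radius of curvature is algebroid off a countable set -/
def Spec_COR : Prop := ∀ (h : ℝ → ℝ) (S : Set ℂ) (D : ℕ) (a : ℕ → ℂ → ℂ) (ψ₀ : ℝ), IsTable h →
  H402.IntBd h → Ode S D a → (ψ₀ : ℂ) ∉ S →
  (∀ᶠ ψ in 𝓝 ψ₀, odeP D a ((ψ : ℝ), (h ψ + deriv (deriv h) ψ : ℝ)) = 0) → H407.IsEllipse h

end Vale.Agent.P097T
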