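import Mathlib
import Vale.Agent.P281.ELL.Bloch

/-!
# The theorems of Landau, Schottky and Picard (from the theorem of Bloch)
-/

set_option linter.all false

noncomputable section

namespace Vale.Agent.P097T

open Metric Set Filter Topology

/-- holomorphic logarithm on a disc -/
theorem log_ball {G : ℂ → ℂ} {c : ℂ} {r : ℝ} (hr : 0 < r) (hG : DifferentiableOn ℂ G (ball c r))
    (h0 : ∀ z ∈ ball c r, G z ≠ 0) :
    ∃ g : ℂ → ℂ, DifferentiableOn ℂ g (ball c r) ∧ g c = Complex.log (G c) ∧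
      ∀ z ∈ ball c r, Complex.exp (g z) = G z := by
  have hd : DifferentiableOn ℂ (fun z => deriv G z / G z) (ball c r) :=
    (hG.deriv isOpen_ball).div hG h0
  have hc : c ∈ ball c r := mem_ball_self hr
  obtain ⟨g, hg0, hg⟩ := hd.isExactOn_ball.with_val_at c (Complex.log (G c))
  refine ⟨g, fun z hz => (hg z hz).differentiableAt.differentiableWithinAt, hg0, fun z hz => ?_⟩
  have hq : ∀ z ∈ ball c r, HasDerivAt (fun z => G z * Complex.exp (-g z)) 0 z := by
    intro z hz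
    have h1 := (hG.differentiableAt (isOpen_ball.mem_nhds hz)).hasDerivAt
    have h2 : HasDerivAt (fun z => Complex.exp (-g z))
        (Complex.exp (-g z) * -(deriv G z / G z)) z := (hg z hz).neg.cexp
    have h4 : deriv G z * Complex.exp (-g z) +
        G z * (Complex.exp (-g z) * -(deriv G z / G z)) = 0 := by
      have := h0 z hz
      field_simp
      ring
    exact h4 ▸ h1.mul h2
  have h1 : G z * Complex.exp (-g z) = G c * Complex.exp (-g c) :=
    isOpen_ball.is_const_of_deriv_eq_zero (𝕜 := ℂ) (f := fun z => G z * Complex.exp (-g z))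
      (convex_ball c r).isPreconnected
      (fun w hw => (hq w hw).differentiableAt.differentiableWithinAt)
      (fun w hw => (hq w hw).deriv) hz hc
  rw [hg0, Complex.exp_neg, Complex.exp_neg, Complex.exp_log (h0 c hc),
    mul_inv_cancel₀ (h0 c hc)] at h1
  have h3 : Complex.exp (g z) ≠ 0 := Complex.exp_ne_zero _
  field_simp at h1
  exact h1.symm

/-- a function which omits `1` and `-1` is the hyperbolic cosine of a holomorphic function -/
theorem cosh_ball {f : ℂ → ℂ} {c : ℂ} {r : ℝ} (hr : 0 < r) (hf : DifferentiableOn ℂ f (ball c r))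
    (h1 : ∀ z ∈ ball c r, f z ≠ 1 ∧ f z ≠ -1) :
    ∃ g : ℂ → ℂ, DifferentiableOn ℂ g (ball c r) ∧ ∀ z ∈ ball c r, Complex.cosh (g z) = f z := by
  obtain ⟨L, hL, -, eL⟩ := log_ball (G := fun z => f z ^ 2 - 1) hr ((hf.pow 2).sub_const 1)
    (fun z hz h => by
      have : (f z - 1) * (f z + 1) = 0 := by linear_combination h
      rcases mul_eq_zero.1 this with h | h
      · exact (h1 z hz).1 (by linear_combination h)
      · exact (h1 z hz).2 (by linear_combination h))
  have hp : ∀ z ∈ ball c r,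
      (f z + Complex.exp (L z / 2)) * (f z - Complex.exp (L z / 2)) = 1 := by
    intro z hz
    have : Complex.exp (L z / 2) * Complex.exp (L z / 2) = f z ^ 2 - 1 := by
      rw [← Complex.exp_add, add_halves]; exact eL z hz
    linear_combination -this
  obtain ⟨g, hg, -, eg⟩ := log_ball (G := fun z => f z + Complex.exp (L z / 2)) hr
    (hf.add (hL.div_const 2).cexp) (fun z hz h => by
      have := hp z hz
      rw [h, zero_mul] at this
      exact zero_ne_one this)
  refine ⟨g, hg, fun z hz => ?_⟩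
  have e2 : Complex.exp (-g z) = f z - Complex.exp (L z / 2) := by
    rw [Complex.exp_neg, eg z hz]
    exact (eq_inv_of_mul_eq_one_right (hp z hz)).symm
  rw [Complex.cosh, e2, eg z hz]
  ring

/-- every closed disc of radius `4` contains a point whose hyperbolic cosine is an integer -/
theorem cosh_int (a : ℂ) : ∃ w : ℂ, ‖w - a‖ ≤ 4 ∧ ∃ n : ℤ, Complex.cosh w = n := by
  have key : ∀ x : ℝ, 0 ≤ x → ∃ t : ℝ, |t - x| ≤ 2 ∧ ∃ n : ℤ, Real.cosh t = n := by
    intro x hx
    have h1 : Real.cosh x ≤ (⌈Real.cosh x⌉ : ℝ) := Int.le_ceil _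
    have h2 : (⌈Real.cosh x⌉ : ℝ) ≤ Real.cosh (x + 2) := by
      have a1 := Int.ceil_lt_add_one (Real.cosh x)
      have a2 := Real.one_le_cosh x
      have a3 : 0 ≤ Real.sinh x := Real.sinh_nonneg_iff.2 hx
      have a4 : 0 ≤ Real.sinh 2 := Real.sinh_nonneg_iff.2 (by norm_num)
      have a5 : 2 ≤ Real.cosh 2 := by
        have b1 : (1 : ℝ) + 1 ≤ Real.exp 1 := Real.add_one_le_exp 1
        have b2 : Real.exp 2 = Real.exp 1 * Real.exp 1 := by rw [← Real.exp_add]; norm_num
        have b3 := Real.exp_pos (-2)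
        rw [Real.cosh_eq]
        nlinarith
      rw [Real.cosh_add]
      nlinarith [mul_nonneg a3 a4]
    obtain ⟨t, ht, e⟩ := intermediate_value_Icc (by linarith : x ≤ x + 2)
      Real.continuous_cosh.continuousOn ⟨h1, h2⟩
    exact ⟨t, abs_le.2 ⟨by linarith [ht.1], by linarith [ht.2]⟩, _, e⟩
  have key2 : ∃ t : ℝ, |t - a.re| ≤ 2 ∧ ∃ n : ℤ, Real.cosh t = n := by
    rcases le_total 0 a.re with h | h
    · exact key _ h
    · obtain ⟨t, h1, n, h2⟩ := key (-a.re) (by linarith)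
      refine ⟨-t, ?_, n, by rw [Real.cosh_neg, h2]⟩
      rw [← abs_neg]
      convert h1 using 2
      ring
  obtain ⟨t, ht, n, hn⟩ := key2
  set k : ℤ := round (a.im / Real.pi)
  have hk : |(k : ℝ) * Real.pi - a.im| ≤ 2 := by
    have h1 := abs_sub_round (a.im / Real.pi)
    have h2 : (k : ℝ) * Real.pi - a.im = -(a.im / Real.pi - k) * Real.pi := by
      field_simp
      ring
    rw [h2, abs_mul, abs_neg, abs_of_pos Real.pi_pos]
    nlinarith [Real.pi_pos, Real.pi_le_four, abs_nonneg (a.im / Real.pi - k)]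
  refine ⟨t + (k * Real.pi : ℝ) * Complex.I, ?_, n * (-1) ^ k.natAbs, ?_⟩
  · refine (Complex.norm_le_abs_re_add_abs_im _).trans ?_
    simp only [Complex.sub_re, Complex.add_re, Complex.ofReal_re, Complex.mul_re, Complex.I_re,
      Complex.I_im, Complex.ofReal_im, Complex.sub_im, Complex.add_im, Complex.mul_im]
    simp only [mul_zero, mul_one, sub_self, add_zero, zero_add]
    linarith
  · rw [Complex.cosh_add, Complex.cosh_mul_I, Complex.sinh_mul_I, ← Complex.ofReal_cos,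
      ← Complex.ofReal_sin, Real.sin_int_mul_pi, Real.cos_int_mul_pi, ← Complex.ofReal_cosh, hn]
    push_cast
    rcases Int.even_or_odd k with h | h
    · rw [h.neg_one_zpow, (Int.natAbs_even.2 h).neg_one_pow]; simp
    · rw [h.neg_one_zpow, (Int.natAbs_odd.2 h).neg_one_pow]; simp

theorem deriv_le_of_cosh {g : ℂ → ℂ} {c : ℂ} {r : ℝ} (hr : 0 < r)
    (hg : DifferentiableOn ℂ g (ball c r)) (h : ∀ z ∈ ball c r, ∀ n : ℤ, Complex.cosh (g z) ≠ n) :
    ‖deriv g c‖ ≤ 512 / r := by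
  by_contra hc
  push Not at hc
  have h0 : deriv g c ≠ 0 := by
    intro e
    rw [e, norm_zero] at hc
    have : 0 < 512 / r := by positivity
    linarith
  obtain ⟨a, ha⟩ := P281.ELL.bloch hr hg h0
  obtain ⟨w, hw, n, hn⟩ := cosh_int a
  have : w ∈ ball a (‖deriv g c‖ * r / 128) := by
    rw [mem_ball, dist_eq_norm]
    rw [div_lt_iff₀ hr] at hc
    linarith
  obtain ⟨z, hz, rfl⟩ := ha this
  exact h z hz n hn

theorem norm_sinh_le (w : ℂ) : ‖Complex.sinh w‖ ≤ 1 + ‖Complex.cosh w‖ := by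
  have h1 : Complex.sinh w ^ 2 = Complex.cosh w ^ 2 - 1 := by
    have := Complex.cosh_sq_sub_sinh_sq w
    linear_combination -this
  have h2 : ‖Complex.sinh w‖ ^ 2 ≤ ‖Complex.cosh w‖ ^ 2 + 1 := by
    rw [← norm_pow, h1, ← norm_pow]
    exact (norm_sub_le _ _).trans (by rw [norm_one])
  have h3 := norm_nonneg (Complex.cosh w)
  exact abs_le_of_sq_le_sq' (by nlinarith) (by positivity) |>.2

theorem landau0 {f : ℂ → ℂ} {c : ℂ} {r : ℝ} (hr : 0 < r) (hf : DifferentiableOn ℂ f (ball c r))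
    (h : ∀ z ∈ ball c r, ∀ n : ℤ, f z ≠ n) : ‖deriv f c‖ ≤ 512 / r * (1 + ‖f c‖) := by
  obtain ⟨g, hg, e⟩ := cosh_ball hr hf
    (fun z hz => ⟨by simpa using h z hz 1, by simpa using h z hz (-1)⟩)
  have hc : c ∈ ball c r := mem_ball_self hr
  have h1 := deriv_le_of_cosh hr hg (fun z hz n => by rw [e z hz]; exact h z hz n)
  have h2 : f =ᶠ[𝓝 c] fun z => Complex.cosh (g z) := by
    filter_upwards [isOpen_ball.mem_nhds hc] with z hz using (e z hz).symm
  rw [h2.deriv_eq, ((hg.differentiableAt (isOpen_ball.mem_nhds hc)).hasDerivAt.ccosh).deriv,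
    norm_mul, mul_comm, ← e c hc]
  exact mul_le_mul h1 (norm_sinh_le _) (norm_nonneg _) (by positivity)

theorem near_int (w : ℂ) : ∃ n : ℤ, ‖w - n‖ ≤ 1 / 2 + |w.im| := by
  refine ⟨round w.re, (Complex.norm_le_abs_re_add_abs_im _).trans ?_⟩
  have := abs_sub_round w.re
  simp only [Complex.sub_re, Complex.intCast_re, Complex.sub_im, Complex.intCast_im, sub_zero]
  linarith

/-- **Landau's bound** for a function which omits the integers -/
theorem landau_int {f : ℂ → ℂ} {c : ℂ} {r : ℝ} (hr : 0 < r) (hf : DifferentiableOn ℂ f (ball c r))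
    (h : ∀ z ∈ ball c r, ∀ n : ℤ, f z ≠ n) : ‖deriv f c‖ ≤ 512 / r * (2 + |(f c).im|) := by
  obtain ⟨m, hm⟩ := near_int (f c)
  have h1 := landau0 (f := fun z => f z - m) hr (hf.sub_const _) (fun z hz n e =>
    h z hz (n + m) (by push_cast; linear_combination e))
  rw [deriv_sub_const] at h1
  refine h1.trans (mul_le_mul_of_nonneg_left ?_ (by positivity))
  linarith

theorem schottky0 {f : ℂ → ℂ} {c : ℂ} {r : ℝ} (hr : 0 < r) (hf : DifferentiableOn ℂ f (ball c r))
    (h : ∀ z ∈ ball c r, ∀ n : ℤ, f z ≠ n) {z : ℂ} (hz : z ∈ ball c (r / 2)) :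
    ‖f z‖ ≤ (1 + 2 * ‖f c‖) * Real.exp 512 := by
  obtain ⟨g, hg, e⟩ := cosh_ball hr hf
    (fun z hz => ⟨by simpa using h z hz 1, by simpa using h z hz (-1)⟩)
  have hc : c ∈ ball c r := mem_ball_self hr
  have hs : ball c (r / 2) ⊆ ball c r := ball_subset_ball (by linarith)
  have h1 : ∀ w ∈ ball c (r / 2), ‖deriv g w‖ ≤ 512 / (r / 2) := by
    intro w hw
    have hb : ball w (r / 2) ⊆ ball c r := ball_subset_ball' (by rw [mem_ball] at hw; linarith)
    exact deriv_le_of_cosh (by linarith) (hg.mono hb)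
      (fun z hz n => by rw [e z (hb hz)]; exact h z (hb hz) n)
  have h2 : ‖g z - g c‖ ≤ 512 / (r / 2) * ‖z - c‖ :=
    (convex_ball c (r / 2)).norm_image_sub_le_of_norm_deriv_le
      (fun w hw => hg.differentiableAt (isOpen_ball.mem_nhds (hs hw))) h1
      (mem_ball_self (by linarith)) hz
  have h3 : ‖g z - g c‖ ≤ 512 := by
    refine h2.trans ?_
    rw [mem_ball, dist_eq_norm] at hz
    rw [div_mul_eq_mul_div, div_le_iff₀ (by linarith)]
    nlinarith
  have h4 : ∀ w u : ℂ, ‖w - u‖ ≤ 512 → ‖Complex.exp w‖ ≤ ‖Complex.exp u‖ * Real.exp 512 := by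
    intro w u hw
    rw [Complex.norm_exp, Complex.norm_exp, ← Real.exp_add, Real.exp_le_exp]
    have := (Complex.re_le_norm (w - u)).trans hw
    rw [Complex.sub_re] at this
    linarith
  have h5 := h4 _ _ h3
  have h6 := h4 (-g z) (-g c) (by rw [neg_sub_neg, norm_sub_rev]; exact h3)
  have h7 := norm_sinh_le (g c)
  have h8 : ‖Complex.exp (g c)‖ ≤ 1 + 2 * ‖f c‖ := by
    rw [← Complex.cosh_add_sinh, ← e c hc]
    linarith [norm_add_le (Complex.cosh (g c)) (Complex.sinh (g c))]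
  have h9 : ‖Complex.exp (-g c)‖ ≤ 1 + 2 * ‖f c‖ := by
    rw [← Complex.cosh_sub_sinh, ← e c hc]
    linarith [norm_sub_le (Complex.cosh (g c)) (Complex.sinh (g c))]
  have h10 := Real.exp_pos 512
  rw [← e z (hs hz), Complex.cosh, norm_div, Complex.norm_two]
  nlinarith [norm_add_le (Complex.exp (g z)) (Complex.exp (-g z))]

/-- **Schottky's bound** for a function which omits the integers -/
theorem schottky_int {f : ℂ → ℂ} {c : ℂ} {r : ℝ} (hr : 0 < r)
    (hf : DifferentiableOn ℂ f (ball c r)) (h : ∀ z ∈ ball c r, ∀ n : ℤ, f z ≠ n) {z : ℂ}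
    (hz : z ∈ ball c (r / 2)) : ‖f z - f c‖ ≤ (3 + 3 * |(f c).im|) * Real.exp 512 := by
  obtain ⟨m, hm⟩ := near_int (f c)
  have h1 := schottky0 (f := fun z => f z - m) hr (hf.sub_const _) (fun z hz n e =>
    h z hz (n + m) (by push_cast; linear_combination e)) hz
  have h2 := norm_sub_le (f z - m) (f c - m)
  rw [sub_sub_sub_cancel_right] at h2
  have h3 : (1 : ℝ) ≤ Real.exp 512 := Real.one_le_exp (by norm_num)
  have h4 := abs_nonneg (f c).im
  have h5 := norm_nonneg (f c - m)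
  nlinarith

/-- **Picard**: an entire function which omits the integers is constant -/
theorem picard_int {f : ℂ → ℂ} (hf : Differentiable ℂ f) (h : ∀ z, ∀ n : ℤ, f z ≠ n) (z w : ℂ) :
    f z = f w := by
  refine is_const_of_deriv_eq_zero hf (fun c => ?_) z w
  rw [← norm_le_zero_iff]
  have t : Tendsto (fun r : ℝ => 512 / r * (2 + |(f c).im|)) atTop (𝓝 (0 * (2 + |(f c).im|))) :=
    (tendsto_const_nhds.div_atTop tendsto_id).mul_const _
  rw [zero_mul] at t
  refine ge_of_tendsto t ?_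
  filter_upwards [eventually_gt_atTop 0] with r hr
  exact landau_int hr hf.differentiableOn (fun z _ => h z)

/-- an entire function which omits an arithmetic progression is constant -/
theorem picard_lat {f : ℂ → ℂ} (hf : Differentiable ℂ f) {a b : ℂ} (hb : b ≠ 0)
    (h : ∀ z, ∀ n : ℤ, f z ≠ a + n * b) (z w : ℂ) : f z = f w := by
  have := picard_int (f := fun z => (f z - a) / b) ((hf.sub_const a).div_const b)
    (fun z n e => h z n (by field_simp at e; linear_combination e)) z w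
  field_simp at this
  linear_combination this

theorem log_int {f : ℂ → ℂ} {c : ℂ} {r : ℝ} (hr : 0 < r) (hf : DifferentiableOn ℂ f (ball c r))
    (h : ∀ z ∈ ball c r, f z ≠ 0 ∧ f z ≠ 1) : ∃ F : ℂ → ℂ, DifferentiableOn ℂ F (ball c r) ∧
      (∀ z ∈ ball c r, Complex.exp (F z * (2 * Real.pi * Complex.I)) = f z) ∧
      (∀ z ∈ ball c r, ∀ n : ℤ, F z ≠ n) ∧
      ∀ z ∈ ball c r, Real.log ‖f z‖ = -(2 * Real.pi * (F z).im) := by
  obtain ⟨g, hg, -, e⟩ := log_ball hr hf (fun z hz => (h z hz).1)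
  have e' : ∀ z ∈ ball c r,
      Complex.exp (g z / (2 * Real.pi * Complex.I) * (2 * Real.pi * Complex.I)) = f z := by
    intro z hz
    rw [div_mul_cancel₀ _ Complex.two_pi_I_ne_zero, e z hz]
  refine ⟨fun z => g z / (2 * Real.pi * Complex.I), hg.div_const _, e', fun z hz n hn => ?_,
    fun z hz => ?_⟩
  · have := e' z hz
    simp only at hn
    rw [hn, Complex.exp_int_mul_two_pi_mul_I] at this
    exact (h z hz).2 this.symm
  · rw [← e' z hz, Complex.norm_exp, Real.log_exp]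
    simp only [Complex.mul_re, Complex.mul_im, Complex.I_re, Complex.I_im, Complex.ofReal_re,
      Complex.ofReal_im, Complex.re_ofNat, Complex.im_ofNat]
    ring

/-- **Landau's bound** for a function which omits `0` and `1` -/
theorem landau {f : ℂ → ℂ} {c : ℂ} {r : ℝ} (hr : 0 < r) (hf : DifferentiableOn ℂ f (ball c r))
    (h : ∀ z ∈ ball c r, f z ≠ 0 ∧ f z ≠ 1) :
    ‖deriv f c‖ ≤ 512 / r * (16 + |Real.log ‖f c‖|) * ‖f c‖ := by
  obtain ⟨F, hF, e, hn, hl⟩ := log_int hr hf h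
  have hc : c ∈ ball c r := mem_ball_self hr
  have h1 := landau_int hr hF hn
  have h2 : f =ᶠ[𝓝 c] fun z => Complex.exp (F z * (2 * Real.pi * Complex.I)) := by
    filter_upwards [isOpen_ball.mem_nhds hc] with z hz using (e z hz).symm
  rw [h2.deriv_eq,
    (((hF.differentiableAt (isOpen_ball.mem_nhds hc)).hasDerivAt.mul_const _).cexp).deriv,
    e c hc, norm_mul, mul_comm, hl c hc, abs_neg, abs_mul, abs_of_pos Real.two_pi_pos]
  refine mul_le_mul_of_nonneg_right ?_ (norm_nonneg _)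
  rw [norm_mul, norm_mul, norm_mul, Complex.norm_I, Complex.norm_two, Complex.norm_real,
    Real.norm_of_nonneg Real.pi_pos.le, mul_one]
  have h3 : 0 < 512 / r := by positivity
  have h4 := mul_le_mul_of_nonneg_right h1 Real.two_pi_pos.le
  nlinarith [Real.pi_le_four]

/-- **Schottky's bound** for a function which omits `0` and `1` -/
theorem schottky {f : ℂ → ℂ} {c : ℂ} {r : ℝ} (hr : 0 < r) (hf : DifferentiableOn ℂ f (ball c r))
    (h : ∀ z ∈ ball c r, f z ≠ 0 ∧ f z ≠ 1) {z : ℂ} (hz : z ∈ ball c (r / 2)) :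
    |Real.log ‖f z‖| ≤ (24 + 4 * |Real.log ‖f c‖|) * Real.exp 512 := by
  obtain ⟨F, hF, e, hn, hl⟩ := log_int hr hf h
  have hc : c ∈ ball c r := mem_ball_self hr
  have h1 := schottky_int hr hF hn hz
  have h2 := (Complex.abs_im_le_norm (F z - F c)).trans h1
  rw [Complex.sub_im] at h2
  have h3 := abs_sub_abs_le_abs_sub (F z).im (F c).im
  rw [hl c hc, hl z (ball_subset_ball (by linarith) hz), abs_neg, abs_neg, abs_mul (2 * _),
    abs_mul (2 * _), abs_of_pos Real.two_pi_pos]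
  have h4 : (1 : ℝ) ≤ Real.exp 512 := Real.one_le_exp (by norm_num)
  have h5 := abs_nonneg (F c).im
  have h6 : |(F z).im| ≤ (3 + 4 * |(F c).im|) * Real.exp 512 := by nlinarith
  have h7 := mul_le_mul_of_nonneg_left h6 Real.two_pi_pos.le
  nlinarith [Real.pi_le_four]

/-- **Picard's little theorem** -/
theorem picard {f : ℂ → ℂ} (hf : Differentiable ℂ f) {a b : ℂ} (hab : a ≠ b)
    (h : ∀ z, f z ≠ a ∧ f z ≠ b) (z w : ℂ) : f z = f w := by
  have hb : b - a ≠ 0 := sub_ne_zero.2 hab.symm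
  have hg : Differentiable ℂ (fun z => (f z - a) / (b - a)) := (hf.sub_const a).div_const _
  have : (f z - a) / (b - a) = (f w - a) / (b - a) := by
    refine is_const_of_deriv_eq_zero hg (fun c => ?_) z w
    rw [← norm_le_zero_iff]
    have t : Tendsto (fun r : ℝ => 512 / r * (16 + |Real.log ‖(f c - a) / (b - a)‖|) *
        ‖(f c - a) / (b - a)‖) atTop (𝓝 (0 * _ * _)) :=
      ((tendsto_const_nhds.div_atTop tendsto_id).mul_const _).mul_const _
    rw [zero_mul, zero_mul] at t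
    refine ge_of_tendsto t ?_
    filter_upwards [eventually_gt_atTop 0] with r hr
    refine landau hr hg.differentiableOn (fun z _ => ⟨fun e => (h z).1 ?_, fun e => (h z).2 ?_⟩)
    · field_simp at e; linear_combination e
    · field_simp at e; linear_combination e
  field_simp at this
  linear_combination this

/-- a function whose values stay away from `a` near `c` is meromorphic at `c` -/
theorem mer_of_away {f : ℂ → ℂ} {c a : ℂ} {δ : ℝ} (hδ : 0 < δ)
    (hf : ∀ᶠ z in 𝓝[≠] c, DifferentiableAt ℂ f z) (h : ∀ᶠ z in 𝓝[≠] c, δ ≤ ‖f z - a‖) :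
    MeromorphicAt f c := by
  obtain ⟨s, hs, H⟩ := eventually_iff_exists_mem.1 (eventually_nhdsWithin_iff.1 (hf.and h))
  have hne : ∀ z ∈ s \ {c}, f z - a ≠ 0 := fun z hz e => by
    have := (H z hz.1 hz.2).2
    rw [e, norm_zero] at this
    linarith
  have hd : DifferentiableOn ℂ (fun z => (f z - a)⁻¹) (s \ {c}) := fun z hz =>
    (((H z hz.1 hz.2).1.sub_const a).inv (hne z hz)).differentiableWithinAt
  have hb : BddAbove (norm ∘ (fun z => (f z - a)⁻¹) '' (s \ {c})) := by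
    refine ⟨δ⁻¹, ?_⟩
    rintro _ ⟨z, hz, rfl⟩
    simp only [Function.comp_apply, norm_inv]
    exact inv_anti₀ hδ (H z hz.1 hz.2).2
  have h1 := (Complex.differentiableOn_update_limUnder_of_bddAbove hs hd hb).analyticAt hs
  refine (h1.meromorphicAt.inv.add (MeromorphicAt.const a c)).congr ?_
  filter_upwards [self_mem_nhdsWithin] with z hz
  simp only [Pi.add_apply, Pi.inv_apply]
  rw [Function.update_of_ne hz, inv_inv, sub_add_cancel]

theorem great0 {f : ℂ → ℂ} {r : ℝ} (hr : 0 < r) (hf : DifferentiableOn ℂ f (ball 0 r \ {0}))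
    (h : ∀ z ∈ ball (0 : ℂ) r \ {0}, f z ≠ 0 ∧ f z ≠ 1) : MeromorphicAt f 0 := by
  have ho : IsOpen (ball (0 : ℂ) r \ {0}) := isOpen_ball.sdiff isClosed_singleton
  have hm : ball (0 : ℂ) r \ {0} ∈ 𝓝[≠] (0 : ℂ) := diff_mem_nhdsWithin_compl (ball_mem_nhds 0 hr) _
  have hd : ∀ᶠ z in 𝓝[≠] (0 : ℂ), DifferentiableAt ℂ f z := by
    filter_upwards [hm] with z hz using hf.differentiableAt (ho.mem_nhds hz)
  by_cases hA : ∀ᶠ z in 𝓝[≠] (0 : ℂ), 1 ≤ ‖f z - 2‖
  · exact mer_of_away one_pos hd hA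
  rw [not_eventually] at hA
  set M : ℝ := Real.exp ((24 + 4 * 2) * Real.exp 512) with hM
  -- the bound on circles
  have circ : ∀ u : ℂ, u ≠ 0 → ‖u‖ * Real.exp 8 < r → ¬ 1 ≤ ‖f u - 2‖ →
      ∀ z : ℂ, ‖z‖ = ‖u‖ → ‖f z‖ ≤ M := by
    intro u u0 hu h2 z hz
    have hmem : ∀ w ∈ ball (0 : ℂ) 8, u * Complex.exp w ∈ ball (0 : ℂ) r \ {0} := by
      intro w hw
      refine ⟨?_, mul_ne_zero u0 (Complex.exp_ne_zero _)⟩
      rw [mem_ball_zero_iff] at hw ⊢
      rw [norm_mul, Complex.norm_exp]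
      refine lt_of_le_of_lt (mul_le_mul_of_nonneg_left ?_ (norm_nonneg _)) hu
      exact Real.exp_le_exp.2 ((Complex.re_le_norm w).trans hw.le)
    have hz0 : z / u ≠ 0 := div_ne_zero (by rintro rfl; exact u0 (by simpa using hz.symm)) u0
    have hw : Complex.log (z / u) ∈ ball (0 : ℂ) (8 / 2) := by
      rw [mem_ball_zero_iff]
      refine (Complex.norm_le_abs_re_add_abs_im _).trans_lt ?_
      rw [Complex.log_re, Complex.log_im, norm_div, hz, div_self (norm_ne_zero_iff.2 u0),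
        Real.log_one, abs_zero, zero_add]
      linarith [Complex.abs_arg_le_pi (z / u), Real.pi_lt_four]
    have h3 := schottky (f := fun w => f (u * Complex.exp w)) (by norm_num : (0 : ℝ) < 8)
      (hf.comp (by fun_prop) hmem) (fun w hw => h _ (hmem w hw)) hw
    simp only [Complex.exp_zero, mul_one] at h3
    rw [Complex.exp_log hz0, mul_div_cancel₀ _ u0] at h3
    have h4 : 1 ≤ ‖f u‖ ∧ ‖f u‖ ≤ 3 := by
      have a1 := norm_sub_norm_le (f u) 2
      have a2 := norm_sub_norm_le 2 (f u)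
      rw [norm_sub_rev] at a2
      rw [Complex.norm_two] at a1 a2
      constructor <;> linarith
    have h5 : |Real.log ‖f u‖| ≤ 2 := by
      rw [abs_of_nonneg (Real.log_nonneg h4.1)]
      linarith [Real.log_le_sub_one_of_pos (by linarith : 0 < ‖f u‖)]
    refine Real.le_exp_of_log_le (((le_abs_self _).trans h3).trans ?_)
    exact mul_le_mul_of_nonneg_right (by linarith) (Real.exp_pos _).le
  have small : ∀ ρ : ℝ, 0 < ρ → ∃ u : ℂ, u ≠ 0 ∧ ‖u‖ < ρ ∧ ‖u‖ * Real.exp 8 < r ∧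
      ¬ 1 ≤ ‖f u - 2‖ := by
    intro ρ hρ
    have e1 : ∀ᶠ z in 𝓝[≠] (0 : ℂ), z ∈ ball (0 : ℂ) (min ρ (r / Real.exp 8)) \ {0} :=
      diff_mem_nhdsWithin_compl (ball_mem_nhds 0 (by positivity)) _
    obtain ⟨u, h1, h2, h3⟩ := (hA.and_eventually e1).exists
    rw [mem_ball_zero_iff, lt_min_iff, lt_div_iff₀ (Real.exp_pos _)] at h2
    exact ⟨u, h3, h2.1, h2.2, h1⟩
  obtain ⟨u, u0, ur, hu, h2⟩ := small r hr
  have hb : ∀ z ∈ ball (0 : ℂ) ‖u‖ \ {0}, ‖f z‖ ≤ M := by
    intro z hz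
    have z0 : 0 < ‖z‖ := norm_pos_iff.2 hz.2
    obtain ⟨v, v0, vz, hv, h3⟩ := small _ z0
    have hz1 : ‖z‖ < ‖u‖ := mem_ball_zero_iff.1 hz.1
    have v1 : 0 < ‖v‖ := norm_pos_iff.2 v0
    set A : Set ℂ := {w | ‖v‖ < ‖w‖ ∧ ‖w‖ < ‖u‖}
    have hcl : closure A ⊆ {w | ‖v‖ ≤ ‖w‖ ∧ ‖w‖ ≤ ‖u‖} :=
      closure_minimal (fun w hw => ⟨hw.1.le, hw.2.le⟩)
        ((isClosed_le continuous_const continuous_norm).inter
          (isClosed_le continuous_norm continuous_const))
    have hsub : closure A ⊆ ball (0 : ℂ) r \ {0} := fun w hw =>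
      ⟨mem_ball_zero_iff.2 ((hcl hw).2.trans_lt ur), norm_pos_iff.1 (v1.trans_le (hcl hw).1)⟩
    have hAo : IsOpen A :=
      (isOpen_lt continuous_const continuous_norm).inter (isOpen_lt continuous_norm continuous_const)
    refine Complex.norm_le_of_forall_mem_frontier_norm_le (U := A)
      ((isBounded_ball (x := (0 : ℂ)) (r := ‖u‖)).subset fun w hw => mem_ball_zero_iff.2 hw.2)
      (hf.mono hsub).diffContOnCl (fun w hw => ?_) (subset_closure ⟨vz, hz1⟩)
    rw [hAo.frontier_eq] at hw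
    obtain ⟨a1, a2⟩ := hcl hw.1
    rcases a1.eq_or_lt with e | a1
    · exact circ v v0 hv h3 w e.symm
    rcases a2.eq_or_lt with e | a2
    · exact circ u u0 hu h2 w e
    exact (hw.2 ⟨a1, a2⟩).elim
  refine mer_of_away (a := (M + 1 : ℝ)) one_pos hd ?_
  filter_upwards [diff_mem_nhdsWithin_compl (ball_mem_nhds (0 : ℂ) (norm_pos_iff.2 u0)) {0}]
    with z hz
  have a1 := norm_sub_norm_le ((M + 1 : ℝ) : ℂ) (f z)
  have a2 : 0 < M := Real.exp_pos _
  rw [norm_sub_rev, Complex.norm_real, Real.norm_of_nonneg (by linarith)] at a1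
  linarith [hb z hz]

/-- **Picard's great theorem** -/
theorem great_picard {f : ℂ → ℂ} {c a b : ℂ} (hab : a ≠ b)
    (hf : ∀ᶠ z in 𝓝[≠] c, DifferentiableAt ℂ f z) (h : ∀ᶠ z in 𝓝[≠] c, f z ≠ a ∧ f z ≠ b) :
    MeromorphicAt f c := by
  have hb : b - a ≠ 0 := sub_ne_zero.2 hab.symm
  obtain ⟨r, hr, H⟩ := Metric.eventually_nhds_iff_ball.1 (eventually_nhdsWithin_iff.1 (hf.and h))
  have hm : ∀ z ∈ ball (0 : ℂ) r \ {0}, z + c ∈ ball c r ∧ z + c ∈ ({c}ᶜ : Set ℂ) := fun z hz =>
    ⟨by simpa using hz.1, by simpa using hz.2⟩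
  have h1 : MeromorphicAt (fun z => (f (z + c) - a) / (b - a)) 0 := by
    refine great0 hr (fun z hz => ?_) (fun z hz => ?_)
    · exact ((((H _ (hm z hz).1 (hm z hz).2).1.comp z
        (differentiableAt_id.add_const c)).sub_const a).div_const _).differentiableWithinAt
    · obtain ⟨-, h1, h2⟩ := H _ (hm z hz).1 (hm z hz).2
      refine ⟨fun e => h1 ?_, fun e => h2 ?_⟩
      · field_simp at e; linear_combination e
      · field_simp at e; linear_combination e
  have h2 : MeromorphicAt ((fun z => (f (z + c) - a) / (b - a)) ∘ fun z => z - c) c :=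
    MeromorphicAt.comp_analyticAt (by simpa using h1) (by fun_prop)
  refine ((h2.mul (MeromorphicAt.const (b - a) c)).add (MeromorphicAt.const a c)).congr
    (Eventually.of_forall fun z => ?_)
  simp only [Pi.add_apply, Pi.mul_apply, Function.comp_apply, sub_add_cancel]
  field_simp
  ring

/-- a function which is locally bounded off a discrete set, and meromorphic, is holomorphic after
the correction of its values -/
theorem fill {f : ℂ → ℂ} {U : Set ℂ} (hf : MeromorphicOn f U)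
    (h : ∀ z ∈ U, 0 ≤ meromorphicOrderAt f z) :
    ∃ g : ℂ → ℂ, AnalyticOnNhd ℂ g U ∧ ∀ z ∈ U, g =ᶠ[𝓝[≠] z] f := by
  refine ⟨toMeromorphicNFOn f U, fun z hz => ?_,
    fun z hz => hf.toMeromorphicNFOn_eq_self_on_nhdsNE hz⟩
  rw [← (meromorphicNFOn_toMeromorphicNFOn f U hz).meromorphicOrderAt_nonneg_iff_analyticAt,
    meromorphicOrderAt_toMeromorphicNFOn hf hz]
  exact h z hz

theorem order_nonneg_of_bdd {f : ℂ → ℂ} {z : ℂ} {C : ℝ} (h : ∀ᶠ w in 𝓝[≠] z, ‖f w‖ ≤ C) :
    0 ≤ meromorphicOrderAt f z := by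
  by_contra hc
  have h1 := tendsto_norm_atTop_iff_cobounded.2
    (tendsto_cobounded_of_meromorphicOrderAt_neg (not_le.1 hc))
  obtain ⟨w, h2, h3⟩ := (h.and (h1.eventually_gt_atTop C)).exists
  linarith

/-- **Picard's little theorem** for meromorphic functions -/
theorem picard_mer {f : ℂ → ℂ} (hf : MeromorphicOn f univ) {a b c : ℂ} (hab : a ≠ b) (hac : a ≠ c)
    (hbc : b ≠ c) (h : ∀ z, ¬ Tendsto f (𝓝[≠] z) (𝓝 a) ∧ ¬ Tendsto f (𝓝[≠] z) (𝓝 b) ∧
      ¬ Tendsto f (𝓝[≠] z) (𝓝 c)) : ∃ k : ℂ, ∀ z, ∀ᶠ w in 𝓝[≠] z, f w = k := by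
  have hm : MeromorphicOn (fun z => f z - a) univ := hf.sub (MeromorphicOn.const a)
  obtain ⟨g, hg, e⟩ := fill hm.inv (fun z hz => by
    rw [meromorphicOrderAt_inv]
    have h1 : ¬ 0 < meromorphicOrderAt (fun z => f z - a) z := fun h0 =>
      (h z).1 (tendsto_sub_nhds_zero_iff.1 (tendsto_zero_of_meromorphicOrderAt_pos h0))
    cases h2 : meromorphicOrderAt (fun z => f z - a) z with
    | top => rw [h2] at h1; simp at h1
    | coe n =>
      rw [h2] at h1
      have : n ≤ 0 := by exact_mod_cast not_lt.1 h1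
      exact_mod_cast neg_nonneg.2 this)
  have key : ∀ z d, a ≠ d → g z = (d - a)⁻¹ → Tendsto f (𝓝[≠] z) (𝓝 d) := by
    intro z d hd hz
    have h1 : Tendsto g (𝓝[≠] z) (𝓝 (d - a)⁻¹) :=
      hz ▸ (hg z trivial).continuousAt.tendsto.mono_left nhdsWithin_le_nhds
    have h2 := ((h1.congr' (e z trivial)).inv₀
      (inv_ne_zero (sub_ne_zero.2 hd.symm))).add_const a
    simpa using h2
  have hd : Differentiable ℂ g := fun z => (hg z trivial).differentiableAt
  have hk := picard hd (a := (b - a)⁻¹) (b := (c - a)⁻¹)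
    (fun e => hbc (sub_left_injective (inv_injective e)))
    (fun z => ⟨fun e => (h z).2.1 (key z b hab e), fun e => (h z).2.2 (key z c hac e)⟩)
  refine ⟨(g 0)⁻¹ + a, fun z => ?_⟩
  filter_upwards [e z trivial] with w hw
  rw [hk 0 w, hw]
  simp

end Vale.Agent.P097T
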