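import Vale.Agent.P097T.EndDefs
import Vale.Agent.P097T.Picard

/-!
# P097T: an entire solution is affine (row ENT)
-/

set_option linter.all false

noncomputable section

namespace Vale.Agent.P097T

open Filter Topology Set Metric

namespace Ent

/-- a constant derivative is the increment -/
theorem const_case {ψ : ℂ → ℂ} (hψ : Differentiable ℂ ψ) {T : ℂ} (hper : ∀ y, ψ (y + 1) = ψ y + T)
    (h : ∀ y, deriv ψ y = deriv ψ 0) (y : ℂ) : deriv ψ y = T := by
  have hd : ∀ z, HasDerivAt (fun z => ψ z - deriv ψ 0 * z) 0 z := by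
    intro z
    have h1 := ((hψ z).hasDerivAt).sub ((hasDerivAt_id z).const_mul (deriv ψ 0))
    rw [h z, mul_one, sub_self] at h1
    exact h1
  have h2 := is_const_of_deriv_eq_zero (fun z => (hd z).differentiableAt) (fun z => (hd z).deriv) 1 0
  have h3 := hper 0
  rw [zero_add] at h3
  rw [h y]
  simp only [mul_one, mul_zero, sub_zero] at h2
  linear_combination h3 - h2

/-- an entire function with two independent periods is constant -/
theorem two_periods {f : ℂ → ℂ} (hf : Differentiable ℂ f) {c : ℂ} (hc : c.im ≠ 0)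
    (h1 : Function.Periodic f 1) (h2 : Function.Periodic f c) (y : ℂ) : f y = f 0 := by
  refine hf.apply_eq_apply_of_bounded ?_ y 0
  have hK : IsCompact (f '' closedBall 0 (1 + ‖c‖)) :=
    (isCompact_closedBall 0 (1 + ‖c‖)).image hf.continuous
  refine hK.isBounded.subset ?_
  rintro _ ⟨z, rfl⟩
  set v : ℝ := z.im / c.im with hv
  set u : ℝ := z.re - v * c.re with hu
  have hz : z = (u : ℂ) + (v : ℂ) * c := by
    apply Complex.ext
    · simp [hu]
    · simp only [Complex.add_im, Complex.ofReal_im, Complex.mul_im, Complex.ofReal_re, zero_mul,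
        add_zero, zero_add]
      rw [hv]
      field_simp
  refine ⟨(Int.fract u : ℝ) + (Int.fract v : ℝ) * c, ?_, ?_⟩
  · rw [mem_closedBall_zero_iff]
    refine (norm_add_le _ _).trans (add_le_add ?_ ?_)
    · rw [Complex.norm_real, Real.norm_eq_abs, abs_of_nonneg (Int.fract_nonneg u)]
      exact (Int.fract_lt_one u).le
    · rw [norm_mul, Complex.norm_real, Real.norm_eq_abs, abs_of_nonneg (Int.fract_nonneg v)]
      exact mul_le_of_le_one_left (norm_nonneg c) (Int.fract_lt_one v).le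
  · have e : ((Int.fract u : ℝ) : ℂ) + (Int.fract v : ℝ) * c =
        (z - (⌊v⌋ : ℤ) * c) - (⌊u⌋ : ℤ) * 1 := by
      rw [Int.fract, Int.fract]
      nth_rewrite 1 [hz]
      push_cast
      ring
    rw [e, h1.sub_int_mul_eq, h2.sub_int_mul_eq]

/-- near a simple root the solution is determined by its value and its derivative -/
theorem loc {S : Set ℂ} {D : ℕ} {b : ℕ → ℂ → ℂ} {ψ : ℂ → ℂ} (hS : IsClosed S)
    (hψ : Differentiable ℂ ψ) (hsol : Sol S D b ψ univ) {a g : ℂ} (ha : a ∉ S) {K κ : ℂ → ℂ}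
    (hK0 : K a = 0) (hinv : ∀ᶠ z in 𝓝 a, κ (K z) = z)
    (hK : ∀ᶠ q in 𝓝 (a, g), odeP D b q = 0 → q.2 ≠ 0 ∧ HasDerivAt K q.2⁻¹ q.1)
    {y : ℂ} (hy : ψ y = a) (hg : deriv ψ y = g) : ∀ᶠ s in 𝓝 (0 : ℂ), ψ (y + s) = κ s := by
  have hc : Continuous ψ := hψ.continuous
  have hc' : Continuous (deriv ψ) := (hψ.deriv).continuous
  have t0 : Tendsto (fun s : ℂ => y + s) (𝓝 0) (𝓝 y) := by
    have := (continuous_const_add y).tendsto (0 : ℂ)
    simpa using this
  have t1 : Tendsto (fun s : ℂ => ψ (y + s)) (𝓝 0) (𝓝 a) := by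
    rw [← hy]
    exact (hc.tendsto y).comp t0
  have t2 : Tendsto (fun s : ℂ => (ψ (y + s), deriv ψ (y + s))) (𝓝 0) (𝓝 (a, g)) := by
    refine t1.prodMk_nhds ?_
    rw [← hg]
    exact (hc'.tendsto y).comp t0
  have e1 : ∀ᶠ s in 𝓝 (0 : ℂ), HasDerivAt (fun s => K (ψ (y + s)) - s) 0 s := by
    filter_upwards [t2.eventually hK, t1.eventually (hS.isOpen_compl.mem_nhds ha)] with s h1 h2
    obtain ⟨h3, h4⟩ := h1 (hsol _ (mem_univ _) h2)
    have h5 : HasDerivAt (fun s => ψ (y + s)) (deriv ψ (y + s)) s :=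
      (hψ (y + s)).hasDerivAt.comp_const_add y s
    have h6 := (HasDerivAt.comp s h4 h5).sub (hasDerivAt_id s)
    rw [inv_mul_cancel₀ h3, sub_self] at h6
    exact h6
  obtain ⟨r, hr, H⟩ := Metric.eventually_nhds_iff_ball.1 e1
  have e2 : ∀ s ∈ ball (0 : ℂ) r, K (ψ (y + s)) = s := by
    intro s hs
    have h7 := isOpen_ball.is_const_of_deriv_eq_zero (convex_ball (0 : ℂ) r).isPreconnected
      (f := fun s => K (ψ (y + s)) - s)
      (fun z hz => (H z hz).differentiableAt.differentiableWithinAt)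
      (fun z hz => (H z hz).deriv) hs (mem_ball_self hr)
    simp only [add_zero, hy, hK0, sub_zero] at h7
    exact sub_eq_zero.1 h7
  filter_upwards [ball_mem_nhds (0 : ℂ) hr, t1.eventually hinv] with s h1 h2
  rw [e2 s h1] at h2
  exact h2.symm

/-- the roots of the equation over a point with non-zero leading coefficient -/
theorem roots_finite {D : ℕ} {b : ℕ → ℂ → ℂ} {a : ℂ} (h : b D a ≠ 0) :
    {g | odeP D b (a, g) = 0}.Finite := by
  set P : Polynomial ℂ := ∑ k ∈ Finset.range (D + 1), Polynomial.C (b k a) * Polynomial.X ^ k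
    with hP
  have h0 : P ≠ 0 := by
    intro e
    have h1 : P.coeff D = b D a := by
      rw [hP, Polynomial.finset_sum_coeff]
      simp only [Polynomial.coeff_C_mul_X_pow]
      rw [Finset.sum_ite_eq]
      simp
    rw [e, Polynomial.coeff_zero] at h1
    exact h h1.symm
  refine (Polynomial.finite_setOf_isRoot h0).subset ?_
  intro g hg
  have h2 : P.eval g = odeP D b (a, g) := by
    rw [hP, Polynomial.eval_finset_sum]
    simp [odeP]
  show P.IsRoot g
  rw [Polynomial.IsRoot.def, h2]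
  exact hg

/-- two values with finite fibres -/
theorem affine {ψ : ℂ → ℂ} (hψ : Differentiable ℂ ψ) {T : ℂ} (hper : ∀ y, ψ (y + 1) = ψ y + T)
    {a a' : ℂ} (hne : a ≠ a') (h1 : {y | ψ y = a}.Finite) (h2 : {y | ψ y = a'}.Finite) (y : ℂ) :
    deriv ψ y = T := by
  have hinf : Tendsto (fun t : ℂ => t⁻¹) (𝓝[≠] 0) (Bornology.cobounded ℂ) :=
    tendsto_inv₀_nhdsNE_zero
  have hm : MeromorphicAt (fun t => ψ t⁻¹) 0 := by
    refine great_picard hne ?_ ?_
    · filter_upwards [self_mem_nhdsWithin] with t ht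
      exact (hψ _).comp t (differentiableAt_inv ht)
    · filter_upwards [hinf.eventually (Bornology.isBounded_def.1 h1.isBounded),
        hinf.eventually (Bornology.isBounded_def.1 h2.isBounded)] with t e1 e2
      exact ⟨e1, e2⟩
  have hg : MeromorphicAt (fun t => ψ t⁻¹ - (ψ 0 + T * t⁻¹)) 0 :=
    hm.sub ((MeromorphicAt.const (ψ 0) 0).add ((MeromorphicAt.const T 0).mul
      (MeromorphicAt.id 0).inv))
  have hn : ∀ n : ℕ, ψ n = ψ 0 + T * n := by
    intro n
    induction n with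
    | zero => simp
    | succ n ih =>
      push_cast
      rw [hper, ih]
      ring
  have tn : Tendsto (fun n : ℕ => ((n : ℂ))⁻¹) atTop (𝓝[≠] 0) := by
    refine tendsto_nhdsWithin_iff.2 ⟨tendsto_inv_atTop_nhds_zero_nat, ?_⟩
    filter_upwards [eventually_gt_atTop 0] with n hn
    exact inv_ne_zero (Nat.cast_ne_zero.2 hn.ne')
  have hz : ∀ᶠ t in 𝓝[≠] (0 : ℂ), ψ t⁻¹ - (ψ 0 + T * t⁻¹) = 0 := by
    rcases hg.eventually_eq_zero_or_eventually_ne_zero with h | h
    · exact h
    · obtain ⟨n, hn'⟩ := (tn.eventually h).exists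
      exact absurd (by rw [inv_inv, hn, sub_self]) hn'
  obtain ⟨t, ht, ht0⟩ := ((eventually_eventually_nhdsWithin.2 hz).and self_mem_nhdsWithin).exists
  rw [isOpen_compl_singleton.nhdsWithin_eq ht0] at ht
  have tt : Tendsto (fun y : ℂ => y⁻¹) (𝓝 t⁻¹) (𝓝 t) := by
    have := (continuousAt_inv₀ (inv_ne_zero ht0 : t⁻¹ ≠ 0)).tendsto
    rwa [inv_inv] at this
  have he : ψ =ᶠ[𝓝 t⁻¹] fun y => ψ 0 + T * y := by
    filter_upwards [tt.eventually ht] with y hy
    rw [inv_inv] at hy
    exact sub_eq_zero.1 hy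
  have hA : Differentiable ℂ fun y : ℂ => ψ 0 + T * y := by fun_prop
  have heq : ψ = fun y => ψ 0 + T * y :=
    AnalyticOnNhd.eq_of_eventuallyEq (fun z _ => hψ.analyticAt z) (fun z _ => hA.analyticAt z) he
  have hd : HasDerivAt (fun y : ℂ => ψ 0 + T * y) (T * 1) y :=
    ((hasDerivAt_id y).const_mul T).const_add (ψ 0)
  rw [heq, hd.deriv, mul_one]

theorem exists_notMem {B : Set ℂ} (hB : B.Countable) : ∃ a, a ∉ B := by
  by_contra h
  push Not at h
  have : B = univ := eq_univ_of_forall h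
  rw [this] at hB
  exact not_countable_complex hB

end Ent

open Ent in
theorem ent (hR : Spec_RED) (hI : Spec_INT) : Spec_ENT := by
  intro S D b ψ hO hψ hsol hper hinj
  by_cases hc : ∀ y, deriv ψ y = deriv ψ 0
  · exact const_case hψ hper hc
  have hnz : ∃ y ∈ (univ : Set ℂ), deriv ψ y ≠ 0 := by
    by_contra h
    push Not at h
    exact hc fun y => by rw [h y (mem_univ _), h 0 (mem_univ _)]
  obtain ⟨D', b', hO', hsol', hE1, hE2, -⟩ := hR S D b ψ univ hO isOpen_univ isPreconnected_univ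
    hψ.differentiableOn hnz hsol
  have hB := (hO.cnt.union hE1).union (hE2.image ψ)
  have hfin : ∀ a, a ∉ (S ∪ {z | z ∉ S ∧ b' D' z = 0}) ∪ ψ '' {y | y ∈ (univ : Set ℂ) ∧ ψ y ∉ S ∧
      odeD D' b' (ψ y, deriv ψ y) * deriv ψ y = 0} → {y | ψ y = a}.Finite := by
    intro a ha
    have haS : a ∉ S := fun h => ha (Or.inl (Or.inl h))
    have hb : b' D' a ≠ 0 := fun h => ha (Or.inl (Or.inr ⟨haS, h⟩))
    have hroot : ∀ y, ψ y = a → odeP D' b' (a, deriv ψ y) = 0 := by
      intro y hy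
      have := hsol' y (mem_univ _) (hy ▸ haS)
      rwa [hy] at this
    refine Set.Finite.of_injOn (f := deriv ψ) (fun y hy => hroot y hy) ?_ (roots_finite hb)
    intro y₁ h₁ y₂ h₂ hg
    by_contra hne
    have h₁' : ψ y₁ = a := h₁
    have h₂' : ψ y₂ = a := h₂
    have hsimple : odeD D' b' (a, deriv ψ y₁) * deriv ψ y₁ ≠ 0 := by
      intro h
      refine ha (Or.inr ⟨y₁, ⟨mem_univ _, h₁' ▸ haS, ?_⟩, h₁'⟩)
      rw [h₁']
      exact h
    obtain ⟨K, κ, -, hK0, -, -, hinv, hK⟩ := hI S D' b' a (deriv ψ y₁) hO' haS (hroot y₁ h₁') hsimple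
    have l₁ := loc hO.cl hψ hsol' haS hK0 hinv hK h₁' rfl
    have l₂ := loc hO.cl hψ hsol' haS hK0 hinv hK h₂' hg.symm
    have d₁ : Differentiable ℂ fun s => ψ (y₁ + s) := by fun_prop
    have d₂ : Differentiable ℂ fun s => ψ (y₂ + s) := by fun_prop
    have he : (fun s => ψ (y₁ + s)) =ᶠ[𝓝 0] fun s => ψ (y₂ + s) := by
      filter_upwards [l₁, l₂] with s e₁ e₂
      rw [e₁, e₂]
    have heq : (fun s => ψ (y₁ + s)) = fun s => ψ (y₂ + s) :=
      AnalyticOnNhd.eq_of_eventuallyEq (fun z _ => d₁.analyticAt z) (fun z _ => d₂.analyticAt z) he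
    have hp : Function.Periodic ψ (y₂ - y₁) := by
      intro z
      have : ψ (y₁ + (z - y₁)) = ψ (y₂ + (z - y₁)) := congrFun heq (z - y₁)
      rw [show z + (y₂ - y₁) = y₂ + (z - y₁) by ring, ← this, add_sub_cancel]
    by_cases him : (y₂ - y₁).im = 0
    · have e : y₂ - y₁ = ((y₂ - y₁).re : ℂ) := by
        apply Complex.ext
        · simp
        · rw [him, Complex.ofReal_im]
      have h3 := hp 0
      rw [zero_add, e] at h3
      have h4 := hinj (y₂ - y₁).re 0 (by rw [h3, Complex.ofReal_zero])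
      rw [h4, Complex.ofReal_zero] at e
      exact hne (sub_eq_zero.1 e).symm
    · refine hc (two_periods hψ.deriv him ?_ ?_)
      · intro z
        have e : (fun y => ψ (y + 1)) = fun y => ψ y + 2 * Real.pi := funext hper
        rw [← deriv_comp_add_const, e, deriv_add_const]
      · intro z
        have e : (fun y => ψ (y + (y₂ - y₁))) = ψ := funext hp
        rw [← deriv_comp_add_const, e]
  obtain ⟨a, ha⟩ := exists_notMem hB
  obtain ⟨a', ha'⟩ := exists_notMem (hB.insert a)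
  exact affine hψ hper (fun e => ha' (Or.inl e.symm)) (hfin a ha)
    (hfin a' fun h => ha' (Or.inr h))

end Vale.Agent.P097T
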