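import Vale.Agent.P097T.EndDefs
import Vale.Agent.P097A.Step

/-!
# P097T: algebraic differential equations: minimal degree, the local integral
-/

set_option linter.all false

noncomputable section

namespace Vale.Agent.P097T

open Filter Topology Set Metric Vale.Agent.P097 Vale.Agent.P097A

namespace EndOde

theorem preconn_glue {M : Type} [TopologicalSpace M] {U S : Set M} (hc : IsPreconnected U)
    (h1 : S ⊆ U) (h2 : U ⊆ closure S)
    (h : ∀ x ∈ U, ∃ O : Set M, O ∈ 𝓝 x ∧ IsPreconnected (O ∩ S)) : IsPreconnected S := by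
  rintro A B hA hB hAB ⟨a, haS, haA⟩ ⟨b, hbS, hbB⟩
  obtain ⟨x, hx, hx1, hx2⟩ := isPreconnected_closed_iff.1 hc (closure (S ∩ A)) (closure (S ∩ B))
    isClosed_closure isClosed_closure
    (by rwa [← closure_union, ← inter_union_distrib_left, inter_eq_left.2 hAB])
    ⟨a, h1 haS, subset_closure ⟨haS, haA⟩⟩ ⟨b, h1 hbS, subset_closure ⟨hbS, hbB⟩⟩
  obtain ⟨O, hO, hpre⟩ := h x hx
  obtain ⟨u, huO, huS, huA⟩ := mem_closure_iff_nhds.1 hx1 O hO
  obtain ⟨v, hvO, hvS, hvB⟩ := mem_closure_iff_nhds.1 hx2 O hO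
  obtain ⟨z, ⟨-, hzS⟩, hz⟩ := hpre A B hA hB (fun y hy => hAB hy.2) ⟨u, ⟨huO, huS⟩, huA⟩
    ⟨v, ⟨hvO, hvS⟩, hvB⟩
  exact ⟨z, hzS, hz⟩

/-- an open connected set minus a countable set is connected -/
theorem preconn_diff {T Z : Set ℂ} (hT : IsOpen T) (hc : IsPreconnected T) (hZ : Z.Countable) :
    IsPreconnected (T \ Z) := by
  refine preconn_glue hc sdiff_subset ((hZ.dense_compl ℂ).open_subset_closure_inter hT)
    fun x hx => ?_
  obtain ⟨r, hr, h⟩ := Metric.isOpen_iff.1 hT x hx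
  set e : OpenPartialHomeomorph ℂ ℂ := OpenPartialHomeomorph.univBall x r
  have h1 : e.source = univ := OpenPartialHomeomorph.univBall_source x r
  have h2 : e.target = ball x r := OpenPartialHomeomorph.univBall_target x hr
  have h3 := ((hZ.preimage_of_injOn (f := e) (e.injOn.mono (by simp [h1]))
    ).isConnected_compl_of_one_lt_rank (by simp)).isPreconnected.image e
    (e.continuousOn.mono (by simp [h1]))
  refine ⟨_, ball_mem_nhds x hr, ?_⟩
  rwa [show ball x r ∩ (T \ Z) = e '' (e ⁻¹' Z)ᶜ by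
    rw [← preimage_compl, image_preimage_eq_inter_range, ← image_univ, ← h1,
      e.image_source_eq_target, h2]
    exact Set.ext fun w => ⟨fun hw => ⟨hw.2.2, hw.1⟩, fun hw => ⟨hw.2, h hw.2, hw.1⟩⟩]

/-- the zeros of a holomorphic function are countable -/
theorem zeros {U : Set ℂ} {f : ℂ → ℂ} (hU : IsOpen U) (hc : IsPreconnected U)
    (hf : DifferentiableOn ℂ f U) (h : ∃ z ∈ U, f z ≠ 0) : {z | z ∈ U ∧ f z = 0}.Countable := by
  obtain ⟨z, h1, h2⟩ := h
  have h3 := (hf.analyticOnNhd hU).preimage_zero_mem_codiscreteWithin h2 h1 ⟨⟨z, h1⟩, hc⟩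
  refine ((HereditarilyLindelofSpace.isLindelof _).countable_of_isDiscrete
    (isDiscrete_of_codiscreteWithin (s := {t : ℂ | f t = 0}) h3)).mono ?_
  exact fun t ht => ⟨ht.2, ht.1⟩

/-- the preimage of a countable set is countable -/
theorem pre {V T : Set ℂ} {ψ : ℂ → ℂ} (hV : IsOpen V) (hc : IsPreconnected V)
    (hψ : DifferentiableOn ℂ ψ V) (h : ∃ y ∈ V, deriv ψ y ≠ 0) (hT : T.Countable) :
    {y | y ∈ V ∧ ψ y ∈ T}.Countable := by
  obtain ⟨y, h1, h2⟩ := h
  refine (hT.biUnion fun s _ => zeros hV hc (hψ.sub_const s) (by_contra fun e => h2 ?_)).mono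
    fun z hz => mem_biUnion hz.2 (show _ ∧ _ from ⟨hz.1, sub_self _⟩)
  push Not at e
  rw [(show ψ =ᶠ[𝓝 y] fun _ => s from
    mem_of_superset (hV.mem_nhds h1) fun z hz => sub_eq_zero.1 (e z hz)).deriv_eq, deriv_const]

theorem odeP_an {S : Set ℂ} {D D' : ℕ} {b : ℕ → ℂ → ℂ} (o : Ode S D b) {q : ℂ × ℂ} (h : q.1 ∉ S) :
    AnalyticAt ℂ (odeP D' b) q :=
  Finset.analyticAt_fun_sum _ fun k _ => (((o.hol k).analyticAt
    (o.cl.isOpen_compl.mem_nhds h)).comp analyticAt_fst).mul (analyticAt_snd.pow k)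

end EndOde

open EndOde

theorem red : Spec_RED := by
  intro S D b ψ V o hV hc hψ h0 sol
  have hZ := pre hV hc hψ h0 o.cnt
  have hS : IsPreconnected Sᶜ := (o.cnt.isConnected_compl_of_one_lt_rank (by simp)).isPreconnected
  have hV' : IsOpen (V \ {y | y ∈ V ∧ ψ y ∈ S}) := by
    convert hψ.continuousOn.isOpen_inter_preimage hV o.cl.isOpen_compl using 1
    exact Set.ext fun y => ⟨fun h => ⟨h.1, fun e => h.2 ⟨h.1, e⟩⟩, fun h => ⟨h.1, fun e => h.2 e.2⟩⟩
  have hd := hψ.deriv hV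
  induction D generalizing b with
  | zero =>
    obtain ⟨k, k0, z, z1, z2⟩ := o.ne
    obtain rfl := Nat.le_zero.1 k0
    obtain ⟨y, y1, y2⟩ := ((pre hV hc hψ h0 (o.cnt.union (zeros o.cl.isOpen_compl hS (o.hol 0)
      ⟨z, z1, z2⟩))).dense_compl ℂ).inter_open_nonempty V hV (h0.imp fun _ h => h.1)
    have y3 : ψ y ∉ S := fun e => y2 ⟨y1, .inl e⟩
    exact (y2 ⟨y1, .inr ⟨y3, by simpa [odeP] using sol y y1 y3⟩⟩).elim
  | succ D ih =>
    by_cases e : ∃ z ∈ Sᶜ, b (D + 1) z ≠ 0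
    · let b' : ℕ → ℂ → ℂ := fun k z => ((k : ℂ) + 1) * b (k + 1) z
      have o' : Ode S D b' := ⟨o.cnt, o.cl, fun k => (o.hol _).const_mul _, D, le_rfl,
        e.imp fun z hz => ⟨hz.1, mul_ne_zero (Nat.cast_add_one_ne_zero D) hz.2⟩⟩
      by_cases e' : Sol S D b' ψ V
      · exact ih b' o' e'
      refine ⟨D + 1, b, o, sol, zeros o.cl.isOpen_compl hS (o.hol _) e, ?_, hZ⟩
      simp only [Sol, not_forall] at e'
      obtain ⟨y, y1, y2, y3⟩ := e'
      refine ((zeros (f := fun y => odeP D b' (ψ y, deriv ψ y)) hV' (preconn_diff hV hc hZ)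
        (fun z hz => ((odeP_an o' fun a => hz.2 ⟨hz.1, a⟩).differentiableAt.comp z
          ((hψ.differentiableAt (hV.mem_nhds hz.1)).prodMk
            (hd.differentiableAt (hV.mem_nhds hz.1)))).differentiableWithinAt)
        ⟨y, ⟨y1, fun a => y2 a.2⟩, y3⟩).union (zeros hV hc hd h0)).mono fun z hz => ?_
      exact (mul_eq_zero.1 hz.2.2).imp (fun a => ⟨⟨hz.1, fun c => hz.2.1 c.2⟩, a⟩) fun a => ⟨hz.1, a⟩
    · push Not at e
      obtain ⟨k, k0, z, z1, z2⟩ := o.ne
      refine ih b ⟨o.cnt, o.cl, o.hol, k, Nat.le_of_lt_succ (k0.lt_of_ne ?_), z, z1, z2⟩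
        fun y y1 y2 => ?_
      · rintro rfl
        exact z2 (e z z1)
      · simpa [odeP, Finset.sum_range_succ _ (D + 1), e _ y2] using sol y y1 y2

theorem int : Spec_INT := by
  intro S D b a g o ha h0 h1
  have an := odeP_an (D' := D) o (q := (a, g)) ha
  have g0 : g ≠ 0 := right_ne_zero_of_mul h1
  have d1 : HasDerivAt (fun w => odeP D b (a, w)) (odeD D b (a, g)) g := by
    simp only [odeP, odeD, Finset.sum_range_succ', pow_zero]
    exact ((HasDerivAt.fun_sum (u := Finset.range D) fun k _ =>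
      (hasDerivAt_pow (k + 1) g).const_mul (b (k + 1) a)).add_const (b 0 a * 1)).congr_deriv
      (Finset.sum_congr rfl fun k _ => by rw [Nat.add_sub_cancel]; push_cast; ring)
  have d2 := an.differentiableAt.hasFDerivAt.comp_hasDerivAt g
    ((hasDerivAt_const g a).prodMk (hasDerivAt_id g))
  obtain ⟨F, F1, F2, F3⟩ := Step.imp an (d1.unique d2 ▸ left_ne_zero_of_mul h1)
  have F4 : AnalyticAt ℂ (fun z => (F z)⁻¹) a := F1.inv (F2 ▸ g0)
  obtain ⟨r, r0, hr⟩ := Metric.eventually_nhds_iff_ball.1 F4.eventually_analyticAt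
  obtain ⟨K, K0, hK⟩ := (DifferentiableOn.isExactOn_ball fun z hz =>
    (hr z hz).differentiableAt.differentiableWithinAt).with_val_at a 0
  have K1 : AnalyticAt ℂ K a := DifferentiableOn.analyticAt
    (fun z hz => (hK z hz).differentiableAt.differentiableWithinAt) (ball_mem_nhds a r0)
  have K2 : deriv K a ≠ 0 := by
    rw [(hK a (mem_ball_self r0)).deriv, F2]; exact inv_ne_zero g0
  refine ⟨K, K1.hasStrictDerivAt.localInverse _ _ _ K2, K1, K0, K0 ▸ K1.analyticAt_localInverse K2,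
    ?_, HasStrictFDerivAt.eventually_left_inverse _, ?_⟩
  · have := (K1.hasStrictDerivAt.to_localInverse K2).hasDerivAt.deriv
    rw [K0] at this
    exact this ▸ inv_ne_zero K2
  · filter_upwards [F3, continuousAt_fst.eventually (ball_mem_nhds a r0),
      continuousAt_snd.eventually_ne g0] with q q1 q2 q3 q4
    exact ⟨q3, q1.1 (q4.trans h0.symm) ▸ hK _ q2⟩

end Vale.Agent.P097T
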