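import Vale.Agent.P097T.EndTop1

/-!
# P097T: a solution of an algebraic differential equation on a strip has a regular top point
-/

set_option linter.all false

noncomputable section

namespace Vale.Agent.P097T

open Filter Topology Set Metric

namespace EndTop

variable {S : Set ℂ} {D : ℕ} {b : ℕ → ℂ → ℂ}

theorem b_cont (h : Ode S D b) (k : ℕ) {a : ℂ} (ha : a ∉ S) : DifferentiableAt ℂ (b k) a :=
  (h.hol k).differentiableAt (h.cl.isOpen_compl.mem_nhds ha)

theorem odeP_cont (h : Ode S D b) {a : ℂ} (ha : a ∉ S) (g : ℂ) :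
    ContinuousAt (odeP D b) (a, g) := by
  unfold odeP
  refine tendsto_finset_sum _ (fun k _ => ?_)
  exact (ContinuousAt.comp (f := Prod.fst) (b_cont h k ha).continuousAt continuousAt_fst).mul
    (continuousAt_snd.pow k)

theorem odeD_cont (h : Ode S D b) {a : ℂ} (ha : a ∉ S) (g : ℂ) :
    ContinuousAt (odeD D b) (a, g) := by
  unfold odeD
  refine tendsto_finset_sum _ (fun k _ => ?_)
  exact ((continuousAt_const.mul
    (ContinuousAt.comp (f := Prod.fst) (b_cont h (k + 1) ha).continuousAt continuousAt_fst)).mul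
    (continuousAt_snd.pow k))

/-- the bound of Cauchy for the roots -/
theorem root_bd {z g : ℂ} (h : odeP D b (z, g) = 0) (hb : b D z ≠ 0) :
    ‖g‖ ≤ 1 + (∑ k ∈ Finset.range D, ‖b k z‖) / ‖b D z‖ := by
  have hb0 : 0 < ‖b D z‖ := norm_pos_iff.2 hb
  have hs : 0 ≤ ∑ k ∈ Finset.range D, ‖b k z‖ := Finset.sum_nonneg (fun _ _ => norm_nonneg _)
  have hq : 0 ≤ (∑ k ∈ Finset.range D, ‖b k z‖) / ‖b D z‖ := div_nonneg hs hb0.le
  by_cases hg : ‖g‖ ≤ 1
  · linarith
  have hg1 : 1 ≤ ‖g‖ := (not_le.1 hg).le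
  unfold odeP at h
  rw [Finset.sum_range_succ] at h
  simp only at h
  have h1 : b D z * g ^ D = -∑ k ∈ Finset.range D, b k z * g ^ k := by linear_combination h
  have h2 : ‖b D z‖ * ‖g‖ ^ D ≤ ∑ k ∈ Finset.range D, ‖b k z‖ * ‖g‖ ^ k := by
    rw [← norm_pow, ← norm_mul, h1, norm_neg]
    refine (norm_sum_le _ _).trans (le_of_eq (Finset.sum_congr rfl (fun k _ => ?_)))
    rw [norm_mul, norm_pow]
  have h3 : (∑ k ∈ Finset.range D, ‖b k z‖ * ‖g‖ ^ k) * ‖g‖ ≤
      (∑ k ∈ Finset.range D, ‖b k z‖) * ‖g‖ ^ D := by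
    rw [Finset.sum_mul, Finset.sum_mul]
    refine Finset.sum_le_sum (fun k hk => ?_)
    rw [mul_assoc, ← pow_succ]
    exact mul_le_mul_of_nonneg_left (pow_le_pow_right₀ hg1 (Finset.mem_range.1 hk))
      (norm_nonneg _)
  have hp : 0 < ‖g‖ ^ D := pow_pos (by linarith) D
  have h4 : ‖b D z‖ * ‖g‖ * ‖g‖ ^ D ≤ (∑ k ∈ Finset.range D, ‖b k z‖) * ‖g‖ ^ D := by
    have := mul_le_mul_of_nonneg_right h2 (norm_nonneg g)
    nlinarith
  have h5 := le_of_mul_le_mul_right h4 hp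
  have h6 : ‖g‖ ≤ (∑ k ∈ Finset.range D, ‖b k z‖) / ‖b D z‖ := by
    rw [le_div_iff₀ hb0]; linarith
  linarith

theorem roots_cnt {z : ℂ} (hb : b D z ≠ 0) : {g | odeP D b (z, g) = 0}.Countable := by
  obtain ⟨p, hp⟩ : ∃ p : Polynomial ℂ,
      p = ∑ k ∈ Finset.range (D + 1), Polynomial.C (b k z) * Polynomial.X ^ k := ⟨_, rfl⟩
  have h1 : p.coeff D = b D z := by
    rw [hp, Polynomial.finset_sum_coeff]
    simp [Polynomial.coeff_C_mul_X_pow]
  have h2 : p ≠ 0 := by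
    intro h
    rw [h, Polynomial.coeff_zero] at h1
    exact hb h1.symm
  refine ((Polynomial.finite_setOf_isRoot h2).subset ?_).countable
  intro g hg
  show p.eval g = 0
  rw [hp, Polynomial.eval_finset_sum]
  simpa [odeP] using hg

/-- near a point off `S` where the top coefficient does not vanish all roots are bounded -/
theorem loc_bd (h : Ode S D b) {a : ℂ} (ha : a ∉ S) (hb : b D a ≠ 0) :
    ∃ e M : ℝ, 0 < e ∧ 0 ≤ M ∧ ∀ z ∈ closedBall a (2 * e), z ∉ S ∧ b D z ≠ 0 ∧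
      ∀ g, odeP D b (z, g) = 0 → ‖g‖ ≤ M := by
  have hc : ContinuousAt (fun z => 1 + (∑ k ∈ Finset.range D, ‖b k z‖) / ‖b D z‖) a := by
    refine continuousAt_const.add (ContinuousAt.div ?_ (b_cont h D ha).continuousAt.norm
      (norm_ne_zero_iff.2 hb))
    exact tendsto_finset_sum _ (fun k _ => (b_cont h k ha).continuousAt.norm)
  obtain ⟨m, hm⟩ : ∃ m : ℝ, m = 1 + (∑ k ∈ Finset.range D, ‖b k a‖) / ‖b D a‖ := ⟨_, rfl⟩
  have h1 : ∀ᶠ z in 𝓝 a, 1 + (∑ k ∈ Finset.range D, ‖b k z‖) / ‖b D z‖ < m + 1 :=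
    hc.eventually (gt_mem_nhds (by rw [hm]; exact lt_add_one _))
  have h2 : ∀ᶠ z in 𝓝 a, b D z ≠ 0 := (b_cont h D ha).continuousAt.eventually_ne hb
  have h3 : ∀ᶠ z in 𝓝 a, z ∉ S := h.cl.isOpen_compl.mem_nhds ha
  obtain ⟨r, hr, hsub⟩ := nhds_basis_closedBall.eventually_iff.1 (h1.and (h2.and h3))
  refine ⟨r / 2, |m| + 1, by linarith, by positivity, fun z hz => ?_⟩
  obtain ⟨k1, k2, k3⟩ := hsub (x := z) (by rwa [mul_div_cancel₀ r two_ne_zero] at hz)
  exact ⟨k3, k2, fun g hg => by linarith [root_bd hg k2, le_abs_self m]⟩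

/-- some top point has a cluster value outside a given countable set -/
theorem good_clus {ψ : ℂ → ℂ} {R : ℝ} (hR : 0 < R) (hψ : DifferentiableOn ℂ ψ (Strip R))
    {T : Set ℂ} (hT : T.Countable) (hN : {y | y ∈ Strip R ∧ deriv ψ y = 0}.Countable) :
    ∃ y a : ℂ, y.im = R ∧ a ∉ T ∧ MapClusterPt a (Fl y) ψ := by
  by_contra hcon
  have hall : ∀ y : ℂ, y.im = R → ∀ a, MapClusterPt a (Fl y) ψ → a ∈ T := by
    intro y hy a ha
    by_contra h
    exact hcon ⟨y, a, hy, h, ha⟩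
  have hlim : ∀ y : ℂ, y.im = R → ∀ M : ℝ, (∃ᶠ u in Fl y, ψ u ∈ closedBall 0 M) →
      ∃ l ∈ T, Tendsto ψ (Fl y) (𝓝 l) := by
    intro y hy M hM
    obtain ⟨l, -, hl⟩ := (isCompact_closedBall (0 : ℂ) M).exists_mapClusterPt_of_frequently hM
    exact ⟨l, hall y hy l hl, clus hR (hψ.continuousOn.mono (hd_sub_strip hy le_rfl)) hT
      (hall y hy) hl⟩
  by_cases hfin : ∃ y : ℂ, y.im = R ∧ ∃ M : ℝ, ∃ᶠ u in Fl y, ψ u ∈ closedBall 0 M
  · obtain ⟨y, hy, M, hM⟩ := hfin
    obtain ⟨l, -, hl⟩ := hlim y hy M hM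
    have h1 : ∀ᶠ u in Fl y, ψ u ∈ closedBall 0 (‖l‖ + 1) :=
      hl.eventually (closedBall_mem_nhds_of_mem (by simp))
    obtain ⟨δ, hδ, hsub⟩ := mem_fl.1 (inter_mem h1 (hd_mem y hR))
    have hst : HD y δ ⊆ Strip R := fun u hu => hd_sub_strip hy le_rfl (hsub hu).2
    obtain ⟨B, hB⟩ : ∃ B : Set ℂ, B = ball y δ ∩ {z | z.im = y.im} := ⟨_, rfl⟩
    have hl2 : ∀ z ∈ B, ∃ l ∈ T, Tendsto ψ (𝓝[{u | u.im < y.im}] z) (𝓝 l) := by
      intro z hz
      rw [hB] at hz
      have hi : z.im = y.im := hz.2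
      haveI := fl_neBot z
      have := hlim z (hi.trans hy) (‖l‖ + 1) (Eventually.frequently
        (mem_of_superset (hd_mem' hz.1 hi) (fun u hu => (hsub hu).1)))
      unfold Fl at this
      rwa [hi] at this
    have hcl : B ⊆ closure {u : ℂ | u.im < y.im} := by
      intro z hz
      rw [hB] at hz
      rw [Complex.closure_setOf_im_lt]
      exact le_of_eq hz.2
    have hcont := continuousOn_extendFrom hcl (fun z hz => (hl2 z hz).imp (fun _ h => h.2))
    have hconv : Convex ℝ B := by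
      rw [hB]
      have : {z : ℂ | z.im = y.im} = {z : ℂ | z.im ≤ y.im} ∩ {z : ℂ | y.im ≤ z.im} := by
        ext z; simp [le_antisymm_iff]
      rw [this]
      exact (convex_ball _ _).inter ((convex_halfSpace_im_le _).inter (convex_halfSpace_im_ge _))
    have hsub1 : (extendFrom {u : ℂ | u.im < y.im} ψ '' B).Subsingleton := by
      refine hT.isTotallyDisconnected _ ?_ (hconv.isPreconnected.image _ hcont)
      rintro _ ⟨z, hz, rfl⟩
      obtain ⟨l', h1, h2⟩ := hl2 z hz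
      rwa [extendFrom_eq (hcl hz) h2]
    have hyB : y ∈ B := by rw [hB]; exact ⟨mem_ball_self hδ, rfl⟩
    have hz0 := bu' (f := fun u => ψ u - l) hδ ((hψ.mono hst).sub_const l) (fun z hz hi => by
      have hzB : z ∈ B := by rw [hB]; exact ⟨hz, hi⟩
      obtain ⟨l', -, h2⟩ := hl2 z hzB
      have e1 : l' = l := by
        rw [← extendFrom_eq (hcl hzB) h2, ← extendFrom_eq (hcl hyB) hl]
        exact hsub1 ⟨z, hzB, rfl⟩ ⟨y, hyB, rfl⟩
      unfold Fl
      rw [hi]
      simpa [e1] using h2.sub_const l)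
    obtain ⟨u, hu, hn⟩ := not_cnt (y := y) hδ hN
    refine hn ⟨hst hu, ?_⟩
    have : ψ =ᶠ[𝓝 u] fun _ => l := by
      filter_upwards [(hd_open y δ).mem_nhds hu] with v hv
      exact sub_eq_zero.1 (hz0 v hv)
    rw [this.deriv_eq, deriv_const]
  · have hinf : ∀ y : ℂ, y.im = R → ∀ M : ℝ, ∀ᶠ u in Fl y, M < ‖ψ u‖ := by
      intro y hy M
      by_contra h
      exact hfin ⟨y, hy, M, by simpa [not_eventually] using h⟩
    obtain ⟨y, hy⟩ : ∃ y : ℂ, y.im = R := ⟨R * Complex.I, by simp⟩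
    obtain ⟨δ, hδ, hsub⟩ := mem_fl.1 (inter_mem (hinf y hy 0) (hd_mem y hR))
    have hst : HD y δ ⊆ Strip R := fun u hu => hd_sub_strip hy le_rfl (hsub hu).2
    have hne : ∀ u ∈ HD y δ, ψ u ≠ 0 := fun u hu => norm_pos_iff.1 (hsub hu).1
    have hz0 := bu' (f := fun u => (ψ u)⁻¹) hδ ((hψ.mono hst).inv hne) (fun z hz hi => by
      refine tendsto_inv₀_cobounded.comp ?_
      rw [← tendsto_norm_atTop_iff_cobounded, Filter.tendsto_atTop]
      intro M
      exact (hinf z (hi.trans hy) M).mono (fun u hu => hu.le))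
    haveI := fl_neBot y
    obtain ⟨u, hu⟩ := Filter.nonempty_of_mem (hd_mem y hδ)
    exact hne u hu (inv_eq_zero.1 (hz0 u hu))

/-- a top point where `(ψ, ψ')` tends to a simple non-zero root -/
theorem good_lim (h : Ode S D b) {ψ : ℂ → ℂ} {R : ℝ} (hR : 0 < R)
    (hψ : DifferentiableOn ℂ ψ (Strip R)) (hs : Sol S D b ψ (Strip R))
    (hN : {y | y ∈ Strip R ∧ ψ y ∉ S ∧ odeD D b (ψ y, deriv ψ y) * deriv ψ y = 0}.Countable)
    {y a : ℂ} (hy : y.im = R) (ha : a ∉ S) (hb : b D a ≠ 0) (hc : MapClusterPt a (Fl y) ψ) :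
    ∃ z l g : ℂ, z.im = R ∧ l ∉ S ∧ odeP D b (l, g) = 0 ∧ odeD D b (l, g) * g ≠ 0 ∧
      Tendsto (fun u => (ψ u, deriv ψ u)) (Fl z) (𝓝 (l, g)) := by
  obtain ⟨e, M, he, hM, hK⟩ := loc_bd h ha hb
  obtain ⟨δ, hδ, hδR, hδe⟩ : ∃ δ : ℝ, 0 < δ ∧ δ ≤ R ∧ M * (2 * δ) < e := by
    refine ⟨min R (e / (2 * M + 1)), lt_min hR (by positivity), min_le_left _ _, ?_⟩
    have h1 : min R (e / (2 * M + 1)) * (2 * M + 1) ≤ e :=
      (le_div_iff₀ (by positivity)).1 (min_le_right _ _)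
    have h2 : 0 < min R (e / (2 * M + 1)) := lt_min hR (by positivity)
    nlinarith
  have hst : HD y δ ⊆ Strip R := hd_sub_strip hy hδR
  have hψ' : DifferentiableOn ℂ ψ (HD y δ) := hψ.mono hst
  have hd' : DifferentiableOn ℂ (deriv ψ) (HD y δ) := hψ'.deriv (hd_open y δ)
  have hbd : ∀ u ∈ HD y δ, ψ u ∈ closedBall a (2 * e) → ‖deriv ψ u‖ ≤ M := fun u hu hin =>
    (hK _ hin).2.2 _ (hs u (hst hu) (hK _ hin).1)
  obtain ⟨u₀, h1, h2⟩ := ((mapClusterPt_iff_frequently.1 hc _ (ball_mem_nhds a he)).and_eventually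
    (hd_mem y hδ)).exists
  have hin := trap hψ' hbd hM hδe h2 h1
  have hlim : ∀ z ∈ ball y δ, z.im = y.im → ∃ l g : ℂ, l ∉ S ∧ odeP D b (l, g) = 0 ∧
      Tendsto (fun u => (ψ u, deriv ψ u)) (Fl z) (𝓝 (l, g)) := by
    intro z hz hi
    haveI := fl_neBot z
    have hmem := hd_mem' hz hi
    obtain ⟨l, hl⟩ := lim_of_bd hψ' (fun u hu => hbd u hu (hin u hu)) hz hi
    have hlK : l ∈ closedBall a (2 * e) :=
      isClosed_closedBall.mem_of_tendsto hl (mem_of_superset hmem hin)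
    have hroot : ∀ c, MapClusterPt c (Fl z) (deriv ψ) → odeP D b (l, c) = 0 := by
      intro c hc
      obtain ⟨U, hU, hc⟩ := mapClusterPt_iff_ultrafilter.1 hc
      have h3 := (odeP_cont h (hK l hlK).1 c).tendsto.comp ((hl.mono_left hU).prodMk_nhds hc)
      refine tendsto_nhds_unique h3 (tendsto_const_nhds.congr' ?_)
      filter_upwards [hU hmem] with u hu
      exact (hs u (hst hu) (hK _ (hin u hu)).1).symm
    obtain ⟨g, -, hg⟩ := (isCompact_closedBall (0 : ℂ) M).exists_mapClusterPt_of_frequently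
      (l := Fl z) (f := deriv ψ) (Eventually.frequently (by
        filter_upwards [hmem] with u hu
        simpa using hbd u hu (hin u hu)))
    obtain ⟨δ', hδ', hsub⟩ := mem_fl.1 hmem
    have hg' := clus hδ' (hd'.continuousOn.mono hsub) (roots_cnt (hK l hlK).2.1) hroot hg
    exact ⟨l, g, (hK l hlK).1, hroot g hg, hl.prodMk_nhds hg'⟩
  by_contra hcon
  have hz0 := bu' (f := fun u => odeD D b (ψ u, deriv ψ u) * deriv ψ u) hδ (by
      refine DifferentiableOn.mul ?_ hd'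
      unfold odeD
      refine DifferentiableOn.fun_sum (fun k _ => ?_)
      refine DifferentiableOn.mul (DifferentiableOn.const_mul ?_ _) (hd'.pow k)
      exact (h.hol (k + 1)).comp hψ' (fun u hu => (hK _ (hin u hu)).1))
    (fun z hz hi => by
      obtain ⟨l, g, k1, k2, k3⟩ := hlim z hz hi
      have k4 : odeD D b (l, g) * g = 0 := by
        by_contra k4
        exact hcon ⟨z, l, g, hi.trans hy, k1, k2, k4, k3⟩
      rw [← k4]
      exact ((odeD_cont h k1 g).tendsto.comp k3).mul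
        ((continuous_snd.tendsto (l, g)).comp k3))
  obtain ⟨u, hu, hn⟩ := not_cnt (y := y) hδ hN
  exact hn ⟨hst hu, (hK _ (hin u hu)).1, hz0 u hu⟩

end EndTop

open EndTop in
theorem top (red : Spec_RED) (int : Spec_INT) : Spec_TOP := by
  intro S D₀ b₀ ψ R hR h₀ hψ hne hs₀
  classical
  obtain ⟨D, b, h, hs, c1, c2, c3⟩ := red S D₀ b₀ ψ (Strip R) h₀ (strip_open R)
    (strip_convex R).isPreconnected hψ hne hs₀
  have hN : {y | y ∈ Strip R ∧ deriv ψ y = 0}.Countable := by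
    refine (c2.union c3).mono ?_
    rintro y ⟨k1, k2⟩
    by_cases k3 : ψ y ∈ S
    · exact Or.inr ⟨k1, k3⟩
    · exact Or.inl ⟨k1, k3, by rw [k2, mul_zero]⟩
  obtain ⟨y, a, hy, ha, hc⟩ := good_clus hR hψ (h.cnt.union c1) hN
  have haS : a ∉ S := fun k => ha (Or.inl k)
  obtain ⟨z, l, g, hz, hl, hP, hD, hlim⟩ :=
    good_lim h hR hψ hs c2 hy haS (fun k => ha (Or.inr ⟨haS, k⟩)) hc
  obtain ⟨K, κ, hK, hK0, hκ, -, hinv, hder⟩ := int S D b l g h hl hP hD
  haveI := fl_neBot z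
  have hl1 : Tendsto ψ (Fl z) (𝓝 l) := (continuous_fst.tendsto (l, g)).comp hlim
  have e1 := hlim.eventually hder
  have e2 := hl1.eventually hinv
  have e3 : ∀ᶠ u in Fl z, ψ u ∉ S := hl1.eventually (h.cl.isOpen_compl.mem_nhds hl)
  obtain ⟨δ, hδ, hsub⟩ := mem_fl.1 (e1.and (e2.and (e3.and (hd_mem z hR))))
  have hst : HD z δ ⊆ Strip R := fun u hu => hd_sub_strip hz le_rfl (hsub hu).2.2.2
  have hdv : ∀ u ∈ HD z δ, HasDerivAt (fun u => K (ψ u) - u) 0 u := by
    intro u hu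
    obtain ⟨k1, -, k3, -⟩ := hsub hu
    obtain ⟨k4, k5⟩ := k1 (hs u (hst hu) k3)
    have k6 := (hψ.differentiableAt ((strip_open R).mem_nhds (hst hu))).hasDerivAt
    have k7 := (k5.comp u k6).sub (hasDerivAt_id u)
    simp only at k4 k7
    rw [inv_mul_cancel₀ k4, sub_self] at k7
    exact k7
  obtain ⟨c, hc'⟩ := (hd_open z δ).exists_is_const_of_deriv_eq_zero (hd_convex z δ).isPreconnected
    (f := fun u => K (ψ u) - u)
    (fun u hu => (hdv u hu).differentiableAt.differentiableWithinAt) (fun u hu => (hdv u hu).deriv)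
  have hcz : c = -z := by
    have k1 : Tendsto (fun u => K (ψ u) - u) (Fl z) (𝓝 (K l - z)) :=
      (hK.continuousAt.tendsto.comp hl1).sub (tendsto_id.mono_left (fl_le z))
    rw [hK0, zero_sub] at k1
    refine tendsto_nhds_unique (tendsto_const_nhds.congr' ?_) k1
    filter_upwards [hd_mem z hδ] with u hu
    exact (hc' u hu).symm
  have heq : ∀ u ∈ HD z δ, ψ u = κ (u - z) := by
    intro u hu
    have k1 := hc' u hu
    have k2 : K (ψ u) = u - z := by rw [hcz] at k1; linear_combination k1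
    rw [← k2]
    exact (hsub hu).2.1.symm
  obtain ⟨ρ, hρ, hball⟩ := Metric.eventually_nhds_iff_ball.1 hκ.eventually_analyticAt
  refine ⟨z, min ρ δ, fun u => if u ∈ Strip R then ψ u else κ (u - z), hz, lt_min hρ hδ, ?_,
    fun u hu => if_pos hu⟩
  rintro u (hu | hu)
  · refine ((hψ.differentiableAt ((strip_open R).mem_nhds hu)).congr_of_eventuallyEq
      ?_).differentiableWithinAt
    filter_upwards [(strip_open R).mem_nhds hu] with v hv
    exact if_pos hv
  · have k1 : u - z ∈ ball (0 : ℂ) ρ := by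
      have := ball_subset_ball (min_le_left ρ δ) hu
      simpa [mem_ball, dist_eq_norm] using this
    have k2 : DifferentiableAt ℂ (fun u => κ (u - z)) u :=
      (hball _ k1).differentiableAt.comp u (by fun_prop)
    refine (k2.congr_of_eventuallyEq ?_).differentiableWithinAt
    filter_upwards [isOpen_ball.mem_nhds hu] with v hv
    split_ifs with hv'
    · refine heq v ⟨ball_subset_ball (min_le_right ρ δ) hv, ?_⟩
      show v.im < z.im
      rw [hz]
      exact (abs_lt.1 hv').2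
    · rfl

end Vale.Agent.P097T
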