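import Vale.Agent.P097T.EndAll
import Vale.Agent.P097T.EndLaz
import Vale.Agent.P097T.EndLink
import Vale.Agent.P097T.EndOde
import Vale.Agent.P097T.EndTop
import Vale.Agent.P097T.EndEnt

/-!
# P097T: the endgame in closed form, from T3 alone
-/

set_option linter.all false

noncomputable section

namespace Vale.Agent.P097T

open Filter Topology Set Metric Complex Vale.Agent.P097 Vale.Agent.P097A EB EA

theorem nb' (T3 : Spec_T3) : Spec_NB := nb T3 laz link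

theorem cor' (T3 : Spec_T3) : Spec_COR := cor laz (nb' T3) (top red int) (ent red int)

theorem exists_laz {h : ℝ → ℝ} (hT : IsTable h) (hI : H402.IntBd h) : ∃ p c, Laz h p c := by
  obtain ⟨ε, η, Φ, J, N⟩ := nform hI
  exact ⟨_, laz h ε η Φ J hT N⟩

/-- reflection in the real axis -/
theorem hol_conj {p : ℝ → ℝ} {ψ : ℂ → ℂ} {R ρ : ℝ} {y₀ : ℂ} (E : HolExt p ψ (Strip R ∪ ball y₀ ρ)) :
    HolExt p (starRingEnd ℂ ∘ ψ ∘ starRingEnd ℂ) (Strip R ∪ ball (starRingEnd ℂ y₀) ρ) := by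
  refine ⟨fun y hy => (differentiableAt_conj_conj_iff.2 (E.hol.differentiableAt
    (((strip_open R).union isOpen_ball).mem_nhds (hy.imp (fun m => ?_) fun m => ?_)))
    ).differentiableWithinAt, fun x => by simp [E.eq]⟩
  · simpa [Strip] using m
  · rwa [mem_ball, ← Complex.dist_conj_conj, conj_conj]

/-- the dichotomy: entire, or natural boundary of the maximal strip -/
theorem dich (T3 : Spec_T3) {h p : ℝ → ℝ} {c : ℝ} (hT : IsTable h) (hI : H402.IntBd h)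
    (hL : Laz h p c) (k : ¬ H407.IsEllipse h) : (∃ ψ, HolExt p ψ univ) ∨
      ∃ R : ℝ, 0 < R ∧ (∃ ψ, HolExt p ψ (Strip R)) ∧ ∀ (y₀ : ℂ) (ρ : ℝ) (χ : ℂ → ℂ), |y₀.im| = R →
        0 < ρ → ¬ HolExt p χ (Strip R ∪ ball y₀ ρ) := by
  refine or_iff_not_imp_right.2 fun m => glue.2 p fun r r0 => ?_
  obtain ⟨s, s1, -, ψ, E⟩ := radii (r := r) (Q := fun s => ∃ ψ, HolExt p ψ (Strip s))
    (fun s t m ⟨ψ, E⟩ => ⟨ψ, hol_mono E (Glue.smono m)⟩)
    (by
      obtain ⟨s, Z, W, m⟩ := ini h p c hT hL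
      exact ⟨s, m.1, (n0 h p c s Z W hT hI hL m.1 m.2).resolve_left k⟩)
    (fun R => glueH) fun R R0 _ E => by
      by_contra n
      refine m ⟨R, R0, E, fun y₀ ρ χ m1 m2 F => n ?_⟩
      obtain ⟨y₁, χ₁, m3, G⟩ : ∃ y₁ χ₁, y₁.im = R ∧ HolExt p χ₁ (Strip R ∪ ball y₁ ρ) := by
        rcases (abs_eq R0.le).1 m1 with a | a
        exacts [⟨y₀, χ, a, F⟩, ⟨_, _, by simp [a], hol_conj F⟩]
      obtain ⟨s, χ', n⟩ := (nb' T3 h p c R ρ χ₁ y₁ hT hI hL R0 m2 m3 G).resolve_left k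
      exact ⟨s, n.1, χ', n.2⟩
  exact ⟨ψ, hol_mono E (Glue.smono s1.le)⟩

end Vale.Agent.P097T
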