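import Vale.Agent.P097T.EndBase
import Vale.Agent.P097T.Picard
import Vale.Agent.P267.H714.Picard

/-!
# P097T: an isotropic tangency in the strip of the Lazutkin parameter gives an ellipse (N0)
-/

set_option linter.all false

noncomputable section

namespace Vale.Agent.P097T

open Filter Topology Set Metric Complex Vale.Agent.P097 Vale.Agent.P097A EB

namespace N0

open GB

theorem od_order {n : ℤ} {c d : ℂ} {f : ℂ → ℂ} (h : Od n c d f) (c0 : c ≠ 0) :
    meromorphicOrderAt f 0 = n := by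
  obtain ⟨g, a, rfl, -, k⟩ := h
  have m : MeromorphicAt (fun τ : ℂ => τ ^ n * g τ) 0 :=
    ((MeromorphicAt.id 0).zpow n).mul a.meromorphicAt
  exact (meromorphicOrderAt_eq_int_iff (m.congr k.symm)).2 ⟨g, a, c0, k.mono fun τ e => by
    simpa using e⟩

theorem od_om {α β : ℤ} {z w : ℂ → ℂ} (α0 : α ≠ 0) (β0 : β ≠ 0) (hz : AnalyticAt ℂ z 0)
    (hw : AnalyticAt ℂ w 0) (z0 : z 0 ≠ 0) (w0 : w 0 ≠ 0) :
    ∃ d, Od (-1) ((α : ℂ) - β) d (om (pw α z) (pw β w)) := by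
  have a0 : (α : ℂ) ≠ 0 := Int.cast_ne_zero.2 α0
  have b0 : (β : ℂ) ≠ 0 := Int.cast_ne_zero.2 β0
  have k1 := ((od_pw hz α).der.der.div (od_pw hz α).der (mul_ne_zero a0 z0)).cg
    (m := -1) (by ring) rfl rfl
  have k2 := ((od_pw hw β).der.der.div (od_pw hw β).der (mul_ne_zero b0 w0)).cg
    (m := -1) (by ring) rfl rfl
  refine ⟨_, (k1.sub k2).cg rfl ?_ rfl⟩
  push_cast
  field_simp
  ring

theorem tend_neg : Tendsto (fun τ : ℂ => -τ) (𝓝[≠] 0) (𝓝[≠] 0) :=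
  tendsto_nhdsWithin_iff.2
    ⟨(Continuous.tendsto' (f := fun τ : ℂ => -τ) (by fun_prop) _ _ neg_zero).mono_left
      nhdsWithin_le_nhds, eventually_mem_nhdsWithin.mono fun τ k m => k (neg_eq_zero.1 m)⟩

/-- the invariants of an even curve are even -/
theorem even {Z W : ℂ → ℂ} (hR : ∀ᶠ τ in 𝓝[≠] (0 : ℂ), Reg Z W τ)
    (e : ∀ᶠ τ in 𝓝[≠] (0 : ℂ), Z (-τ) = Z τ ∧ W (-τ) = W τ) :
    ∀ᶠ τ in 𝓝[≠] (0 : ℂ), La Z W (-τ) = La Z W τ ∧ GG Z W (-τ) = GG Z W τ := by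
  filter_upwards [tend_neg.eventually hR, evn e] with τ k1 k2
  have aB : AnalyticAt ℂ (fun τ : ℂ => -τ) τ := by fun_prop
  have dB : deriv (fun τ : ℂ => -τ) τ = -1 := by simp
  have d : deriv (fun τ : ℂ => -τ) τ ≠ 0 := by rw [dB]; norm_num
  have e1 : (Z ∘ fun τ : ℂ => -τ) =ᶠ[𝓝 τ] Z := k2.mono fun _ m => m.1
  have e2 : (W ∘ fun τ : ℂ => -τ) =ᶠ[𝓝 τ] W := k2.mono fun _ m => m.2
  constructor
  · rw [← La_congr e1 e2, La_comp aB d k1, dB]
    ring
  · rw [← (GFun.GG_congr e1 e2).self_of_nhds, GFun.GG_comp aB d k1]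

/-- an analytic germ whose derivative has an even sixth power is odd -/
theorem odd {B : ℂ → ℂ} (hB : AnalyticAt ℂ B 0) (B0 : B 0 = 0) (dB : deriv B 0 ≠ 0)
    (e : ∀ᶠ τ in 𝓝[≠] (0 : ℂ), deriv B (-τ) ^ 6 = deriv B τ ^ 6) :
    ∀ᶠ τ in 𝓝 (0 : ℂ), B (-τ) = -B τ := by
  have a1 := hB.deriv
  have a2 : AnalyticAt ℂ (fun τ => deriv B (-τ)) 0 := a1.comp_of_eq (by fun_prop) neg_zero
  have a3 : ContinuousAt (fun τ => deriv B (-τ) ^ 5 + deriv B (-τ) ^ 4 * deriv B τ +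
      deriv B (-τ) ^ 3 * deriv B τ ^ 2 + deriv B (-τ) ^ 2 * deriv B τ ^ 3 +
      deriv B (-τ) * deriv B τ ^ 4 + deriv B τ ^ 5) 0 := by
    have := a1.continuousAt
    have := a2.continuousAt
    fun_prop
  have k1 := a3.eventually_ne (y := 0) (by
    simp only [neg_zero]
    rw [show ∀ u : ℂ, u ^ 5 + u ^ 4 * u + u ^ 3 * u ^ 2 + u ^ 2 * u ^ 3 + u * u ^ 4 + u ^ 5 =
      6 * u ^ 5 from fun u => by ring]
    exact mul_ne_zero (by norm_num) (pow_ne_zero _ dB))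
  have k2 : ∀ᶠ τ in 𝓝 (0 : ℂ), deriv B (-τ) = deriv B τ := by
    refine eventuallyEq_nhds_of_eventuallyEq_nhdsNE ?_ (by simp)
    filter_upwards [e, nhdsWithin_le_nhds k1] with τ m1 m2
    refine sub_eq_zero.1 ((mul_eq_zero.1 ?_).resolve_right m2)
    linear_combination m1
  have t : Tendsto (fun τ : ℂ => -τ) (𝓝 0) (𝓝 0) :=
    Continuous.tendsto' (f := fun τ : ℂ => -τ) (by fun_prop) _ _ neg_zero
  obtain ⟨r, r0, hr⟩ := Metric.eventually_nhds_iff_ball.1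
    (k2.and (hB.eventually_analyticAt.and (t.eventually hB.eventually_analyticAt)))
  have d : ∀ τ ∈ ball (0 : ℂ) r, HasDerivAt (fun τ => B (-τ) + B τ) 0 τ := fun τ m =>
    (((hr τ m).2.2.differentiableAt.hasDerivAt.comp τ (hasDerivAt_neg τ)).add
      (hr τ m).2.1.differentiableAt.hasDerivAt).congr_deriv (by rw [(hr τ m).1]; ring)
  filter_upwards [ball_mem_nhds _ r0] with τ m
  have := isOpen_ball.is_const_of_deriv_eq_zero (convex_ball _ _).isPreconnected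
    (fun τ m => (d τ m).differentiableAt.differentiableWithinAt) (fun τ m => (d τ m).deriv) m
    (mem_ball_self r0)
  simp only [neg_zero, B0, add_zero] at this
  exact eq_neg_of_add_eq_zero_left this

theorem sym1 {α β : ℤ} {z w : ℂ → ℂ} {k : ℂ} (α0 : α ≠ 0) (β0 : β ≠ 0) (αβ : α < β)
    (hz : AnalyticAt ℂ z 0) (hw : AnalyticAt ℂ w 0) (z0 : z 0 ≠ 0) (w0 : w 0 ≠ 0) (k0 : k ≠ 0)
    (h : Place.Pp (pw α z) (pw β w)) (hk : ∀ᶠ τ in 𝓝[≠] (0 : ℂ), La (pw α z) (pw β w) τ = k) :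
    ∀ᶠ τ in 𝓝[≠] (0 : ℂ), GG (pw α z) (pw β w) (-τ) = GG (pw α z) (pw β w) τ := by
  obtain ⟨d, o1⟩ := od_om α0 β0 hz hw z0 w0
  have a0 : (α : ℂ) ≠ 0 := Int.cast_ne_zero.2 α0
  have b0 : (β : ℂ) ≠ 0 := Int.cast_ne_zero.2 β0
  have ab : (α : ℂ) - β ≠ 0 := sub_ne_zero.2 (Int.cast_injective.ne αβ.ne)
  have o2 := od_order ((o1.sq.sq.mul ((od_pw hz α).der.mul (od_pw hw β).der)).ev
    (h := La (pw α z) (pw β w)) (.of_forall fun τ => by simp only [La]; ring))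
    (mul_ne_zero (pow_ne_zero _ (pow_ne_zero _ ab))
      (mul_ne_zero (mul_ne_zero a0 z0) (mul_ne_zero b0 w0)))
  rw [od_order ((od_const k).ev hk) k0] at o2
  have o3 : (0 : ℤ) = 2 * (2 * -1) + (α - 1 + (β - 1)) := by exact_mod_cast o2
  obtain ⟨-, k1⟩ := exp'.1 α β z w α0 β0 αβ (by omega) hz hw z0 w0 (h.mono fun _ c => c.2)
  obtain rfl : α = (2 : ℕ) := by push_cast; omega
  obtain rfl : β = 2 * (2 : ℕ) := k1
  obtain ⟨B, w₁, hB, B0, dB, a1, w1, e⟩ := desc.2 (2 : ℕ) (2 * (2 : ℕ)) z w α0 hz hw z0 w0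
  have hs := hB.hasStrictDerivAt
  have tB : Tendsto B (𝓝[≠] 0) (𝓝[≠] 0) := by
    simpa [B0] using hs.hasDerivAt.tendsto_nhdsNE dB
  set Z₁ := pw (2 : ℕ) fun _ => (1 : ℂ) with hZ₁
  set W₁ := pw (2 * (2 : ℕ)) w₁ with hW₁
  have k2 : ∀ᶠ τ in 𝓝[≠] (0 : ℂ), (Reg Z₁ W₁ τ ∧ IntAt Z₁ W₁ τ) ∧
      GG Z₁ W₁ τ = GG (pw (2 : ℕ) z) (pw (2 * (2 : ℕ)) w) (B τ) ∧
      La Z₁ W₁ τ = deriv B τ ^ 6 * k := by
    filter_upwards [tB.eventually h, tB.eventually hk, evn e, mem_nhdsWithin_of_mem_nhds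
      (hB.eventually_analyticAt.and (hB.deriv.continuousAt.eventually_ne dB))] with τ c1 c0 c2 c4
    have e1 : Z₁ =ᶠ[𝓝 τ] pw (2 : ℕ) z ∘ B := c2.mono fun _ m => m.1.symm
    have e2 : W₁ =ᶠ[𝓝 τ] pw (2 * (2 : ℕ)) w ∘ B := c2.mono fun _ m => m.2.symm
    obtain ⟨c5, c6⟩ := Place.tr law' gg c4.1 c4.2 c1.1.anZ c1.1.anW e1 e2
    exact ⟨c5 c1, c6 (c5 c1).1, by rw [La_congr e1 e2, La_comp c4.1 c4.2 c1.1, c0]⟩
  have k3 := re fam' lin (uniq lines) lawf kink np an dd 2 w₁ (-1) two_pos (by norm_num) a1 w1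
    (k2.mono fun _ c => c.1.2)
  have k4 := even (k2.mono fun _ c => c.1.1) (by
    filter_upwards [nhdsWithin_le_nhds k3] with τ m
    rw [neg_one_mul] at m
    simp only [hZ₁, hW₁, pw, m]
    rw [Even.neg_zpow ⟨1, by norm_num⟩, Even.neg_zpow ⟨2, by norm_num⟩]
    exact ⟨rfl, rfl⟩)
  have k5 := odd hB B0 dB (by
    filter_upwards [k2, tend_neg.eventually k2, k4] with τ m1 m2 m3
    exact mul_right_cancel₀ k0 (m2.2.2.symm.trans (m3.1.trans m1.2.2)))
  have k6 : ∀ᶠ τ in 𝓝[≠] (0 : ℂ), GG (pw (2 : ℕ) z) (pw (2 * (2 : ℕ)) w) (-B τ) =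
      GG (pw (2 : ℕ) z) (pw (2 * (2 : ℕ)) w) (B τ) := by
    filter_upwards [k2, tend_neg.eventually k2, k4, nhdsWithin_le_nhds k5] with τ m1 m2 m3 m4
    rw [← m4, ← m2.2.1, m3.2, m1.2.1]
  refine eventually_nhdsWithin_iff.2 ?_
  have k7 := hs.map_nhds_eq dB
  rw [B0] at k7
  rw [← k7, eventually_map]
  filter_upwards [eventually_nhdsWithin_iff.1 k6] with τ c1 c2
  exact c1 fun c3 => c2 (by rw [c3, B0]; rfl)

theorem la_swap (Z W : ℂ → ℂ) (τ : ℂ) : La W Z τ = La Z W τ := by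
  simp only [La]
  rw [GFun.om_swap Z W]
  ring

/-- at a pole of `om` the function `GG` is even -/
theorem sym {Z W : ℂ → ℂ} {k : ℂ} (hZ : MeromorphicAt Z 0) (hW : MeromorphicAt W 0) (k0 : k ≠ 0)
    (h : Place.Pp Z W) (hk : ∀ᶠ τ in 𝓝[≠] (0 : ℂ), La Z W τ = k) (hp : ¬ Bdd0 (om Z W)) :
    ∀ᶠ τ in 𝓝[≠] (0 : ℂ), GG Z W (-τ) = GG Z W τ := by
  obtain ⟨α, z, b, α0, hz, z0, ez⟩ := GFun.normal_mer Z hZ (h.mono fun _ m => m.1.dZ)
  obtain ⟨β, w, d, β0, hw, w0, ew⟩ := GFun.normal_mer W hW (h.mono fun _ m => m.1.dW)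
  have k1 : ∀ᶠ τ in 𝓝[≠] (0 : ℂ), (Reg (pw α z) (pw β w) τ ∧ IntAt (pw α z) (pw β w) τ) ∧
      GG (pw α z) (pw β w) τ = GG Z W τ ∧ La (pw α z) (pw β w) τ = La Z W τ ∧
      om (pw α z) (pw β w) τ = om Z W τ := by
    filter_upwards [h, evn ez, evn ew] with τ c1 c2 c3
    have e1 : pw α z =ᶠ[𝓝 τ] fun τ => 1 * Z τ + b := c2.mono fun _ m => by simpa using m
    have e2 : pw β w =ᶠ[𝓝 τ] fun τ => 1 * W τ + d := c3.mono fun _ m => by simpa using m
    obtain ⟨k1, k2⟩ := law'.2.2.1 Z W τ 1 b 1 d one_ne_zero one_ne_zero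
    obtain ⟨k3, k4⟩ := law'.2.1 _ _ _ _ τ e1.symm e2.symm
    have o : om (pw α z) (pw β w) τ = om Z W τ := by
      rw [(GFun.om_congr e1 e2).self_of_nhds, GFun.om_aff Z W b d one_ne_zero one_ne_zero]
    refine ⟨⟨k3 (k1 c1.1), k4 (k2 c1.1.anZ c1.1.anW c1.2)⟩, ?_, ?_, o⟩
    · rw [(GFun.GG_congr e1 e2).self_of_nhds, GFun.GG_aff Z W b d τ one_ne_zero one_ne_zero]
      simp
    · simp only [La]
      rw [o, e1.deriv_eq, e2.deriv_eq, Law.deriv_aff, Law.deriv_aff]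
      simp
  have k2 : ∀ᶠ τ in 𝓝[≠] (0 : ℂ), La (pw α z) (pw β w) τ = k :=
    (k1.and hk).mono fun τ m => m.1.2.2.1.trans m.2
  have k3 : ∀ᶠ τ in 𝓝[≠] (0 : ℂ), GG (pw α z) (pw β w) (-τ) = GG (pw α z) (pw β w) τ := by
    rcases lt_trichotomy α β with m | m | m
    · exact sym1 α0 β0 m hz hw z0 w0 k0 (k1.mono fun _ c => c.1) k2
    · obtain ⟨e, o1⟩ := od_om α0 β0 hz hw z0 w0
      obtain ⟨e', o2⟩ := (o1.cg rfl (by rw [m, sub_self]) rfl).up
      exact (hp ((o2.ev (k1.mono fun _ c => c.2.2.2.symm)).bdd (by norm_num))).elim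
    · refine (sym1 β0 α0 m hw hz w0 z0 k0 (k1.mono fun τ c =>
        ⟨(law'.2.2.2.1 _ _ τ).1 c.1.1, (law'.2.2.2.1 _ _ τ).2 c.1.2⟩)
        (k2.mono fun τ c => (la_swap _ _ τ).trans c)).mono fun τ c => ?_
      rwa [GFun.GG_swap (pw α z), GFun.GG_swap (pw α z)] at c
  filter_upwards [k1, tend_neg.eventually k1, k3] with τ m1 m2 m3
  rw [← m2.2.1, m3, m1.2.1]

/-- the maximum principle with two reflections -/
theorem maxp {G : ℂ → ℂ} {r : ℝ} {y₀ : ℂ} (hG : AnalyticOnNhd ℂ G (Strip r)) (h0 : y₀ ∈ Strip r)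
    (i0 : y₀.im ≠ 0) (hper : ∀ x : ℝ, G ((x + 1 : ℝ) : ℂ) = G x)
    (hre : ∀ x : ℝ, (starRingEnd ℂ) (G x) = G x)
    (hs : ∀ᶠ τ in 𝓝[≠] (0 : ℂ), G (y₀ - τ) = G (y₀ + τ)) : ∀ x : ℝ, G x = G 0 := by
  have r0 : 0 < r := (abs_nonneg _).trans_lt h0
  have hV := (strip_convex r).isPreconnected
  have p1 : ∀ y ∈ Strip r, G (y + 1) = G y :=
    an_id (f := fun y => G (y + 1)) (fun y hy => (hG (y + 1) (by simpa [Strip] using hy)).comp
      (f := fun y => y + 1) (by fun_prop)) hG hV (real_mem r0 0)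
      (.of_forall fun t => by simpa using hper t)
  have p2 : ∀ n : ℤ, ∀ y ∈ Strip r, G (y + n) = G y := fun n => by
    induction n using Int.induction_on with
    | zero => simp
    | succ n ih =>
      intro y hy
      rw [← ih y hy, ← p1 (y + (n : ℤ)) (by simpa [Strip] using hy)]
      congr 1
      push_cast
      ring
    | pred n ih =>
      intro y hy
      rw [← ih y hy, ← p1 (y + ((-(n : ℤ) - 1 : ℤ) : ℂ)) (by simpa [Strip] using hy)]
      congr 1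
      push_cast
      ring
  have c1 : ∀ y ∈ Strip r, (starRingEnd ℂ) (G ((starRingEnd ℂ) y)) = G y :=
    an_id (f := starRingEnd ℂ ∘ G ∘ starRingEnd ℂ) (DifferentiableOn.analyticOnNhd
      (fun y hy => (differentiableAt_conj_conj_iff.2
        (hG _ (by simpa [Strip] using hy)).differentiableAt).differentiableWithinAt)
      (strip_open r)) hG hV (real_mem r0 0) (.of_forall fun t => by simpa using hre t)
  have c2 : ∀ y ∈ Strip r, ‖G ((starRingEnd ℂ) y)‖ = ‖G y‖ := fun y hy => by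
    rw [← c1 y hy, RCLike.norm_conj]
  have s1 : ∀ y ∈ Strip r, 2 * y₀ - y ∈ Strip r → G (2 * y₀ - y) = G y := by
    have cv : Convex ℝ (Strip r ∩ {y | 2 * y₀ - y ∈ Strip r}) := (strip_convex r).inter
      fun a ha b hb s t hs ht hst => by
        have := strip_convex r ha hb hs ht hst
        have e : (s : ℂ) + t = 1 := by exact_mod_cast hst
        refine (congrArg (· ∈ Strip r) ?_).mp this
        simp only [real_smul]
        linear_combination 2 * y₀ * e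
    have m0 : y₀ ∈ Strip r ∩ {y | 2 * y₀ - y ∈ Strip r} :=
      ⟨h0, by rwa [mem_setOf_eq, two_mul, add_sub_cancel_right]⟩
    intro y h1 h2
    refine AnalyticOnNhd.eqOn_of_preconnected_of_frequently_eq (f := fun y => G (2 * y₀ - y))
      (fun y hy => (hG _ hy.2).comp (f := fun y => 2 * y₀ - y) (by fun_prop))
      (hG.mono inter_subset_left) cv.isPreconnected m0 (Eventually.frequently ?_) ⟨h1, h2⟩
    filter_upwards [(tend_sub y₀).eventually hs] with z hz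
    rw [show 2 * y₀ - z = y₀ - (z - y₀) by ring, hz, add_sub_cancel]
  obtain ⟨t, t0, tr, s2⟩ : ∃ t : ℝ, 0 < t ∧ t < r ∧ ∀ y : ℂ, t < |y.im| → |y.im| < min r (3 * t) →
      ∃ y' : ℂ, |y'.im| ≤ t ∧ ‖G y'‖ = ‖G y‖ := by
    refine ⟨|y₀.im|, abs_pos.2 i0, h0, fun y h1 h2 => ?_⟩
    have h3 := h2.trans_le (min_le_left _ _)
    have h4 := h2.trans_le (min_le_right _ _)
    have h5 : |y₀.im| < r := h0
    by_cases m : 0 < y.im * y₀.im
    · have m1 : |(2 * y₀ - y).im| ≤ |y₀.im| := by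
        simp only [sub_im, mul_im, re_ofNat, im_ofNat, zero_mul, add_zero]
        rcases abs_cases y.im with a | a <;> rcases abs_cases y₀.im with b | b <;>
          rw [abs_le] <;> constructor <;> nlinarith
      exact ⟨_, m1, by rw [s1 y h3 (m1.trans_lt h5)]⟩
    · have m1 : |(2 * y₀ - (starRingEnd ℂ) y).im| ≤ |y₀.im| := by
        simp only [sub_im, mul_im, re_ofNat, im_ofNat, zero_mul, add_zero, conj_im]
        rcases abs_cases y.im with a | a <;> rcases abs_cases y₀.im with b | b <;>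
          rw [abs_le] <;> constructor <;> nlinarith
      exact ⟨_, m1, by rw [s1 _ (by simpa [Strip] using h3) (m1.trans_lt h5), c2 y h3]⟩
  have hK : IsCompact (Icc (0 : ℝ) 1 ×ℂ Icc (-t) t) := isCompact_Icc.reProdIm isCompact_Icc
  have sub : Icc (0 : ℝ) 1 ×ℂ Icc (-t) t ⊆ Strip r := fun y hy =>
    (abs_le.2 (mem_reProdIm.1 hy).2).trans_lt tr
  obtain ⟨y₁, m1, m2⟩ := hK.exists_isMaxOn ⟨0, by simp [mem_reProdIm, t0.le]⟩
    (hG.continuousOn.mono sub).norm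
  have b1 : ∀ y : ℂ, |y.im| ≤ t → ‖G y‖ ≤ ‖G y₁‖ := fun y hy => by
    rw [← p2 (-⌊y.re⌋) y (hy.trans_lt tr)]
    refine m2 (mem_reProdIm.2 ⟨?_, by simpa using abs_le.1 hy⟩)
    have e : (y + ((-⌊y.re⌋ : ℤ) : ℂ)).re = Int.fract y.re := by simp [Int.fract, sub_eq_add_neg]
    rw [e]
    exact ⟨Int.fract_nonneg _, (Int.fract_lt_one _).le⟩
  have b2 : IsLocalMax (norm ∘ G) y₁ := by
    have : y₁ ∈ Strip (min r (3 * t)) :=
      (abs_le.2 (mem_reProdIm.1 m1).2).trans_lt (lt_min tr (by linarith))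
    filter_upwards [(strip_open _).mem_nhds this] with y hy
    rcases le_or_gt |y.im| t with m | m
    · exact b1 y m
    · obtain ⟨y', m3, m4⟩ := s2 y m hy
      exact m4.symm.trans_le (b1 y' m3)
  have b3 := eventually_eq_of_isLocalMax_norm
    ((hG y₁ (sub m1)).eventually_analyticAt.mono fun _ m => m.differentiableAt) b2
  have b4 := hG.eqOn_of_preconnected_of_eventuallyEq (g := fun _ => G y₁) analyticOnNhd_const hV
    (sub m1) b3
  intro x
  exact (b4 (real_mem r0 x)).trans (b4 (by simpa [Strip] using r0 : (0 : ℂ) ∈ Strip r)).symm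

end N0

open N0 in
theorem n0 : Spec_N0 := by
  intro h p c r Z W hT hI hL r0 E
  have hV := (strip_convex r).isPreconnected
  have hR := ev_reg hT hL E hV (real_mem r0)
  have R0 := fun x => real_pt hT hL E (real_mem r0 x)
  have hS := spread (strip_open r) hV (fun y hy => (hR y hy).mono fun _ m => m.1) (real_mem r0 0)
    (R0 0).1 ((R0 0).2.1 hI)
  have sh := fun y hy => shift (E.mZ y hy) (E.mW y hy)
    (((hR y hy).and (hS y hy)).mono fun _ m => ⟨m.1.1, m.2⟩)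
  by_cases hp : ∀ y ∈ Strip r, 0 ≤ meromorphicOrderAt (om Z W) y
  · right
    obtain ⟨g, ag, eg⟩ := fill (fun y hy => mer_om (E.mZ y hy) (E.mW y hy)) hp
    obtain ⟨F, F0, dF⟩ := P267.H714.exists_primitive (strip_open r) (strip_convex r)
      (f := fun z => g z / (2 * I)) (ag.differentiableOn.div_const _) 0 ((p 0 : ℝ) : ℂ)
    have g1 : ∀ x : ℝ, g x / (2 * I) = (deriv p x : ℝ) := fun x => by
      have := tendsto_nhds_unique_of_eventuallyEq
        ((ag x (real_mem r0 x)).continuousAt.tendsto.mono_left nhdsWithin_le_nhds)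
        ((GFun.an_om (R0 x).1).continuousAt.tendsto.mono_left nhdsWithin_le_nhds)
        (eg x (real_mem r0 x))
      rw [this, (R0 x).2.2.1]
      field_simp
    refine ⟨F, fun z hz => (dF z hz).differentiableAt.differentiableWithinAt, fun x => ?_⟩
    have d : ∀ x : ℝ, HasDerivAt (fun t : ℝ => F t - (p t : ℝ)) 0 x := fun x =>
      ((dF x (real_mem r0 x)).comp_ofReal.sub
        (hL.an x).differentiableAt.hasDerivAt.ofReal_comp).congr_deriv (by rw [g1, sub_self])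
    have := is_const_of_deriv_eq_zero (fun x => (d x).differentiableAt) (fun x => (d x).deriv) x 0
    simp only [ofReal_zero, F0, sub_self] at this
    exact sub_eq_zero.1 this
  · left
    push Not at hp
    obtain ⟨y₀, h0, hp⟩ := hp
    obtain ⟨G, aG, eG⟩ := fill (fun y hy => mer_GG (E.mZ y hy) (E.mW y hy)) fun y hy => by
      obtain ⟨k1, k2, k3⟩ := sh y hy
      obtain ⟨C, hC⟩ := place' _ _ k1 k2 (k3.mono fun _ m => m.1)
      refine order_nonneg_of_bdd (C := C) ?_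
      filter_upwards [(tend_sub y).eventually (hC.and k3)] with z m
      have := m.1
      rwa [m.2.2.1, add_sub_cancel] at this
    have G1 : ∀ x : ℝ, G x = ((-4 * gR h (p x) : ℝ) : ℂ) := fun x => by
      rw [← (R0 x).2.2.2.2]
      exact tendsto_nhds_unique_of_eventuallyEq
        ((aG x (real_mem r0 x)).continuousAt.tendsto.mono_left nhdsWithin_le_nhds)
        ((GFun.an_GG (R0 x).1).continuousAt.tendsto.mono_left nhdsWithin_le_nhds)
        (eG x (real_mem r0 x))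
    obtain ⟨k1, k2, k3⟩ := sh y₀ h0
    have k4 := sym k1 k2 (k := 16 * (c : ℂ) ^ 2)
      (mul_ne_zero (by norm_num) (pow_ne_zero _ (ofReal_ne_zero.2 (c_pos hT hL).ne')))
      (k3.mono fun _ m => m.1)
      ((k3.and ((tend_add y₀).eventually (hR y₀ h0))).mono fun _ m => m.1.2.2.1.trans m.2.2)
      fun ⟨C, hC⟩ => hp.not_ge (order_nonneg_of_bdd (C := C) (by
        filter_upwards [(tend_sub y₀).eventually (hC.and k3)] with z m
        have := m.1
        rwa [m.2.2.2.2, add_sub_cancel] at this))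
    have k5 := maxp aG h0 (fun m => by
        have e : y₀ = (y₀.re : ℂ) := Complex.ext rfl (by simpa using m)
        rw [e] at hp
        exact hp.not_ge (GFun.an_om (R0 _).1).meromorphicOrderAt_nonneg)
      (fun x => by rw [G1, G1, hL.per, gR_per hT]) (fun x => by rw [G1, conj_ofReal]) (by
        filter_upwards [k3, tend_neg.eventually k3, k4, (tend_add y₀).eventually (eG y₀ h0),
          tend_neg.eventually ((tend_add y₀).eventually (eG y₀ h0))] with τ m1 m2 m3 m4 m5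
        rw [sub_eq_add_neg, m5, m4, ← m2.2.1, m3, m1.2.1])
    refine Ell.real_ell hT (ψ₀ := p 0) (c := gR h (p 0)) ?_
    rw [← (hL.an 0).hasStrictDerivAt.map_nhds_eq (hL.pos 0).ne', eventually_map]
    refine .of_forall fun x => ?_
    have := k5 x
    rw [← ofReal_zero, G1, G1, ofReal_inj] at this
    exact mul_left_cancel₀ (by norm_num) this

end Vale.Agent.P097T
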