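import Vale.Agent.P097T.Even2

/-! P097 T3, evenness of third points: a point of the even line which moves on a curve is one
of the two vertices or is fixed by an extension of the reversal. -/

set_option linter.all false

namespace Vale.Agent.P097T

namespace EvData

variable {E : Type*} [Field E] [Algebra ℂ E] {V : VField E} (H : EvData V)
variable {A : Type*} [Field A] [Algebra ℂ A] [Algebra E A] [IsScalarTower ℂ E A]

lemma exists_val (V : VField E) (A : Type*) [Field A] [Algebra E A] :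
    ∃ W : ValuationSubring A, (∀ e ∈ V.O, algebraMap E A e ∈ W) ∧
      W.valuation (algebraMap E A V.w) < 1 := by
  let B : Subring A := V.O.map (algebraMap E A)
  let x : B := ⟨algebraMap E A V.w, V.w, V.w_mem, rfl⟩
  have hI : Ideal.span {x} ≠ ⊤ := by
    intro h
    rw [Ideal.span_singleton_eq_top] at h
    obtain ⟨⟨y, o, ho, rfl⟩, hy⟩ := h.exists_right_inv
    have h1 : algebraMap E A (V.w * o) = algebraMap E A 1 := by
      rw [map_mul, map_one]; exact congrArg Subtype.val hy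
    have h2 := (algebraMap E A).injective h1
    apply V.winv
    rwa [← eq_inv_of_mul_eq_one_right h2]
  obtain ⟨W, h1, h2⟩ := Ideal.image_subset_nonunits_valuationSubring _ hI
  refine ⟨W, fun e he => h1 ⟨e, he, rfl⟩, ?_⟩
  rw [← ValuationSubring.mem_nonunits_iff]
  exact h2 ⟨x, Ideal.subset_span rfl, rfl⟩

lemma algA [Algebra.IsAlgebraic E A] (z : A) : IsAlgebraic H.E0 z := by
  haveI : Algebra.IsAlgebraic H.E0 E := ⟨fun e => (H.alg0 e).isAlgebraic⟩
  haveI : Algebra.IsAlgebraic H.E0 A := Algebra.IsAlgebraic.trans H.E0 E A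
  exact Algebra.IsAlgebraic.isAlgebraic z

lemma clear [Algebra.IsAlgebraic E A] (R : Subring A) (hR : ∀ e ∈ H.O0, algebraMap E A e ∈ R)
    (g : A) (hg : g ∈ R) (t : A) (ht : t ∈ IntermediateField.adjoin H.E0 {g}) :
    ∃ n : ℕ, algebraMap E A V.w ^ (2 * n) * t ∈ R := by
  have h1 : t ∈ Algebra.adjoin H.E0 {g} := by
    rw [← IntermediateField.adjoin_simple_toSubalgebra_of_isAlgebraic (H.algA g)]
    exact ht
  have hw : ∀ n : ℕ, algebraMap E A V.w ^ (2 * n) ∈ R := fun n => by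
    rw [pow_mul, ← map_pow]; exact pow_mem (hR _ H.w2) n
  clear ht
  induction h1 using Algebra.adjoin_induction with
  | mem x hx => obtain rfl := hx; exact ⟨0, by simpa using hg⟩
  | algebraMap r =>
    obtain ⟨n, hn⟩ := H.exists_even r.2
    refine ⟨n, ?_⟩
    have := hR _ hn
    rw [map_mul, map_pow] at this
    exact this
  | add x y _ _ hx hy =>
    obtain ⟨n, hn⟩ := hx
    obtain ⟨m, hm⟩ := hy
    refine ⟨n + m, ?_⟩
    convert add_mem (mul_mem (hw m) hn) (mul_mem (hw n) hm) using 1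
    ring
  | mul x y _ _ hx hy =>
    obtain ⟨n, hn⟩ := hx
    obtain ⟨m, hm⟩ := hy
    refine ⟨n + m, ?_⟩
    convert mul_mem hn hm using 1
    ring

variable (Dx Dw : Derivation ℂ A A)
  (hx : ∀ e, Dx (algebraMap E A e) = algebraMap E A (V.dx e))
  (hw : ∀ e, Dw (algebraMap E A e) = algebraMap E A (V.dw e))

include hx hw in
lemma frame (W : ValuationSubring A) (hW : ∀ e ∈ V.O, algebraMap E A e ∈ W) (g : A) (hg : g ∈ W)
    (s1 s2 : A) (h1 : s1 ∈ Subring.closure (algebraMap E A '' H.O0 ∪ {g}))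
    (h2 : s2 ∈ Subring.closure (algebraMap E A '' H.O0 ∪ {g}))
    (h0 : s1 * Dx g - s2 * (algebraMap E A V.w)⁻¹ * Dw g = 0) :
    ∃ (R : Subring A) (D : Derivation ℂ A A),
      (∀ z, D z = s1 * Dx z - s2 * (algebraMap E A V.w)⁻¹ * Dw z) ∧
      (∀ e ∈ H.O0, algebraMap E A e ∈ R) ∧ g ∈ R ∧ (∀ r ∈ R, r ∈ W) ∧ (∀ r ∈ R, D r ∈ R) ∧
      (∀ r ∈ R, W.valuation r = 1 → r⁻¹ ∈ R) := by
  let D : Derivation ℂ A A := s1 • Dx - (s2 * (algebraMap E A V.w)⁻¹) • Dw
  have hD : ∀ z, D z = s1 * Dx z - s2 * (algebraMap E A V.w)⁻¹ * Dw z := fun z => by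
    simp [D]
  obtain ⟨R, r1, r2, r3, r4⟩ := Ev.exists_R W D (algebraMap E A '' H.O0 ∪ {g})
    (by rintro t (⟨e, he, rfl⟩ | rfl)
        · exact hW e he.1
        · exact hg)
    (by rintro t (⟨e, he, rfl⟩ | rfl)
        · rw [hD, hx, hw, mul_assoc, ← map_inv₀, ← map_mul]
          exact sub_mem (mul_mem h1 (Subring.subset_closure (Or.inl ⟨_, H.dx0 he, rfl⟩)))
            (mul_mem h2 (Subring.subset_closure (Or.inl ⟨_, H.dW0 he, rfl⟩)))
        · rw [hD, h0]; exact zero_mem _)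
  refine ⟨R, D, hD, fun e he => r1 (Or.inl ⟨e, he, rfl⟩), r1 (Or.inr rfl), r2, r3,
    fun r hr hv => r4 r hr ?_⟩
  rw [← W.valuation_le_one_iff, map_inv₀, hv, inv_one]

include hx hw in
lemma far_case [Algebra.IsAlgebraic E A] (W : ValuationSubring A)
    (hW : ∀ e ∈ V.O, algebraMap E A e ∈ W) (hWw : W.valuation (algebraMap E A V.w) < 1)
    (g : A) (hg : g ∈ W) (s1 s2 : A)
    (h1 : s1 ∈ Subring.closure (algebraMap E A '' H.O0 ∪ {g}))
    (h2 : s2 ∈ Subring.closure (algebraMap E A '' H.O0 ∪ {g}))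
    (h0 : s1 * Dx g - s2 * (algebraMap E A V.w)⁻¹ * Dw g = 0) (hu : W.valuation s2 = 1) :
    algebraMap E A V.w ∉ IntermediateField.adjoin H.E0 {g} := by
  intro hm
  haveI := charZero A
  obtain ⟨R, D, hD, r0, rg, rW, rD, ri⟩ := H.frame Dx Dw hx hw W hW g hg s1 s2 h1 h2 h0
  obtain ⟨n, hn⟩ := H.clear R r0 g rg _ hm
  have hs2 : s2 ∈ R := (Subring.closure_le (t := R)).2
    (by rintro t (⟨e, he, rfl⟩ | rfl); exacts [r0 e he, rg]) h2
  have hw0 : algebraMap E A V.w ≠ 0 := (map_ne_zero _).2 V.w_ne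
  have hs0 : s2 ≠ 0 := by rintro rfl; simp at hu
  have key := Ev.far R D rD (fun n => by simpa using r0 _ (H.nat_inv0 n)) (algebraMap E A V.w)
    (-s2) hw0 (neg_ne_zero.2 hs0) (by rw [inv_neg]; exact neg_mem (ri _ hs2 hu))
    (by rw [hD, hx, hw, V.dx_w, V.dw_w]; simp) n (by rwa [pow_succ])
  have := (W.valuation_le_one_iff _).2 (rW _ key)
  rw [map_inv₀, inv_le_one₀ (zero_lt_iff.2 ((Valuation.ne_zero_iff _).2 hw0))] at this
  exact absurd hWw (not_lt.2 this)

include hx hw in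
lemma near_case [Algebra.IsAlgebraic E A] (W : ValuationSubring A)
    (hW : ∀ e ∈ V.O, algebraMap E A e ∈ W) (hWw : W.valuation (algebraMap E A V.w) < 1)
    (u : A) (hg : u ∈ W)
    (hB : Dx u * (u * Dw (algebraMap E A H.a) + Dw (algebraMap E A H.b)) =
      Dw u * (u * Dx (algebraMap E A H.a) + Dx (algebraMap E A H.b)))
    (hP : u ≠ algebraMap E A H.P) (hQ : u ≠ algebraMap E A (H.io H.P))
    (hu : W.valuation (u * algebraMap E A (V.dx H.a) + algebraMap E A (V.dx H.b)) < 1) :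
    False := by
  haveI := charZero A
  set φ := algebraMap E A with hφ
  have hw0 : φ V.w ≠ 0 := (map_ne_zero _).2 V.w_ne
  have cl : ∀ e ∈ H.O0, φ e ∈ Subring.closure (φ '' H.O0 ∪ {u}) := fun e he =>
    Subring.subset_closure (Or.inl ⟨e, he, rfl⟩)
  have clu : u ∈ Subring.closure (φ '' H.O0 ∪ {u}) := Subring.subset_closure (Or.inr rfl)
  rw [hx, hx, hw, hw] at hB
  obtain ⟨R, D, hD, r0, rg, rW, rD, ri⟩ := H.frame Dx Dw hx hw W hW u hg
    (u * φ (V.w⁻¹ * V.dw H.a) + φ (V.w⁻¹ * V.dw H.b)) (u * φ (V.dx H.a) + φ (V.dx H.b))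
    (add_mem (mul_mem clu (cl _ (H.dW0 H.a0))) (cl _ (H.dW0 H.b0)))
    (add_mem (mul_mem clu (cl _ (H.dx0 H.a0))) (cl _ (H.dx0 H.b0)))
    (by simp only [map_mul, map_inv₀]
        rw [← hφ]
        linear_combination (φ V.w)⁻¹ * hB)
  rw [← hφ] at hD r0
  have vle : ∀ e ∈ V.O, W.valuation (φ e) ≤ 1 := fun e he => (W.valuation_le_one_iff _).2 (hW e he)
  have vlt : ∀ e, V.Sm e → W.valuation (φ e) < 1 := fun e he => by
    have e1 : φ e = φ V.w * φ (V.w⁻¹ * e) := by
      rw [← map_mul, ← mul_assoc, mul_inv_cancel₀ V.w_ne, one_mul]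
    rw [e1, map_mul]
    exact mul_lt_one_of_nonneg_of_lt_one_left zero_le' hWw (vle _ he)
  have veq : ∀ e ∈ V.O, ¬ V.Sm e → W.valuation (φ e) = 1 := fun e he hn => by
    refine le_antisymm (vle e he) ?_
    have h1 := vle _ (V.inv_mem_of_not_sm hn)
    have h0 : φ e ≠ 0 := (map_ne_zero _).2 (V.ne_zero_of_not_sm hn)
    rwa [map_inv₀, map_inv₀, inv_le_one₀ (zero_lt_iff.2 ((Valuation.ne_zero_iff _).2 h0))] at h1
  set P := H.P with hPd
  set Q := H.io H.P with hQd
  have Du : D u = 0 := by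
    rw [hD]; simp only [map_mul, map_inv₀]
    linear_combination (φ V.w)⁻¹ * hB
  let β : E → E := fun e => V.w⁻¹ * V.dw H.a * V.dx e - V.dx H.a * (V.w⁻¹ * V.dw e)
  have DP : ∀ e : E, V.dx e * (e * V.dw H.a + V.dw H.b) = V.dw e * (e * V.dx H.a + V.dx H.b) →
      D (φ e) = (u - φ e) * φ (β e) := fun e he => by
    have h1 := congrArg φ he
    rw [hD, hx, hw]
    simp only [β, map_mul, map_inv₀, map_add, map_sub] at h1 ⊢
    linear_combination (φ V.w)⁻¹ * h1
  have D1 := DP P H.burg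
  have D2 := DP Q H.burg'
  have hμ : β P + β Q ∈ H.O0 := by
    have e1 : β P + β Q = V.w⁻¹ * V.dw H.a * V.dx (P + Q) -
        V.dx H.a * (V.w⁻¹ * V.dw (P + Q)) := by
      simp only [β, map_add]; ring
    rw [e1]
    exact sub_mem (mul_mem (H.dW0 H.a0) (H.dx0 H.sum0)) (mul_mem (H.dx0 H.a0) (H.dW0 H.sum0))
  have vP : W.valuation (u - φ P) < 1 := by
    have e1 : (u - φ P) * φ (V.dx H.a) =
        (u * φ (V.dx H.a) + φ (V.dx H.b)) - φ (P * V.dx H.a + V.dx H.b) := by
      simp only [map_mul, map_add]; ring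
    have h1 : W.valuation ((u - φ P) * φ (V.dx H.a)) < 1 := by
      rw [e1]; exact Valuation.map_sub_lt _ hu (vlt _ H.tang)
    rwa [map_mul, veq _ (V.dx_mem _ H.a_mem) H.ax_unit, mul_one] at h1
  have vQ : W.valuation (u - φ Q) ≤ 1 :=
    Valuation.map_sub_le _ ((W.valuation_le_one_iff _).2 hg) (vle _ (H.io_mem _ H.P_mem))
  set N := (u - φ P) * (u - φ Q) with hN
  set y := (u - φ P) + (u - φ Q) with hy
  set q := V.w⁻¹ * (P - Q) with hq
  have hN0 : N ≠ 0 := mul_ne_zero (sub_ne_zero.2 hP) (sub_ne_zero.2 hQ)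
  have eN : N = u * u - φ (P + Q) * u + φ (P * Q) := by simp only [hN, map_add, map_mul]; ring
  have ey : y = u + u - φ (P + Q) := by simp only [hy, map_add]; ring
  have NR : N ∈ R := by
    rw [eN]; exact add_mem (sub_mem (mul_mem rg rg) (mul_mem (r0 _ H.sum0) rg)) (r0 _ H.prod0)
  have yR : y ∈ R := by rw [ey]; exact sub_mem (add_mem rg rg) (r0 _ H.sum0)
  have DN : D N = N * (-φ (β P + β Q)) := by
    rw [hN, Derivation.leibniz, map_sub, map_sub, Du, D1, D2]
    simp only [smul_eq_mul, map_add]; ring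
  have epq : P - Q = V.w * q := by rw [hq, ← mul_assoc, mul_inv_cancel₀ V.w_ne, one_mul]
  have Dy : D y = φ (q * V.dx H.a * V.dw Q) +
      (-((u - φ P) * φ (β P + β Q)) - φ (V.w * (q * (V.w⁻¹ * V.dw H.a) * V.dx Q))) := by
    have e1 : φ P = φ Q + φ V.w * φ q := by rw [← map_mul, ← epq, map_sub]; ring
    rw [hy, map_add, map_sub, map_sub, Du, D1, D2]
    simp only [β, map_mul, map_inv₀, map_add, map_sub]
    rw [e1]
    field_simp
    ring
  have vDy : W.valuation (D y) = 1 := by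
    have h1 : W.valuation (φ (q * V.dx H.a * V.dw Q)) = 1 := by
      rw [map_mul, map_mul, map_mul, map_mul, veq _ H.q0.1 H.gap_unit,
        veq _ (V.dx_mem _ H.a_mem) H.ax_unit,
        veq _ (V.dw_mem _ (H.io_mem _ H.P_mem)) H.dwP_unit.2]
      simp
    rw [Dy, Valuation.map_add_eq_of_lt_left, h1]
    rw [h1]
    refine Valuation.map_sub_lt _ ?_ (vlt _ (V.sm_w_mul (mul_mem (mul_mem H.q0.1
      (H.dW0 H.a0).1) (V.dx_mem _ (H.io_mem _ H.P_mem)))))
    rw [Valuation.map_neg, map_mul]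
    exact mul_lt_one_of_nonneg_of_lt_one_left zero_le' vP (vle _ hμ.1)
  have hNi : N⁻¹ ∈ IntermediateField.adjoin H.E0 {u} := by
    refine inv_mem ?_
    have hu' : u ∈ IntermediateField.adjoin H.E0 {u} :=
      IntermediateField.mem_adjoin_simple_self _ _
    rw [eN]
    exact add_mem (sub_mem (mul_mem hu' hu') (mul_mem
      (IntermediateField.algebraMap_mem _ (⟨P + Q, H.sum0.2⟩ : H.E0)) hu'))
      (IntermediateField.algebraMap_mem _ (⟨P * Q, H.prod0.2⟩ : H.E0))
  obtain ⟨n, hn⟩ := H.clear R r0 u rg _ hNi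
  rw [← hφ] at hn
  have y2 : y ^ 2 = N * 4 + φ V.w ^ 2 * φ q ^ 2 := by
    have e1 : φ P = φ Q + φ V.w * φ q := by rw [← map_mul, ← epq, map_sub]; ring
    rw [hy, hN, e1]; ring
  have zR : φ V.w ^ 2 * φ q ^ 2 ∈ R :=
    mul_mem (by rw [← map_pow]; exact r0 _ H.w2) (pow_mem (r0 _ H.q0) 2)
  have four : (4 : A) ∈ R := by exact_mod_cast natCast_mem R 4
  have pw : ∀ k : ℕ, ∃ r ∈ R, y ^ (2 * k) = N * r + (φ V.w ^ 2 * φ q ^ 2) ^ k := by
    intro k
    induction k with
    | zero => exact ⟨0, zero_mem _, by simp⟩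
    | succ k ih =>
      obtain ⟨r, hr, h⟩ := ih
      refine ⟨r * y ^ 2 + (φ V.w ^ 2 * φ q ^ 2) ^ k * 4,
        add_mem (mul_mem hr (pow_mem yR 2)) (mul_mem (pow_mem zR k) four), ?_⟩
      rw [mul_add, mul_one, pow_add, h, pow_succ (φ V.w ^ 2 * φ q ^ 2)]
      linear_combination (φ V.w ^ 2 * φ q ^ 2) ^ k * y2
  obtain ⟨r, hr, h⟩ := pw n
  obtain ⟨r', hr', h'⟩ := Ev.near R D rD (fun n => by simpa using r0 _ (H.nat_inv0 n)) N _ y (D y)
    (neg_mem (r0 _ hμ)) DN (by intro h0; rw [h0] at vDy; simp at vDy) (ri _ (rD _ yR) vDy) rfl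
    (2 * n) ⟨r + φ V.w ^ (2 * n) * N⁻¹ * (φ q ^ 2) ^ n,
      add_mem hr (mul_mem hn (pow_mem (pow_mem (r0 _ H.q0) 2) n)), by
        rw [h, mul_pow, pow_mul]; field_simp⟩
  have h1 : W.valuation (N * r') < 1 := by
    rw [hN, map_mul, map_mul, mul_assoc]
    exact mul_lt_one_of_nonneg_of_lt_one_left zero_le' vP
      (mul_le_one' vQ ((W.valuation_le_one_iff _).2 (rW _ hr')))
  rw [← h', map_one] at h1
  exact lt_irrefl _ h1

include hx hw in
lemma notin [Algebra.IsAlgebraic E A] (u : A)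
    (hB : Dx u * (u * Dw (algebraMap E A H.a) + Dw (algebraMap E A H.b)) =
      Dw u * (u * Dx (algebraMap E A H.a) + Dx (algebraMap E A H.b)))
    (hP : u ≠ algebraMap E A H.P) (hQ : u ≠ algebraMap E A (H.io H.P)) :
    algebraMap E A V.w ∉ IntermediateField.adjoin H.E0 {u} := by
  obtain ⟨W, hW, hWw⟩ := exists_val V A
  have hw0 : algebraMap E A V.w ≠ 0 := (map_ne_zero _).2 V.w_ne
  have cl : ∀ g : A, ∀ e ∈ H.O0, algebraMap E A e ∈
      Subring.closure (algebraMap E A '' H.O0 ∪ {g}) := fun g e he =>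
    Subring.subset_closure (Or.inl ⟨e, he, rfl⟩)
  have clu : ∀ g : A, g ∈ Subring.closure (algebraMap E A '' H.O0 ∪ {g}) := fun g =>
    Subring.subset_closure (Or.inr rfl)
  have vle : ∀ e ∈ V.O, W.valuation (algebraMap E A e) ≤ 1 := fun e he =>
    (W.valuation_le_one_iff _).2 (hW e he)
  have hB' := hB
  rw [hx, hx, hw, hw] at hB'
  by_cases hu : u ∈ W
  · have hle : W.valuation (u * algebraMap E A (V.dx H.a) + algebraMap E A (V.dx H.b)) ≤ 1 :=
      (W.valuation_le_one_iff _).2 (add_mem (mul_mem hu (hW _ (H.dx0 H.a0).1))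
        (hW _ (H.dx0 H.b0).1))
    rcases hle.lt_or_eq with hlt | heq
    · exact (H.near_case Dx Dw hx hw W hW hWw u hu hB hP hQ hlt).elim
    · refine H.far_case Dx Dw hx hw W hW hWw u hu
        (u * algebraMap E A (V.w⁻¹ * V.dw H.a) + algebraMap E A (V.w⁻¹ * V.dw H.b)) _
        (add_mem (mul_mem (clu u) (cl u _ (H.dW0 H.a0))) (cl u _ (H.dW0 H.b0)))
        (add_mem (mul_mem (clu u) (cl u _ (H.dx0 H.a0))) (cl u _ (H.dx0 H.b0))) ?_ heq
      simp only [map_mul, map_inv₀]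
      linear_combination (algebraMap E A V.w)⁻¹ * hB'
  · have hu0 : u ≠ 0 := by rintro rfl; exact hu (zero_mem _)
    have hi : u⁻¹ ∈ W := (W.mem_or_inv_mem u).resolve_left hu
    have hv : W.valuation u⁻¹ < 1 := by
      rw [← ValuationSubring.mem_nonunits_iff, ValuationSubring.inv_mem_nonunits_iff]
      exact Or.inr hu
    have hax : W.valuation (algebraMap E A (V.dx H.a)) = 1 := by
      refine le_antisymm (vle _ (H.dx0 H.a0).1) ?_
      have h1 := vle _ (V.inv_mem_of_not_sm H.ax_unit)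
      have h0 : algebraMap E A (V.dx H.a) ≠ 0 :=
        (map_ne_zero _).2 (V.ne_zero_of_not_sm H.ax_unit)
      rwa [map_inv₀, map_inv₀, inv_le_one₀ (zero_lt_iff.2 ((Valuation.ne_zero_iff _).2 h0))] at h1
    have key := H.far_case Dx Dw hx hw W hW hWw u⁻¹ hi
      (algebraMap E A (V.w⁻¹ * V.dw H.a) + u⁻¹ * algebraMap E A (V.w⁻¹ * V.dw H.b))
      (algebraMap E A (V.dx H.a) + u⁻¹ * algebraMap E A (V.dx H.b))
      (add_mem (cl _ _ (H.dW0 H.a0)) (mul_mem (clu _) (cl _ _ (H.dW0 H.b0))))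
      (add_mem (cl _ _ (H.dx0 H.a0)) (mul_mem (clu _) (cl _ _ (H.dx0 H.b0))))
      (by rw [Derivation.leibniz_inv, Derivation.leibniz_inv]
          simp only [map_mul, map_inv₀, smul_eq_mul]
          field_simp
          linear_combination -hB')
      (by rw [Valuation.map_add_eq_of_lt_left, hax]
          rw [hax, map_mul]
          exact mul_lt_one_of_nonneg_of_lt_one_left zero_le' hv (vle _ (H.dx0 H.b0).1))
    intro hm
    apply key
    refine (IntermediateField.adjoin_simple_le_iff.2 ?_ :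
      IntermediateField.adjoin H.E0 {u} ≤ IntermediateField.adjoin H.E0 {u⁻¹}) hm
    have := inv_mem (IntermediateField.mem_adjoin_simple_self H.E0 u⁻¹)
    rwa [inv_inv] at this

include hx hw in
/-- An automorphism of `A` which extends `io` reverses the derivations. -/
lemma rev_der [Algebra.IsAlgebraic E A] (r : A ≃ₐ[ℂ] A)
    (hr : ∀ e, r (algebraMap E A e) = algebraMap E A (H.io e)) :
    (∀ z, Dx (r z) = r (Dx z)) ∧ ∀ z, Dw (r z) = -r (Dw z) := by
  haveI := charZero E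
  let cj : Derivation ℂ A A → Derivation ℂ A A := fun D => Derivation.mk'
    (r.symm.toLinearMap ∘ₗ (D : A →ₗ[ℂ] A) ∘ₗ r.toLinearMap) (fun a b => by simp)
  have hc : ∀ D z, cj D z = r.symm (D (r z)) := fun D z => rfl
  have hr' : ∀ e, r.symm (algebraMap E A (H.io e)) = algebraMap E A e := fun e => by
    rw [← hr, AlgEquiv.symm_apply_apply]
  constructor
  · intro z
    have := Ev.der_alg (E := E) (cj Dx - Dx) (fun e => by
      rw [Derivation.sub_apply, hc, hr, hx, hx, H.io_dx, hr', sub_self]) z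
      (Algebra.IsAlgebraic.isAlgebraic z)
    rw [Derivation.sub_apply, hc, sub_eq_zero] at this
    rw [← this, AlgEquiv.apply_symm_apply]
  · intro z
    have := Ev.der_alg (E := E) (cj Dw + Dw) (fun e => by
      rw [Derivation.add_apply, hc, hr, hw, hw, H.io_dw, map_neg, map_neg, hr', neg_add_cancel]) z
      (Algebra.IsAlgebraic.isAlgebraic z)
    rw [Derivation.add_apply, hc, add_eq_zero_iff_eq_neg] at this
    rw [← map_neg, ← this, AlgEquiv.apply_symm_apply]

include hx hw in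
/-- Evenness of third points. -/
theorem even [IsAlgClosure E A] (u : A)
    (hB : Dx u * (u * Dw (algebraMap E A H.a) + Dw (algebraMap E A H.b)) =
      Dw u * (u * Dx (algebraMap E A H.a) + Dx (algebraMap E A H.b))) :
    u = algebraMap E A H.P ∨ u = algebraMap E A (H.io H.P) ∨
      ∃ r : A ≃ₐ[ℂ] A, (∀ e, r (algebraMap E A e) = algebraMap E A (H.io e)) ∧
        (∀ z, Dx (r z) = r (Dx z)) ∧ (∀ z, Dw (r z) = -r (Dw z)) ∧ r u = u := by
  by_cases hP : u = algebraMap E A H.P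
  · exact Or.inl hP
  by_cases hQ : u = algebraMap E A (H.io H.P)
  · exact Or.inr (Or.inl hQ)
  refine Or.inr (Or.inr ?_)
  have hn := H.notin Dx Dw hx hw u hB hP hQ
  haveI := charZero A
  haveI : IsAlgClosed A := IsAlgClosure.isAlgClosed E
  set L := IntermediateField.adjoin H.E0 {u} with hL
  haveI : Algebra.IsAlgebraic L A := ⟨fun z => (H.algA z).tower_top L⟩
  haveI : IsAlgClosure L A := ⟨inferInstance, inferInstance⟩
  haveI : IsGalois L A := ⟨⟩
  have h1 : ¬ ∀ f : A ≃ₐ[L] A, f (algebraMap E A V.w) = algebraMap E A V.w := fun h => by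
    obtain ⟨x, hx⟩ := (InfiniteGalois.mem_range_algebraMap_iff_fixed (k := L) _).2 h
    exact hn (hx ▸ x.2)
  push Not at h1
  obtain ⟨f, hf⟩ := h1
  have fL : ∀ z ∈ L, f z = z := fun z hz => f.commutes ⟨z, hz⟩
  have fE : ∀ e, H.io e = e → f (algebraMap E A e) = algebraMap E A e := fun e he =>
    fL _ (IntermediateField.algebraMap_mem L (⟨e, he⟩ : H.E0))
  have fw : f (algebraMap E A V.w) = -algebraMap E A V.w := by
    have h2 := fE _ H.w2.2
    rw [map_pow, map_pow] at h2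
    exact (sq_eq_sq_iff_eq_or_eq_neg.1 h2).resolve_left hf
  have fio : ∀ e, f (algebraMap E A e) = algebraMap E A (H.io e) := fun e => by
    have h2 := H.two_ne
    have hw := V.w_ne
    have e0 : H.io ((e + H.io e) / 2) = (e + H.io e) / 2 := by
      rw [map_div₀, map_add, H.io_io, map_ofNat]; ring
    have e1 : H.io ((e - H.io e) / (2 * V.w)) = (e - H.io e) / (2 * V.w) := by
      rw [map_div₀, map_sub, H.io_io, map_mul, map_ofNat, H.io_w]; field_simp; ring
    have d1 : e = (e + H.io e) / 2 + V.w * ((e - H.io e) / (2 * V.w)) := by field_simp; ring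
    have d2 : H.io e = (e + H.io e) / 2 - V.w * ((e - H.io e) / (2 * V.w)) := by field_simp; ring
    calc f (algebraMap E A e)
        = f (algebraMap E A ((e + H.io e) / 2 + V.w * ((e - H.io e) / (2 * V.w)))) := by rw [← d1]
      _ = algebraMap E A ((e + H.io e) / 2 - V.w * ((e - H.io e) / (2 * V.w))) := by
          rw [map_add, map_mul, map_add, map_mul, fE _ e0, fE _ e1, fw, map_sub, map_mul]; ring
      _ = algebraMap E A (H.io e) := by rw [← d2]
  let r : A ≃ₐ[ℂ] A := AlgEquiv.ofRingEquiv (f := f.toRingEquiv) (fun c => by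
    rw [IsScalarTower.algebraMap_apply ℂ E A]
    exact fE _ (H.io.commutes c))
  have hr : ∀ e, r (algebraMap E A e) = algebraMap E A (H.io e) := fio
  obtain ⟨d1, d2⟩ := H.rev_der Dx Dw hx hw r hr
  exact ⟨r, hr, d1, d2, fL u (IntermediateField.mem_adjoin_simple_self _ _)⟩

end EvData

end Vale.Agent.P097T
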