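import Vale.Agent.P097T.FDdefs

/-! P097 T3, evenness of third points, part 1: stable subrings of a valuation ring. -/

set_option linter.all false

namespace Vale.Agent.P097T.Ev

variable {A : Type*} [Field A] {k : Type*} [CommRing k] [Algebra k A]

lemma closure_stable (D : Derivation k A A) (T : Set A)
    (hD : ∀ t ∈ T, D t ∈ Subring.closure T) : ∀ r ∈ Subring.closure T, D r ∈ Subring.closure T := by
  intro r hr
  induction hr using Subring.closure_induction with
  | mem x hx => exact hD x hx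
  | zero => simp
  | one => simp
  | add x y _ _ hx hy => rw [map_add]; exact add_mem hx hy
  | neg x _ hx => rw [map_neg]; exact neg_mem hx
  | mul x y hx hy hx' hy' =>
    rw [Derivation.leibniz, smul_eq_mul, smul_eq_mul]
    exact add_mem (mul_mem hx hy') (mul_mem hy hx')

lemma exists_R (V : ValuationSubring A) (D : Derivation k A A) (T : Set A)
    (hT : ∀ t ∈ T, t ∈ V) (hD : ∀ t ∈ T, D t ∈ Subring.closure T) :
    ∃ R : Subring A, T ⊆ R ∧ (∀ r ∈ R, r ∈ V) ∧ (∀ r ∈ R, D r ∈ R) ∧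
      ∀ r ∈ R, r⁻¹ ∈ V → r⁻¹ ∈ R := by
  let G : Set A := {r | ∃ S : Subring A, (∀ s ∈ S, s ∈ V) ∧ (∀ s ∈ S, D s ∈ S) ∧ r ∈ S}
  have cV : ∀ U : Set A, (∀ t ∈ U, t ∈ V) → ∀ r ∈ Subring.closure U, r ∈ V := fun U hU r hr =>
    (Subring.closure_le (t := V.toSubring)).2 (fun t ht => hU t ht) hr
  have hV : ∀ r ∈ Subring.closure G, r ∈ V := cV G (fun t ⟨S, h1, _, h3⟩ => h1 t h3)
  have hS : ∀ r ∈ Subring.closure G, D r ∈ Subring.closure G :=
    closure_stable D G (fun t ⟨S, h1, h2, h3⟩ => Subring.subset_closure ⟨S, h1, h2, h2 t h3⟩)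
  refine ⟨Subring.closure G, fun t ht => Subring.subset_closure
    ⟨Subring.closure T, cV T hT, closure_stable D T hD, Subring.subset_closure ht⟩, hV, hS, ?_⟩
  intro r hr hi
  refine Subring.subset_closure ⟨Subring.closure ((Subring.closure G : Set A) ∪ {r⁻¹}),
    cV _ ?_, closure_stable D _ ?_, Subring.subset_closure (Or.inr rfl)⟩
  · rintro t (ht | rfl)
    · exact hV t ht
    · exact hi
  · rintro t (ht | rfl)
    · exact Subring.subset_closure (Or.inl (hS t ht))
    · rw [Derivation.leibniz_inv, smul_eq_mul]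
      have h1 : r⁻¹ ∈ Subring.closure ((Subring.closure G : Set A) ∪ {r⁻¹}) :=
        Subring.subset_closure (Or.inr rfl)
      exact mul_mem (neg_mem (pow_mem h1 2)) (Subring.subset_closure (Or.inl (hS r hr)))

lemma far [CharZero A] (R : Subring A) (D : Derivation k A A) (hD : ∀ r ∈ R, D r ∈ R)
    (hQ : ∀ n : ℕ, ((n : A))⁻¹ ∈ R) (w c : A) (hw : w ≠ 0) (hc : c ≠ 0) (hci : c⁻¹ ∈ R)
    (hDw : D w = c * w⁻¹) : ∀ n : ℕ, w ^ (2 * n + 1) ∈ R → w⁻¹ ∈ R := by
  have key : ∀ n : ℕ, w ^ (2 * n + 1) ∈ R → w ^ (2 * n) * w⁻¹ ∈ R := by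
    intro n h
    have h1 := hD _ h
    rw [Derivation.leibniz_pow, hDw] at h1
    have h2 := mul_mem (mul_mem h1 hci) (hQ (2 * n + 1))
    have h3 : ((2 * n + 1 : ℕ) : A) ≠ 0 := Nat.cast_ne_zero.2 (Nat.succ_ne_zero _)
    convert h2 using 1
    simp only [smul_eq_mul, nsmul_eq_mul, Nat.add_sub_cancel]
    field_simp
  intro n
  induction n with
  | zero => intro h; simpa using key 0 h
  | succ n ih =>
    intro h
    apply ih
    have := key (n + 1) h
    convert this using 1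
    field_simp
    ring

lemma near [CharZero A] (R : Subring A) (D : Derivation k A A) (hD : ∀ r ∈ R, D r ∈ R)
    (hQ : ∀ n : ℕ, ((n : A))⁻¹ ∈ R) (N μ y c : A) (hμ : μ ∈ R) (hN : D N = N * μ) (hc : c ≠ 0)
    (hci : c⁻¹ ∈ R) (hy : D y = c) :
    ∀ n : ℕ, (∃ r ∈ R, y ^ n = N * r) → ∃ r ∈ R, 1 = N * r := by
  intro n
  induction n with
  | zero => intro h; simpa using h
  | succ n ih =>
    rintro ⟨r, hr, h⟩
    apply ih
    have h1 := congrArg D h
    rw [Derivation.leibniz_pow, Derivation.leibniz, hN, hy] at h1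
    simp only [smul_eq_mul, nsmul_eq_mul, Nat.add_sub_cancel] at h1
    have h3 : ((n + 1 : ℕ) : A) ≠ 0 := Nat.cast_ne_zero.2 (Nat.succ_ne_zero _)
    refine ⟨(D r + r * μ) * c⁻¹ * ((n + 1 : ℕ) : A)⁻¹,
      mul_mem (mul_mem (add_mem (hD r hr) (mul_mem hr hμ)) hci) (hQ _), ?_⟩
    field_simp
    linear_combination h1

/-- A derivation which vanishes on a subfield vanishes on the algebraic elements. -/
lemma der_alg {E : Type*} [Field E] [CharZero E] [Algebra E A] (D : Derivation k A A)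
    (h : ∀ e : E, D (algebraMap E A e) = 0) (z : A) (hz : IsAlgebraic E z) : D z = 0 := by
  have hi := hz.isIntegral
  have key : ∀ p : Polynomial E, D (Polynomial.aeval z p) =
      Polynomial.aeval z (Polynomial.derivative p) * D z := by
    intro p
    induction p using Polynomial.induction_on' with
    | add p q hp hq => simp only [map_add, hp, hq]; ring
    | monomial n a =>
      rw [Polynomial.aeval_monomial, Polynomial.derivative_monomial, Polynomial.aeval_monomial,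
        Derivation.leibniz, Derivation.leibniz_pow, h]
      simp only [smul_eq_mul, nsmul_eq_mul, map_mul, map_natCast]
      ring
  have h0 := key (minpoly E z)
  rw [minpoly.aeval, map_zero] at h0
  have hs : (minpoly E z).Separable := (minpoly.irreducible hi).separable
  have hne : Polynomial.aeval z (Polynomial.derivative (minpoly E z)) ≠ 0 :=
    hs.aeval_derivative_ne_zero (minpoly.aeval E z)
  exact (mul_eq_zero.1 h0.symm).resolve_left hne

end Vale.Agent.P097T.Ev

namespace Vale.Agent.P097T.VField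

variable {E : Type*} [Field E] (V : VField E)

lemma sm_mem {e : E} (h : V.Sm e) : e ∈ V.O := by
  have := mul_mem V.w_mem h
  rwa [← mul_assoc, mul_inv_cancel₀ V.w_ne, one_mul] at this

lemma sm_add {e f : E} (h : V.Sm e) (h' : V.Sm f) : V.Sm (e + f) := by
  unfold Sm at *; rw [mul_add]; exact add_mem h h'

lemma sm_neg {e : E} (h : V.Sm e) : V.Sm (-e) := by
  unfold Sm at *; rw [mul_neg]; exact neg_mem h

lemma sm_sub {e f : E} (h : V.Sm e) (h' : V.Sm f) : V.Sm (e - f) := by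
  unfold Sm at *; rw [mul_sub]; exact sub_mem h h'

lemma sm_mul_left {e f : E} (h : e ∈ V.O) (h' : V.Sm f) : V.Sm (e * f) := by
  unfold Sm at *; rw [mul_left_comm]; exact mul_mem h h'

lemma sm_mul_right {e f : E} (h : V.Sm e) (h' : f ∈ V.O) : V.Sm (e * f) := by
  rw [mul_comm]; exact V.sm_mul_left h' h

lemma sm_w_mul {e : E} (h : e ∈ V.O) : V.Sm (V.w * e) := by
  unfold Sm; rwa [← mul_assoc, inv_mul_cancel₀ V.w_ne, one_mul]

lemma sm_zero : V.Sm 0 := by unfold Sm; simp

lemma not_sm_one : ¬ V.Sm 1 := by unfold Sm; simpa using V.winv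

lemma ne_zero_of_not_sm {e : E} (h : ¬ V.Sm e) : e ≠ 0 := by
  rintro rfl; exact h V.sm_zero

lemma inv_mem_of_not_sm {e : E} (h : ¬ V.Sm e) : e⁻¹ ∈ V.O := by
  obtain ⟨n, u, hu, hui, rfl⟩ := V.unif e (V.ne_zero_of_not_sm h)
  have hw := V.w_ne
  rcases le_or_gt n 0 with hn | hn
  · obtain ⟨k, rfl⟩ : ∃ k : ℕ, n = -(k : ℤ) := ⟨(-n).toNat, by omega⟩
    rw [mul_inv, zpow_neg, inv_inv, zpow_natCast]
    exact mul_mem (pow_mem V.w_mem k) hui
  · exfalso
    apply h
    obtain ⟨k, rfl⟩ : ∃ k : ℕ, n = (k : ℤ) + 1 := ⟨(n - 1).toNat, by omega⟩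
    rw [zpow_add_one₀ hw, zpow_natCast, mul_comm _ V.w, mul_assoc]
    exact V.sm_w_mul (mul_mem (pow_mem V.w_mem k) hu)

lemma exists_pow_mul_mem (e : E) : ∃ n : ℕ, V.w ^ n * e ∈ V.O := by
  by_cases he : e = 0
  · exact ⟨0, by simp [he]⟩
  obtain ⟨n, u, hu, -, rfl⟩ := V.unif e he
  have hw := V.w_ne
  rcases le_or_gt 0 n with hn | hn
  · obtain ⟨k, rfl⟩ : ∃ k : ℕ, n = (k : ℤ) := ⟨n.toNat, by omega⟩
    exact ⟨0, by simpa using mul_mem (pow_mem V.w_mem k) hu⟩
  · obtain ⟨k, rfl⟩ : ∃ k : ℕ, n = -(k : ℤ) := ⟨(-n).toNat, by omega⟩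
    refine ⟨k, ?_⟩
    rw [zpow_neg, zpow_natCast, ← mul_assoc, mul_inv_cancel₀ (pow_ne_zero k hw), one_mul]
    exact hu

end Vale.Agent.P097T.VField
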