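import Vale.Agent.P097T.Even1

/-! P097 T3, evenness of third points, part 2. -/

set_option linter.all false

namespace Vale.Agent.P097T

/-- The data of the evenness theorem inside the valued field `E`: an involution `io`
(`w ↦ -w`), an even line `Y = a X + b` and the forward vertex `P` on it. -/
structure EvData {E : Type*} [Field E] [Algebra ℂ E] (V : VField E) where
  io : E ≃ₐ[ℂ] E
  a : E
  b : E
  P : E
  const_mem : ∀ c : ℂ, algebraMap ℂ E c ∈ V.O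
  io_io : ∀ e, io (io e) = e
  io_w : io V.w = -V.w
  io_mem : ∀ e ∈ V.O, io e ∈ V.O
  io_res : ∀ e ∈ V.O, V.Sm (io e - e)
  io_dx : ∀ e, V.dx (io e) = io (V.dx e)
  io_dw : ∀ e, V.dw (io e) = -io (V.dw e)
  a_mem : a ∈ V.O
  b_mem : b ∈ V.O
  P_mem : P ∈ V.O
  io_a : io a = a
  io_b : io b = b
  ax_unit : ¬ V.Sm (V.dx a)
  gap_unit : ¬ V.Sm (V.w⁻¹ * (P - io P))
  burg : V.dx P * (P * V.dw a + V.dw b) = V.dw P * (P * V.dx a + V.dx b)

namespace EvData

variable {E : Type*} [Field E] [Algebra ℂ E] {V : VField E} (H : EvData V)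

/-- Even elements of the valuation ring. -/
def O0 : Subring E where
  carrier := {e | e ∈ V.O ∧ H.io e = e}
  mul_mem' := fun {a b} ha hb => ⟨mul_mem ha.1 hb.1, by rw [map_mul, ha.2, hb.2]⟩
  one_mem' := ⟨one_mem _, map_one _⟩
  add_mem' := fun {a b} ha hb => ⟨add_mem ha.1 hb.1, by rw [map_add, ha.2, hb.2]⟩
  zero_mem' := ⟨zero_mem _, map_zero _⟩
  neg_mem' := fun {a} ha => ⟨neg_mem ha.1, by rw [map_neg, ha.2]⟩

lemma mem_O0 {e : E} : e ∈ H.O0 ↔ e ∈ V.O ∧ H.io e = e := Iff.rfl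

/-- Even elements. -/
def E0 : IntermediateField ℂ E where
  carrier := {e | H.io e = e}
  mul_mem' := fun {a b} ha hb => by
    simp only [Set.mem_setOf_eq] at *; rw [map_mul, ha, hb]
  one_mem' := map_one _
  add_mem' := fun {a b} ha hb => by
    simp only [Set.mem_setOf_eq] at *; rw [map_add, ha, hb]
  zero_mem' := map_zero _
  algebraMap_mem' := fun c => H.io.commutes c
  inv_mem' := fun a ha => by
    simp only [Set.mem_setOf_eq] at *; rw [map_inv₀, ha]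

lemma mem_E0 {e : E} : e ∈ H.E0 ↔ H.io e = e := Iff.rfl

include H in
lemma nat_inv (n : ℕ) : ((n : E))⁻¹ ∈ V.O := by
  have := H.const_mem ((n : ℂ)⁻¹)
  rwa [map_inv₀, map_natCast] at this

lemma nat_inv0 (n : ℕ) : ((n : E))⁻¹ ∈ H.O0 := ⟨H.nat_inv n, by simp⟩

lemma charZero (E : Type*) [Field E] [Algebra ℂ E] : CharZero E :=
  charZero_of_injective_algebraMap (algebraMap ℂ E).injective

include H in
lemma two_ne : (2 : E) ≠ 0 := by
  haveI := charZero E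
  exact two_ne_zero

lemma sm_of_odd {f : E} (hf : f ∈ V.O) (ho : H.io f = -f) : V.Sm f := by
  have h1 := H.io_res f hf
  rw [ho] at h1
  have h2 := V.sm_mul_left (neg_mem (H.nat_inv 2)) h1
  have h3 := H.two_ne
  convert h2 using 1
  push_cast
  field_simp
  ring

lemma dx0 {e : E} (he : e ∈ H.O0) : V.dx e ∈ H.O0 :=
  ⟨V.dx_mem e he.1, by rw [← H.io_dx, he.2]⟩

lemma io_dw' (e : E) : H.io (V.dw e) = -V.dw (H.io e) := by rw [H.io_dw, neg_neg]

lemma dw_sm {e : E} (he : e ∈ H.O0) : V.Sm (V.dw e) :=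
  H.sm_of_odd (V.dw_mem e he.1) (by rw [H.io_dw', he.2])

lemma dW0 {e : E} (he : e ∈ H.O0) : V.w⁻¹ * V.dw e ∈ H.O0 :=
  ⟨H.dw_sm he, by rw [map_mul, map_inv₀, H.io_w, H.io_dw', he.2]; ring⟩

lemma w2 : V.w ^ 2 ∈ H.O0 := ⟨pow_mem V.w_mem 2, by rw [map_pow, H.io_w]; ring⟩

lemma exists_even {e : E} (he : H.io e = e) : ∃ n : ℕ, V.w ^ (2 * n) * e ∈ H.O0 := by
  obtain ⟨n, hn⟩ := V.exists_pow_mul_mem e
  refine ⟨n, ?_, ?_⟩
  · have := mul_mem (pow_mem V.w_mem n) hn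
    convert this using 1
    ring
  · rw [map_mul, map_pow, H.io_w, he, pow_mul, pow_mul]; ring

lemma a0 : H.a ∈ H.O0 := ⟨H.a_mem, H.io_a⟩
lemma b0 : H.b ∈ H.O0 := ⟨H.b_mem, H.io_b⟩

lemma sum0 : H.P + H.io H.P ∈ H.O0 :=
  ⟨add_mem H.P_mem (H.io_mem _ H.P_mem), by rw [map_add, H.io_io]; ring⟩

lemma prod0 : H.P * H.io H.P ∈ H.O0 :=
  ⟨mul_mem H.P_mem (H.io_mem _ H.P_mem), by rw [map_mul, H.io_io]; ring⟩

lemma q0 : V.w⁻¹ * (H.P - H.io H.P) ∈ H.O0 := by
  refine ⟨?_, by rw [map_mul, map_inv₀, H.io_w, map_sub, H.io_io]; ring⟩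
  have := V.sm_neg (H.io_res _ H.P_mem)
  rwa [neg_sub] at this

lemma burg' : V.dx (H.io H.P) * (H.io H.P * V.dw H.a + V.dw H.b) =
    V.dw (H.io H.P) * (H.io H.P * V.dx H.a + V.dx H.b) := by
  have h := congrArg H.io H.burg
  simp only [map_mul, map_add, H.io_dw', ← H.io_dx, H.io_a, H.io_b] at h
  linear_combination -h

/-- `2 d_w P = q` and `2 d_w Q = -q` modulo `w`. -/
lemma dwP : V.Sm (2 * V.dw H.P - V.w⁻¹ * (H.P - H.io H.P)) ∧
    V.Sm (2 * V.dw (H.io H.P) + V.w⁻¹ * (H.P - H.io H.P)) := by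
  set q := V.w⁻¹ * (H.P - H.io H.P) with hq
  have hw := V.w_ne
  have e1 : H.P - H.io H.P = V.w * q := by rw [hq]; field_simp
  have e2 := congrArg V.dw e1
  rw [map_sub, Derivation.leibniz, V.dw_w, smul_eq_mul, smul_eq_mul, mul_one] at e2
  have h1 : V.Sm (V.dw H.P + V.dw (H.io H.P)) := by rw [← map_add]; exact H.dw_sm H.sum0
  have h2 : V.Sm (V.w * V.dw q) := V.sm_w_mul (V.dw_mem _ H.q0.1)
  constructor
  · convert V.sm_add h1 h2 using 1
    linear_combination e2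
  · convert V.sm_sub h1 h2 using 1
    linear_combination -e2

lemma dwP_unit : ¬ V.Sm (V.dw H.P) ∧ ¬ V.Sm (V.dw (H.io H.P)) := by
  have two : (2 : E) ∈ V.O := by exact_mod_cast natCast_mem V.O 2
  constructor
  · intro h
    apply H.gap_unit
    convert V.sm_sub (V.sm_mul_left two h) H.dwP.1 using 1
    ring
  · intro h
    apply H.gap_unit
    convert V.sm_sub H.dwP.2 (V.sm_mul_left two h) using 1
    ring

lemma tang : V.Sm (H.P * V.dx H.a + V.dx H.b) := by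
  have hu := H.dwP_unit.1
  have h1 : V.Sm (V.dw H.P * (H.P * V.dx H.a + V.dx H.b)) := by
    rw [← H.burg]
    exact V.sm_mul_left (V.dx_mem _ H.P_mem)
      (V.sm_add (V.sm_mul_left H.P_mem (H.dw_sm H.a0)) (H.dw_sm H.b0))
  have h2 := V.sm_mul_left (V.inv_mem_of_not_sm hu) h1
  rwa [← mul_assoc, inv_mul_cancel₀ (V.ne_zero_of_not_sm hu), one_mul] at h2

lemma alg0 (e : E) : IsIntegral H.E0 e := by
  refine ⟨Polynomial.X ^ 2 - Polynomial.C (⟨e + H.io e, by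
      rw [mem_E0, map_add, H.io_io]; ring⟩ : H.E0) * Polynomial.X +
    Polynomial.C (⟨e * H.io e, by rw [mem_E0, map_mul, H.io_io]; ring⟩ : H.E0), by monicity!, ?_⟩
  simp only [Polynomial.eval₂_add, Polynomial.eval₂_sub, Polynomial.eval₂_mul, Polynomial.eval₂_pow,
    Polynomial.eval₂_X, Polynomial.eval₂_C]
  change e ^ 2 - (e + H.io e) * e + e * H.io e = 0
  ring

end EvData

end Vale.Agent.P097T
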