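import Mathlib

/-!
# P097T: meromorphic extension of functions of a real variable (definitions and statements)
-/

set_option linter.all false

noncomputable section

namespace Vale.Agent.P097T.Out

open Filter Topology Set Metric Complex

/-- The strip `0 ≤ im z < t`. -/
def Hs (t : ℝ) : Set ℂ := {z | 0 ≤ z.im ∧ z.im < t}

/-- The column `|re z - c| < κ`, `0 ≤ im z < T`. -/
def Bx (c κ T : ℝ) : Set ℂ := {z | |z.re - c| < κ ∧ 0 ≤ z.im ∧ z.im < T}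

/-- `F` is meromorphic on `U` and equals `f` at all but countably many real points of `U`. -/
def IsExt (U : Set ℂ) (f : ℝ → ℂ) (F : ℂ → ℂ) : Prop :=
  MeromorphicOn F U ∧ {x : ℝ | (x : ℂ) ∈ U ∧ F x ≠ f x}.Countable

/-- `f` extends meromorphically to `U`. -/
def Ext (U : Set ℂ) (f : ℝ → ℂ) : Prop := ∃ F, IsExt U f F

/-- The derivative in the second variable. -/
def dW (f : ℝ × ℝ → ℂ) : ℝ × ℝ → ℂ := fun q => fderiv ℝ f q (0, 1)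

/-- All transversal jets of `f` along the leaf `w` extend meromorphically to `U`. -/
def Jets (U : Set ℂ) (f : ℝ × ℝ → ℂ) (w : ℝ) : Prop := ∀ k : ℕ, Ext U fun x => dW^[k] f (x, w)

/-- `f` is a quotient of holomorphic functions of two variables on a column times a disc. -/
def Col (f : ℝ × ℝ → ℂ) (c κ T w₀ : ℝ) : Prop := ∃ N D : ℂ × ℂ → ℂ,
  AnalyticOnNhd ℂ N (Bx c κ T ×ˢ ball (w₀ : ℂ) κ) ∧ AnalyticOnNhd ℂ D (Bx c κ T ×ˢ ball (w₀ : ℂ) κ) ∧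
  (∀ x w : ℝ, |x - c| < κ → |w - w₀| < κ → f (x, w) * D (x, w) = N (x, w)) ∧
  ∀ w : ℝ, |w - w₀| < κ → w ≠ w₀ → ∃ z ∈ Bx c κ T, D (z, w) ≠ 0

/-! ## Block X: calculus of extensions -/

/-- uniqueness of the extension -/
def Spec_XU : Prop := ∀ (U : Set ℂ) (f : ℝ → ℂ) (F G : ℂ → ℂ) (x₀ : ℝ), IsPreconnected U →
  (∀ᶠ x : ℝ in 𝓝 x₀, (x : ℂ) ∈ U) → IsExt U f F → IsExt U f G → ∀ z ∈ U, F =ᶠ[𝓝[≠] z] G

/-- the derivative extends -/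
def Spec_XD : Prop := ∀ (U : Set ℂ) (f : ℝ → ℂ) (F : ℂ → ℂ), (∀ x, AnalyticAt ℝ f x) →
  (∀ x₀ : ℝ, (x₀ : ℂ) ∈ U → ∀ᶠ x : ℝ in 𝓝 x₀, (x : ℂ) ∈ U) → IsExt U f F →
  IsExt U (deriv f) (deriv F)

/-- gluing a strip and a column -/
def Spec_XB : Prop := ∀ (f : ℝ → ℂ) (c κ t T : ℝ), 0 < κ → 0 < t → Ext (Hs t) f →
  Ext (Bx c κ T) f → Ext (Hs t ∪ Bx c κ T) f

/-- extension across the top line, uniformly for a family -/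
def Spec_XT : Prop := ∀ (ι : Type) (f : ι → ℝ → ℂ) (t : ℝ), 0 < t → (∀ i x, f i (x + 1) = f i x) →
  (∀ y : ℂ, y.im = t → ∃ ρ : ℝ, 0 < ρ ∧ ∀ i, Ext (Hs t ∪ ball y ρ) (f i)) →
  ∃ t' : ℝ, t < t' ∧ ∀ i, Ext (Hs t') (f i)

/-- increasing unions of strips -/
def Spec_XS : Prop := ∀ (f : ℝ → ℂ) (T : ℝ), (∀ t < T, Ext (Hs t) f) → Ext (Hs T) f

/-- reflection in the real axis -/
def Spec_XR : Prop := ∀ (f : ℝ → ℂ) (T : ℝ), 0 < T → (∀ x, AnalyticAt ℝ f x) → Ext (Hs T) f →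
  Ext (Hs T) (fun x => (starRingEnd ℂ) (f x)) → ∃ Z W : ℂ → ℂ,
    MeromorphicOn Z {z | |z.im| < T} ∧ MeromorphicOn W {z | |z.im| < T} ∧
    ∀ x : ℝ, Z x = f x ∧ W x = (starRingEnd ℂ) (f x)

/-- jets of a quotient -/
def Spec_JETS : Prop := ∀ (U : Set ℂ) (f : ℝ × ℝ → ℂ) (N D : ℂ × ℂ → ℂ) (w : ℝ),
  IsPreconnected U → (∀ z ∈ U, AnalyticAt ℂ N (z, w) ∧ AnalyticAt ℂ D (z, w)) →
  (∃ z ∈ U, D (z, w) ≠ 0) →
  (∀ x : ℝ, (x : ℂ) ∈ U → ∀ᶠ q : ℝ × ℝ in 𝓝 (x, w), f q * D (q.1, q.2) = N (q.1, q.2)) →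
  Jets U f w

/-- a nonzero analytic function has countably many zeros on all but countably many leaves -/
def Spec_GEN : Prop := ∀ (ε : ℝ) (f : ℝ × ℝ → ℂ), AnalyticOnNhd ℝ f {q | |q.2| < ε} →
  (∃ q : ℝ × ℝ, |q.2| < ε ∧ f q ≠ 0) →
  ∃ N : Set ℝ, N.Countable ∧ ∀ w ∉ N, |w| < ε → {x : ℝ | f (x, w) = 0}.Countable

/-- complexification near a leaf -/
def Spec_CPX : Prop := ∀ (ε w₀ : ℝ) (f : ℝ × ℝ → ℂ), AnalyticOnNhd ℝ f {q | |q.2| < ε} →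
  (∀ q : ℝ × ℝ, |q.2| < ε → f (q.1 + 1, q.2) = f q) → |w₀| < ε →
  ∃ (η : ℝ) (F : ℂ × ℂ → ℂ), 0 < η ∧ AnalyticOnNhd ℂ F ({z | |z.im| < η} ×ˢ ball (w₀ : ℂ) η) ∧
    (∀ p ∈ {z : ℂ | |z.im| < η} ×ˢ ball (w₀ : ℂ) η, F (p.1 + 1, p.2) = F p) ∧
    ∀ x w : ℝ, |w - w₀| < η → F (x, w) = f (x, w)

/-! ## Block R: the height of meromorphy passes to the limit along real leaves -/

/-- The coefficient of index `n` of the product of the polynomial `∑ q l ζ ^ l`, `l ≤ m`, and the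
series `∑ c n ζ ^ n` (for `m ≤ n`). -/
def cv (m : ℕ) (q c : ℕ → ℂ) (n : ℕ) : ℂ := ∑ l ∈ Finset.range (m + 1), q l * c (n - l)

/-- The series `∑ c n ζ ^ n` times a nonzero polynomial has coefficients `O (R ^ (-n))`. -/
def Mer (R : ℝ) (c : ℕ → ℂ) : Prop := ∃ (m : ℕ) (q : ℕ → ℂ) (C : ℝ), (∃ l ≤ m, q l ≠ 0) ∧
  ∀ n, m ≤ n → ‖cv m q c n‖ ≤ C * R⁻¹ ^ n

/-- The Hankel determinant. -/
def hank (m n : ℕ) (c : ℕ → ℂ) : ℂ :=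
  Matrix.det (Matrix.of fun i j : Fin (m + 1) => c (n + i - j))

/-- Fourier coefficients of negative index. -/
def fc (f : ℝ → ℂ) (n : ℕ) : ℂ := ∫ x in (0 : ℝ)..1, f x * cexp (2 * Real.pi * I * n * x)

/-- interpolation from a fat subset of a short real segment -/
def Spec_INT : Prop := ∃ K : ℝ, 1 ≤ K ∧ ∀ (f : ℂ → ℂ) (η δ M₀ M₁ : ℝ) (E : Set ℝ) (N : ℕ),
  0 < δ → 4 * δ ≤ η → DifferentiableOn ℂ f (ball 0 η) → (∀ z ∈ ball (0 : ℂ) η, ‖f z‖ ≤ M₁) →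
  E ⊆ Icc (-δ) δ → ENNReal.ofReal δ ≤ MeasureTheory.volume E → (∀ t ∈ E, ‖f t‖ ≤ M₀) →
  ‖f 0‖ ≤ K ^ (N + 1) * M₀ + (K * δ / η) ^ (N + 1) * M₁

/-- a recurrence makes the Hankel determinants small -/
def Spec_DET : Prop := ∀ (p m n : ℕ) (q c : ℕ → ℂ) (k M R : ℝ), p ≤ m → m + p ≤ n → 1 ≤ R →
  q 0 = 1 → (∀ j, ‖c j‖ ≤ M) → (∀ j, p ≤ j → ‖cv p q c j‖ ≤ k * R⁻¹ ^ j) →
  ‖hank m n c‖ ≤ (m + 1).factorial * ((k * R ^ m * R⁻¹ ^ n) ^ (m + 1 - p) * M ^ p)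

/-- small Hankel determinants give a recurrence -/
def Spec_PADE : Prop := ∀ (m n₀ : ℕ) (c : ℕ → ℂ) (C M R R' : ℝ), 1 < R' → R' < R →
  (∀ j, ‖c j‖ ≤ M) → (∀ n, n₀ ≤ n → ‖hank m n c‖ ≤ C * (R⁻¹ ^ n) ^ (m + 1)) → Mer R' c

/-- the radius of meromorphy passes to the limit -/
def Spec_ROTH : Prop := ∀ (c : ℕ → ℂ → ℂ) (η M R R' : ℝ) (N : Set ℝ), 0 < η → 1 < R' → R' < R →
  N.Countable → (∀ n, DifferentiableOn ℂ (c n) (ball 0 η)) →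
  (∀ n, ∀ w ∈ ball (0 : ℂ) η, ‖c n w‖ ≤ M) →
  (∀ w : ℝ, w ∉ N → |w| < η → Mer R fun n => c n w) → Mer R' fun n => c n 0

/-- extension gives a recurrence for the Fourier coefficients -/
def Spec_F1 : Prop := ∀ (f : ℝ → ℂ) (t T : ℝ), 0 < t → t < T → Continuous f →
  (∀ x, f (x + 1) = f x) → Ext (Hs T) f → Mer (Real.exp (2 * Real.pi * t)) (fc f)

/-- a recurrence for the Fourier coefficients gives the extension -/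
def Spec_F2 : Prop := ∀ (F : ℂ → ℂ) (η t : ℝ), 0 < η → 0 < t →
  DifferentiableOn ℂ F {z | |z.im| < η} → (∀ z : ℂ, |z.im| < η → F (z + 1) = F z) →
  Mer (Real.exp (2 * Real.pi * t)) (fc fun x => F x) → Ext (Hs t) fun x => F x

/-- the transfer theorem -/
def Spec_TR : Prop := ∀ (ε w₀ η T : ℝ) (f : ℝ × ℝ → ℂ) (N : Set ℝ),
  AnalyticOnNhd ℝ f {q | |q.2| < ε} → (∀ q : ℝ × ℝ, |q.2| < ε → f (q.1 + 1, q.2) = f q) →
  |w₀| < ε → 0 < η → N.Countable →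
  (∀ w ∉ N, |w| < ε → |w - w₀| < η → Ext (Hs T) fun x => f (x, w)) → Ext (Hs T) fun x => f (x, w₀)

end Vale.Agent.P097T.Out
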