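import Mathlib

/-! P097 T3, interface of the finite determinacy theorem FD (abstract form, helper35). -/

namespace Vale.Agent.P097T

/-- A differential field with a discrete valuation ring `O` whose uniformizer `w` is a
coordinate. -/
structure VField (E : Type*) [Field E] where
  O : Subring E
  w : E
  dx : Derivation ℤ E E
  dw : Derivation ℤ E E
  w_mem : w ∈ O
  w_ne : w ≠ 0
  winv : w⁻¹ ∉ O
  unif : ∀ e : E, e ≠ 0 → ∃ (n : ℤ) (u : E), u ∈ O ∧ u⁻¹ ∈ O ∧ e = w ^ n * u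
  dx_mem : ∀ e ∈ O, dx e ∈ O
  dw_mem : ∀ e ∈ O, dw e ∈ O
  dx_w : dx w = 0
  dw_w : dw w = 1

/-- `e` lies in the maximal ideal `w O`. -/
def VField.Sm {E : Type*} [Field E] (V : VField E) (e : E) : Prop := V.w⁻¹ * e ∈ V.O

/-- The derivative of the angle with cosine `c` and sine `s`. -/
def dang {E : Type*} [Field E] (d : Derivation ℤ E E) (c s : E) : E := c * d s - s * d c

/-- A chain of `m` reflections near grazing: lines `0, …, m` (angle `φ`, offset `p`),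
vertex `i < m` between the lines `i` and `i + 1` (angles `ψ`, `δ`, jets `h i k` of the support
function). -/
structure Mirrors {E : Type*} [Field E] (V : VField E) (m : ℕ) where
  cp : ℕ → E
  sp : ℕ → E
  p : ℕ → E
  cs : ℕ → E
  ss : ℕ → E
  cd : ℕ → E
  sd : ℕ → E
  h : ℕ → ℕ → E
  cs_mem : ∀ i < m, cs i ∈ V.O
  ss_mem : ∀ i < m, ss i ∈ V.O
  h_mem : ∀ i < m, ∀ k, h i k ∈ V.O
  one_s : ∀ i < m, cs i ^ 2 + ss i ^ 2 = 1
  one_d : ∀ i < m, cd i ^ 2 + sd i ^ 2 = 1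
  cp_in : ∀ i < m, cp i = cs i * cd i + ss i * sd i
  sp_in : ∀ i < m, sp i = ss i * cd i - cs i * sd i
  cp_out : ∀ i < m, cp (i + 1) = cs i * cd i - ss i * sd i
  sp_out : ∀ i < m, sp (i + 1) = ss i * cd i + cs i * sd i
  p_in : ∀ i < m, p i = h i 0 * cd i - h i 1 * sd i
  p_out : ∀ i < m, p (i + 1) = h i 0 * cd i + h i 1 * sd i
  dx_h : ∀ i < m, ∀ k, V.dx (h i k) = dang V.dx (cs i) (ss i) * h i (k + 1)
  dw_h : ∀ i < m, ∀ k, V.dw (h i k) = dang V.dw (cs i) (ss i) * h i (k + 1)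
  cd_one : ∀ i < m, V.Sm (cd i - 1)
  sd_sm : ∀ i < m, V.Sm (sd i)
  kap : ∀ i < m, V.Sm (V.w⁻¹ * sd i - V.w⁻¹ * sd 0)
  kap_unit : ¬ V.Sm (V.w⁻¹ * sd 0)
  rho : ∀ i < m, V.Sm (h i 0 + h i 2 - (h 0 0 + h 0 2))
  rho_unit : ¬ V.Sm (h 0 0 + h 0 2)
  psx_unit : ¬ V.Sm (dang V.dx (cs 0) (ss 0))

/-- The line `j` of a chain is algebraic over the subfield `F`. -/
def Mirrors.Alg {E : Type*} [Field E] {V : VField E} {m : ℕ} (C : Mirrors V m) (F : Subfield E)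
    (j : ℕ) : Prop :=
  IsAlgebraic F (C.cp j) ∧ IsAlgebraic F (C.sp j) ∧ IsAlgebraic F (C.p j)

/-- FD over a field with formally real residue field. -/
def Spec_FDreal : Prop :=
  ∀ (E : Type) [Field E] [CharZero E] (V : VField E) (m : ℕ) (C : Mirrors V m) (F : Subfield E),
    (∀ (s : Finset ℕ) (a : ℕ → E), (∀ i ∈ s, a i ∈ V.O) → V.Sm (∑ i ∈ s, a i ^ 2) →
      ∀ i ∈ s, V.Sm (a i)) →
    (∀ e ∈ F, V.dx e ∈ F) → (∀ e ∈ F, V.dw e ∈ F) → C.Alg F 0 → C.Alg F m →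
    ∀ j ≤ m, C.Alg F j

/-- FD over a field with a conjugation `σ` that fixes the data. -/
def Spec_FDconj : Prop :=
  ∀ (E : Type) [Field E] [CharZero E] (V : VField E) (m : ℕ) (C : Mirrors V m) (F : Subfield E)
    (σ : E →+* E), σ V.w = V.w → (∀ e, σ (V.dx e) = V.dx (σ e)) → (∀ e, σ (V.dw e) = V.dw (σ e)) →
    (∀ i < m, σ (C.cs i) = C.cs i ∧ σ (C.ss i) = C.ss i ∧ σ (C.cd i) = C.cd i ∧
      σ (C.sd i) = C.sd i ∧ ∀ k, σ (C.h i k) = C.h i k) →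
    (∀ (s : Finset ℕ) (a : ℕ → E), (∀ i ∈ s, a i ∈ V.O ∧ σ (a i) = a i) →
      V.Sm (∑ i ∈ s, a i ^ 2) → ∀ i ∈ s, V.Sm (a i)) →
    (∀ e ∈ F, V.dx e ∈ F) → (∀ e ∈ F, V.dw e ∈ F) → C.Alg F 0 → C.Alg F m →
    ∀ j ≤ m, C.Alg F j

end Vale.Agent.P097T
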