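import Vale.Agent.P097T.Fd5
import Vale.Agent.P297.H927.Der

/-! P097 T3, finite determinacy FD: the inner lines of a chain are algebraic over the differential
field of the two ends. -/

set_option linter.all false

noncomputable section

namespace Vale.Agent.P097T

open Polynomial

namespace Fd

variable {E : Type} [Field E] [CharZero E]

theorem der_aeval {d : E →+ E} (hd : IsD d) (F : Subfield E) (x : E) (Q : E → Prop)
    (h1 : ∀ a b, Q a → Q b → Q (a + b)) (h2 : ∀ (a : F) (k : ℕ), Q (d a * x ^ k)) (q : F[X]) :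
    ∃ z, Q z ∧ d (aeval x q) = aeval x (derivative q) * d x + z := by
  induction q using Polynomial.induction_on' with
  | add p q hp hq =>
    obtain ⟨z, a1, a2⟩ := hp
    obtain ⟨z', b1, b2⟩ := hq
    exact ⟨z + z', h1 _ _ a1 b1, by simp only [map_add, a2, b2]; ring⟩
  | monomial k a =>
    refine ⟨_, h2 a k, ?_⟩
    rw [derivative_monomial, aeval_monomial, aeval_monomial, hd]
    cases k with
    | zero => simp [hd.one]; rfl
    | succ k =>
      rw [hd.pow]
      simp only [map_mul, map_natCast, Nat.add_sub_cancel]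
      change (a : E) * _ + _ * d a = (a : E) * _ * _ * _ + _
      push_cast
      ring

theorem der_alg {d : E →+ E} (hd : IsD d) (F : Subfield E) {x : E} (hx : IsAlgebraic F x)
    (Q : E → Prop) (h1 : ∀ a b, Q a → Q b → Q (a + b)) (h2 : ∀ (a : F) (k : ℕ), Q (d a * x ^ k)) :
    ∃ z u, Q z ∧ IsAlgebraic F u ∧ d x = u * z := by
  obtain ⟨z, a1, a2⟩ := der_aeval hd F x Q h1 h2 (minpoly F x)
  have h3 : aeval x (derivative (minpoly F x)) ≠ 0 :=
    (minpoly.irreducible hx.isIntegral).separable.aeval_derivative_ne_zero (minpoly.aeval F x)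
  have h4 : IsAlgebraic F (aeval x (derivative (minpoly F x))) :=
    (IsIntegral.of_mem_of_fg _ hx.isIntegral.fg_adjoin_singleton _
      (Polynomial.aeval_mem_adjoin_singleton F x)).isAlgebraic
  refine ⟨z, -(aeval x (derivative (minpoly F x)))⁻¹, a1, h4.inv.neg, ?_⟩
  rw [minpoly.aeval, map_zero] at a2
  field_simp
  linear_combination -a2

theorem alg_closed {d : E →+ E} (hd : IsD d) {F : Subfield E} (hF : ∀ e ∈ F, d e ∈ F) {x : E}
    (hx : IsAlgebraic F x) : IsAlgebraic F (d x) := by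
  obtain ⟨z, u, h1, h2, h3⟩ := der_alg hd F hx (IsAlgebraic F) (fun _ _ => IsAlgebraic.add)
    (fun a k => (isAlgebraic_algebraMap (⟨_, hF a a.2⟩ : F)).mul (hx.pow k))
  exact h3 ▸ h2.mul h1

theorem alg_zero {d : E →+ E} (hd : IsD d) {F : Subfield E} (hF : ∀ e ∈ F, d e = 0) {x : E}
    (hx : IsAlgebraic F x) : d x = 0 := by
  obtain ⟨z, u, h1, -, h3⟩ := der_alg hd F hx (· = 0) (fun _ _ ha hb => by rw [ha, hb, add_zero])
    (fun a k => by rw [hF a a.2, zero_mul])
  rw [h3, h1, mul_zero]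

end Fd

open Fd

/-- FD over a field with formally real residue field. -/
theorem fd_real (E : Type) [Field E] [CharZero E] (V : VField E)
    (hc : ∀ e, V.dx (V.dw e) = V.dw (V.dx e)) (m : ℕ) (C : Mirrors V m) (F : Subfield E)
    (hF : ∀ (s : Finset ℕ) (a : ℕ → E), (∀ i ∈ s, a i ∈ V.O) → V.Sm (∑ i ∈ s, a i ^ 2) →
      ∀ i ∈ s, V.Sm (a i))
    (hx : ∀ e ∈ F, V.dx e ∈ F) (hw : ∀ e ∈ F, V.dw e ∈ F) (h0 : C.Alg F 0) (hm : C.Alg F m) :
    ∀ j ≤ m, C.Alg F j := by
  intro j hj
  cases j with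
  | zero => exact h0
  | succ j =>
  have hu : C.cp (j + 1) ^ 2 + C.sp (j + 1) ^ 2 = 1 := by
    rw [C.cp_out j hj, C.sp_out j hj]
    linear_combination (C.cd j ^ 2 + C.sd j ^ 2) * C.one_s j hj + C.one_d j hj
  have hP : Ends C (IsAlgebraic F) :=
    ⟨fun _ _ => IsAlgebraic.mul, fun _ _ => IsAlgebraic.sub,
      fun _ h => alg_closed (dX_isD V) hx h, fun _ h => alg_closed (dW_isD V) hw h, h0, hm⟩
  have key : ∀ D : Derivation F E E, D (C.cp (j + 1)) = 0 ∧ D (C.sp (j + 1)) = 0 ∧
      D (C.p (j + 1)) = 0 := by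
    intro D
    let D' : E →+ E := ⟨⟨fun e => D e, map_zero _⟩, map_add _⟩
    have hD : IsD D' := fun a b => by
      have := D.leibniz a b
      simp only [smul_eq_mul] at this
      exact this
    obtain ⟨L⟩ := exists_lift (IsAlgebraic F) (dX_isD V) (dW_isD V) hD hc hP.dx hP.dw
      (fun e he => alg_zero hD (fun e he => D.map_algebraMap ⟨e, he⟩) he)
    obtain ⟨h1, h2⟩ := all_zero L hP hF (j + 1) hj
    have h3 : ang D' (C.cp (j + 1)) (C.sp (j + 1)) = 0 := by
      simpa only [φ, ang, map_sub, map_mul, L.ε_Θ, L.ε_T] using h1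
    obtain ⟨h4, h5⟩ := ang_cs hD hu
    rw [h3, mul_zero] at h4 h5
    exact ⟨h4, h5, h2⟩
  refine ⟨?_, ?_, ?_⟩ <;> by_contra h <;>
    obtain ⟨D, hD⟩ := P297.H927.exists_derivation (F := F) h
  · exact one_ne_zero (hD.symm.trans (key D).1)
  · exact one_ne_zero (hD.symm.trans (key D).2.1)
  · exact one_ne_zero (hD.symm.trans (key D).2.2)

/-- The restriction of a derivation to a stable subfield. -/
def Fd.resD {E : Type} [Field E] (d : Derivation ℤ E E) (K : Subfield E) (h : ∀ e ∈ K, d e ∈ K) :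
    Derivation ℤ K K :=
  Derivation.mk'
    { toFun := fun e => ⟨d e, h e e.2⟩
      map_add' := fun a b => Subtype.ext (map_add d _ _)
      map_smul' := fun n a => Subtype.ext (by simp) }
    (fun a b => Subtype.ext (by simp))

/-- FD over a field with a conjugation `σ` that fixes the data. -/
theorem fd_conj (E : Type) [Field E] [CharZero E] (V : VField E)
    (hc : ∀ e, V.dx (V.dw e) = V.dw (V.dx e)) (m : ℕ) (C : Mirrors V m) (F : Subfield E)
    (σ : E →+* E) (s1 : σ V.w = V.w) (s2 : ∀ e, σ (V.dx e) = V.dx (σ e))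
    (s3 : ∀ e, σ (V.dw e) = V.dw (σ e))
    (s4 : ∀ i < m, σ (C.cs i) = C.cs i ∧ σ (C.ss i) = C.ss i ∧ σ (C.cd i) = C.cd i ∧
      σ (C.sd i) = C.sd i ∧ ∀ k, σ (C.h i k) = C.h i k)
    (hF : ∀ (s : Finset ℕ) (a : ℕ → E), (∀ i ∈ s, a i ∈ V.O ∧ σ (a i) = a i) →
      V.Sm (∑ i ∈ s, a i ^ 2) → ∀ i ∈ s, V.Sm (a i))
    (hx : ∀ e ∈ F, V.dx e ∈ F) (hw : ∀ e ∈ F, V.dw e ∈ F) (h0 : C.Alg F 0) (hm : C.Alg F m) :
    ∀ j ≤ m, C.Alg F j := by
  classical
  rcases Nat.eq_zero_or_pos m with rfl | hpos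
  · intro j hj
    obtain rfl := Nat.le_zero.1 hj
    exact h0
  let K : Subfield E := RingHom.eqLocusField σ (RingHom.id E)
  have hK : ∀ e, e ∈ K ↔ σ e = e := fun e => Iff.rfl
  have kx : ∀ e ∈ K, V.dx e ∈ K := fun e he => by rw [hK, s2, (hK e).1 he]
  have kw : ∀ e ∈ K, V.dw e ∈ K := fun e he => by rw [hK, s3, (hK e).1 he]
  let V' : VField K :=
    { O := V.O.comap K.subtype
      w := ⟨V.w, s1⟩
      dx := resD V.dx K kx
      dw := resD V.dw K kw
      w_mem := V.w_mem
      w_ne := fun h => V.w_ne (congrArg Subtype.val h)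
      winv := V.winv
      unif := fun e he => by
        obtain ⟨n, u, h1, h2, h3⟩ := V.unif e (fun h => he (Subtype.ext h))
        have h4 : u = (V.w ^ n)⁻¹ * e := by rw [h3]; field_simp [V.w_ne]
        have h5 : u ∈ K := by
          rw [h4]
          exact mul_mem (inv_mem (zpow_mem (show V.w ∈ K from s1) n)) e.2
        refine ⟨n, ⟨u, h5⟩, h1, h2, K.subtype.injective ?_⟩
        rw [map_mul, map_zpow₀]
        exact h3
      dx_mem := fun e he => V.dx_mem e he
      dw_mem := fun e he => V.dw_mem e he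
      dx_w := Subtype.ext V.dx_w
      dw_w := Subtype.ext V.dw_w }
  let r : E → K := fun e => if h : e ∈ K then ⟨e, h⟩ else 0
  have hr : ∀ e, σ e = e → (r e : E) = e := fun e he => by
    simp only [r, dif_pos ((hK e).2 he)]
  have a1 : ∀ i < m, (r (C.cs i) : E) = C.cs i := fun i hi => hr _ (s4 i hi).1
  have a2 : ∀ i < m, (r (C.ss i) : E) = C.ss i := fun i hi => hr _ (s4 i hi).2.1
  have a3 : ∀ i < m, (r (C.cd i) : E) = C.cd i := fun i hi => hr _ (s4 i hi).2.2.1
  have a4 : ∀ i < m, (r (C.sd i) : E) = C.sd i := fun i hi => hr _ (s4 i hi).2.2.2.1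
  have a5 : ∀ i < m, ∀ k, (r (C.h i k) : E) = C.h i k := fun i hi k => hr _ ((s4 i hi).2.2.2.2 k)
  have a6 : ∀ j ≤ m, (r (C.cp j) : E) = C.cp j ∧ (r (C.sp j) : E) = C.sp j ∧
      (r (C.p j) : E) = C.p j := by
    intro j hj
    cases j with
    | zero =>
      obtain ⟨b1, b2, b3, b4, b5⟩ := s4 0 hpos
      refine ⟨hr _ ?_, hr _ ?_, hr _ ?_⟩
      · rw [C.cp_in 0 hpos]; simp [b1, b2, b3, b4]
      · rw [C.sp_in 0 hpos]; simp [b1, b2, b3, b4]
      · rw [C.p_in 0 hpos]; simp [b3, b4, b5]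
    | succ j =>
      obtain ⟨b1, b2, b3, b4, b5⟩ := s4 j hj
      refine ⟨hr _ ?_, hr _ ?_, hr _ ?_⟩
      · rw [C.cp_out j hj]; simp [b1, b2, b3, b4]
      · rw [C.sp_out j hj]; simp [b1, b2, b3, b4]
      · rw [C.p_out j hj]; simp [b3, b4, b5]
  have hO : ∀ e : K, e ∈ V'.O ↔ (e : E) ∈ V.O := fun e => Iff.rfl
  have hS : ∀ e : K, V'.Sm e ↔ V.Sm e := fun e => Iff.rfl
  have hdx : ∀ e : K, (V'.dx e : E) = V.dx e := fun e => rfl
  have hdw : ∀ e : K, (V'.dw e : E) = V.dw e := fun e => rfl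
  have hw' : (V'.w : E) = V.w := rfl
  let C' : Mirrors V' m :=
    { cp := fun j => r (C.cp j)
      sp := fun j => r (C.sp j)
      p := fun j => r (C.p j)
      cs := fun j => r (C.cs j)
      ss := fun j => r (C.ss j)
      cd := fun j => r (C.cd j)
      sd := fun j => r (C.sd j)
      h := fun j k => r (C.h j k)
      cs_mem := fun i hi => by rw [hO, a1 i hi]; exact C.cs_mem i hi
      ss_mem := fun i hi => by rw [hO, a2 i hi]; exact C.ss_mem i hi
      h_mem := fun i hi k => by rw [hO, a5 i hi]; exact C.h_mem i hi k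
      one_s := fun i hi => Subtype.ext (by simpa [a1 i hi, a2 i hi] using C.one_s i hi)
      one_d := fun i hi => Subtype.ext (by simpa [a3 i hi, a4 i hi] using C.one_d i hi)
      cp_in := fun i hi => Subtype.ext (by
        simpa [a1 i hi, a2 i hi, a3 i hi, a4 i hi, a6 i hi.le] using C.cp_in i hi)
      sp_in := fun i hi => Subtype.ext (by
        simpa [a1 i hi, a2 i hi, a3 i hi, a4 i hi, a6 i hi.le] using C.sp_in i hi)
      cp_out := fun i hi => Subtype.ext (by
        simpa [a1 i hi, a2 i hi, a3 i hi, a4 i hi, a6 (i + 1) hi] using C.cp_out i hi)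
      sp_out := fun i hi => Subtype.ext (by
        simpa [a1 i hi, a2 i hi, a3 i hi, a4 i hi, a6 (i + 1) hi] using C.sp_out i hi)
      p_in := fun i hi => Subtype.ext (by
        simpa [a5 i hi, a3 i hi, a4 i hi, a6 i hi.le] using C.p_in i hi)
      p_out := fun i hi => Subtype.ext (by
        simpa [a5 i hi, a3 i hi, a4 i hi, a6 (i + 1) hi] using C.p_out i hi)
      dx_h := fun i hi k => Subtype.ext (by
        simpa [dang, hdx, a5 i hi, a1 i hi, a2 i hi] using C.dx_h i hi k)
      dw_h := fun i hi k => Subtype.ext (by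
        simpa [dang, hdw, a5 i hi, a1 i hi, a2 i hi] using C.dw_h i hi k)
      cd_one := fun i hi => by rw [hS]; simpa [a3 i hi] using C.cd_one i hi
      sd_sm := fun i hi => by rw [hS]; simpa [a4 i hi] using C.sd_sm i hi
      kap := fun i hi => by rw [hS]; simpa [hw', a4 i hi, a4 0 hpos] using C.kap i hi
      kap_unit := by rw [hS]; simpa [hw', a4 0 hpos] using C.kap_unit
      rho := fun i hi => by rw [hS]; simpa [a5 i hi, a5 0 hpos] using C.rho i hi
      rho_unit := by rw [hS]; simpa [a5 0 hpos] using C.rho_unit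
      psx_unit := by rw [hS]; simpa [dang, hdx, a1 0 hpos, a2 0 hpos] using C.psx_unit }
  let F1 : Subfield E := (algebraicClosure F E).toSubfield
  have hF1 : ∀ e, e ∈ F1 ↔ IsAlgebraic F e := fun e => mem_algebraicClosure_iff
  let F' : Subfield K := F1.comap K.subtype
  have hF' : ∀ e : K, IsAlgebraic F' e ↔ IsAlgebraic F (e : E) := by
    intro e
    refine ⟨fun ⟨q, hq, hq'⟩ => ?_, fun h => isAlgebraic_algebraMap (⟨e, (hF1 _).2 h⟩ : F')⟩
    let ι : F' →+* algebraicClosure F E :=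
      { toFun := fun a => ⟨a.1.1, a.2⟩
        map_one' := rfl
        map_mul' := fun _ _ => rfl
        map_zero' := rfl
        map_add' := fun _ _ => rfl }
    have h1 : IsAlgebraic (algebraicClosure F E) (e : E) := by
      refine ⟨q.map ι, (Polynomial.map_ne_zero_iff ι.injective).2 hq, ?_⟩
      have := congrArg K.subtype hq'
      rw [Polynomial.aeval_def, Polynomial.hom_eval₂, map_zero] at this
      rw [Polynomial.aeval_def, Polynomial.eval₂_map]
      exact this
    exact h1.restrictScalars F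
  have hA : ∀ j ≤ m, C'.Alg F' j ↔ C.Alg F j := fun j hj => by
    simp only [Mirrors.Alg, hF', C', a6 j hj]
  intro j hj
  refine (hA j hj).1 (fd_real K V' (fun e => Subtype.ext (hc e)) m C' F' ?_ ?_ ?_
    ((hA 0 m.zero_le).2 h0) ((hA m le_rfl).2 hm) j hj)
  · intro s a h1 h2 i hi
    refine hF s (fun i => a i) (fun i hi => ⟨h1 i hi, (a i).2⟩) ?_ i hi
    rw [hS] at h2
    simpa using h2
  · exact fun e he => (hF1 _).2 (alg_closed (dX_isD V) hx ((hF1 _).1 he))
  · exact fun e he => (hF1 _).2 (alg_closed (dW_isD V) hw ((hF1 _).1 he))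

end Vale.Agent.P097T
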