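import Mathlib

/-! P097 T3, finite determinacy, part 1: the Taylor ring of three derivations. -/

set_option linter.all false

noncomputable section

namespace Vale.Agent.P097T.Fd

open PowerSeries

/-- The Leibniz rule. -/
def IsD {R : Type} [CommRing R] (d : R →+ R) : Prop := ∀ a b, d (a * b) = a * d b + b * d a

section tay

variable {R : Type} [CommRing R]

theorem IsD.one {d : R →+ R} (h : IsD d) : d 1 = 0 := by
  have := h 1 1
  simp only [one_mul] at this
  exact left_eq_add.1 this

theorem IsD.nat {d : R →+ R} (h : IsD d) (n : ℕ) : d (n : R) = 0 := by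
  induction n with
  | zero => simp
  | succ n ih => rw [Nat.cast_succ, map_add, ih, h.one, add_zero]

theorem IsD.two {d : R →+ R} (h : IsD d) : d 2 = 0 := by simpa using h.nat 2

theorem IsD.pow {d : R →+ R} (h : IsD d) (a : R) (n : ℕ) :
    d (a ^ (n + 1)) = (n + 1) * a ^ n * d a := by
  induction n with
  | zero => simp
  | succ n ih => rw [pow_succ, h, ih]; push_cast; ring

/-- The derivative of power series. -/
def der0 (R : Type) [CommRing R] : R⟦X⟧ →+ R⟦X⟧ where
  toFun f := PowerSeries.derivative R f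
  map_zero' := map_zero _
  map_add' := map_add _

theorem der0_isD : IsD (der0 R) := fun a b => by
  have := (PowerSeries.derivative R).leibniz a b
  simp only [smul_eq_mul] at this
  exact this

theorem coeff_der0 (f : R⟦X⟧) (n : ℕ) : coeff n (der0 R f) = coeff (n + 1) f * (n + 1) :=
  PowerSeries.coeff_derivative f n

/-- A derivation applied to all coefficients. -/
def cw (d : R →+ R) : R⟦X⟧ →+ R⟦X⟧ where
  toFun f := PowerSeries.mk fun n => d (coeff n f)
  map_zero' := by ext n; simp
  map_add' := fun f g => by ext n; simp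

theorem coeff_cw (d : R →+ R) (f : R⟦X⟧) (n : ℕ) : coeff n (cw d f) = d (coeff n f) := by
  simp [cw]

theorem cw_isD {d : R →+ R} (h : IsD d) : IsD (cw d) := fun f g => by
  ext n
  simp only [coeff_cw, map_add, coeff_mul, map_sum, h _ _, Finset.sum_add_distrib]
  congr 1
  rw [← Finset.Nat.sum_antidiagonal_swap]
  simp

theorem cw_der0 {d : R →+ R} (h : IsD d) (f : R⟦X⟧) : der0 R (cw d f) = cw d (der0 R f) := by
  ext n
  have : d ((n : R) + 1) = 0 := by simpa using h.nat (n + 1)
  rw [coeff_der0, coeff_cw, coeff_cw, coeff_der0, h, this]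
  ring

theorem cw_cw {d d' : R →+ R} (h : ∀ a, d (d' a) = d' (d a)) (f : R⟦X⟧) :
    cw d (cw d' f) = cw d' (cw d f) := by
  ext n
  simp [coeff_cw, h]

theorem iter_add (d : R →+ R) (n : ℕ) : ∀ a b : R,
    (d : R → R)^[n] (a + b) = (d : R → R)^[n] a + (d : R → R)^[n] b := by
  induction n with
  | zero => intro a b; rfl
  | succ n ih => intro a b; simp only [Function.iterate_succ_apply, map_add, ih]

theorem iter_zero (d : R →+ R) (n : ℕ) : (d : R → R)^[n] 0 = 0 :=
  Function.iterate_fixed (map_zero d) n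

theorem iter_comm {d d' : R →+ R} (h : ∀ a, d (d' a) = d' (d a)) (n : ℕ) (a : R) :
    (d : R → R)^[n] (d' a) = d' ((d : R → R)^[n] a) := by
  induction n generalizing a with
  | zero => rfl
  | succ n ih => simp only [Function.iterate_succ_apply, h, ih]

variable [Algebra ℚ R]

theorem der_q (d : R →+ R) (q : ℚ) (a : R) : d (q • a) = q • d a := map_rat_smul d q a

theorem iter_q (d : R →+ R) (n : ℕ) (q : ℚ) : ∀ a : R,
    (d : R → R)^[n] (q • a) = q • (d : R → R)^[n] a := by
  induction n with
  | zero => intro a; rfl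
  | succ n ih => intro a; simp only [Function.iterate_succ_apply, der_q, ih]

/-- The Taylor series of an element. -/
def tay0 (d : R →+ R) (a : R) : R⟦X⟧ :=
  PowerSeries.mk fun n => ((n.factorial : ℚ)⁻¹) • (d : R → R)^[n] a

theorem coeff_tay0 (d : R →+ R) (a : R) (n : ℕ) :
    coeff n (tay0 d a) = ((n.factorial : ℚ)⁻¹) • (d : R → R)^[n] a := by simp [tay0]

theorem tay0_add (d : R →+ R) (a b : R) : tay0 d (a + b) = tay0 d a + tay0 d b := by
  ext n
  simp [coeff_tay0, iter_add]

theorem der0_tay0 (d : R →+ R) (a : R) : der0 R (tay0 d a) = tay0 d (d a) := by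
  ext n
  rw [coeff_der0, coeff_tay0, coeff_tay0, Function.iterate_succ_apply]
  have h : ((n : R) + 1) = ((n + 1 : ℕ) : ℚ) • (1 : R) := by
    rw [Nat.cast_smul_eq_nsmul]; simp
  rw [h, mul_smul_comm, mul_one, smul_smul]
  congr 1
  rw [Nat.factorial_succ]
  have : ((n + 1 : ℕ) : ℚ) ≠ 0 := by positivity
  push_cast at this ⊢
  field_simp

theorem cancel_succ (n : ℕ) {a b : R} (h : a * ((n : R) + 1) = b * ((n : R) + 1)) : a = b := by
  have h1 : ((n : R) + 1) = ((n + 1 : ℕ) : ℚ) • (1 : R) := by
    rw [Nat.cast_smul_eq_nsmul]; simp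
  rw [h1, mul_smul_comm, mul_smul_comm, mul_one, mul_one] at h
  have : ((n + 1 : ℕ) : ℚ) ≠ 0 := by positivity
  exact smul_right_injective R this h

theorem tay0_mul {d : R →+ R} (h : IsD d) (a b : R) : tay0 d (a * b) = tay0 d a * tay0 d b := by
  ext n
  induction n generalizing a b with
  | zero => simp [coeff_tay0, coeff_mul]
  | succ n ih =>
    apply cancel_succ n
    rw [← coeff_der0, ← coeff_der0, der0_tay0, h, der0_isD, der0_tay0,
      der0_tay0, tay0_add, map_add, map_add, ih, ih]

/-- The Taylor morphism of a derivation. -/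
def tay {d : R →+ R} (h : IsD d) : R →+* R⟦X⟧ where
  toFun := tay0 d
  map_one' := by
    ext n
    rw [coeff_tay0]
    cases n with
    | zero => simp
    | succ n =>
      rw [Function.iterate_succ_apply, h.one, iter_zero]
      simp [coeff_one]
  map_mul' := tay0_mul h
  map_zero' := by ext n; simp [coeff_tay0, iter_zero]
  map_add' := tay0_add d

theorem coeff_tay {d : R →+ R} (h : IsD d) (a : R) (n : ℕ) :
    coeff n (tay h a) = ((n.factorial : ℚ)⁻¹) • (d : R → R)^[n] a := coeff_tay0 d a n

theorem der0_tay {d : R →+ R} (h : IsD d) (a : R) : der0 R (tay h a) = tay h (d a) :=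
  der0_tay0 d a

theorem der0_map {S : Type} [CommRing S] (φ : R →+* S) (f : R⟦X⟧) :
    der0 S (PowerSeries.map φ f) = PowerSeries.map φ (der0 R f) := by
  ext n
  simp [coeff_der0]

end tay

/-- A prolongation of the derivations `dx`, `dw` along the derivation `D`. -/
structure Lift {E : Type} [Field E] (dx dw D : E →+ E) (P : E → Prop) (A : Type)
    [CommRing A] where
  Θ : E →+* A
  ε : A →+* E
  X : A →+ A
  W : A →+ A
  T : A →+ A
  hX : IsD X
  hW : IsD W
  hT : IsD T
  X_Θ : ∀ e, X (Θ e) = Θ (dx e)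
  W_Θ : ∀ e, W (Θ e) = Θ (dw e)
  T_Θ : ∀ e, P e → T (Θ e) = 0
  XT : ∀ a, X (T a) = T (X a)
  WT : ∀ a, W (T a) = T (W a)
  XW : ∀ a, X (W a) = W (X a)
  ε_Θ : ∀ e, ε (Θ e) = e
  ε_T : ∀ e, ε (T (Θ e)) = D e

theorem exists_lift {E : Type} [Field E] [CharZero E] {dx dw D : E →+ E} (P : E → Prop)
    (h1 : IsD dx) (h2 : IsD dw) (h3 : IsD D)
    (hc : ∀ e, dx (dw e) = dw (dx e)) (hx : ∀ e, P e → P (dx e)) (hw : ∀ e, P e → P (dw e))
    (hD : ∀ e, P e → D e = 0) : Nonempty (Lift dx dw D P E⟦X⟧⟦X⟧⟦X⟧) := by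
  have hxn : ∀ n e, P e → P ((dx : E → E)^[n] e) := by
    intro n
    induction n with
    | zero => exact fun e h => h
    | succ n ih => exact fun e h => ih _ (hx e h)
  have hwn : ∀ n e, P e → P ((dw : E → E)^[n] e) := by
    intro n
    induction n with
    | zero => exact fun e h => h
    | succ n ih => exact fun e h => ih _ (hw e h)
  refine ⟨{
    Θ := (PowerSeries.map ((PowerSeries.map (tay h3)).comp (tay h2))).comp (tay h1)
    ε := (constantCoeff (R := E)).comp ((constantCoeff (R := E⟦X⟧)).comp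
      (constantCoeff (R := E⟦X⟧⟦X⟧)))
    X := der0 _
    W := cw (der0 _)
    T := cw (cw (der0 _))
    hX := der0_isD
    hW := cw_isD der0_isD
    hT := cw_isD (cw_isD der0_isD)
    X_Θ := fun e => by simp only [RingHom.comp_apply, der0_map, der0_tay]
    W_Θ := fun e => by
      refine PowerSeries.ext fun n => ?_
      simp only [RingHom.comp_apply, coeff_cw, coeff_map, der0_map, der0_tay, coeff_tay, der_q,
        iter_comm hc]
    T_Θ := fun e he => by
      refine PowerSeries.ext fun n => PowerSeries.ext fun k => ?_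
      simp only [RingHom.comp_apply, coeff_cw, coeff_map, der0_tay, coeff_tay, der_q, iter_q,
        hD _ (hwn k _ (hxn n _ he)), smul_zero, map_zero]
    XT := fun a => cw_der0 (cw_isD der0_isD) a
    WT := fun a => cw_cw (fun b => cw_der0 der0_isD b) a
    XW := fun a => cw_der0 der0_isD a
    ε_Θ := fun e => by
      simp only [RingHom.comp_apply, ← coeff_zero_eq_constantCoeff_apply, coeff_map, coeff_tay]
      simp
    ε_T := fun e => by
      simp only [RingHom.comp_apply, ← coeff_zero_eq_constantCoeff_apply, coeff_cw, coeff_map,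
        der0_tay, coeff_tay]
      simp }⟩

end Vale.Agent.P097T.Fd
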