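import Vale.Agent.P097T.Fd1
import Vale.Agent.P097T.FDdefs

/-! P097 T3, finite determinacy, part 2: valuations, towers, boundedness. -/

set_option linter.all false

noncomputable section

namespace Vale.Agent.P097T.Fd

variable {E : Type} [Field E] (V : VField E)

/-- `dx` as an additive map. -/
def dX : E →+ E := ⟨⟨fun e => V.dx e, map_zero _⟩, map_add _⟩

/-- `dw` as an additive map. -/
def dW : E →+ E := ⟨⟨fun e => V.dw e, map_zero _⟩, map_add _⟩

theorem dX_apply (e : E) : dX V e = V.dx e := rfl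

theorem dW_apply (e : E) : dW V e = V.dw e := rfl

theorem isD_der (d : Derivation ℤ E E) : IsD (⟨⟨fun e => d e, map_zero _⟩, map_add _⟩ : E →+ E) :=
  fun a b => by
    have := d.leibniz a b
    simp only [smul_eq_mul] at this
    exact this

theorem dX_isD : IsD (dX V) := isD_der V.dx

theorem dW_isD : IsD (dW V) := isD_der V.dw

/-- Valuation at least `n`. -/
def Vn (n : ℤ) (f : E) : Prop := V.w ^ (-n) * f ∈ V.O

/-- Formally real residue field. -/
def FR : Prop := ∀ (s : Finset ℕ) (a : ℕ → E), (∀ i ∈ s, a i ∈ V.O) → V.Sm (∑ i ∈ s, a i ^ 2) →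
  ∀ i ∈ s, V.Sm (a i)

variable {V}

theorem vn_zero {f : E} : Vn V 0 f ↔ f ∈ V.O := by simp [Vn]

theorem vn_one {f : E} : Vn V 1 f ↔ V.Sm f := by simp [Vn, VField.Sm]

theorem Vn.zero (n : ℤ) : Vn V n 0 := by simp [Vn, zero_mem]

theorem Vn.add {n : ℤ} {f g : E} (h : Vn V n f) (h' : Vn V n g) : Vn V n (f + g) := by
  unfold Vn at *; rw [mul_add]; exact add_mem h h'

theorem Vn.neg {n : ℤ} {f : E} (h : Vn V n f) : Vn V n (-f) := by
  unfold Vn at *; rw [mul_neg]; exact neg_mem h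

theorem Vn.sub {n : ℤ} {f g : E} (h : Vn V n f) (h' : Vn V n g) : Vn V n (f - g) := by
  rw [sub_eq_add_neg]; exact h.add h'.neg

theorem Vn.sum {n : ℤ} {ι : Type} {s : Finset ι} {f : ι → E} (h : ∀ i ∈ s, Vn V n (f i)) :
    Vn V n (∑ i ∈ s, f i) := by
  unfold Vn at *; rw [Finset.mul_sum]; exact sum_mem h

theorem Vn.mul {n k : ℤ} {f g : E} (h : Vn V n f) (h' : Vn V k g) : Vn V (n + k) (f * g) := by
  unfold Vn at *
  have : V.w ^ (-(n + k)) * (f * g) = (V.w ^ (-n) * f) * (V.w ^ (-k) * g) := by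
    rw [neg_add, zpow_add₀ V.w_ne]; ring
  rw [this]; exact mul_mem h h'

theorem Vn.omul {n : ℤ} {f g : E} (h : f ∈ V.O) (h' : Vn V n g) : Vn V n (f * g) := by
  simpa using (vn_zero.2 h).mul h'

theorem Vn.mulo {n : ℤ} {f g : E} (h' : Vn V n g) (h : f ∈ V.O) : Vn V n (g * f) := by
  rw [mul_comm]; exact Vn.omul h h'

theorem vn_zpow (k : ℤ) : Vn V k (V.w ^ k) := by
  unfold Vn; rw [← zpow_add₀ V.w_ne]; simp [one_mem]

theorem vn_w : Vn V 1 V.w := by simpa using vn_zpow (V := V) 1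

theorem Vn.mono {n k : ℤ} {f : E} (h : Vn V k f) (hnk : n ≤ k) : Vn V n f := by
  obtain ⟨j, rfl⟩ := Int.le.dest hnk
  unfold Vn at *
  have : V.w ^ (-n) * f = V.w ^ j * (V.w ^ (-(n + j)) * f) := by
    rw [← mul_assoc, ← zpow_natCast, ← zpow_add₀ V.w_ne]; congr 2; ring
  rw [this]; exact mul_mem (pow_mem V.w_mem j) h

theorem Vn.shift {n k : ℤ} {f : E} (h : Vn V n (V.w ^ k * f)) : Vn V (n - k) f := by
  have := (vn_zpow (V := V) (-k)).mul h
  rw [← mul_assoc, ← zpow_add₀ V.w_ne] at this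
  simpa [sub_eq_neg_add] using this

theorem exists_vn (f : E) : ∃ n, Vn V n f := by
  by_cases h : f = 0
  · exact ⟨0, h ▸ Vn.zero 0⟩
  obtain ⟨n, u, hu, -, rfl⟩ := V.unif f h
  exact ⟨n, (vn_zpow n).mulo hu⟩

theorem vn_bdd {f : E} (h : f ≠ 0) : ∃ N, ∀ n, Vn V n f → n ≤ N := by
  obtain ⟨N, u, hu, hu', rfl⟩ := V.unif f h
  refine ⟨N, fun n hn => ?_⟩
  by_contra hlt
  have h1 := (hn.mono (show N + 1 ≤ n by omega)).mulo hu'
  have hu0 : u ≠ 0 := by rintro rfl; simp at h
  rw [mul_assoc, mul_inv_cancel₀ hu0, mul_one] at h1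
  have := (show Vn V (N + 1) (V.w ^ N * 1) by simpa using h1).shift
  simp [Vn] at this
  exact V.winv this

theorem inv_mem_of {f : E} (h : f ∈ V.O) (h' : ¬V.Sm f) : f ≠ 0 ∧ f⁻¹ ∈ V.O := by
  have h0 : f ≠ 0 := by rintro rfl; exact h' (vn_one.1 (Vn.zero 1))
  refine ⟨h0, ?_⟩
  obtain ⟨N, u, hu, hu', rfl⟩ := V.unif f h0
  have hu0 : u ≠ 0 := by rintro rfl; simp at h0
  have hN : N ≤ 0 := by
    by_contra hlt
    exact h' (vn_one.1 (((vn_zpow N).mulo hu).mono (by omega)))
  rw [mul_inv, ← zpow_neg]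
  exact vn_zero.1 (((vn_zpow (-N)).mulo hu').mono (by omega))

theorem not_sm_one : ¬V.Sm 1 := by
  intro h
  exact V.winv (by simpa [VField.Sm] using h)

theorem FR.nat (h : FR V) {k : ℕ} (hk : k ≠ 0) : ¬V.Sm (k : E) := by
  intro hs
  exact not_sm_one (h (Finset.range k) (fun _ => 1) (fun _ _ => one_mem _) (by simpa using hs) 0
    (by simp; omega))

theorem FR.nat_inv (h : FR V) (k : ℕ) : (k : E)⁻¹ ∈ V.O := by
  by_cases hk : k = 0
  · simp [hk, zero_mem]
  · exact (inv_mem_of (natCast_mem _ k) (h.nat hk)).2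

theorem FR.sq (h : FR V) {κ : ℤ} {s : Finset ℕ} {a : ℕ → E} (ha : ∀ i ∈ s, Vn V κ (a i))
    (hs : Vn V (κ + κ + 1) (∑ i ∈ s, a i ^ 2)) : ∀ i ∈ s, Vn V (κ + 1) (a i) := by
  intro i hi
  have h1 := h s (fun i => V.w ^ (-κ) * a i) ha (by
    have := ((vn_zpow (V := V) (-κ)).mul (vn_zpow (-κ))).mul hs
    rw [Finset.mul_sum, show -κ + -κ + (κ + κ + 1) = 1 by ring] at this
    refine vn_one.1 ?_
    convert this using 2
    ring) i hi
  have := (vn_one.2 h1).shift
  simpa [add_comm] using this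

theorem Vn.dx {n : ℤ} {f : E} (h : Vn V n f) : Vn V n (V.dx f) := by
  have h1 := V.dx_mem _ h
  have h2 : V.dx (V.w ^ (-n)) = 0 := by rw [Derivation.leibniz_zpow, V.dx_w]; simp
  rw [Derivation.leibniz, h2] at h1
  simpa [Vn] using h1

theorem Vn.dw1 {f : E} (h : Vn V 1 f) : V.dw f - V.w⁻¹ * f ∈ V.O ∧ Vn V 1 (V.dw f - V.w⁻¹ * f) := by
  have h0 : V.w⁻¹ * f ∈ V.O := vn_one.1 h
  have h1 : f = V.w * (V.w⁻¹ * f) := by field_simp [V.w_ne]
  have h2 : V.dw f - V.w⁻¹ * f = V.w * V.dw (V.w⁻¹ * f) := by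
    conv_lhs => rw [h1, Derivation.leibniz, V.dw_w]
    simp only [smul_eq_mul, ← h1]
    ring
  have h3 : Vn V 1 (V.dw f - V.w⁻¹ * f) := h2 ▸ vn_w.mulo (V.dw_mem _ h0)
  exact ⟨vn_zero.1 (h3.mono (by norm_num)), h3⟩

theorem vand {n : ℤ} (τ : ℕ → E) (s : Finset ℕ) : ∀ y : ℕ → E, (∀ i ∈ s, τ i ∈ V.O) →
    (∀ i ∈ s, ∀ j ∈ s, i ≠ j → ¬V.Sm (τ i - τ j)) →
    (∀ k < s.card, Vn V n (∑ i ∈ s, τ i ^ k * y i)) → ∀ i ∈ s, Vn V n (y i) := by
  induction s using Finset.induction_on with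
  | empty => intro y _ _ _ i hi; simp at hi
  | insert a s ha ih =>
    intro y h1 h2 h3
    rw [Finset.card_insert_of_notMem ha] at h3
    have hτa := h1 a (Finset.mem_insert_self _ _)
    have h4 : ∀ i ∈ s, Vn V n (y i) := by
      intro i hi
      have hia : i ≠ a := fun h => ha (h ▸ hi)
      have hi' := Finset.mem_insert_of_mem (b := a) hi
      have h5 := ih (fun i => (τ i - τ a) * y i) (fun i hi => h1 i (Finset.mem_insert_of_mem hi))
        (fun i hi j hj => h2 i (Finset.mem_insert_of_mem hi) j (Finset.mem_insert_of_mem hj))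
        (fun k hk => by
          have := (h3 (k + 1) (by omega)).sub (Vn.omul hτa (h3 k (by omega)))
          rw [Finset.sum_insert ha, Finset.sum_insert ha, mul_add, Finset.mul_sum] at this
          convert this using 1
          rw [show ∀ A B C D : E, A + B - (C + D) = (A - C) + (B - D) by intros; ring,
            ← Finset.sum_sub_distrib, show τ a ^ (k + 1) * y a - τ a * (τ a ^ k * y a) = 0 by ring,
            zero_add]
          exact Finset.sum_congr rfl fun i _ => by ring) i hi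
      obtain ⟨h0, hinv⟩ := inv_mem_of (sub_mem (h1 i hi') hτa)
        (h2 i hi' a (Finset.mem_insert_self _ _) hia)
      have := Vn.omul hinv h5
      rwa [← mul_assoc, inv_mul_cancel₀ h0, one_mul] at this
    intro i hi
    rcases Finset.mem_insert.1 hi with rfl | hi
    · have := (h3 0 (by omega)).sub (Vn.sum h4)
      rw [Finset.sum_insert ha] at this
      simpa using this
    · exact h4 i hi

variable {D : E →+ E} {P : E → Prop} {A : Type} [CommRing A] (L : Lift (dX V) (dW V) D P A)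

/-- One of the two derivations. -/
def dd (b : Bool) : A →+ A := if b then L.X else L.W

theorem dd_isD (b : Bool) : IsD (dd L b) := by cases b; exacts [L.hW, L.hX]

theorem dd_Θ (b : Bool) {o : E} (ho : o ∈ V.O) : ∃ o' ∈ V.O, dd L b (L.Θ o) = L.Θ o' := by
  cases b
  exacts [⟨_, V.dw_mem o ho, L.W_Θ o⟩, ⟨_, V.dx_mem o ho, L.X_Θ o⟩]

/-- A word in the two derivations. -/
def app : List Bool → A → A
  | [], a => a
  | b :: γ, a => app γ (dd L b a)

theorem app_add (γ : List Bool) : ∀ a b, app L γ (a + b) = app L γ a + app L γ b := by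
  induction γ with
  | nil => intro a b; rfl
  | cons c γ ih => intro a b; simp only [app, map_add, ih]

theorem app_zero (γ : List Bool) : app L γ 0 = 0 := by
  induction γ with
  | nil => rfl
  | cons c γ ih => simp only [app, map_zero, ih]

theorem app_neg (γ : List Bool) : ∀ a, app L γ (-a) = -app L γ a := by
  induction γ with
  | nil => intro a; rfl
  | cons c γ ih => intro a; simp only [app, map_neg, ih]

/-- All derivatives have valuation at least `n`. -/
def B (n : ℤ) (a : A) : Prop := ∀ γ, Vn V n (L.ε (app L γ a))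

variable {L}

theorem B.eps {n : ℤ} {a : A} (h : B L n a) : Vn V n (L.ε a) := h []

theorem B.d {n : ℤ} {a : A} (h : B L n a) (b : Bool) : B L n (dd L b a) := fun γ => h (b :: γ)

theorem B.X {n : ℤ} {a : A} (h : B L n a) : B L n (L.X a) := h.d true

theorem B.W {n : ℤ} {a : A} (h : B L n a) : B L n (L.W a) := h.d false

theorem B.Xn {n : ℤ} (k : ℕ) : ∀ {a : A}, B L n a → B L n ((L.X : A → A)^[k] a) := by
  induction k with
  | zero => exact fun h => h
  | succ k ih => exact fun h => ih h.X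

theorem B.Wn {n : ℤ} (k : ℕ) : ∀ {a : A}, B L n a → B L n ((L.W : A → A)^[k] a) := by
  induction k with
  | zero => exact fun h => h
  | succ k ih => exact fun h => ih h.W

theorem B.zero (n : ℤ) : B L n 0 := fun γ => by rw [app_zero, map_zero]; exact Vn.zero n

theorem B.add {n : ℤ} {a b : A} (h : B L n a) (h' : B L n b) : B L n (a + b) := fun γ => by
  rw [app_add, map_add]; exact (h γ).add (h' γ)

theorem B.neg {n : ℤ} {a : A} (h : B L n a) : B L n (-a) := fun γ => by
  rw [app_neg, map_neg]; exact (h γ).neg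

theorem B.sub {n : ℤ} {a b : A} (h : B L n a) (h' : B L n b) : B L n (a - b) := by
  rw [sub_eq_add_neg]; exact h.add h'.neg

theorem B.sum {n : ℤ} {s : Finset ℕ} {f : ℕ → A} (h : ∀ i ∈ s, B L n (f i)) :
    B L n (∑ i ∈ s, f i) :=
  Finset.sum_induction f (B L n) (fun _ _ => B.add) (B.zero n) h

theorem B.mono {n k : ℤ} {a : A} (h : B L k a) (hnk : n ≤ k) : B L n a := fun γ => (h γ).mono hnk

theorem B.mul {n k : ℤ} {a b : A} (h : B L n a) (h' : B L k b) : B L (n + k) (a * b) := by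
  intro γ
  induction γ generalizing a b with
  | nil => simp only [app, map_mul]; exact h.eps.mul h'.eps
  | cons c γ ih =>
    simp only [app]
    rw [dd_isD L c, app_add, map_add, mul_comm b]
    exact (ih h (h'.d c)).add (ih (h.d c) h')

theorem B.theta {o : E} (ho : o ∈ V.O) : B L 0 (L.Θ o) := by
  intro γ
  induction γ generalizing o with
  | nil => simp only [app, L.ε_Θ]; exact vn_zero.2 ho
  | cons c γ ih =>
    obtain ⟨o', h1, h2⟩ := dd_Θ L c ho
    simp only [app, h2]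
    exact ih h1

theorem B.omul {n : ℤ} {o : E} {a : A} (ho : o ∈ V.O) (h : B L n a) : B L n (L.Θ o * a) := by
  simpa using (B.theta ho).mul h

theorem B.mulo {n : ℤ} {o : E} {a : A} (h : B L n a) (ho : o ∈ V.O) : B L n (a * L.Θ o) := by
  rw [mul_comm]; exact B.omul ho h

theorem B.nmul {n : ℤ} {a : A} (k : ℕ) (h : B L n a) : B L n ((k : A) * a) := by
  simpa using B.omul (natCast_mem V.O k) h

theorem B.const {a : A} (h1 : L.X a = 0) (h2 : L.W a = 0) : ∃ n, B L n a := by
  obtain ⟨n, hn⟩ := exists_vn (V := V) (L.ε a)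
  refine ⟨n, fun γ => ?_⟩
  cases γ with
  | nil => exact hn
  | cons c γ =>
    have : dd L c a = 0 := by cases c; exacts [h2, h1]
    simp only [app, this, app_zero, map_zero]
    exact Vn.zero n

theorem X_om : L.X (L.Θ V.w) = 0 := by rw [L.X_Θ, dX_apply, V.dx_w, map_zero]

theorem W_om : L.W (L.Θ V.w) = 1 := by rw [L.W_Θ, dW_apply, V.dw_w, map_one]

theorem Xn_mul {z : A} (hz : L.X z = 0) (k : ℕ) : ∀ a,
    (L.X : A → A)^[k] (z * a) = z * (L.X : A → A)^[k] a := by
  induction k with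
  | zero => intro a; rfl
  | succ k ih => intro a; simp only [Function.iterate_succ_apply, L.hX z a, hz, mul_zero, add_zero, ih]

theorem Wn_om (r : ℕ) (y : A) : (L.W : A → A)^[r + 1] (L.Θ V.w * y) =
    L.Θ V.w * (L.W : A → A)^[r + 1] y + (r + 1) * (L.W : A → A)^[r] y := by
  induction r with
  | zero => simp [L.hW _ y, W_om]
  | succ r ih =>
    have h0 : L.W ((r : A) + 1) = 0 := by simpa using L.hW.nat (r + 1)
    rw [Function.iterate_succ_apply', ih, map_add, L.hW, L.hW, W_om, h0,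
      Function.iterate_succ_apply' _ (r + 1), Function.iterate_succ_apply' _ r]
    push_cast
    ring

theorem res [CharZero E] (hF : FR V) {n0 n : ℤ} {y : A} (h1 : B L n0 (L.Θ V.w * y))
    (h2 : B L n y) : Vn V (n0 + 1) (L.ε (L.Θ V.w * y)) := by
  have key : ∀ t : ℕ, ∀ r : ℕ, Vn V (min n0 (n + t)) (L.ε ((L.W : A → A)^[r] y)) := by
    intro t
    induction t with
    | zero => exact fun r => (B.Wn r h2).eps.mono (by omega)
    | succ t ih =>
      intro r
      have e1 := ((B.Wn (r + 1) h1).eps.mono (show min n0 (n + (t + 1 : ℕ)) ≤ n0 by omega))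
      have e2 := (vn_w.mul (ih (r + 1))).mono
        (show min n0 (n + (t + 1 : ℕ)) ≤ 1 + min n0 (n + t) by omega)
      rw [Wn_om, map_add, map_mul, map_mul, L.ε_Θ] at e1
      have e3 := Vn.omul (hF.nat_inv (r + 1)) (e1.sub e2)
      have hr : ((r + 1 : ℕ) : E) ≠ 0 := by exact_mod_cast Nat.succ_ne_zero r
      convert e3 using 1
      simp only [map_add, map_natCast, map_one]
      push_cast at hr ⊢
      field_simp
      ring
  have := vn_w.mul ((key (n0 - n).toNat 0).mono (show n0 ≤ _ by omega))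
  rw [map_mul, L.ε_Θ, add_comm]
  exact this

theorem pw {n : ℤ} {r : ℕ} {Y z q : A} (hz : L.X z = 0) (hq : B L n q)
    (h : L.Θ V.w ^ (r + 1) * Y = z + q) (k : ℕ) :
    ∃ z' q', L.X z' = 0 ∧ B L n q' ∧ L.Θ V.w ^ (r + k + 1) * (L.W : A → A)^[k] Y = z' + q' := by
  induction k with
  | zero => exact ⟨z, q, hz, hq, h⟩
  | succ k ih =>
    obtain ⟨z', q', h1, h2, h3⟩ := ih
    refine ⟨L.Θ V.w * L.W z' - ((r + k + 1 : ℕ) : A) * z',
      L.Θ V.w * L.W q' - ((r + k + 1 : ℕ) : A) * q', ?_,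
      (B.omul V.w_mem h2.W).sub (B.nmul _ h2), ?_⟩
    · rw [map_sub, L.hX, L.hX, L.XW, h1, X_om, L.hX.nat]; simp
    · have h4 := congrArg L.W h3
      rw [L.hW, L.hW.pow, W_om, map_add] at h4
      rw [Function.iterate_succ_apply']
      push_cast at h4 ⊢
      linear_combination L.Θ V.w * h4 - ((r : A) + k + 1) * h3

theorem pw' {n : ℤ} {r : ℕ} {Y z q : A} (hz : L.X z = 0) (hq : B L n q)
    (h : L.Θ V.w ^ (r + 1) * Y = z + q) (j k : ℕ) :
    Vn V (n - (r + k + 1 : ℕ)) (L.ε ((L.X : A → A)^[j + 1] ((L.W : A → A)^[k] Y))) := by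
  obtain ⟨z', q', h1, h2, h3⟩ := pw hz hq h k
  have h4 := congrArg (fun a => L.ε ((L.X : A → A)^[j + 1] a)) h3
  have h5 : L.X (L.Θ V.w ^ (r + k + 1)) = 0 := by rw [L.hX.pow, X_om, mul_zero]
  simp only [Xn_mul h5, iter_add] at h4
  rw [Function.iterate_succ_apply _ j z', h1, iter_zero, zero_add, map_mul, map_pow, L.ε_Θ] at h4
  apply Vn.shift
  rw [zpow_natCast, h4]
  exact (B.Xn _ h2).eps

end Vale.Agent.P097T.Fd
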