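import Vale.Agent.P097T.Fd2

/-! P097 T3, finite determinacy, part 3: towers are bounded, sums of squares. -/

set_option linter.all false

noncomputable section

namespace Vale.Agent.P097T.Fd

variable {E : Type} [Field E] {V : VField E}
variable {D : E →+ E} {P : E → Prop} {A : Type} [CommRing A] (L : Lift (dX V) (dW V) D P A)

/-- The jets of a function of one angle with gradient `(px, pw)`. -/
def Tw (px pw : E) (N : ℕ → A) : Prop :=
  ∀ l, L.X (N l) = L.Θ px * N (l + 1) ∧ L.W (N l) = L.Θ pw * N (l + 1)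

/-- Terms of lower order. -/
def Low (N : ℕ → A) (r : ℕ) : AddSubgroup A :=
  AddSubgroup.closure {a | ∃ o ∈ V.O, ∃ l < r, a = L.Θ o * N l}

variable {L}

theorem Tw.d {px pw : E} {N : ℕ → A} (h : Tw L px pw N) (b : Bool) (l : ℕ) :
    dd L b (N l) = L.Θ (if b then px else pw) * N (l + 1) := by
  cases b
  exacts [(h l).2, (h l).1]

theorem Tw.bd {px pw : E} {N : ℕ → A} (h : Tw L px pw N) (hx : px ∈ V.O) (hw : pw ∈ V.O) {n : ℤ}
    (hn : ∀ l, Vn V n (L.ε (N l))) (l : ℕ) : B L n (N l) := by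
  have key : ∀ γ, ∀ o ∈ V.O, ∀ l, Vn V n (L.ε (app L γ (L.Θ o * N l))) := by
    intro γ
    induction γ with
    | nil => intro o ho l; simp only [app, map_mul, L.ε_Θ]; exact Vn.omul ho (hn l)
    | cons c γ ih =>
      intro o ho l
      obtain ⟨o', h1, h2⟩ := dd_Θ L c ho
      simp only [app]
      rw [dd_isD L c, h.d, h2, ← mul_assoc, ← map_mul, mul_comm (N l), app_add, map_add]
      exact (ih _ (mul_mem ho (by cases c; exacts [hw, hx])) _).add (ih _ h1 _)
  intro γ
  simpa using key γ 1 (one_mem _) l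

theorem low_gen {N : ℕ → A} {r l : ℕ} {o : E} (ho : o ∈ V.O) (hl : l < r) :
    L.Θ o * N l ∈ Low L N r := AddSubgroup.subset_closure ⟨o, ho, l, hl, rfl⟩

theorem low_eps {N : ℕ → A} {r : ℕ} {n : ℤ} (hn : ∀ l < r, Vn V n (L.ε (N l))) {a : A}
    (ha : a ∈ Low L N r) : Vn V n (L.ε a) := by
  induction ha using AddSubgroup.closure_induction with
  | mem a ha =>
    obtain ⟨o, ho, l, hl, rfl⟩ := ha
    rw [map_mul, L.ε_Θ]; exact Vn.omul ho (hn l hl)
  | zero => rw [map_zero]; exact Vn.zero n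
  | add a b _ _ ha hb => rw [map_add]; exact ha.add hb
  | neg a _ ha => rw [map_neg]; exact ha.neg

theorem Tw.low {px pw : E} {N : ℕ → A} (h : Tw L px pw N) (hx : px ∈ V.O) (hw : pw ∈ V.O)
    (c : Bool) {r : ℕ} {a : A} (ha : a ∈ Low L N r) : dd L c a ∈ Low L N (r + 1) := by
  induction ha using AddSubgroup.closure_induction with
  | mem a ha =>
    obtain ⟨o, ho, l, hl, rfl⟩ := ha
    obtain ⟨o', h1, h2⟩ := dd_Θ L c ho
    rw [dd_isD L c, h.d, h2, ← mul_assoc, ← map_mul, mul_comm (N l)]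
    exact add_mem (low_gen (mul_mem ho (by cases c; exacts [hw, hx])) (by omega))
      (low_gen h1 (by omega))
  | zero => rw [map_zero]; exact zero_mem _
  | add a b _ _ ha hb => rw [map_add]; exact add_mem ha hb
  | neg a _ ha => rw [map_neg]; exact neg_mem ha

theorem Tw.step {px pw : E} {N : ℕ → A} (h : Tw L px pw N) (hx : px ∈ V.O) (hw : pw ∈ V.O)
    (c : Bool) {r : ℕ} {a : A} {o : E} (ho : o ∈ V.O) (ha : a - L.Θ o * N r ∈ Low L N r) :
    dd L c a - L.Θ (o * if c then px else pw) * N (r + 1) ∈ Low L N (r + 1) := by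
  obtain ⟨o', h1, h2⟩ := dd_Θ L c ho
  have := add_mem (h.low hx hw c ha) (low_gen (N := N) h1 (Nat.lt_succ_self r))
  rw [map_sub, dd_isD L c, h.d, h2] at this
  convert this using 1
  rw [map_mul]; ring

theorem Tw.symb {px pw : E} {N : ℕ → A} (h : Tw L px pw N) (hx : px ∈ V.O) (hw : pw ∈ V.O)
    {o : E} (ho : o ∈ V.O) (j k : ℕ) :
    (L.X : A → A)^[j] ((L.W : A → A)^[k] (L.Θ o * N 0)) - L.Θ (o * pw ^ k * px ^ j) * N (k + j) ∈
      Low L N (k + j) := by
  induction j with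
  | zero =>
    simp only [Function.iterate_zero, id, pow_zero, mul_one, add_zero]
    induction k with
    | zero => simp
    | succ k ih =>
      rw [Function.iterate_succ_apply', pow_succ, ← mul_assoc]
      exact h.step hx hw false (mul_mem ho (pow_mem hw k)) ih
  | succ j ih =>
    rw [Function.iterate_succ_apply', pow_succ, ← mul_assoc]
    exact h.step hx hw true (mul_mem (mul_mem ho (pow_mem hw k)) (pow_mem hx j)) ih

theorem iter_sum (d : A →+ A) (n : ℕ) (s : Finset ℕ) (f : ℕ → A) :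
    (d : A → A)^[n] (∑ i ∈ s, f i) = ∑ i ∈ s, (d : A → A)^[n] (f i) := by
  induction n with
  | zero => rfl
  | succ n ih => simp only [Function.iterate_succ_apply', ih, map_sum]

theorem exists_vn_fin (m : ℕ) (η : ℕ → ℕ → E) : ∃ n, ∀ i < m, ∀ l < m, Vn V n (η i l) := by
  choose f hf using fun x : ℕ × ℕ => exists_vn (V := V) (η x.1 x.2)
  obtain ⟨n, hn⟩ := (((Finset.range m) ×ˢ (Finset.range m)).image f).bddBelow
  exact ⟨n, fun i hi l hl => (hf (i, l)).mono (hn (by
    simp only [Finset.coe_image]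
    exact ⟨(i, l), by simp [hi, hl], rfl⟩))⟩

/-- Towers in one linear relation are bounded. -/
theorem bdd {m : ℕ} {px pw σ : ℕ → E} {N : ℕ → ℕ → A} (hT : ∀ i < m, Tw L (px i) (pw i) (N i))
    (hx : ∀ i < m, px i ∈ V.O ∧ ¬V.Sm (px i)) (hw : ∀ i < m, pw i ∈ V.O)
    (hσ : ∀ i < m, σ i ∈ V.O ∧ ¬V.Sm (σ i))
    (hτ : ∀ i < m, ∀ j < m, i ≠ j → ¬V.Sm (pw i * (px i)⁻¹ - pw j * (px j)⁻¹))
    {n : ℤ} {r : ℕ} {z q : A} (hz : L.X z = 0) (hq : B L n q)
    (h : L.Θ V.w ^ (r + 1) * ∑ i ∈ Finset.range m, L.Θ (σ i) * N i 0 = z + q) :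
    ∃ n, ∀ i < m, ∀ l, B L n (N i l) := by
  obtain ⟨n1, h1⟩ := exists_vn_fin (V := V) m fun i l => L.ε (N i l)
  refine ⟨min n1 (n - (r + m + 1 : ℕ)), fun i hi l => (hT i hi).bd (hx i hi).1 (hw i hi) ?_ l⟩
  clear l
  intro l
  induction l using Nat.strong_induction_on generalizing i with
  | _ l ih =>
  by_cases hl : l < m
  · exact (h1 i hi l hl).mono (min_le_left _ _)
  have h2 := vand (V := V) (n := min n1 (n - (r + m + 1 : ℕ))) (fun i => pw i * (px i)⁻¹)
    (Finset.range m) (fun i => σ i * px i ^ l * L.ε (N i l))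
    (fun i hi => mul_mem (hw i (Finset.mem_range.1 hi))
      (inv_mem_of (hx i (Finset.mem_range.1 hi)).1 (hx i (Finset.mem_range.1 hi)).2).2)
    (fun i hi j hj => hτ i (Finset.mem_range.1 hi) j (Finset.mem_range.1 hj))
    (fun k hk => by
      rw [Finset.card_range] at hk
      obtain ⟨j, rfl⟩ : ∃ j, l = k + (j + 1) := ⟨l - k - 1, by omega⟩
      have e1 := (pw' hz hq h j k).mono
        (show min n1 (n - (r + m + 1 : ℕ)) ≤ _ by push_cast; omega)
      rw [iter_sum, iter_sum, map_sum] at e1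
      have e2 : Vn V (min n1 (n - (r + m + 1 : ℕ))) (∑ i ∈ Finset.range m, L.ε (
          (L.X : A → A)^[j + 1] ((L.W : A → A)^[k] (L.Θ (σ i) * N i 0)) -
            L.Θ (σ i * pw i ^ k * px i ^ (j + 1)) * N i (k + (j + 1)))) :=
        Vn.sum fun i hi => by
          have hi := Finset.mem_range.1 hi
          exact low_eps (fun l hl => ih l hl i hi)
            ((hT i hi).symb (hx i hi).1 (hw i hi) (hσ i hi).1 (j + 1) k)
      have e3 := e1.sub e2
      rw [← Finset.sum_sub_distrib] at e3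
      convert e3 using 2 with i hi
      have h0 := (inv_mem_of (hx i (Finset.mem_range.1 hi)).1 (hx i (Finset.mem_range.1 hi)).2).1
      rw [map_sub, map_mul, L.ε_Θ, pow_add, mul_pow, inv_pow]
      field_simp
      ring) i (Finset.mem_range.2 hi)
  obtain ⟨h3, h4⟩ := inv_mem_of (hx i hi).1 (hx i hi).2
  obtain ⟨h5, h6⟩ := inv_mem_of (hσ i hi).1 (hσ i hi).2
  have := Vn.omul (mul_mem h6 (pow_mem h4 l)) h2
  convert this using 1
  rw [inv_pow]
  field_simp

open PowerSeries in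
/-- A sum of squares of towers divisible by `w` is small. -/
theorem squares [CharZero E] [Algebra ℚ A] (hF : FR V) {m : ℕ} {px pw : ℕ → E} {N : ℕ → ℕ → A}
    (hT : ∀ i < m, Tw L (px i) (pw i) (N i))
    (hx : ∀ i < m, px i ∈ V.O ∧ ¬V.Sm (px i)) (hw : ∀ i < m, pw i ∈ V.O)
    {κ n : ℤ} (hκ : ∀ i < m, ∀ l, B L κ (N i l)) {y : A} (hy : B L n y)
    (h : ∑ i ∈ Finset.range m, N i 0 ^ 2 = L.Θ V.w * y) :
    ∀ l, ∀ i < m, Vn V (κ + 1) (L.ε (N i l)) := by
  intro l
  induction l using Nat.strong_induction_on with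
  | _ l ih =>
  have hq : ∀ j : ℕ, ∀ a : A, L.ε (((j.factorial : ℚ)⁻¹) • a) = (j.factorial : E)⁻¹ * L.ε a := by
    intro j a
    rw [map_rat_smul, Rat.smul_def]; simp
  let f : ℕ → E⟦X⟧ := fun i => PowerSeries.map L.ε (tay L.hX (N i 0))
  have hf : ∀ i j, coeff j (f i) = (j.factorial : E)⁻¹ * L.ε ((L.X : A → A)^[j] (N i 0)) := by
    intro i j
    simp only [f, coeff_map, coeff_tay, hq]
  have h1 : ∀ i < m, ∀ j, Vn V κ (coeff j (f i)) := fun i hi j =>
    hf i j ▸ Vn.omul (hF.nat_inv _) (B.Xn j (hκ i hi 0)).eps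
  have hs : ∀ i < m, ∀ j ≤ l, Vn V (κ + 1)
      (L.ε ((L.X : A → A)^[j] (N i 0)) - px i ^ j * L.ε (N i j)) := by
    intro i hi j hj
    have := low_eps (n := κ + 1) (fun l' hl' => ih l' (by omega) i hi)
      ((hT i hi).symb (hx i hi).1 (hw i hi) (one_mem _) j 0)
    simpa [L.ε_Θ] using this
  have h2 : ∀ i < m, ∀ j < l, Vn V (κ + 1) (coeff j (f i)) := fun i hi j hj => by
    have := (hs i hi j hj.le).add (Vn.omul (pow_mem (hx i hi).1 j) (ih j hj i hi))
    rw [sub_add_cancel] at this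
    exact hf i j ▸ Vn.omul (hF.nat_inv _) this
  have h3 : Vn V (κ + κ + 1) (coeff (l + l) (∑ i ∈ Finset.range m, f i ^ 2)) := by
    have e : ∑ i ∈ Finset.range m, f i ^ 2 = PowerSeries.map L.ε (tay L.hX (L.Θ V.w * y)) := by
      rw [← h]; simp only [f, map_sum, map_pow]
    rw [e, coeff_map, coeff_tay, hq, Xn_mul X_om]
    refine Vn.omul (hF.nat_inv _) (res hF ?_ (B.Xn _ hy))
    rw [← Xn_mul X_om, ← h]
    exact B.Xn _ (B.sum fun i hi => by
      rw [sq]; exact (hκ i (Finset.mem_range.1 hi) 0).mul (hκ i (Finset.mem_range.1 hi) 0))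
  have h4 : Vn V (κ + κ + 1) (∑ i ∈ Finset.range m,
      (coeff (l + l) (f i ^ 2) - coeff l (f i) ^ 2)) := Vn.sum fun i hi => by
    have hi := Finset.mem_range.1 hi
    have hm : (l, l) ∈ Finset.HasAntidiagonal.antidiagonal (l + l) := by simp
    rw [sq, coeff_mul, ← Finset.add_sum_erase _ _ hm, sq, add_sub_cancel_left]
    refine Vn.sum fun x hx => ?_
    obtain ⟨hne, hx⟩ := Finset.mem_erase.1 hx
    have hx := Finset.HasAntidiagonal.mem_antidiagonal.1 hx
    by_cases hlt : x.1 < l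
    · simpa [add_right_comm] using (h2 i hi _ hlt).mul (h1 i hi x.2)
    · have : x.2 < l := by
        by_contra h'
        exact hne (Prod.ext (by simp; omega) (by simp; omega))
      simpa [add_assoc] using (h1 i hi x.1).mul (h2 i hi _ this)
  have h5 : Vn V (κ + κ + 1) (∑ i ∈ Finset.range m, coeff l (f i) ^ 2) := by
    have := h3.sub h4
    rw [map_sum, ← Finset.sum_sub_distrib] at this
    simpa using this
  intro i hi
  have h6 := hF.sq (fun i hi => h1 i (Finset.mem_range.1 hi) l) h5 i (Finset.mem_range.2 hi)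
  have h7 := Vn.omul (natCast_mem V.O l.factorial) h6
  have h8 : (l.factorial : E) ≠ 0 := by exact_mod_cast l.factorial_ne_zero
  rw [hf, ← mul_assoc, mul_inv_cancel₀ h8, one_mul] at h7
  obtain ⟨h9, h10⟩ := inv_mem_of (hx i hi).1 (hx i hi).2
  have := Vn.omul (pow_mem h10 l) (h7.sub (hs i hi l le_rfl))
  convert this using 1
  rw [inv_pow]
  field_simp
  ring

end Vale.Agent.P097T.Fd
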