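import Vale.Agent.P097T.Fd3

/-! P097 T3, finite determinacy, part 4: angles, the chain modulo `w`. -/

set_option linter.all false

noncomputable section

namespace Vale.Agent.P097T.Fd

section ang

variable {R : Type} [CommRing R] [Algebra ℚ R]

/-- The derivative of an angle. -/
def ang (d : R →+ R) (c s : R) : R := c * d s - s * d c

theorem half {a : R} (h : 2 * a = 0) : a = 0 :=
  cancel_succ 1 (by push_cast; linear_combination h)

theorem ang_cs {d : R →+ R} (hd : IsD d) {c s : R} (h : c ^ 2 + s ^ 2 = 1) :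
    d c = -s * ang d c s ∧ d s = c * ang d c s := by
  have h1 := congrArg d h
  rw [map_add, hd.one, sq, sq, hd, hd] at h1
  have h2 : c * d c + s * d s = 0 := half (by linear_combination h1)
  unfold ang
  constructor
  · linear_combination c * h2 - d c * h
  · linear_combination s * h2 - d s * h

theorem ang_add {d : R →+ R} (hd : IsD d) {C S c s : R} (h : C ^ 2 + S ^ 2 = 1)
    (h' : c ^ 2 + s ^ 2 = 1) :
    ang d (C * c - S * s) (S * c + C * s) = ang d C S + ang d c s := by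
  obtain ⟨a1, a2⟩ := ang_cs hd h
  obtain ⟨b1, b2⟩ := ang_cs hd h'
  conv_lhs => rw [ang, map_add, map_sub, hd, hd, hd, hd, a1, a2, b1, b2]
  linear_combination (ang d C S + ang d c s) * ((c ^ 2 + s ^ 2) * h + h')

theorem ang_sub {d : R →+ R} (hd : IsD d) {C S c s : R} (h : C ^ 2 + S ^ 2 = 1)
    (h' : c ^ 2 + s ^ 2 = 1) :
    ang d (C * c + S * s) (S * c - C * s) = ang d C S - ang d c s := by
  obtain ⟨a1, a2⟩ := ang_cs hd h
  obtain ⟨b1, b2⟩ := ang_cs hd h'
  conv_lhs => rw [ang, map_add, map_sub, hd, hd, hd, hd, a1, a2, b1, b2]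
  linear_combination (ang d C S - ang d c s) * ((c ^ 2 + s ^ 2) * h + h')

theorem ang_comm {d d' : R →+ R} (hd : IsD d) (hd' : IsD d') (hc : ∀ a, d (d' a) = d' (d a))
    {c s : R} (h : c ^ 2 + s ^ 2 = 1) : d (ang d' c s) = d' (ang d c s) := by
  obtain ⟨a1, a2⟩ := ang_cs hd h
  obtain ⟨b1, b2⟩ := ang_cs hd' h
  have e1 : d (ang d' c s) = c * d (d' s) + d' s * d c - (s * d (d' c) + d' c * d s) := by
    rw [ang, map_sub, hd, hd]
  have e2 : d' (ang d c s) = c * d' (d s) + d s * d' c - (s * d' (d c) + d c * d' s) := by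
    rw [ang, map_sub, hd', hd']
  rw [e1, e2, hc, hc]
  have e3 : d' s * d c = d' c * d s := by rw [a1, a2, b1, b2]; ring
  linear_combination 2 * e3

end ang

variable {E : Type} [Field E] [CharZero E] {V : VField E} {m : ℕ} (C : Mirrors V m)

theorem not_sm_mul {a b : E} (ha : a ∈ V.O) (ha' : ¬V.Sm a) (hb' : ¬V.Sm b) : ¬V.Sm (a * b) := by
  intro h
  obtain ⟨h0, h1⟩ := inv_mem_of ha ha'
  have := Vn.omul h1 (vn_one.2 h)
  rw [← mul_assoc, inv_mul_cancel₀ h0, one_mul] at this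
  exact hb' (vn_one.1 this)

theorem not_sm_of {a b : E} (h : Vn V 1 (a - b)) (hb : ¬V.Sm b) : ¬V.Sm a := fun ha =>
  hb (vn_one.1 (by simpa using (vn_one.2 ha).sub h))

theorem Vn.mem {f : E} (h : Vn V 1 f) : f ∈ V.O := vn_zero.1 (h.mono (by norm_num))

/-- `ψ_x`. -/
def px (i : ℕ) : E := ang (dX V) (C.cs i) (C.ss i)

/-- `ψ_w`. -/
def pv (i : ℕ) : E := ang (dW V) (C.cs i) (C.ss i)

/-- `δ_w`. -/
def dv (i : ℕ) : E := ang (dW V) (C.cd i) (C.sd i)

/-- `sin δ / w`. -/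
def sg (i : ℕ) : E := V.w⁻¹ * C.sd i

theorem sd_eq (i : ℕ) : C.sd i = V.w * sg C i := by unfold sg; field_simp [V.w_ne]

section

variable {i : ℕ} (hi : i < m)
include hi

theorem sd1 : Vn V 1 (C.sd i) := vn_one.2 (C.sd_sm i hi)

theorem cd1 : Vn V 1 (C.cd i - 1) := vn_one.2 (C.cd_one i hi)

theorem cdO : C.cd i ∈ V.O := by simpa using add_mem (cd1 C hi).mem (one_mem V.O)

theorem sgO : sg C i ∈ V.O := C.sd_sm i hi

theorem sg1 : Vn V 1 (sg C i - sg C 0) := vn_one.2 (C.kap i hi)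

theorem sgU : ¬V.Sm (sg C i) := not_sm_of (sg1 C hi) C.kap_unit

theorem pxO : px C i ∈ V.O :=
  sub_mem (mul_mem (C.cs_mem i hi) (V.dx_mem _ (C.ss_mem i hi)))
    (mul_mem (C.ss_mem i hi) (V.dx_mem _ (C.cs_mem i hi)))

theorem pvO : pv C i ∈ V.O :=
  sub_mem (mul_mem (C.cs_mem i hi) (V.dw_mem _ (C.ss_mem i hi)))
    (mul_mem (C.ss_mem i hi) (V.dw_mem _ (C.cs_mem i hi)))

theorem dx1 : Vn V 1 (ang (dX V) (C.cd i) (C.sd i)) :=
  (Vn.omul (cdO C hi) (sd1 C hi).dx).sub ((sd1 C hi).mulo (V.dx_mem _ (cdO C hi)))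

theorem dv1 : Vn V 1 (dv C i - sg C 0) := by
  have := (((Vn.omul (cdO C hi) (sd1 C hi).dw1.2).add ((cd1 C hi).mulo (sgO C hi))).add
    (sg1 C hi)).sub ((sd1 C hi).mulo (V.dw_mem _ (cdO C hi)))
  convert this using 1
  simp only [dv, ang, sg, dW_apply]
  ring

theorem dvO : dv C i ∈ V.O := by
  simpa using add_mem (dv1 C hi).mem (sgO C (Nat.zero_lt_of_lt hi))

theorem rhoO : C.h i 0 + C.h i 2 ∈ V.O := add_mem (C.h_mem i hi 0) (C.h_mem i hi 2)

theorem rhoU : ¬V.Sm (C.h i 0 + C.h i 2) := not_sm_of (vn_one.2 (C.rho i hi)) C.rho_unit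

theorem rsU : (C.h i 0 + C.h i 2) * sg C i ≠ 0 ∧ ((C.h i 0 + C.h i 2) * sg C i)⁻¹ ∈ V.O :=
  inv_mem_of (mul_mem (rhoO C hi) (sgO C hi)) (not_sm_mul (rhoO C hi) (rhoU C hi) (sgU C hi))

theorem rs1 : Vn V 1 (((C.h i 0 + C.h i 2) * sg C i)⁻¹ - ((C.h 0 0 + C.h 0 2) * sg C 0)⁻¹) := by
  have h0 := Nat.zero_lt_of_lt hi
  have := Vn.omul (mul_mem (rsU C hi).2 (rsU C h0).2)
    (((vn_one.2 (C.rho i hi)).mulo (sgO C hi)).add (Vn.omul (rhoO C h0) (sg1 C hi))).neg
  convert this using 1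
  have e1 := (rsU C hi).1
  have e2 := (rsU C h0).1
  generalize C.h i 0 + C.h i 2 = a at *
  generalize C.h 0 0 + C.h 0 2 = b at *
  have e3 : a ≠ 0 := left_ne_zero_of_mul e1
  have e4 : b ≠ 0 := left_ne_zero_of_mul e2
  have e5 : sg C i ≠ 0 := right_ne_zero_of_mul e1
  have e6 : sg C 0 ≠ 0 := right_ne_zero_of_mul e2
  field_simp
  ring

end

theorem ang_step {d : E →+ E} (hd : IsD d) {i : ℕ} (hi : i + 1 < m) :
    ang d (C.cs (i + 1)) (C.ss (i + 1)) - ang d (C.cd (i + 1)) (C.sd (i + 1)) =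
      ang d (C.cs i) (C.ss i) + ang d (C.cd i) (C.sd i) := by
  have h0 : i < m := by omega
  rw [← ang_sub hd (C.one_s _ hi) (C.one_d _ hi), ← ang_add hd (C.one_s _ h0) (C.one_d _ h0),
    ← C.cp_in _ hi, ← C.sp_in _ hi, ← C.cp_out _ h0, ← C.sp_out _ h0]

theorem px1 : ∀ i < m, Vn V 1 (px C i - px C 0) := by
  intro i
  induction i with
  | zero => intro _; simpa using Vn.zero 1
  | succ i ih =>
    intro hi
    have h0 : i < m := by omega
    have := ((ih h0).add (dx1 C h0)).add (dx1 C hi)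
    convert this using 1
    have e := ang_step C (dX_isD V) hi
    unfold px
    linear_combination e

theorem pxU {i : ℕ} (hi : i < m) : ¬V.Sm (px C i) := not_sm_of (px1 C i hi) C.psx_unit

theorem pv1 : ∀ i < m, Vn V 1 (pv C i - pv C 0 - 2 * i * sg C 0) := by
  intro i
  induction i with
  | zero => intro _; simpa using Vn.zero 1
  | succ i ih =>
    intro hi
    have h0 : i < m := by omega
    have := ((ih h0).add (dv1 C h0)).add (dv1 C hi)
    convert this using 1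
    have e := ang_step C (dW_isD V) hi
    unfold pv dv
    push_cast
    linear_combination e

theorem tauU (hF : FR V) : ∀ i < m, ∀ j < m, i ≠ j →
    ¬V.Sm (pv C i * (px C i)⁻¹ - pv C j * (px C j)⁻¹) := by
  have key : ∀ i < m, ∀ j < m, i < j → ¬V.Sm (pv C j * (px C j)⁻¹ - pv C i * (px C i)⁻¹) := by
    intro i hi j hj hij hs
    obtain ⟨k, rfl⟩ := Nat.exists_eq_add_of_lt hij
    have h0 := Nat.zero_lt_of_lt hi
    have e1 := (inv_mem_of (pxO C hi) (pxU C hi)).1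
    have e2 := (inv_mem_of (pxO C hj) (pxU C hj)).1
    have := (((Vn.omul (mul_mem (pxO C hi) (pxO C hj)) (vn_one.2 hs)).sub
      (Vn.omul (pvO C hj) (px1 C i hi))).add (Vn.omul (pvO C hi) (px1 C _ hj))).sub
      (Vn.omul (pxO C h0) ((pv1 C _ hj).sub (pv1 C i hi)))
    refine not_sm_mul (natCast_mem V.O (2 * (k + 1))) (hF.nat (by omega))
      (not_sm_mul (sgO C h0) (sgU C h0) (pxU C h0)) (vn_one.1 ?_)
    convert this using 1
    push_cast
    field_simp
    ring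
  intro i hi j hj hij hs
  rcases lt_or_gt_of_ne hij with h | h
  · exact key i hi j hj h (vn_one.1 (by simpa using (vn_one.2 hs).neg))
  · exact key j hj i hi h hs

theorem h1 {i : ℕ} (hi : i + 1 < m) (k : ℕ) : Vn V 1 (C.h (i + 1) k - C.h i k) := by
  have h0 : i < m := by omega
  induction k with
  | zero =>
    have := (((Vn.omul (C.h_mem i h0 0) (cd1 C h0)).add (Vn.omul (C.h_mem i h0 1) (sd1 C h0))).sub
      (Vn.omul (C.h_mem _ hi 0) (cd1 C hi))).add (Vn.omul (C.h_mem _ hi 1) (sd1 C hi))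
    convert this using 1
    linear_combination C.p_out i h0 - C.p_in _ hi
  | succ k ih =>
    have e := ih.dx
    rw [map_sub, C.dx_h _ hi, C.dx_h _ h0] at e
    obtain ⟨e1, e2⟩ := inv_mem_of (pxO C hi) (pxU C hi)
    have := Vn.omul e2 (e.sub (((px1 C _ hi).sub (px1 C _ h0)).mulo (C.h_mem i h0 (k + 1))))
    convert this using 1
    change _ = _ * (px C (i + 1) * _ - px C i * _ - _)
    field_simp
    ring

theorem gam2 {i : ℕ} (hi : i + 1 < m) : Vn V 2 (C.h i 1 * C.cd i + C.h i 2 * C.sd i -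
    (C.h (i + 1) 1 * C.cd (i + 1) - C.h (i + 1) 2 * C.sd (i + 1))) := by
  have h0 : i < m := by omega
  set γ := C.h i 1 * C.cd i + C.h i 2 * C.sd i -
    (C.h (i + 1) 1 * C.cd (i + 1) - C.h (i + 1) 2 * C.sd (i + 1)) with hγ
  have hm := C.h_mem
  have g1 : Vn V 1 γ := by
    have := ((((Vn.omul (hm i h0 1) (cd1 C h0)).add (Vn.omul (hm i h0 2) (sd1 C h0))).sub
      (Vn.omul (hm _ hi 1) (cd1 C hi))).add (Vn.omul (hm _ hi 2) (sd1 C hi))).sub (h1 C hi 1)
    convert this using 1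
    rw [hγ]; ring
  have g2 : Vn V 1 (V.dw γ) := by
    obtain ⟨a1, a2⟩ := ang_cs (dW_isD V) (C.one_d _ h0)
    obtain ⟨b1, b2⟩ := ang_cs (dW_isD V) (C.one_d _ hi)
    have e := ang_step C (dW_isD V) hi
    have := (Vn.omul (add_mem (pvO C h0) (dvO C h0)) (((Vn.omul (hm i h0 2) (cd1 C h0)).sub
      (Vn.omul (hm _ hi 2) (cd1 C hi))).sub (h1 C hi 2))).add
      (((sd1 C h0).mulo (sub_mem (mul_mem (pvO C h0) (hm i h0 3)) (mul_mem (hm i h0 1) (dvO C h0)))).add
      ((sd1 C hi).mulo (add_mem (mul_mem (pvO C hi) (hm _ hi 3)) (mul_mem (hm _ hi 1) (dvO C hi)))))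
    convert this using 1
    rw [dW_apply] at a1 a2 b1 b2
    simp only [hγ, map_sub, map_add, Derivation.leibniz, smul_eq_mul, C.dw_h _ hi, C.dw_h _ h0,
      a1, a2, b1, b2]
    change pv C (i + 1) - dv C (i + 1) = pv C i + dv C i at e
    change _ * (-_ * dv C i) + _ * (pv C i * _) + (_ * (_ * dv C i) + _ * (pv C i * _)) -
      (_ * (-_ * dv C (i + 1)) + _ * (pv C (i + 1) * _) -
        (_ * (_ * dv C (i + 1)) + _ * (pv C (i + 1) * _))) = _
    linear_combination (-C.h (i + 1) 2 * C.cd (i + 1)) * e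
  have g3 := vn_w.mul (g2.sub g1.dw1.2)
  rw [sub_sub_cancel, ← mul_assoc, mul_inv_cancel₀ V.w_ne, one_mul] at g3
  exact g3

end Vale.Agent.P097T.Fd
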