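import Vale.Agent.P097T.Fd4

/-! P097 T3, finite determinacy, part 5: formal deformations of the mirrors are trivial. -/

set_option linter.all false

noncomputable section

namespace Vale.Agent.P097T.Fd

variable {E : Type} [Field E] [CharZero E] {V : VField E} {m : ℕ} (C : Mirrors V m)
variable {D : E →+ E} {P : E → Prop} {A : Type} [CommRing A] [Algebra ℚ A]
  (L : Lift (dX V) (dW V) D P A)

/-- The variation of `ψ`. -/
def ψ (i : ℕ) : A := ang L.T (L.Θ (C.cs i)) (L.Θ (C.ss i))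

/-- The variation of `δ`. -/
def δ (i : ℕ) : A := ang L.T (L.Θ (C.cd i)) (L.Θ (C.sd i))

/-- The variation of `φ`. -/
def φ (i : ℕ) : A := ang L.T (L.Θ (C.cp i)) (L.Θ (C.sp i))

/-- The variation of a tower at a fixed angle. -/
def nx (i : ℕ) (N : ℕ → A) (l : ℕ) : A := L.T (N l) - N (l + 1) * ψ C L i

/-- The jets of the support function. -/
def HH (i l : ℕ) : A := L.Θ (C.h i l)

/-- The first variation of the mirrors. -/
def NN (i : ℕ) : ℕ → A := nx C L i (HH C L i)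

theorem unit_Θ {c s : E} (h : c ^ 2 + s ^ 2 = 1) : L.Θ c ^ 2 + L.Θ s ^ 2 = 1 := by
  rw [← map_pow, ← map_pow, ← map_add, h, map_one]

theorem ang_X (c s : E) : ang L.X (L.Θ c) (L.Θ s) = L.Θ (ang (dX V) c s) := by
  simp only [ang, L.X_Θ, map_sub, map_mul]

theorem ang_W (c s : E) : ang L.W (L.Θ c) (L.Θ s) = L.Θ (ang (dW V) c s) := by
  simp only [ang, L.W_Θ, map_sub, map_mul]

section

variable {i : ℕ} (hi : i < m)
include hi

theorem tw_H : Tw L (px C i) (pv C i) (HH C L i) := fun l => by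
  unfold HH
  rw [L.X_Θ, L.W_Θ, dX_apply, dW_apply, C.dx_h i hi, C.dw_h i hi, map_mul, map_mul]
  exact ⟨rfl, rfl⟩

theorem tw_nx {N : ℕ → A} (h : Tw L (px C i) (pv C i) N) : Tw L (px C i) (pv C i) (nx C L i N) := by
  intro l
  have u := unit_Θ L (C.one_s i hi)
  have e1 : L.X (ψ C L i) = L.T (L.Θ (px C i)) := by
    rw [ψ, ang_comm L.hX L.hT L.XT u, ang_X]; rfl
  have e2 : L.W (ψ C L i) = L.T (L.Θ (pv C i)) := by
    rw [ψ, ang_comm L.hW L.hT L.WT u, ang_W]; rfl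
  unfold nx
  constructor
  · rw [map_sub, L.XT, (h l).1, L.hT, L.hX, e1, (h (l + 1)).1]; ring
  · rw [map_sub, L.WT, (h l).2, L.hT, L.hW, e2, (h (l + 1)).2]; ring

theorem tw_N : Tw L (px C i) (pv C i) (NN C L i) := tw_nx C L hi (tw_H C L hi)

theorem ang_in {d : A →+ A} (hd : IsD d) : ang d (L.Θ (C.cp i)) (L.Θ (C.sp i)) =
    ang d (L.Θ (C.cs i)) (L.Θ (C.ss i)) - ang d (L.Θ (C.cd i)) (L.Θ (C.sd i)) := by
  rw [← ang_sub hd (unit_Θ L (C.one_s i hi)) (unit_Θ L (C.one_d i hi)), C.cp_in i hi, C.sp_in i hi]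
  simp only [map_add, map_sub, map_mul]

theorem ang_out {d : A →+ A} (hd : IsD d) : ang d (L.Θ (C.cp (i + 1))) (L.Θ (C.sp (i + 1))) =
    ang d (L.Θ (C.cs i)) (L.Θ (C.ss i)) + ang d (L.Θ (C.cd i)) (L.Θ (C.sd i)) := by
  rw [← ang_add hd (unit_Θ L (C.one_s i hi)) (unit_Θ L (C.one_d i hi)), C.cp_out i hi,
    C.sp_out i hi]
  simp only [map_add, map_sub, map_mul]

theorem φ_in : φ C L i = ψ C L i - δ C L i := ang_in C L hi L.hT

theorem φ_out : φ C L (i + 1) = ψ C L i + δ C L i := ang_out C L hi L.hT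

theorem T_cs : L.T (L.Θ (C.cd i)) = -L.Θ (C.sd i) * δ C L i ∧
    L.T (L.Θ (C.sd i)) = L.Θ (C.cd i) * δ C L i := ang_cs L.hT (unit_Θ L (C.one_d i hi))

theorem e_in : L.T (L.Θ (C.p i)) - L.Θ (C.h i 1 * C.cd i - C.h i 2 * C.sd i) * φ C L i =
    NN C L i 0 * L.Θ (C.cd i) - NN C L i 1 * L.Θ (C.sd i) -
      L.Θ ((C.h i 0 + C.h i 2) * sg C i) * (L.Θ V.w * δ C L i) := by
  have e : L.Θ (C.sd i) = L.Θ V.w * L.Θ (sg C i) := by rw [← map_mul, ← sd_eq]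
  rw [C.p_in i hi, φ_in C L hi]
  simp only [map_add, map_sub, map_mul, L.hT _ _, (T_cs C L hi).1, (T_cs C L hi).2, NN, nx, HH]
  linear_combination (-(L.Θ (C.h i 0) + L.Θ (C.h i 2)) * δ C L i) * e

theorem e_out : L.T (L.Θ (C.p (i + 1))) -
      L.Θ (C.h i 1 * C.cd i + C.h i 2 * C.sd i) * φ C L (i + 1) =
    L.T (L.Θ (C.p i)) - L.Θ (C.h i 1 * C.cd i - C.h i 2 * C.sd i) * φ C L i +
      2 * NN C L i 1 * L.Θ (C.sd i) := by
  rw [C.p_in i hi, C.p_out i hi, φ_in C L hi, φ_out C L hi]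
  simp only [map_add, map_sub, map_mul, L.hT _ _, (T_cs C L hi).1, (T_cs C L hi).2, NN, nx, HH]
  ring

end

theorem dPhi {d : A →+ A} (hd : IsD d) :
    d (∑ i ∈ Finset.range m, 2 * HH C L i 0 * L.Θ (C.sd i)) =
      2 * ∑ i ∈ Finset.range m, (d (HH C L i 0) -
        HH C L i 1 * ang d (L.Θ (C.cs i)) (L.Θ (C.ss i))) * L.Θ (C.sd i) +
      (L.Θ (C.p m) * ang d (L.Θ (C.cp m)) (L.Θ (C.sp m)) -
        L.Θ (C.p 0) * ang d (L.Θ (C.cp 0)) (L.Θ (C.sp 0))) := by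
  rw [← Finset.sum_range_sub (fun j => L.Θ (C.p j) * ang d (L.Θ (C.cp j)) (L.Θ (C.sp j))),
    Finset.mul_sum, ← Finset.sum_add_distrib, map_sum]
  refine Finset.sum_congr rfl fun i hi => ?_
  have hi := Finset.mem_range.1 hi
  rw [ang_in C L hi hd, ang_out C L hi hd, C.p_in i hi, C.p_out i hi, hd, hd, hd.two,
    (ang_cs hd (unit_Θ L (C.one_d i hi))).2]
  simp only [map_add, map_sub, map_mul, HH]
  ring

/-- The class `P` is closed under the operations and contains both ends of the chain. -/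
structure Ends (P : E → Prop) : Prop where
  mul : ∀ a b, P a → P b → P (a * b)
  sub : ∀ a b, P a → P b → P (a - b)
  dx : ∀ a, P a → P (V.dx a)
  dw : ∀ a, P a → P (V.dw a)
  e0 : P (C.cp 0) ∧ P (C.sp 0) ∧ P (C.p 0)
  em : P (C.cp m) ∧ P (C.sp m) ∧ P (C.p m)

variable {C} (hP : Ends C P)
include hP

theorem φ_zero : φ C L 0 = 0 := by simp [φ, ang, L.T_Θ _ hP.e0.1, L.T_Θ _ hP.e0.2.1]

theorem φ_m : φ C L m = 0 := by simp [φ, ang, L.T_Θ _ hP.em.1, L.T_Θ _ hP.em.2.1]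

theorem G_const : L.X (∑ i ∈ Finset.range m, NN C L i 0 * L.Θ (C.sd i)) = 0 ∧
    L.W (∑ i ∈ Finset.range m, NN C L i 0 * L.Θ (C.sd i)) = 0 := by
  have e := dPhi C L L.hT
  change _ = 2 * ∑ i ∈ Finset.range m, NN C L i 0 * L.Θ (C.sd i) +
    (_ * φ C L m - _ * φ C L 0) at e
  rw [φ_zero L hP, φ_m L hP, mul_zero, mul_zero, sub_zero, add_zero] at e
  obtain ⟨a1, a2, a3⟩ := hP.e0
  obtain ⟨b1, b2, b3⟩ := hP.em
  constructor
  · apply half
    have e1 := congrArg L.X e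
    rw [L.XT, dPhi C L L.hX, L.hX, L.hX.two, mul_zero, add_zero] at e1
    rw [← e1, Finset.sum_eq_zero fun i hi => by
      rw [(tw_H C L (Finset.mem_range.1 hi) 0).1, ang_X, px]; ring]
    rw [ang_X, ang_X, ← map_mul, ← map_mul, ← map_sub, mul_zero, zero_add]
    exact L.T_Θ _ (hP.sub _ _
      (hP.mul _ _ b3 (hP.sub _ _ (hP.mul _ _ b1 (hP.dx _ b2)) (hP.mul _ _ b2 (hP.dx _ b1))))
      (hP.mul _ _ a3 (hP.sub _ _ (hP.mul _ _ a1 (hP.dx _ a2)) (hP.mul _ _ a2 (hP.dx _ a1)))))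
  · apply half
    have e1 := congrArg L.W e
    rw [L.WT, dPhi C L L.hW, L.hW, L.hW.two, mul_zero, add_zero] at e1
    rw [← e1, Finset.sum_eq_zero fun i hi => by
      rw [(tw_H C L (Finset.mem_range.1 hi) 0).2, ang_W, pv]; ring]
    rw [ang_W, ang_W, ← map_mul, ← map_mul, ← map_sub, mul_zero, zero_add]
    exact L.T_Θ _ (hP.sub _ _
      (hP.mul _ _ b3 (hP.sub _ _ (hP.mul _ _ b1 (hP.dw _ b2)) (hP.mul _ _ b2 (hP.dw _ b1))))
      (hP.mul _ _ a3 (hP.sub _ _ (hP.mul _ _ a1 (hP.dw _ a2)) (hP.mul _ _ a2 (hP.dw _ a1)))))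

omit hP in
theorem del {κ : ℤ} {i : ℕ} (hi : i < m) (hκ : ∀ l, B L κ (NN C L i l)) {y : A} (hy : B L κ y)
    (h : L.T (L.Θ (C.p i)) - L.Θ (C.h i 1 * C.cd i - C.h i 2 * C.sd i) * φ C L i = L.Θ V.w * y) :
    ∃ y', B L κ y' ∧ L.Θ V.w * δ C L i =
      L.Θ ((C.h 0 0 + C.h 0 2) * sg C 0)⁻¹ * NN C L i 0 + L.Θ V.w * y' := by
  obtain ⟨r0, r1⟩ := rsU C hi
  have r2 := vn_one.1 ((Vn.omul r1 (cd1 C hi)).add (rs1 C hi))
  refine ⟨_, ((B.omul r2 (hκ 0)).sub (B.omul (mul_mem r1 (sgO C hi)) (hκ 1))).sub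
    (B.omul r1 hy), ?_⟩
  rw [e_in C L hi] at h
  have e : L.Θ (C.sd i) = L.Θ V.w * L.Θ (sg C i) := by rw [← map_mul, ← sd_eq]
  have e1 : L.Θ ((C.h i 0 + C.h i 2) * sg C i)⁻¹ * L.Θ ((C.h i 0 + C.h i 2) * sg C i) = 1 := by
    rw [← map_mul, inv_mul_cancel₀ r0, map_one]
  have e2 : L.Θ V.w * L.Θ V.w⁻¹ = 1 := by rw [← map_mul, mul_inv_cancel₀ V.w_ne, map_one]
  generalize ((C.h i 0 + C.h i 2) * sg C i)⁻¹ = r at *
  generalize ((C.h 0 0 + C.h 0 2) * sg C 0)⁻¹ = r' at *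
  generalize (C.h i 0 + C.h i 2) * sg C i = q at *
  simp only [map_add, map_sub, map_mul, map_one]
  linear_combination (-L.Θ r) * h - (L.Θ V.w * δ C L i) * e1 - L.Θ r * NN C L i 1 * e -
    (L.Θ r * L.Θ (C.cd i) - L.Θ r') * NN C L i 0 * e2

theorem inv {κ : ℤ} (hκ : ∀ i < m, ∀ l, B L κ (NN C L i l)) : ∀ i < m,
    B L κ (L.Θ V.w * φ C L i) ∧ ∃ y, B L κ y ∧ L.T (L.Θ (C.p i)) -
      L.Θ (C.h i 1 * C.cd i - C.h i 2 * C.sd i) * φ C L i = L.Θ V.w * y := by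
  intro i
  induction i with
  | zero =>
    intro _
    rw [φ_zero L hP, L.T_Θ _ hP.e0.2.2]
    exact ⟨by simpa using B.zero κ, 0, B.zero κ, by simp⟩
  | succ i ih =>
    intro hi
    have h0 : i < m := by omega
    obtain ⟨h1, y, h2, h3⟩ := ih h0
    obtain ⟨y', h4, h5⟩ := del L h0 (hκ i h0) h2 h3
    have h6 : B L κ (L.Θ V.w * δ C L i) :=
      h5 ▸ (B.omul (rsU C (Nat.zero_lt_of_lt h0)).2 (hκ i h0 0)).add (B.omul V.w_mem h4)
    have h7 : B L κ (L.Θ V.w * φ C L (i + 1)) := by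
      have := (h1.add h6).add h6
      convert this using 1
      rw [φ_in C L h0, φ_out C L h0]; ring
    refine ⟨h7, _, (h2.add (B.omul (sgO C h0) (B.nmul 2 (hκ i h0 1)))).add
      (B.omul (gam2 C hi) h7), ?_⟩
    have e : L.Θ (C.sd i) = L.Θ V.w * L.Θ (sg C i) := by rw [← map_mul, ← sd_eq]
    have e2 : L.Θ V.w * L.Θ V.w * L.Θ (V.w ^ (-2 : ℤ)) = 1 := by
      rw [← map_mul, ← map_mul, ← map_one L.Θ]
      congr 1
      rw [zpow_neg]
      field_simp [V.w_ne]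
    have e3 := e_out C L h0
    generalize C.h i 1 * C.cd i + C.h i 2 * C.sd i = b at *
    generalize C.h (i + 1) 1 * C.cd (i + 1) - C.h (i + 1) 2 * C.sd (i + 1) = a' at *
    simp only [map_sub, map_mul (L.Θ) (V.w ^ (-2 : ℤ))]
    push_cast
    linear_combination e3 + h3 + 2 * NN C L i 1 * e - (L.Θ b - L.Θ a') * φ C L (i + 1) * e2

theorem eta_zero (hF : FR V) : ∀ i < m, ∀ l, L.ε (NN C L i l) = 0 := by
  by_contra hne
  push Not at hne
  obtain ⟨i0, hi0, l0, hne⟩ := hne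
  have h0 := Nat.zero_lt_of_lt hi0
  have e : ∀ i, L.Θ (C.sd i) = L.Θ V.w * L.Θ (sg C i) := fun i => by rw [← map_mul, ← sd_eq]
  have hx : ∀ i < m, px C i ∈ V.O ∧ ¬V.Sm (px C i) := fun i hi => ⟨pxO C hi, pxU C hi⟩
  have hσ : ∀ i < m, sg C i ∈ V.O ∧ ¬V.Sm (sg C i) := fun i hi => ⟨sgO C hi, sgU C hi⟩
  obtain ⟨G1, G2⟩ := G_const L hP
  obtain ⟨κ, hκ, hmax⟩ := Int.exists_greatest_of_bdd
    (P := fun n => ∀ i < m, ∀ l, B L n (NN C L i l))
    (by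
      obtain ⟨N, hN⟩ := vn_bdd (V := V) hne
      exact ⟨N, fun n hn => hN n (hn i0 hi0 l0).eps⟩)
    (bdd (r := 0) (fun i hi => tw_N C L hi) hx (fun i hi => pvO C hi) hσ (tauU C hF) G1 (B.zero 0)
      (by
        rw [Finset.mul_sum, add_zero]
        exact Finset.sum_congr rfl fun i _ => by rw [e]; ring))
  have h1 := inv L hP hκ
  have h2 : ∀ i, ∃ y', i < m → B L κ y' ∧ L.Θ V.w * δ C L i =
      L.Θ ((C.h 0 0 + C.h 0 2) * sg C 0)⁻¹ * NN C L i 0 + L.Θ V.w * y' := fun i => by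
    by_cases hi : i < m
    · obtain ⟨-, y, h2, h3⟩ := h1 i hi
      obtain ⟨y', h⟩ := del L hi (hκ i hi) h2 h3
      exact ⟨y', fun _ => h⟩
    · exact ⟨0, fun h => absurd h hi⟩
  choose y hy using h2
  have h3 : ∀ i < m, B L κ (L.Θ V.w * δ C L i) := fun i hi =>
    (hy i hi).2 ▸ (B.omul (rsU C h0).2 (hκ i hi 0)).add (B.omul V.w_mem (hy i hi).1)
  have h4 : ∀ i < m, B L κ (L.Θ V.w * ψ C L i) := fun i hi => by
    have := (h1 i hi).1.add (h3 i hi)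
    convert this using 1
    rw [φ_in C L hi]; ring
  set g := L.T (∑ i ∈ Finset.range m, NN C L i 0 * L.Θ (C.sd i)) with hg
  have g1 : L.X g = 0 := by rw [hg, L.XT, G1, map_zero]
  have g2 : L.W g = 0 := by rw [hg, L.WT, G2, map_zero]
  set Y := ∑ i ∈ Finset.range m, L.Θ (sg C i) * nx C L i (NN C L i) 0 with hY
  set Q := ∑ i ∈ Finset.range m, (NN C L i 1 * (L.Θ V.w * ψ C L i) * L.Θ (C.sd i) +
    NN C L i 0 * (L.Θ V.w * δ C L i) * L.Θ (C.cd i)) with hQ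
  have q1 : B L (κ + κ) Q := B.sum fun i hi => by
    have hi := Finset.mem_range.1 hi
    exact (((hκ i hi 1).mul (h4 i hi)).mulo (sd1 C hi).mem).add
      (((hκ i hi 0).mul (h3 i hi)).mulo (cdO C hi))
  have q2 : L.Θ V.w ^ (1 + 1) * Y = L.Θ V.w * g + -Q := by
    rw [hY, hg, hQ, map_sum, Finset.mul_sum, Finset.mul_sum, ← Finset.sum_neg_distrib,
      ← Finset.sum_add_distrib]
    refine Finset.sum_congr rfl fun i hi => ?_
    rw [L.hT, (T_cs C L (Finset.mem_range.1 hi)).2, nx, e]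
    ring
  obtain ⟨n1, hn1⟩ := bdd (fun i hi => tw_nx C L hi (tw_N C L hi)) hx (fun i hi => pvO C hi) hσ
    (tauU C hF) (by rw [L.hX, g1, X_om]; simp) q1.neg q2
  obtain ⟨n2, hn2⟩ := B.const g1 g2
  have y1 : B L n1 Y := B.sum fun i hi =>
    B.omul (sgO C (Finset.mem_range.1 hi)) (hn1 i (Finset.mem_range.1 hi) 0)
  set Q' := ∑ i ∈ Finset.range m, (NN C L i 1 * (L.Θ V.w * ψ C L i) * L.Θ (sg C i) +
    NN C L i 0 * (L.Θ V.w * δ C L i) * L.Θ (V.w⁻¹ * (C.cd i - 1)) + NN C L i 0 * y i) with hQ'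
  have q3 : B L (κ + κ) Q' := B.sum fun i hi => by
    have hi := Finset.mem_range.1 hi
    exact ((((hκ i hi 1).mul (h4 i hi)).mulo (sgO C hi)).add
      (((hκ i hi 0).mul (h3 i hi)).mulo (C.cd_one i hi))).add ((hκ i hi 0).mul (hy i hi).1)
  have e2 : L.Θ V.w * L.Θ V.w⁻¹ = 1 := by rw [← map_mul, mul_inv_cancel₀ V.w_ne, map_one]
  have e1 : L.Θ ((C.h 0 0 + C.h 0 2) * sg C 0) * L.Θ ((C.h 0 0 + C.h 0 2) * sg C 0)⁻¹ = 1 := by
    rw [← map_mul, mul_inv_cancel₀ (rsU C h0).1, map_one]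
  have q4 : Q = L.Θ ((C.h 0 0 + C.h 0 2) * sg C 0)⁻¹ * ∑ i ∈ Finset.range m, NN C L i 0 ^ 2 +
      L.Θ V.w * Q' := by
    rw [hQ, hQ', Finset.mul_sum, Finset.mul_sum, ← Finset.sum_add_distrib]
    refine Finset.sum_congr rfl fun i hi => ?_
    have := (hy i (Finset.mem_range.1 hi)).2
    simp only [map_mul, map_sub, map_one, e]
    linear_combination NN C L i 0 * this -
      NN C L i 0 * (L.Θ V.w * δ C L i) * (L.Θ (C.cd i) - 1) * e2
  have q5 := squares hF (fun i hi => tw_N C L hi) hx (fun i hi => pvO C hi) hκ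
    (n := min (min n1 n2) (κ + κ))
    (B.omul (mul_mem (rhoO C h0) (sgO C h0))
      (((hn2.mono (by omega)).sub (B.omul V.w_mem (y1.mono (by omega)))).sub (q3.mono (by omega))))
    (by
      generalize (C.h 0 0 + C.h 0 2) * sg C 0 = r at *
      linear_combination (-L.Θ r) * q4 + L.Θ r * q2 -
        (∑ i ∈ Finset.range m, NN C L i 0 ^ 2) * e1)
  have := hmax (κ + 1) fun i hi l =>
    (tw_N C L hi).bd (pxO C hi) (pvO C hi) (fun l => q5 l i hi) l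
  omega

theorem all_zero (hF : FR V) : ∀ j ≤ m, L.ε (φ C L j) = 0 ∧ D (C.p j) = 0 := by
  intro j
  induction j with
  | zero => intro _; rw [φ_zero L hP, ← L.ε_T, L.T_Θ _ hP.e0.2.2]; simp
  | succ j ih =>
    intro hj
    have hj : j < m := hj
    obtain ⟨h1, h2⟩ := ih hj.le
    have e1 := congrArg L.ε (e_in C L hj)
    have e2 := congrArg L.ε (e_out C L hj)
    simp only [map_sub L.ε, map_add L.ε, map_mul L.ε, L.ε_T, L.ε_Θ, h1, h2,
      eta_zero L hP hF j hj] at e1 e2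
    have h3 : L.ε (δ C L j) = 0 := by
      have : (C.h j 0 + C.h j 2) * sg C j * (V.w * L.ε (δ C L j)) = 0 := by linear_combination e1
      simpa [(rsU C hj).1, V.w_ne] using this
    have h4 : L.ε (φ C L (j + 1)) = 0 := by
      have : φ C L (j + 1) = φ C L j + δ C L j + δ C L j := by
        rw [φ_in C L hj, φ_out C L hj]; ring
      rw [this, map_add, map_add, h1, h3]; simp
    refine ⟨h4, ?_⟩
    rw [h4] at e2
    linear_combination e2

end Vale.Agent.P097T.Fd
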