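import Vale.Agent.P097T.QCore

/-!
# P097T: extension and restriction of chains
-/

set_option linter.all false

noncomputable section

namespace Vale.Agent.P097T.Q

open Polynomial TensorProduct KaehlerDifferential

theorem exists_der_extend {k : Type*} [CommRing k] {P : Type*} [CommRing P] [IsDomain P]
    [CharZero P] [Algebra k P] {K : Type*} [Field K] [Algebra k K] [Algebra P K]
    [IsScalarTower k P K] [FaithfulSMul P K] [Algebra.IsAlgebraic P K] (D₀ : Derivation k P K) :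
    ∃ D : Derivation k K K, ∀ x : P, D (algebraMap P K x) = D₀ x := by
  let F := FractionRing P
  let _ : Algebra F K := FractionRing.liftAlgebra P K
  have : IsScalarTower P F K := FractionRing.isScalarTower_liftAlgebra P K
  have : Algebra.IsAlgebraic F K := ⟨fun x => by
    obtain ⟨p, hp, hx⟩ := Algebra.IsAlgebraic.isAlgebraic (R := P) x
    refine ⟨p.map (algebraMap P F), ?_, by simpa using hx⟩
    exact (Polynomial.map_ne_zero_iff (IsFractionRing.injective P F)).2 hp⟩
  have : Algebra.FormallyEtale F K := Algebra.FormallyEtale.of_isSeparable F K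
  have : Algebra.FormallyEtale P F := Algebra.FormallyEtale.of_isLocalization (nonZeroDivisors P)
  have : Algebra.FormallyEtale P K := Algebra.FormallyEtale.comp P F K
  let L : Ω[P⁄k] →ₗ[P] K := D₀.liftKaehlerDifferential
  let L' : K ⊗[P] Ω[P⁄k] →ₗ[K] K := L.liftBaseChange K
  let L'' : Ω[K⁄k] →ₗ[K] K :=
    L' ∘ₗ (tensorKaehlerEquivOfFormallyEtale k P K).symm.toLinearMap
  refine ⟨L''.compDer (D k K), fun x => ?_⟩
  show L' ((tensorKaehlerEquivOfFormallyEtale k P K).symm (D k K (algebraMap P K x))) = _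
  rw [tensorKaehlerEquivOfFormallyEtale_symm_D_algebraMap]
  simp [L', L]

/-- An additive map with the Leibniz rule along `σ` which vanishes on a subfield vanishes on the
elements which are algebraic over it. -/
theorem leib_zero {K L M : Type*} [Field K] [CharZero K] [Field L] [Field M] [Algebra K L]
    (σ : L →+* M) (D : L →+ M) (hD : ∀ x y, D (x * y) = σ x * D y + σ y * D x)
    (h0 : ∀ c : K, D (algebraMap K L c) = 0) {z : L} (hz : IsAlgebraic K z) : D z = 0 := by
  have hi := hz.isIntegral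
  have hs : (minpoly K z).Separable := (minpoly.irreducible hi).separable
  have h1 : aeval z (derivative (minpoly K z)) ≠ 0 :=
    hs.aeval_derivative_ne_zero (minpoly.aeval K z)
  have hp : ∀ n : ℕ, D (z ^ (n + 1)) = σ ((n + 1 : ℕ) * z ^ n) * D z := by
    intro n
    induction n with
    | zero => simp
    | succ n ih =>
      rw [pow_succ, hD, ih]
      simp only [map_mul, map_pow, map_natCast]
      push_cast
      ring
  have h3 : ∀ q : K[X], D (aeval z q) = σ (aeval z (derivative q)) * D z := by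
    intro q
    induction q using Polynomial.induction_on' with
    | add q r hq hr => simp only [map_add, hq, hr, add_mul]
    | monomial n c =>
      rw [derivative_monomial, aeval_monomial, aeval_monomial, hD, h0, mul_zero, add_zero]
      cases n with
      | zero =>
        have := h0 1
        rw [map_one] at this
        simp [this]
      | succ n =>
        rw [hp]
        simp only [map_mul, map_pow, map_natCast, Nat.add_sub_cancel]
        ring
  have h4 := h3 (minpoly K z)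
  rw [minpoly.aeval, map_zero] at h4
  exact (mul_eq_zero.1 h4.symm).resolve_left ((map_ne_zero σ).2 h1)

/-- Commutation rules pass to algebraic extensions. -/
theorem comm_ext {K L : Type*} [Field K] [CharZero K] [Field L] [Algebra K L]
    [Algebra.IsAlgebraic K L] (σ : L →+* L) (d d₁ d₂ : Derivation ℤ L L) (c₁ c₂ : ℤ)
    (h : ∀ c : K, d (σ (algebraMap K L c)) =
      c₁ * σ (d₁ (algebraMap K L c)) + c₂ * σ (d₂ (algebraMap K L c))) (z : L) :
    d (σ z) = c₁ * σ (d₁ z) + c₂ * σ (d₂ z) := by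
  let D : L →+ L :=
    { toFun := fun z => d (σ z) - (c₁ * σ (d₁ z) + c₂ * σ (d₂ z))
      map_zero' := by simp
      map_add' := fun x y => by
        simp only [map_add]
        ring }
  have := leib_zero (K := K) σ D (fun x y => by
    show d (σ (x * y)) - _ = σ x * (d (σ y) - _) + σ y * (d (σ x) - _)
    simp only [map_mul, Derivation.leibniz, smul_eq_mul, map_add]
    ring) (fun c => sub_eq_zero.2 (h c)) (Algebra.IsAlgebraic.isAlgebraic z)
  exact sub_eq_zero.1 this

namespace QChain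

variable {E A : Type} [Field E] [CharZero E] [Field A] [CharZero A]

/-- `θ` is a morphism of chains. -/
structure Hom (C : QChain E) (C' : QChain A) (θ : E →+* A) : Prop where
  dx : ∀ z, C'.dx (θ z) = θ (C.dx z)
  dw : ∀ z, C'.dw (θ z) = θ (C.dw z)
  a : ∀ j, C'.a j = θ (C.a j)
  b : ∀ j, C'.b j = θ (C.b j)
  S : ∀ z, C'.S (θ z) = θ (C.S z)
  ρ : ∀ z, C'.ρ (θ z) = θ (C.ρ z)

namespace Hom

variable {C : QChain E} {C' : QChain A} {θ : E →+* A} (H : Hom C C' θ)
include H

theorem Xp : C'.Xp = θ C.Xp := by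
  simp only [QChain.Xp, H.a, H.b, map_div₀, map_neg, map_sub]

theorem Xm : C'.Xm = θ C.Xm := by
  simp only [QChain.Xm, H.a, H.b, map_div₀, map_neg, map_sub]

theorem burg (X : E) : C'.Burg (θ X) ↔ C.Burg X := by
  unfold Burg
  rw [H.a, H.b, H.dx, H.dx, H.dx, H.dw, H.dw, H.dw]
  simp only [← map_mul, ← map_add]
  exact θ.injective.eq_iff

theorem dfield (T : Set E) : C'.dfield (θ '' T) = (C.dfield T).map θ := by
  apply le_antisymm
  · refine C'.dfield_le (Set.image_mono (C.sub_dfield T)) ?_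
    rintro _ ⟨z, hz, rfl⟩
    exact ⟨⟨_, (C.dfield_closed T z hz).1, (H.dx z).symm⟩,
      ⟨_, (C.dfield_closed T z hz).2, (H.dw z).symm⟩⟩
  · rw [Subfield.map_le_iff_le_comap]
    refine C.dfield_le (fun t ht => C'.sub_dfield _ ⟨t, ht, rfl⟩) fun z hz => ?_
    have := C'.dfield_closed _ (θ z) hz
    rw [H.dx, H.dw] at this
    exact this

theorem K (J : Set ℤ) : C'.K J = (C.K J).map θ := by
  rw [QChain.K, QChain.K, ← H.dfield, Set.image_union, Set.image_image, Set.image_image]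
  congr 2
  · exact Set.image_congr fun j _ => H.a j
  · exact Set.image_congr fun j _ => H.b j

theorem alg (F : Subfield E) (z : E) : IsAlgebraic (F.map θ) (θ z) ↔ IsAlgebraic F z := by
  rw [alg_iff, alg_iff]
  constructor
  · rintro ⟨p, p0, hc, hz⟩
    have hl : p ∈ Polynomial.lifts θ := by
      rw [lifts_iff_coeff_lifts]
      intro n
      obtain ⟨y, -, hy⟩ := hc n
      exact ⟨y, hy⟩
    obtain ⟨q, rfl⟩ := (mem_lifts p).1 hl
    refine ⟨q, fun h => p0 (by rw [h, Polynomial.map_zero]), fun i => ?_, ?_⟩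
    · obtain ⟨y, hy, e⟩ := hc i
      rw [coeff_map] at e
      rwa [← θ.injective e]
    · rw [IsRoot, eval_map, eval₂_at_apply, map_eq_zero] at hz
      exact hz
  · rintro ⟨p, p0, hc, hz⟩
    exact ⟨p.map θ, Polynomial.map_ne_zero p0, fun i => ⟨_, hc i, (coeff_map _ _).symm⟩, hz.map⟩

theorem ne : C'.Xp ≠ C'.Xm ↔ C.Xp ≠ C.Xm := by
  rw [H.Xp, H.Xm, θ.injective.ne_iff]

theorem burgp : C'.Burg C'.Xp ↔ C.Burg C.Xp := by rw [H.Xp, H.burg]

theorem ref : C'.Ref ↔ C.Ref := by
  have e : ({C'.a 0, C'.b 0, C'.Xp} : Set A) = θ '' {C.a 0, C.b 0, C.Xp} := by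
    rw [Set.image_insert_eq, Set.image_insert_eq, Set.image_singleton, H.a, H.b, H.Xp]
  have k : ∀ (F : Subfield E) (z : E), θ z ∈ F.map θ ↔ z ∈ F := fun F z =>
    ⟨fun ⟨y, hy, e⟩ => θ.injective e ▸ hy, fun h => ⟨z, h, rfl⟩⟩
  unfold Ref
  rw [e, H.dfield, H.a, H.b, k, k]

theorem fd : C'.FD ↔ C.FD := by
  unfold FD
  refine forall₄_congr fun i m _ _ => ?_
  rw [H.K, H.a, H.b, H.alg, H.alg]

end Hom

/-- Extension of a chain to an algebraic closure. -/
theorem exists_ext (C : QChain E) [Algebra E A] [IsAlgClosure E A] :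
    ∃ C' : QChain A, Hom C C' (algebraMap E A) := by
  obtain ⟨dx, hx⟩ := exists_der_extend (k := ℤ) (P := E) (K := A)
    ((Algebra.linearMap E A).compDer C.dx)
  obtain ⟨dw, hw⟩ := exists_der_extend (k := ℤ) (P := E) (K := A)
    ((Algebra.linearMap E A).compDer C.dw)
  have hx' : ∀ z, dx (algebraMap E A z) = algebraMap E A (C.dx z) := hx
  have hw' : ∀ z, dw (algebraMap E A z) = algebraMap E A (C.dw z) := hw
  let S : RingAut A := IsAlgClosure.equivOfEquiv A A C.S
  let ρ : RingAut A := IsAlgClosure.equivOfEquiv A A C.ρ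
  have hS : ∀ z, S (algebraMap E A z) = algebraMap E A (C.S z) :=
    IsAlgClosure.equivOfEquiv_algebraMap A A C.S
  have hρ : ∀ z, ρ (algebraMap E A z) = algebraMap E A (C.ρ z) :=
    IsAlgClosure.equivOfEquiv_algebraMap A A C.ρ
  refine ⟨⟨dx, dw, fun j => algebraMap E A (C.a j), fun j => algebraMap E A (C.b j), S, ρ,
    fun j => by rw [hS, C.S_a], fun j => by rw [hS, C.S_b], fun j => by rw [hρ, C.ρ_a],
    fun j => by rw [hρ, C.ρ_b], fun z => ?_, fun z => ?_, fun z => ?_, fun z => ?_⟩,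
    hx', hw', fun _ => rfl, fun _ => rfl, hS, hρ⟩
  · simpa using comm_ext (K := E) (S : A →+* A) dx dx dx 1 0 (fun c => by
      simp [hS, hx', C.S_dx]) z
  · simpa using comm_ext (K := E) (S : A →+* A) dw dw dx 1 1 (fun c => by
      simp [hS, hx', hw', C.S_dw]) z
  · simpa using comm_ext (K := E) (ρ : A →+* A) dx dx dx 1 0 (fun c => by
      simp [hρ, hx', C.ρ_dx]) z
  · simpa using comm_ext (K := E) (ρ : A →+* A) dw dw dw (-1) 0 (fun c => by
      simp [hρ, hw', C.ρ_dw]) z

/-- Restriction of a derivation to a subfield. -/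
def resD (D : Derivation ℤ A A) (F : Subfield A) (h : ∀ z ∈ F, D z ∈ F) : Derivation ℤ F F :=
  Derivation.mk'
    (AddMonoidHom.toIntLinearMap
      { toFun := fun z => ⟨D z, h z z.2⟩
        map_zero' := Subtype.ext (map_zero D)
        map_add' := fun x y => Subtype.ext (map_add D _ _) })
    fun x y => Subtype.ext (D.leibniz _ _)

/-- Restriction of an automorphism to a subfield. -/
def resA (σ : RingAut A) (F : Subfield A) (h : ∀ z ∈ F, σ z ∈ F) (h' : ∀ z ∈ F, σ⁻¹ z ∈ F) :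
    RingAut F where
  toFun z := ⟨σ z, h z z.2⟩
  invFun z := ⟨σ⁻¹ z, h' z z.2⟩
  left_inv z := Subtype.ext (σ.symm_apply_apply _)
  right_inv z := Subtype.ext (σ.apply_symm_apply _)
  map_mul' x y := Subtype.ext (map_mul σ _ _)
  map_add' x y := Subtype.ext (map_add σ _ _)

theorem Rev.inv {C : QChain A} {r : RingAut A} (h : C.Rev r) : C.Rev r⁻¹ := by
  have e : ∀ y, r⁻¹ (r y) = y := fun y => r.symm_apply_apply y
  refine ⟨fun j => ?_, fun j => ?_, fun z => ?_, fun z => ?_⟩
  · conv_lhs => rw [← neg_neg j, ← h.1, e]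
  · conv_lhs => rw [← neg_neg j, ← h.2.1, e]
  · obtain ⟨y, rfl⟩ := r.surjective z
    rw [h.2.2.1, e, e]
  · obtain ⟨y, rfl⟩ := r.surjective z
    rw [h.2.2.2, e, map_neg, e, neg_neg]

theorem rev_ρ (C : QChain A) : C.Rev C.ρ := ⟨C.ρ_a, C.ρ_b, C.ρ_dx, C.ρ_dw⟩

theorem Rev.mem {C : QChain A} {r : RingAut A} (h : C.Rev r) :
    ∀ z ∈ acl (C.K Set.univ), r z ∈ acl (C.K Set.univ) := fun z hz =>
  acl_map r ((C.withRev r h).ρ_K (J := Set.univ) (J' := Set.univ) fun _ _ => trivial) hz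

theorem zpow_mem (C : QChain A) (s : ℤ) :
    ∀ z ∈ acl (C.K Set.univ), (C.S ^ s) z ∈ acl (C.K Set.univ) := fun z hz =>
  acl_map _ (C.zpow_K s (J := Set.univ) (J' := Set.univ) fun _ _ => trivial) hz

/-- Restriction of a chain to the algebraic closure of the field of all lines. -/
def res (C : QChain A) : QChain (acl (C.K Set.univ)) where
  dx := resD C.dx _ fun z hz => (C.acl_closed (C.K_closed _) z hz).1
  dw := resD C.dw _ fun z hz => (C.acl_closed (C.K_closed _) z hz).2
  a j := ⟨C.a j, le_acl _ (C.a_mem trivial)⟩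
  b j := ⟨C.b j, le_acl _ (C.b_mem trivial)⟩
  S := resA C.S _ (by simpa using C.zpow_mem 1) (by simpa using C.zpow_mem (-1))
  ρ := resA C.ρ _ C.rev_ρ.mem C.rev_ρ.inv.mem
  S_a j := Subtype.ext (C.S_a j)
  S_b j := Subtype.ext (C.S_b j)
  ρ_a j := Subtype.ext (C.ρ_a j)
  ρ_b j := Subtype.ext (C.ρ_b j)
  S_dx z := Subtype.ext (C.S_dx z)
  S_dw z := Subtype.ext (C.S_dw z)
  ρ_dx z := Subtype.ext (C.ρ_dx z)
  ρ_dw z := Subtype.ext (C.ρ_dw z)

theorem res_hom (C : QChain A) : Hom C.res C (acl (C.K Set.univ)).subtype :=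
  ⟨fun _ => rfl, fun _ => rfl, fun _ => rfl, fun _ => rfl, fun _ => rfl, fun _ => rfl⟩

theorem res_ev (C : QChain A) (h : C.Ev') : C.res.Ev' := by
  intro X hX
  rcases h X ((C.res_hom.burg X).2 hX) with k | k | ⟨r, hr, k⟩
  · exact Or.inl (Subtype.ext (k.trans C.res_hom.Xp))
  · exact Or.inr (Or.inl (Subtype.ext (k.trans C.res_hom.Xm)))
  · exact Or.inr (Or.inr ⟨resA r _ hr.mem hr.inv.mem, ⟨fun j => Subtype.ext (hr.1 j),
      fun j => Subtype.ext (hr.2.1 j), fun z => Subtype.ext (hr.2.2.1 z),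
      fun z => Subtype.ext (hr.2.2.2 z)⟩, Subtype.ext k⟩)

theorem res_alg (C : QChain A) (z : acl (C.K Set.univ)) : z ∈ acl (C.res.K Set.univ) := by
  rw [mem_acl, ← C.res_hom.alg, ← C.res_hom.K]
  exact mem_acl.1 z.2

theorem res_closed [IsAlgClosed A] (F : Subfield A) : IsAlgClosed (acl F) := by
  refine IsAlgClosed.of_exists_root _ fun p _ hp => ?_
  obtain ⟨z, hz⟩ := IsAlgClosed.exists_root (p.map (acl F).subtype) (by
    rw [degree_map]
    exact (degree_pos_of_irreducible hp).ne')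
  have h1 : z ∈ acl (acl F) := by
    rw [mem_acl, alg_iff]
    exact ⟨_, Polynomial.map_ne_zero hp.ne_zero, fun i => by
      rw [coeff_map]
      exact (p.coeff i).2, hz⟩
  refine ⟨⟨z, acl_le le_rfl h1⟩, ?_⟩
  apply (acl F).subtype.injective
  rw [map_zero, ← eval₂_at_apply, ← eval_map]
  exact hz

/-- A chain on a field gives a chain on an algebraic closure of the field of its lines. -/
theorem exists_model (C : QChain E)
    (hE : ∀ C' : QChain (AlgebraicClosure E), Hom C C' (algebraMap _ _) → C'.Ev') :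
    ∃ (A : Type) (_ : Field A) (_ : CharZero A) (C' : QChain A) (θ : C.K Set.univ →+* A),
      IsAlgClosed A ∧ (∀ z, z ∈ acl (C'.K Set.univ)) ∧ C'.Ev' ∧
      (C.Xp ≠ C.Xm → C'.Xp ≠ C'.Xm) ∧ (C.Burg C.Xp → C'.Burg C'.Xp) ∧ (C.Ref → C'.Ref) ∧
      (C.FD → C'.FD) ∧ (∀ J z, z ∈ C'.K J ↔ ∃ y : C.K Set.univ, (y : E) ∈ C.K J ∧ θ y = z) ∧
      (∀ j, C'.a j = θ ⟨C.a j, C.a_mem trivial⟩) ∧ (∀ j, C'.b j = θ ⟨C.b j, C.b_mem trivial⟩) ∧
      (∀ z, C'.dx (θ z) = θ ⟨C.dx z, (C.K_closed _ z z.2).1⟩) ∧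
      (∀ z, C'.dw (θ z) = θ ⟨C.dw z, (C.K_closed _ z z.2).2⟩) ∧
      ∀ (s : ℤ) z, (C'.S ^ s) (θ z) =
        θ ⟨(C.S ^ s) z, C.zpow_K s (J := Set.univ) (fun _ _ => Set.mem_univ _) z z.2⟩ := by
  obtain ⟨C1, H⟩ := C.exists_ext (A := AlgebraicClosure E)
  have R := C1.res_hom
  let θ : C.K Set.univ →+* acl (C1.K Set.univ) :=
    ((algebraMap E (AlgebraicClosure E)).comp (C.K Set.univ).subtype).codRestrict _ fun z =>
      le_acl _ (by
        rw [H.K]
        exact ⟨z, z.2, rfl⟩)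
  have zp : ∀ {E A : Type} [Field E] [CharZero E] [Field A] [CharZero A] {C : QChain E}
      {C' : QChain A} {θ : E →+* A} (H : Hom C C' θ) (s : ℤ) (z : E),
      (C'.S ^ s) (θ z) = θ ((C.S ^ s) z) := by
    intro E A _ _ _ _ C C' θ H s
    induction s using Int.induction_on with
    | zero => intro z; rfl
    | succ n ih => intro z; rw [zpow_add_one, zpow_add_one, RingAut.mul_apply, RingAut.mul_apply, H.S, ih]
    | pred n ih =>
      intro z
      obtain ⟨y, rfl⟩ := C.S.surjective z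
      rw [zpow_sub_one, zpow_sub_one, RingAut.mul_apply, RingAut.mul_apply, ← H.S]
      show (C'.S ^ (-(n : ℤ))) (C'.S.symm _) = θ ((C.S ^ (-(n : ℤ))) (C.S.symm _))
      rw [RingEquiv.symm_apply_apply, RingEquiv.symm_apply_apply, ih]
  refine ⟨acl (C1.K Set.univ), inferInstance, inferInstance, C1.res, θ, res_closed _, C1.res_alg,
    C1.res_ev (hE C1 H), fun k => R.ne.1 (H.ne.2 k), fun k => R.burgp.1 (H.burgp.2 k),
    fun k => R.ref.1 (H.ref.2 k), fun k => R.fd.1 (H.fd.2 k), fun J z => ?_,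
    fun j => Subtype.ext (H.a j), fun j => Subtype.ext (H.b j), fun z => Subtype.ext (H.dx z),
    fun z => Subtype.ext (H.dw z), fun s z => Subtype.ext ?_⟩
  · have k : z ∈ C1.res.K J ↔ (z : AlgebraicClosure E) ∈ C1.K J := by
      rw [R.K J]
      exact ⟨fun h => ⟨z, h, rfl⟩, fun ⟨y, hy, e⟩ => Subtype.ext e ▸ hy⟩
    rw [k, H.K J]
    exact ⟨fun ⟨y, hy, e⟩ => ⟨⟨y, C.K_mono (Set.subset_univ J) hy⟩, hy, Subtype.ext e⟩,
      fun ⟨y, hy, e⟩ => ⟨y, hy, congrArg Subtype.val e⟩⟩
  · exact (zp R s (θ z)).symm.trans (zp H s z)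

end QChain

end Vale.Agent.P097T.Q
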