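import Vale.Agent.P097T.MXp
import Vale.Agent.P097T.Even

/-!
# P097T: evenness of third points for the chain of a billiard
-/

set_option linter.all false

noncomputable section

namespace Vale.Agent.P097T.Gm

open Filter Topology Set Complex
open Vale.Agent.P097T.Q Vale.Agent.P097T.Out

theorem fd_line {G : Type} [NormedAddCommGroup G] [NormedSpace ℝ G] {f : ℝ × ℝ → G}
    (hf : DifferentiableAt ℝ f (0, 0)) (v : ℝ × ℝ) :
    HasDerivAt (fun t : ℝ => f (t * v.1, t * v.2)) (fderiv ℝ f (0, 0) v) 0 := by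
  have a : HasDerivAt (fun t : ℝ => (t * v.1, t * v.2)) v 0 := by
    simpa using ((hasDerivAt_id (0 : ℝ)).mul_const v.1).prodMk ((hasDerivAt_id (0 : ℝ)).mul_const v.2)
  exact HasFDerivAt.comp_hasDerivAt_of_eq 0 hf.hasFDerivAt a (by simp)

/-- A derivation which kills the constants. -/
def toC {A : Type} [Field A] [Algebra ℂ A] (D : Derivation ℤ A A)
    (h : ∀ c, D (algebraMap ℂ A c) = 0) : Derivation ℂ A A :=
  Derivation.mk'
    { toFun := D
      map_add' := D.map_add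
      map_smul' := fun c z => by
        rw [RingHom.id_apply, Algebra.smul_def, Algebra.smul_def, D.leibniz, h]
        simp }
    D.leibniz

section

variable {h : ℝ → ℝ} {ε : ℝ} {ψ δ : ℝ × ℝ → ℝ} (N : NF h ε ψ δ)
include N

theorem ev_ax (L : Line h ε ψ δ) :
    fderiv ℝ (fun q => la ψ δ (lin ((0 : ℤ) : ℝ) 1 q)) (0, 0) (1, 0) ≠ 0 := by
  have z : ((0 : ℝ), (0 : ℝ)) ∈ Lam ε := by simpa [Lam] using N.pos
  have a := fd_line (an_lin N.an_la ((0 : ℤ) : ℝ) abs_one _ z).differentiableAt (1, 0)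
  have b := (((fd_line (N.aψ _ z).differentiableAt (1, 0)).ofReal_comp.mul_const I).cexp.fun_pow
    2).fun_neg
  have e : (fun t : ℝ => la ψ δ (lin ((0 : ℤ) : ℝ) 1 (t * 1, t * 0))) =
      fun t : ℝ => -cexp (ψ (t * 1, t * 0) * I) ^ 2 := by
    funext t
    simp [la, lφ, lin_apply, L.zero]
  simp only at a b
  rw [e] at a
  rw [a.unique b]
  simp [N.dψ 0]

theorem ev_gap (hW : An ε fun q => vW h ψ (lin (1 / 2) 1 q)) :
    fderiv ℝ (fun q => vW h ψ (lin (1 / 2) 1 q) - vW h ψ (lin (1 / 2) 1 (lin 0 (-1) q)))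
      (0, 0) (0, 1) ≠ 0 := by
  have z : ((0 : ℝ), (0 : ℝ)) ∈ Lam ε := by simpa [Lam] using N.pos
  have dψ := (N.aψ _ z).differentiableAt
  have w0 : fderiv ℝ ψ (0, 0) (0, 1) = 0 := by
    have a := fd_line dψ (0, 1)
    have b := fd_line dψ (0, -1)
    have e : (fun t : ℝ => ψ (t * 0, t * 1)) =ᶠ[𝓝 0] fun t : ℝ => ψ (t * 0, t * -1) := by
      filter_upwards [Ioo_mem_nhds (neg_lt_zero.2 N.pos) N.pos] with t ht
      have := (N.sym (0, t) (abs_lt.2 ht)).1
      simpa using this.symm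
    have k := a.unique (b.congr_of_eventuallyEq e)
    have m : ((0 : ℝ), (-1 : ℝ)) = -((0 : ℝ), (1 : ℝ)) := by simp
    rw [m, map_neg] at k
    linarith
  have s : ∀ c : ℝ, fderiv ℝ ψ (0, 0) (c / 2, c) = c / 2 * fderiv ℝ ψ (0, 0) (1, 0) := fun c => by
    have m : (c / 2, c) = (c / 2) • ((1 : ℝ), (0 : ℝ)) + c • ((0 : ℝ), (1 : ℝ)) := by simp
    rw [m, map_add, map_smul, map_smul, w0]
    simp
  have g : ∀ c : ℝ, HasDerivAt (fun t : ℝ => vW h ψ (t * (c / 2), t * c))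
      ((c / 2 * fderiv ℝ ψ (0, 0) (1, 0)) • star (((h (ψ (0, 0)) + deriv (deriv h) (ψ (0, 0)) : ℝ) :
        ℂ) * I * cexp (ψ (0, 0) * I))) 0 := fun c => by
    have a := fd_line dψ (c / 2, c)
    rw [s] at a
    exact HasDerivAt.scomp_of_eq 0 (Sel.der_bdry N.tab.1 (ψ (0, 0))).star a (by simp)
  have a := fd_line ((hW.sub (an_lin hW 0 abs_m1)) _ z).differentiableAt (0, 1)
  have e : (fun t : ℝ => ((fun q => vW h ψ (lin (1 / 2) 1 q)) -
      fun q => vW h ψ (lin (1 / 2) 1 (lin 0 (-1) q))) (t * 0, t * 1)) =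
      fun t : ℝ => vW h ψ (t * (1 / 2), t * 1) - vW h ψ (t * (-1 / 2), t * -1) := by
    funext t
    simp only [Pi.sub_apply, lin_apply]
    congr 3 <;> ring
  simp only at a
  rw [e] at a
  have k := a.unique ((g 1).fun_sub (g (-1)))
  intro k0
  rw [show ((fun q => vW h ψ (lin (1 / 2) 1 q)) -
      fun q => vW h ψ (lin (1 / 2) 1 (lin 0 (-1) q))) = fun q => vW h ψ (lin (1 / 2) 1 q) -
      vW h ψ (lin (1 / 2) 1 (lin 0 (-1) q)) from rfl, k0, ← sub_smul] at k
  refine smul_ne_zero ?_ (star_ne_zero.2 (mul_ne_zero (mul_ne_zero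
      (ofReal_ne_zero.2 (N.tab.2.2 _).ne') I_ne_zero) (exp_ne_zero _))) k.symm
  intro k1
  exact N.dψ 0 (by linarith)

end

theorem ev (hL : Spec_LINE) (hX : Spec_XP) (hB : Spec_BR) : Spec_EV :=
    fun h ε ψ δ N E _ _ _ F C H A _ _ _ _ C' K X hb => by
  have hW := an_lin (vert h ε ψ δ N).2.1 (1 / 2) abs_one
  obtain ⟨p, -, m, -⟩ := hX h ε ψ δ N E F C H
  have p := p hW
  let D : EvData F.V :=
    { io := F.io
      a := C.a 0
      b := C.b 0
      P := C.Xp
      const_mem := fun c => F.const c ▸ F.ι_mem _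
      io_io := F.io_io
      io_w := F.io_w
      io_mem := F.io_mem
      io_res := F.io_res
      io_dx := F.io_dx
      io_dw := F.io_dw
      a_mem := H.a 0 ▸ F.ι_mem _
      b_mem := H.b 0 ▸ F.ι_mem _
      P_mem := p ▸ F.ι_mem _
      io_a := by rw [← H.ρ, C.ρ_a, neg_zero]
      io_b := by rw [← H.ρ, C.ρ_b, neg_zero]
      ax_unit := by
        rw [H.a, F.dx_ι, NF.aR, der_mk, F.sm_mk]
        exact fun k => ev_ax N (hL h ε ψ δ N) (k 0)
      gap_unit := by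
        rw [p, F.io_ι, ioR_mk, ← map_sub, mk_sub, F.sm_div _ _ fun x => by simp [lin_apply]]
        exact fun k => ev_gap N hW (k 0)
      burg := by
        have := (hB h ε ψ δ N E F C H).1
        rwa [QChain.Burg, H.dx, H.dw] at this }
  letI : Algebra ℂ A := ((algebraMap E A).comp (algebraMap ℂ E)).toAlgebra
  haveI : IsScalarTower ℂ E A := IsScalarTower.of_algebraMap_eq fun _ => rfl
  have hx : ∀ e, C'.dx (algebraMap E A e) = algebraMap E A (F.V.dx e) := fun e => by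
    rw [K.dx, H.dx]
  have hw : ∀ e, C'.dw (algebraMap E A e) = algebraMap E A (F.V.dw e) := fun e => by
    rw [K.dw, H.dw]
  have cx : ∀ c, C'.dx (algebraMap ℂ A c) = 0 := fun c =>
    (hx _).trans (by rw [F.dx_c, map_zero])
  have cw : ∀ c, C'.dw (algebraMap ℂ A c) = 0 := fun c =>
    (hw _).trans (by rw [F.dw_c, map_zero])
  rw [QChain.Burg, K.a, K.b] at hb
  rcases D.even (toC C'.dx cx) (toC C'.dw cw) hx hw X hb with k | k | ⟨r, r1, r2, r3, r4⟩
  · exact Or.inl (k.trans K.Xp.symm)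
  · exact Or.inr (Or.inl (k.trans (by rw [K.Xm, m])))
  · refine Or.inr (Or.inr ⟨r.toRingEquiv, ⟨fun j => ?_, fun j => ?_, r2, r3⟩, r4⟩)
    · rw [K.a, K.a, ← C.ρ_a, H.ρ]
      exact r1 _
    · rw [K.b, K.b, ← C.ρ_b, H.ρ]
      exact r1 _

end Vale.Agent.P097T.Gm
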