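import Vale.Agent.P097T.MLine
import Vale.Agent.P097T.Fd

/-!
# P097T: finite determinacy for the chain of the billiard
-/

set_option linter.all false

noncomputable section

namespace Vale.Agent.P097T.Gm

open Filter Topology Set
open Vale.Agent.P097T.Q

theorem alg_sq {E : Type} [Field E] [CharZero E] {F : Subfield E} {u : E} (h : u ^ 2 ∈ acl F) :
    u ∈ acl F :=
  acl_le le_rfl (mem_acl.2 (IsAlgebraic.of_pow two_pos
    (isAlgebraic_algebraMap (⟨_, h⟩ : acl F))))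

theorem alg_line {E : Type} [Field E] [CharZero E] (F : Subfield E) {i c s p a b : E}
    (hi : i ^ 2 = -1) (h1 : c ^ 2 + s ^ 2 = 1) (ha : a = -(c + s * i) ^ 2)
    (hb : b = 2 * p * (c + s * i)) :
    (a ∈ acl F ∧ b ∈ acl F) ↔ (c ∈ acl F ∧ s ∈ acl F ∧ p ∈ acl F) := by
  have mi : i ∈ acl F := alg_sq (by rw [hi]; exact neg_mem (one_mem _))
  have m2 : (2 : E) ∈ acl F := ofNat_mem _ 2
  constructor
  · rintro ⟨k1, k2⟩
    have mu : c + s * i ∈ acl F := alg_sq (by rw [← neg_mem_iff, ← ha]; exact k1)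
    have e : (c + s * i) * (c - s * i) = 1 := by linear_combination h1 - s ^ 2 * hi
    have mv : c - s * i ∈ acl F := by
      rw [eq_inv_of_mul_eq_one_right e]
      exact inv_mem mu
    refine ⟨?_, ?_, ?_⟩
    · rw [show c = ((c + s * i) + (c - s * i)) / 2 by ring]
      exact div_mem (add_mem mu mv) m2
    · rw [show s = ((c - s * i) - (c + s * i)) * i / 2 by linear_combination s * hi]
      exact div_mem (mul_mem (sub_mem mv mu) mi) m2
    · rw [show p = b * (c - s * i) / 2 by rw [hb]; linear_combination -p * e]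
      exact div_mem (mul_mem k2 mv) m2
  · rintro ⟨k1, k2, k3⟩
    have mu : c + s * i ∈ acl F := add_mem k1 (mul_mem k2 mi)
    exact ⟨ha ▸ neg_mem (pow_mem mu 2), hb ▸ mul_mem (mul_mem m2 k3) mu⟩

/-- Real analytic real functions on the strip. -/
abbrev Ar (ε : ℝ) (f : ℝ × ℝ → ℝ) : Prop := AnalyticOnNhd ℝ f (Lam ε)

variable {ε : ℝ}

theorem Ar.cp {g : ℝ → ℝ} (hg : ∀ x, AnalyticAt ℝ g x) {f : ℝ × ℝ → ℝ} (hf : Ar ε f) :
    Ar ε fun q => g (f q) := fun q hq => (hg _).comp (hf q hq)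

theorem Ar.dr {f : ℝ × ℝ → ℝ} (hf : Ar ε f) (v : ℝ × ℝ) : Ar ε fun q => fderiv ℝ f q v :=
  fun q hq => ((ContinuousLinearMap.apply ℝ ℝ v).analyticAt _).comp (hf q hq).fderiv

theorem fd_re {f : ℝ × ℝ → ℝ} {q : ℝ × ℝ} (hf : DifferentiableAt ℝ f q) (v : ℝ × ℝ) :
    fderiv ℝ (fun q => (f q : ℂ)) q v = (fderiv ℝ f q v : ℝ) :=
  congrArg (fun L => L v) (Complex.ofRealCLM.hasFDerivAt.comp q hf.hasFDerivAt).fderiv

theorem fd_cp {g : ℝ → ℝ} {g' : ℝ} {θ : ℝ × ℝ → ℝ} {q : ℝ × ℝ} (hg : HasDerivAt g g' (θ q))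
    (hθ : DifferentiableAt ℝ θ q) (v : ℝ × ℝ) :
    fderiv ℝ (fun q => g (θ q)) q v = fderiv ℝ θ q v * g' := by
  have := (hg.hasFDerivAt.comp q hθ.hasFDerivAt).fderiv
  rw [show (fun q => g (θ q)) = g ∘ θ from rfl, this]
  simp

theorem fd_lin {f : ℝ × ℝ → ℝ} (hf : Ar ε f) (c : ℝ) {x : ℝ} (hx : (x, (0 : ℝ)) ∈ Lam ε)
    (v : ℝ × ℝ) : fderiv ℝ (fun q => f (lin c 1 q)) (x, 0) v = fderiv ℝ f (x, 0) (lin c 1 v) := by
  have u : lin c 1 (x, 0) = (x, 0) := by simp [lin_apply]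
  have u' : HasFDerivAt f (fderiv ℝ f (x, 0)) (lin c 1 (x, 0)) := by
    rw [u]
    exact (hf _ hx).differentiableAt.hasFDerivAt
  exact congrArg (fun L => L v) (u'.comp (x, 0) (lin c 1).hasFDerivAt).fderiv

namespace Frame

variable {E : Type} [Field E] [Algebra ℂ E] (F : Frame ε E)

/-- The class of a real function. -/
def r (f : ℝ × ℝ → ℝ) (hf : Ar ε f) : E := F.ι (Gm.mk (fun q => (f q : ℂ)) (an_real hf))

variable {f g : ℝ × ℝ → ℝ} (hf : Ar ε f) (hg : Ar ε g)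

theorem r_congr (h : ∀ q ∈ Lam ε, f q = g q) : F.r f hf = F.r g hg :=
  congrArg F.ι (mk_eq.2 fun q hq => by rw [h q hq])

theorem r_add : F.r f hf + F.r g hg = F.r (fun q => f q + g q) (hf.add hg) := by
  rw [r, r, ← map_add, mk_add]
  exact congrArg F.ι (mk_eq.2 fun q _ => by push_cast; rfl)

theorem r_sub : F.r f hf - F.r g hg = F.r (fun q => f q - g q) (hf.sub hg) := by
  rw [r, r, ← map_sub, mk_sub]
  exact congrArg F.ι (mk_eq.2 fun q _ => by push_cast; rfl)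

theorem r_mul : F.r f hf * F.r g hg = F.r (fun q => f q * g q) (hf.mul hg) := by
  rw [r, r, ← map_mul, mk_mul]
  exact congrArg F.ι (mk_eq.2 fun q _ => by push_cast; rfl)

theorem r_one : (1 : E) = F.r (fun _ => 1) analyticOnNhd_const := by
  rw [← map_one F.ι, mk_one]
  exact congrArg F.ι (mk_eq.2 fun q _ => by simp)

theorem r_der (D : Derivation ℤ E E) (v : ℝ × ℝ) (hD : ∀ f, D (F.ι f) = F.ι (der v f)) :
    D (F.r f hf) = F.r _ (hf.dr v) := by
  rw [r, hD, der_mk]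
  exact congrArg F.ι (mk_eq.2 fun q hq => fd_re (hf q hq).differentiableAt v)

theorem r_cj : F.cj (F.r f hf) = F.r f hf := by
  rw [r, F.cj_ι, cjR_mk]
  exact congrArg F.ι (mk_eq.2 fun q _ => Complex.conj_ofReal _)

theorem r_sm : F.V.Sm (F.r f hf) ↔ ∀ x, f (x, 0) = 0 := by
  rw [r, F.sm_mk]
  simp only [Complex.ofReal_eq_zero]

theorem r_div (hε : 0 < ε) (h0 : ∀ x, f (x, 0) = 0) :
    F.V.Sm (F.V.w⁻¹ * F.r f hf) ↔ ∀ x, fderiv ℝ f (x, 0) (0, 1) = 0 := by
  rw [r, F.sm_div _ _ fun x => by rw [h0, Complex.ofReal_zero]]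
  refine forall_congr' fun x => ?_
  rw [fd_re (hf (x, 0) (by simpa [Lam] using hε)).differentiableAt, Complex.ofReal_eq_zero]

theorem r_dang (D : Derivation ℤ E E) (v : ℝ × ℝ) (hD : ∀ f, D (F.ι f) = F.ι (der v f)) :
    dang D (F.r _ (hf.cp fun _ => Real.analyticAt_cos)) (F.r _ (hf.cp fun _ => Real.analyticAt_sin))
      = F.r _ (hf.dr v) := by
  rw [dang, F.r_der _ D v hD, F.r_der _ D v hD, r_mul, r_mul, r_sub]
  refine F.r_congr _ _ fun q hq => ?_
  rw [fd_cp (Real.hasDerivAt_sin _) (hf q hq).differentiableAt,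
    fd_cp (Real.hasDerivAt_cos _) (hf q hq).differentiableAt]
  linear_combination fderiv ℝ f q v * Real.cos_sq_add_sin_sq (f q)

theorem r_sq : F.r _ (hf.cp fun _ => Real.analyticAt_cos) ^ 2 +
    F.r _ (hf.cp fun _ => Real.analyticAt_sin) ^ 2 = 1 := by
  rw [sq, sq, r_mul, r_mul, r_add, F.r_one]
  exact F.r_congr _ _ fun q _ => by linear_combination Real.cos_sq_add_sin_sq (f q)

end Frame

theorem an_it {h : ℝ → ℝ} (hh : ∀ x, AnalyticAt ℝ h x) (k : ℕ) (x : ℝ) :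
    AnalyticAt ℝ (iteratedDeriv k h) x := by
  rw [iteratedDeriv_eq_iterate]
  exact (hh x).iterated_deriv k

theorem fd (hL : Spec_LINE) : Spec_FD := fun h ε ψ δ N E _ _ _ F C H => by
  have L := hL h ε ψ δ N
  have z0 : ∀ x : ℝ, (x, (0 : ℝ)) ∈ Lam ε := fun x => by simpa [Lam] using N.pos
  have aφ : ∀ j : ℝ, Ar ε fun q => lφ ψ δ (lin j 1 q) := fun j => anr_lin N.an_lφ _ abs_one
  have ap : ∀ j : ℝ, Ar ε fun q => lp h ψ δ (lin j 1 q) := fun j => anr_lin N.an_lp _ abs_one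
  have aψ : ∀ i : ℕ, Ar ε fun q => ψ (lin (i + 1 / 2) 1 q) := fun i => anr_lin N.aψ _ abs_one
  have aδ : ∀ i : ℕ, Ar ε fun q => δ (lin (i + 1 / 2) 1 q) := fun i => anr_lin N.aδ _ abs_one
  have co : ∀ x, AnalyticAt ℝ Real.cos x := fun _ => Real.analyticAt_cos
  have si : ∀ x, AnalyticAt ℝ Real.sin x := fun _ => Real.analyticAt_sin
  have l0 : ∀ c x : ℝ, lin c 1 (x, 0) = (x, 0) := fun c x => by simp [lin_apply]
  have lo : ∀ (i : ℕ) (q : ℝ × ℝ), lin (-1 / 2) 1 (lin ((i + 1 : ℕ) : ℝ) 1 q) =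
      lin (i + 1 / 2) 1 q := fun i q => by
    simp only [lin_apply]; congr 1 <;> push_cast <;> ring
  have li : ∀ (i : ℕ) (q : ℝ × ℝ), lin (-1 / 2) 1 (lin (i : ℝ) 1 q) =
      (q.1 + (i - 1 / 2) * q.2, q.2) := fun i q => by
    simp only [lin_apply]; congr 1 <;> ring
  have lv : ∀ (i : ℕ) (q : ℝ × ℝ), lin (i + 1 / 2) 1 q =
      (q.1 + (i - 1 / 2) * q.2 + q.2, q.2) := fun i q => by
    simp only [lin_apply]; congr 1 <;> ring
  have φi : ∀ (i : ℕ), ∀ q ∈ Lam ε, lφ ψ δ (lin i 1 q) =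
      ψ (lin (i + 1 / 2) 1 q) - δ (lin (i + 1 / 2) 1 q) := fun i q hq => by
    rw [lφ, li, lv, L.ang _ _ hq]
  have φo : ∀ (i : ℕ) (q : ℝ × ℝ), lφ ψ δ (lin ((i + 1 : ℕ) : ℝ) 1 q) =
      ψ (lin (i + 1 / 2) 1 q) + δ (lin (i + 1 / 2) 1 q) := fun i q => by rw [lφ, lo]
  have δx : ∀ x : ℝ, fderiv ℝ δ (x, 0) (1, 0) = 0 := fun x => by
    have a : HasDerivAt (fun t : ℝ => (t, (0 : ℝ))) ((1, 0) : ℝ × ℝ) x :=
      (hasDerivAt_id x).prodMk (hasDerivAt_const x 0)
    have b := (N.aδ _ (z0 x)).differentiableAt.hasFDerivAt.comp_hasDerivAt x a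
    rw [show (δ ∘ fun t : ℝ => (t, (0 : ℝ))) = fun _ => 0 from funext L.zero] at b
    exact b.unique (hasDerivAt_const x 0)
  have sw : ∀ (i : ℕ) (x : ℝ), fderiv ℝ (fun q => Real.sin (δ (lin (i + 1 / 2) 1 q))) (x, 0) (0, 1)
      = fderiv ℝ δ (x, 0) (0, 1) := fun i x => by
    rw [fd_cp (Real.hasDerivAt_sin _) (aδ i _ (z0 x)).differentiableAt, fd_lin N.aδ _ (z0 x), l0,
      L.zero, Real.cos_zero, mul_one,
      show lin (i + 1 / 2) 1 (0, 1) = ((i : ℝ) + 1 / 2) • (1, 0) + (0, 1) by simp [lin_apply],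
      map_add, map_smul, δx, smul_zero, zero_add]
  have dh : ∀ (D : Derivation ℤ E E) (v : ℝ × ℝ), (∀ f, D (F.ι f) = F.ι (der v f)) →
      ∀ i k : ℕ, D (F.r _ ((aψ i).cp (an_it N.tab.1 k))) =
        dang D (F.r _ ((aψ i).cp co)) (F.r _ ((aψ i).cp si)) *
          F.r _ ((aψ i).cp (an_it N.tab.1 (k + 1))) := fun D v hD i k => by
    rw [F.r_dang (aψ i) D v hD, F.r_der _ D v hD, F.r_mul]
    refine F.r_congr _ _ fun q hq => ?_
    rw [fd_cp (an_it N.tab.1 k _).differentiableAt.hasDerivAt (aψ i q hq).differentiableAt,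
      iteratedDeriv_succ]
  have key : ∀ j : ℕ, ∀ K : Subfield E, (C.a j ∈ acl K ∧ C.b j ∈ acl K) ↔
      (F.r _ ((aφ j).cp co) ∈ acl K ∧ F.r _ ((aφ j).cp si) ∈ acl K ∧ F.r _ (ap j) ∈ acl K) := by
    intro j K
    have u : F.r _ ((aφ j).cp co) + F.r _ ((aφ j).cp si) * algebraMap ℂ E Complex.I =
        F.ι (mk _ (an_lin N.an_u j abs_one)) := by
      rw [← F.const, mk_const, Frame.r, Frame.r, ← map_mul, ← map_add, mk_mul, mk_add]
      exact congrArg F.ι (mk_eq.2 fun q _ => by rw [Complex.exp_mul_I]; push_cast; rfl)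
    refine alg_line K (i := algebraMap ℂ E Complex.I) (by rw [← map_pow, Complex.I_sq]; simp)
      (F.r_sq (aφ j)) ?_ ?_
    · rw [u, H.a, sq, ← map_mul, ← map_neg, mk_mul, mk_neg, NF.aR]
      exact congrArg F.ι (mk_eq.2 fun q _ => by rw [la, sq, Int.cast_natCast])
    · rw [u, H.b, two_mul, F.r_add, Frame.r, ← map_mul, mk_mul, NF.bR]
      exact congrArg F.ι (mk_eq.2 fun q _ => by rw [lb, Int.cast_natCast]; push_cast; ring)
  intro i m hi him
  lift i to ℕ using hi.le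
  lift m to ℕ using (hi.trans him).le
  let M : Mirrors F.V m :=
    { cp := fun j => F.r _ ((aφ j).cp co)
      sp := fun j => F.r _ ((aφ j).cp si)
      p := fun j => F.r _ (ap j)
      cs := fun i => F.r _ ((aψ i).cp co)
      ss := fun i => F.r _ ((aψ i).cp si)
      cd := fun i => F.r _ ((aδ i).cp co)
      sd := fun i => F.r _ ((aδ i).cp si)
      h := fun i k => F.r _ ((aψ i).cp (an_it N.tab.1 k))
      cs_mem := fun _ _ => F.ι_mem _
      ss_mem := fun _ _ => F.ι_mem _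
      h_mem := fun _ _ _ => F.ι_mem _
      one_s := fun i _ => F.r_sq (aψ i)
      one_d := fun i _ => F.r_sq (aδ i)
      cp_in := fun i _ => by
        rw [F.r_mul, F.r_mul, F.r_add]
        exact F.r_congr _ _ fun q hq => by rw [φi i q hq, Real.cos_sub]
      sp_in := fun i _ => by
        rw [F.r_mul, F.r_mul, F.r_sub]
        exact F.r_congr _ _ fun q hq => by rw [φi i q hq, Real.sin_sub]
      cp_out := fun i _ => by
        rw [F.r_mul, F.r_mul, F.r_sub]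
        exact F.r_congr _ _ fun q hq => by rw [φo i q, Real.cos_add]
      sp_out := fun i _ => by
        rw [F.r_mul, F.r_mul, F.r_add]
        exact F.r_congr _ _ fun q hq => by rw [φo i q, Real.sin_add]
      p_in := fun i _ => by
        rw [F.r_mul, F.r_mul, F.r_sub]
        exact F.r_congr _ _ fun q hq => by
          rw [lp, li, lv, ← L.off _ _ hq, iteratedDeriv_zero, iteratedDeriv_one]
      p_out := fun i _ => by
        rw [F.r_mul, F.r_mul, F.r_add]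
        exact F.r_congr _ _ fun q hq => by rw [lp, lo, iteratedDeriv_zero, iteratedDeriv_one]
      dx_h := fun i _ k => dh _ _ F.dx_ι i k
      dw_h := fun i _ k => dh _ _ F.dw_ι i k
      cd_one := fun i _ => by
        rw [F.r_one, F.r_sub, F.r_sm]
        intro x
        rw [l0, L.zero, Real.cos_zero, sub_self]
      sd_sm := fun i _ => by
        rw [F.r_sm]
        intro x
        rw [l0, L.zero, Real.sin_zero]
      kap := fun i _ => by
        rw [← mul_sub, F.r_sub, F.r_div _ N.pos fun x => by rw [l0, l0, sub_self]]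
        intro x
        rw [fderiv_fun_sub ((aδ i).cp si _ (z0 x)).differentiableAt
          ((aδ 0).cp si _ (z0 x)).differentiableAt, ContinuousLinearMap.sub_apply, sw, sw,
          sub_self]
      kap_unit := by
        rw [F.r_div _ N.pos fun x => by rw [l0, L.zero, Real.sin_zero]]
        exact fun k => N.dδ 0 ((sw 0 0).symm.trans (k 0))
      rho := fun i _ => by
        rw [F.r_add, F.r_add, F.r_sub, F.r_sm]
        intro x
        rw [l0, l0, sub_self]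
      rho_unit := by
        rw [F.r_add, F.r_sm]
        intro k
        have := k 0
        rw [iteratedDeriv_zero, iteratedDeriv_succ, iteratedDeriv_one] at this
        exact (N.tab.2.2 _).ne' this
      psx_unit := by
        rw [F.r_dang (aψ 0) _ _ F.dx_ι, F.r_sm]
        intro k
        have := k 0
        rw [fd_lin N.aψ _ (z0 0), show ∀ c, lin c 1 (1, 0) = (1, 0) by simp [lin_apply]] at this
        exact N.dψ 0 this }
  have al : ∀ j : ℕ, M.Alg (C.K {0, (m : ℤ)}) j ↔ IsAlgebraic (C.K {0, (m : ℤ)}) (C.a j) ∧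
      IsAlgebraic (C.K {0, (m : ℤ)}) (C.b j) := fun j => by
    rw [Mirrors.Alg, ← mem_acl, ← mem_acl, ← mem_acl, ← mem_acl, ← mem_acl]
    exact (key j _).symm
  refine (al i).1 (fd_conj E F.V F.comm m M _ F.cj F.cj_w F.cj_dx F.cj_dw
    (fun i _ => ⟨F.r_cj ((aψ i).cp co), F.r_cj ((aψ i).cp si), F.r_cj ((aδ i).cp co),
      F.r_cj ((aδ i).cp si), fun k => F.r_cj ((aψ i).cp (an_it N.tab.1 k))⟩) F.real
    (fun e he => H.dx ▸ (C.K_closed _ e he).1) (fun e he => H.dw ▸ (C.K_closed _ e he).2)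
    ((al 0).2 ⟨mem_acl.1 (le_acl _ (C.a_mem (by simp))), mem_acl.1 (le_acl _ (C.b_mem (by simp)))⟩)
    ((al m).2 ⟨mem_acl.1 (le_acl _ (C.a_mem (by simp))), mem_acl.1 (le_acl _ (C.b_mem (by simp)))⟩)
    i (by exact_mod_cast him.le))

end Vale.Agent.P097T.Gm
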