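import Vale.Agent.P097T.OutDefs

/-!
# P097T: a meromorphic continuation of the curve is ordinary off a countable set
-/

set_option linter.all false

noncomputable section

namespace Vale.Agent.P097T.Out

open Filter Topology Set Metric Complex
open Vale.Agent.P097T.Gm Vale.Agent.P097A

namespace Sel

theorem zeros {U : Set ℂ} {F : ℂ → ℂ} {x : ℂ} (hU : IsPreconnected U) (hF : MeromorphicOn F U)
    (hx : x ∈ U) (a : AnalyticAt ℂ F x) (h0 : F x ≠ 0) : ({z | F z = 0} ∩ U).Countable :=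
  (HereditarilyLindelofSpace.isLindelof _).countable_of_isDiscrete (isDiscrete_of_codiscreteWithin
    (hF.eventually_codiscreteWithin_apply_ne_zero fun y hy =>
      hF.meromorphicOrderAt_ne_top_of_isPreconnected hU hx hy
        ((meromorphicOrderAt_ne_top_iff_eventually_ne_zero a.meromorphicAt).2
          ((a.continuousAt.eventually_ne h0).filter_mono nhdsWithin_le_nhds))))

theorem der_bdry {h : ℝ → ℝ} (hh : ∀ x, AnalyticAt ℝ h x) (x : ℝ) : HasDerivAt (P097.bdry h)
    (((h x + deriv (deriv h) x : ℝ) : ℂ) * I * cexp (x * I)) x := by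
  have a := (hh x).differentiableAt.hasDerivAt.ofReal_comp
  have b := (hh x).deriv.differentiableAt.hasDerivAt.ofReal_comp
  have c := ((hasDerivAt_id x).ofReal_comp.mul_const I).cexp
  refine HasDerivAt.congr_deriv ((a.add (b.mul_const I)).mul c) ?_
  simp only [id, Pi.add_apply, ofReal_add, ofReal_one]
  linear_combination (((deriv h x : ℝ) : ℂ) * cexp (x * I)) * I_mul_I

theorem reg {h θ : ℝ → ℝ} {Z W : ℂ → ℂ} {x : ℝ} (hh : P097.IsTable h) (hθ : ∀ t, AnalyticAt ℝ θ t)
    (d : deriv θ x ≠ 0) (aZ : AnalyticAt ℂ Z x) (aW : AnalyticAt ℂ W x)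
    (e : ∀ t : ℝ, Z t = P097.bdry h (θ t) ∧ W t = (starRingEnd ℂ) (P097.bdry h (θ t))) :
    Reg Z W x := by
  have T : Tendsto (fun t : ℝ => (t : ℂ)) (𝓝 x) (𝓝 x) := continuous_ofReal.continuousAt
  have key : ∀ t : ℝ, AnalyticAt ℂ Z t → AnalyticAt ℂ W t →
      deriv Z t = -cexp (θ t * I) ^ 2 * deriv W t ∧ (deriv θ t ≠ 0 → deriv W t ≠ 0) := by
    intro t a b
    have c := (der_bdry hh.1 (θ t)).scomp t (hθ t).differentiableAt.hasDerivAt
    have c1 := a.differentiableAt.hasDerivAt.comp_ofReal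
    have c2 := b.differentiableAt.hasDerivAt.comp_ofReal
    rw [funext fun t => (e t).1] at c1
    rw [funext fun t => (e t).2] at c2
    have e1 := c1.unique c
    have e2 := c2.unique c.star
    have e3 : cexp (θ t * I) * cexp (-(θ t * I)) = 1 := by rw [← Complex.exp_add]; simp
    simp only [real_smul, star_def, map_mul, conj_ofReal, conj_I, ← exp_conj, mul_neg] at e1 e2
    refine ⟨?_, fun q => ?_⟩
    · rw [e1, e2]
      linear_combination (-((deriv θ t : ℝ) : ℂ) * ((h (θ t) + deriv (deriv h) (θ t) : ℝ) : ℂ) * I *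
        cexp (θ t * I)) * e3
    · have := ofReal_ne_zero.2 (hh.2.2 (θ t)).ne'
      have := ofReal_ne_zero.2 q
      rw [e2]
      simp only [ne_eq, mul_eq_zero, neg_eq_zero, neg_mul, I_ne_zero, exp_ne_zero, or_false, not_or]
      exact ⟨by assumption, by assumption⟩
  obtain ⟨k1, k2⟩ := key x aZ aW
  have k3 := k2 d
  have k4 := exp_ne_zero (θ x * I)
  have c1 := aZ.deriv.differentiableAt.hasDerivAt.comp_ofReal
  have c2 := (((((hθ x).differentiableAt.hasDerivAt.ofReal_comp.mul_const I).cexp.pow 2).neg).mul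
    aW.deriv.differentiableAt.hasDerivAt.comp_ofReal)
  have k5 := c1.unique (c2.congr_of_eventuallyEq (by
    filter_upwards [T.eventually aZ.eventually_analyticAt, T.eventually aW.eventually_analyticAt]
      with t a b using (key t a b).1))
  refine ⟨aZ, aW, k1 ▸ mul_ne_zero (neg_ne_zero.2 (pow_ne_zero 2 k4)) k3, k3, fun q => ?_⟩
  have : 2 * cexp (θ x * I) ^ 2 * ((deriv θ x : ℝ) : ℂ) * I * deriv W x ^ 2 = 0 := by
    rw [k1, k5] at q
    simp only [Pi.neg_apply, Pi.pow_apply, Nat.cast_ofNat, Nat.add_one_sub_one, pow_one] at q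
    linear_combination q
  simp [k3, k4, d] at this

end Sel

open Sel in
theorem sel : Spec_SEL := by
  intro h ε ψ δ N U Z W _ hU hR mZ mW e
  have cZ := mZ.countable_compl_analyticAt_inter
  have cW := mW.countable_compl_analyticAt_inter
  obtain ⟨x, hx⟩ : ∃ x : ℝ, (x : ℂ) ∉ ({z | AnalyticAt ℂ Z z}ᶜ ∩ U) ∪ ({z | AnalyticAt ℂ W z}ᶜ ∩ U) := by
    by_contra! q
    exact Set.not_countable_univ (((cZ.union cW).preimage ofReal_injective).mono fun x _ => q x)
  have hθ : ∀ t : ℝ, AnalyticAt ℝ (fun t : ℝ => ψ (t, 0)) t := fun t =>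
    (N.aψ (t, 0) (by simpa [Lam] using N.pos)).comp_of_eq (analyticAt_id.prod analyticAt_const) rfl
  have d : deriv (fun t : ℝ => ψ (t, 0)) x ≠ 0 := by
    have := (N.aψ (x, 0) (by simpa [Lam] using N.pos)).differentiableAt.hasFDerivAt.comp_hasDerivAt x
      ((hasDerivAt_id x).prodMk (hasDerivAt_const x (0 : ℝ)))
    exact this.deriv ▸ N.dψ x
  have r := reg N.tab hθ d (by_contra fun q => hx (.inl ⟨q, hR x⟩))
    (by_contra fun q => hx (.inr ⟨q, hR x⟩)) e
  refine ((((cZ.union cW).union (zeros hU mZ.deriv (hR x) r.anZ.deriv r.dZ)).union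
    (zeros hU mW.deriv (hR x) r.anW.deriv r.dW)).union
    (zeros hU ((mZ.deriv.mul mW.deriv.deriv).sub (mW.deriv.mul mZ.deriv.deriv)) (hR x)
      ((r.anZ.deriv.mul r.anW.deriv.deriv).sub (r.anW.deriv.mul r.anZ.deriv.deriv))
      (sub_ne_zero.2 r.curv))).mono fun z hz => by_contra fun q => hz.2 ?_
  simp only [mem_union, mem_inter_iff, hz.1, and_true, mem_compl_iff, mem_setOf_eq, not_or,
    not_not] at q
  exact ⟨q.1.1.1.1, q.1.1.1.2, q.1.1.2, q.1.2, sub_ne_zero.1 q.2⟩

end Vale.Agent.P097T.Out
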