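import Vale.Agent.P097T.OutDefs

/-!
# P097T: the vertex is the intersection of two consecutive lines
-/

set_option linter.all false

noncomputable section

namespace Vale.Agent.P097T.Out

open Filter Topology Set Complex
open Vale.Agent.P097T.Gm

namespace Vert

theorem cj (t : ℝ) : (starRingEnd ℂ) (exp (t * I)) * exp (t * I) = 1 := by
  rw [← exp_conj, ← exp_add]; simp

theorem line (h : ℝ → ℝ) (a d : ℝ) : P097.bdry h a =
    -exp ((a + d : ℝ) * I) ^ 2 * (starRingEnd ℂ) (P097.bdry h a) +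
      2 * (h a * Real.cos d + deriv h a * Real.sin d : ℝ) * exp ((a + d : ℝ) * I) := by
  have e1 := cj a
  have e2 : exp ((a + d : ℝ) * I) = exp (a * I) * (cos d + sin d * I) := by
    rw [ofReal_add, add_mul, exp_add, exp_mul_I d]
  have e3 := cos_sq_add_sin_sq (d : ℂ)
  rw [e2, P097.bdry]
  generalize deriv h a = D
  simp only [map_mul, map_add, conj_ofReal, conj_I]
  push_cast
  linear_combination (exp (a * I) * (cos d + sin d * I) ^ 2 * (h a - D * I)) * e1 -
    exp (a * I) * (h a + D * I) * e3 + exp (a * I) * ((h a + D * I) * sin d ^ 2 -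
      2 * D * sin d * (cos d + sin d * I)) * I_sq

variable {h : ℝ → ℝ} {ε : ℝ} {ψ δ : ℝ × ℝ → ℝ} (N : NF h ε ψ δ)
include N

theorem an_Z : An ε (vZ h ψ) := fun q hq =>
  ((an_real (fun q hq => (N.tab.1 _).comp (N.aψ q hq)) q hq).add
    ((an_real (fun q hq => (N.tab.1 _).deriv.comp (N.aψ q hq)) q hq).mul analyticAt_const)).mul
    ((analyticAt_cexp.restrictScalars (𝕜 := ℝ)).comp ((an_real N.aψ q hq).mul analyticAt_const))

theorem dper (x : ℝ) : deriv h (x + 2 * Real.pi) = deriv h x := by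
  rw [← deriv_comp_add_const, funext N.tab.2.1]

omit N in
theorem eper (x : ℝ) : exp ((x + 2 * Real.pi : ℝ) * I) = exp (x * I) := by
  push_cast
  rw [add_mul, exp_add, exp_two_pi_mul_I, mul_one]

omit N in
theorem lin_eq (x w : ℝ) : lin (-1 / 2) 1 (x + w / 2, w) = (x, w) := by
  rw [lin_apply]; congr 1 <;> ring

theorem second {x w : ℝ} (h0 : 0 < w) (h1 : w < ε) :
    vZ h ψ (x, w) = la ψ δ (x - w / 2, w) * vW h ψ (x, w) + lb h ψ δ (x - w / 2, w) := by
  obtain ⟨-, -, -, -, -, l, -, e⟩ := N.step (x - w) w h0 h1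
  have a := line h (ψ (x - w, w)) (δ (x - w, w))
  have b := cj (ψ (x - w, w) + δ (x - w, w))
  rw [sub_add_cancel] at e
  rw [show x - w / 2 = x - w + w / 2 by ring]
  simp only [la, lb, Gm.lp, lφ, lin_eq, vW, vZ, e, map_add, map_mul, conj_ofReal, conj_I]
  linear_combination a - l * I * exp ((ψ (x - w, w) + δ (x - w, w) : ℝ) * I) * b

theorem ne_pos {x w : ℝ} (h0 : 0 < w) (h1 : w < ε) :
    vW h ψ (x + w / 2, w) ≠ vW h ψ (x - w / 2, w) := fun c => by
  obtain ⟨-, -, -, -, -, l, hl, e⟩ := N.step (x - w / 2) w h0 h1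
  rw [show x - w / 2 + w = x + w / 2 by ring] at e
  have := (starRingEnd ℂ).injective c
  rw [vZ, vZ, e, add_eq_left] at this
  exact mul_ne_zero (ofReal_ne_zero.2 hl.ne') (mul_ne_zero I_ne_zero (exp_ne_zero _)) this

theorem la_ne : ∃ x w : ℝ, |w| < ε ∧ la ψ δ (x + w / 2, w) ≠ la ψ δ (x - w / 2, w) := by
  have z : ((0 : ℝ), (0 : ℝ)) ∈ Lam ε := by simpa [Lam] using N.pos
  have d0 : δ (0, 0) = 0 := by
    have := (N.sym _ z).2
    simp only [neg_zero] at this
    linarith
  have c : ContinuousAt (fun w : ℝ => δ (0, w)) 0 :=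
    (N.aδ _ z).continuousAt.comp_of_eq (by fun_prop) rfl
  obtain ⟨w, ⟨h2, h1⟩, h0⟩ := ((((c.eventually_lt_const (u := Real.pi / 2) (by
    simp only [d0]; positivity)).and (eventually_lt_nhds N.pos)).filter_mono
      (nhdsWithin_le_nhds (s := Ioi 0))).and self_mem_nhdsWithin).exists
  refine ⟨0, w, by rwa [abs_of_pos h0], fun e => ?_⟩
  obtain ⟨-, -, h3, -, h4, -⟩ := N.step (0 - w) w h0 h1
  rw [sub_add_cancel] at h3 h4
  rw [show 0 - w / 2 = 0 - w + w / 2 by ring] at e
  simp only [la, lφ, lin_eq, neg_inj, ← exp_nat_mul] at e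
  obtain ⟨n, hn⟩ := exp_eq_exp_iff_exists_int.1 e
  have := congrArg im hn
  simp at this
  have k : 2 * δ (0, w) = n * Real.pi := by rw [zero_sub] at h4; linarith
  have k1 : (0 : ℝ) < n := (mul_pos_iff_of_pos_right Real.pi_pos).1 (by linarith)
  have k2 : (n : ℝ) < 1 := lt_of_mul_lt_mul_right (by linarith) Real.pi_pos.le
  have k1 : 0 < n := by exact_mod_cast k1
  have k2 : n < 1 := by exact_mod_cast k2
  omega

end Vert

open Vert

theorem vert : Spec_VERT := fun h ε ψ δ N => by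
  have aZ := an_Z N
  have aW : An ε (vW h ψ) := an_conj aZ
  refine ⟨aZ, aW, fun q hq => ?_, fun x w hw => ⟨?_, ?_⟩, la_ne N, fun x w hw h0 => ?_⟩
  · have e : lin (-1 / 2) 1 (q.1 + 1, q.2) =
        ((lin (-1 / 2) 1 q).1 + 1, (lin (-1 / 2) 1 q).2) := by
      simp only [lin_apply]; congr 1; ring
    obtain ⟨a, b⟩ := N.per _ (lin_mem (c := -1 / 2) abs_one hq)
    have c : vZ h ψ (q.1 + 1, q.2) = vZ h ψ q := by
      simp only [vZ, P097.bdry, (N.per q hq).1, N.tab.2.1, dper N, eper]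
    have u : exp (lφ ψ δ (q.1 + 1, q.2) * I) = exp (lφ ψ δ q * I) := by
      rw [lφ, e, a, b, add_right_comm, eper, lφ]
    refine ⟨by rw [la, u, la], ?_, c, by rw [vW, c, vW]⟩
    rw [lb, u, Gm.lp, e, a, b, N.tab.2.1, dper N, lb, Gm.lp]
  · simp only [la, lb, Gm.lp, lφ, lin_eq, vW, vZ]
    exact line h _ _
  · have e : ∀ q : ℝ × ℝ, lin (-1 / 2) 1 q = (q.1 - q.2 / 2, q.2) := fun q => by
      rw [lin_apply]; congr 1 <;> ring
    have hε := N.pos
    have := zero_of_ev (aZ.sub (((an_lin N.an_la (-1 / 2) abs_one).mul aW).add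
      (an_lin N.an_lb (-1 / 2) abs_one))) (q := (0, ε / 2))
      (show |ε / 2| < ε by rw [abs_of_pos (by linarith)]; linarith) (by
        filter_upwards [(isOpen_Ioo.preimage continuous_snd).mem_nhds
          (show ((0 : ℝ), ε / 2) ∈ Prod.snd ⁻¹' Ioo 0 ε from ⟨by linarith, by linarith⟩)] with q hq
        simp only [Pi.sub_apply, Pi.add_apply, e]
        exact sub_eq_zero.2 (second N hq.1 hq.2)) (x, w) hw
    simp only [Pi.sub_apply, Pi.add_apply, e] at this
    exact sub_eq_zero.1 this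
  · rcases h0.lt_or_gt with c | c
    · have := ne_pos N (x := x) (neg_pos.2 c) (by rwa [abs_of_neg c] at hw)
      have a := fun y => (N.sym (y, w) hw).1
      simp only [vW, vZ, a, neg_div, ← sub_eq_add_neg, sub_neg_eq_add] at this ⊢
      exact this.symm
    · exact ne_pos N c (by rwa [abs_of_pos c] at hw)

end Vale.Agent.P097T.Out
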