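import Vale.Agent.P097T.MLine
import Vale.Agent.P097T.SVert
import Vale.Agent.P097T.SSel

/-!
# P097T: the forward vertex, its equation and the reflection law
-/

set_option linter.all false

noncomputable section

namespace Vale.Agent.P097T.Gm

open Filter Topology Set Complex
open Vale.Agent.P097T.Q Vale.Agent.P097T.Out

section

variable {h : ℝ → ℝ} {ε : ℝ} {ψ δ : ℝ × ℝ → ℝ} {N : NF h ε ψ δ} {E : Type} [Field E] [CharZero E]
  [Algebra ℂ E] {F : Frame ε E} {C : QChain E}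

theorem l0 (q : ℝ × ℝ) : lin ((0 : ℤ) : ℝ) 1 q = (q.1 + 1 / 2 * q.2 - q.2 / 2, q.2) := by
  rw [lin_apply]; congr 1 <;> push_cast <;> ring

theorem l1 (q : ℝ × ℝ) : lin ((1 : ℤ) : ℝ) 1 q = (q.1 + 1 / 2 * q.2 + q.2 / 2, q.2) := by
  rw [lin_apply]; congr 1 <;> push_cast <;> ring

theorem l2 (q : ℝ × ℝ) : lin (1 / 2) 1 q = (q.1 + 1 / 2 * q.2, q.2) := by
  rw [lin_apply]; congr 1 <;> ring

theorem vert_eqs (hV : Spec_VERT) (H : IsChain N F C)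
    (hW : An ε fun q => vW h ψ (lin (1 / 2) 1 q)) (hZ : An ε fun q => vZ h ψ (lin (1 / 2) 1 q)) :
    C.a 0 * F.ι (mk _ hW) + C.b 0 = F.ι (mk _ hZ) ∧
      C.a 1 * F.ι (mk _ hW) + C.b 1 = F.ι (mk _ hZ) := by
  obtain ⟨-, -, -, eqs, -, -⟩ := hV h ε ψ δ N
  rw [H.a, H.a, H.b, H.b, ← map_mul, ← map_mul, ← map_add, ← map_add, NF.aR, NF.aR, NF.bR, NF.bR,
    mk_mul, mk_mul, mk_add, mk_add]
  exact ⟨congrArg _ (mk_eq.2 fun q hq => by rw [l0, l2]; exact (eqs _ _ hq).2.symm),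
    congrArg _ (mk_eq.2 fun q hq => by rw [l1, l2]; exact (eqs _ _ hq).1.symm)⟩

theorem fd_comp {g : ℝ → ℂ} {g' : ℂ} {θ : ℝ × ℝ → ℝ} {q : ℝ × ℝ} (hg : HasDerivAt g g' (θ q))
    (hθ : DifferentiableAt ℝ θ q) (v : ℝ × ℝ) :
    fderiv ℝ (fun q => g (θ q)) q v = (fderiv ℝ θ q v : ℝ) * g' := by
  have := (hg.hasFDerivAt.comp q hθ.hasFDerivAt).fderiv
  rw [show (fun q => g (θ q)) = g ∘ θ from rfl, this]
  simp

end

theorem xp (hV : Spec_VERT) : Spec_XP := fun h ε ψ δ N E _ _ _ F C H => by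
  obtain ⟨aZ, aW, -, -, ⟨x₁, w₁, hw₁, ne⟩, last⟩ := hV h ε ψ δ N
  have hW := an_lin aW (1 / 2) abs_one
  have hZ := an_lin aZ (1 / 2) abs_one
  obtain ⟨e0, e1⟩ := vert_eqs hV H hW hZ
  have a : C.a 1 - C.a 0 ≠ 0 := by
    rw [sub_ne_zero, H.a, H.a, F.inj.ne_iff, NF.aR, NF.aR, Ne, mk_eq]
    intro k
    have := k (x₁ - w₁ / 2, w₁) hw₁
    rw [l0, l1] at this
    refine ne ?_
    convert this using 3 <;> ring
  have p : C.Xp = F.ι (mk _ hW) := by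
    rw [QChain.Xp, div_eq_iff a]
    linear_combination e0 - e1
  have m : C.Xm = F.io C.Xp := by
    rw [← H.ρ, QChain.Xp, QChain.Xm, map_div₀, map_neg, map_sub, map_sub, C.ρ_a, C.ρ_a, C.ρ_b,
      C.ρ_b, neg_zero]
  refine ⟨fun _ => p, fun _ => by rw [p]; exact e0, m, ?_⟩
  rw [m, p, F.io_ι, F.inj.ne_iff, ioR_mk, Ne, mk_eq]
  intro k
  have hε := N.pos
  have hw : |ε / 2| < ε := by rw [abs_of_pos (by linarith)]; linarith
  have := k (0, ε / 2) hw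
  refine last 0 (ε / 2) hw (by linarith) ?_
  have s := (N.sym (0 - ε / 2 / 2, ε / 2) hw).1
  have t1 : lin (1 / 2) 1 ((0 : ℝ), ε / 2) = (0 + ε / 2 / 2, ε / 2) := by
    rw [lin_apply]; congr 1 <;> ring
  have t2 : lin (1 / 2) 1 (lin 0 (-1) ((0 : ℝ), ε / 2)) = (0 - ε / 2 / 2, -(ε / 2)) := by
    simp only [lin_apply]; congr 1 <;> ring
  rw [t1, t2] at this
  rw [this, vW, vW, vZ, vZ]
  exact congrArg (fun t => (starRingEnd ℂ) (P097.bdry h t)) s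

theorem br (hX : Spec_XP) : Spec_BR := fun h ε ψ δ N E _ _ _ F C H => by
  obtain ⟨aZ, aW, -⟩ := vert h ε ψ δ N
  have L := line h ε ψ δ N
  have hW := an_lin aW (1 / 2) abs_one
  have hZ := an_lin aZ (1 / 2) abs_one
  obtain ⟨e0, e1⟩ := vert_eqs vert H hW hZ
  have p := (hX h ε ψ δ N E F C H).1 hW
  set θ : ℝ × ℝ → ℝ := fun q => ψ (lin (1 / 2) 1 q) with hθ
  have aθ : AnalyticOnNhd ℝ θ (Lam ε) := anr_lin N.aψ _ abs_one
  have dZ : ∀ q ∈ Lam ε, ∀ v, fderiv ℝ (fun q => vZ h ψ (lin (1 / 2) 1 q)) q v =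
      (fderiv ℝ θ q v : ℝ) * (((h (θ q) + deriv (deriv h) (θ q) : ℝ) : ℂ) * I * exp (θ q * I)) :=
    fun q hq v => fd_comp (Sel.der_bdry N.tab.1 (θ q)) (aθ q hq).differentiableAt v
  have dW : ∀ q ∈ Lam ε, ∀ v, fderiv ℝ (fun q => vW h ψ (lin (1 / 2) 1 q)) q v =
      (fderiv ℝ θ q v : ℝ) * -(((h (θ q) + deriv (deriv h) (θ q) : ℝ) : ℂ) * I *
        exp (-(θ q * I))) := fun q hq v => by
    have := fd_comp (Sel.der_bdry N.tab.1 (θ q)).star (aθ q hq).differentiableAt v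
    simp only [star_def, map_mul, conj_ofReal, conj_I, ← exp_conj, mul_neg, neg_mul] at this
    rw [mul_neg]
    exact this
  rw [← p] at e0 e1
  have zx := congrArg C.dx e0
  have zw := congrArg C.dw e0
  simp only [map_add, Derivation.leibniz, smul_eq_mul] at zx zw
  have x1 : C.dx C.Xp = F.ι (mk _ (an_der hW (1, 0))) := by rw [p, H.dx, F.dx_ι, der_mk]
  have w1 : C.dw C.Xp = F.ι (mk _ (an_der hW (0, 1))) := by rw [p, H.dw, F.dw_ι, der_mk]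
  have x2 : C.dx (F.ι (mk _ hZ)) = F.ι (mk _ (an_der hZ (1, 0))) := by rw [H.dx, F.dx_ι, der_mk]
  have w2 : C.dw (F.ι (mk _ hZ)) = F.ι (mk _ (an_der hZ (0, 1))) := by rw [H.dw, F.dw_ι, der_mk]
  have b : C.dx C.Xp * C.dw (F.ι (mk _ hZ)) = C.dw C.Xp * C.dx (F.ι (mk _ hZ)) := by
    rw [x1, w1, x2, w2, ← map_mul, ← map_mul, mk_mul, mk_mul]
    refine congrArg _ (mk_eq.2 fun q hq => ?_)
    rw [dZ q hq, dZ q hq, dW q hq, dW q hq]
    ring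
  have r : C.a 1 * (C.a 0 * C.dx C.Xp ^ 2) = C.dx (F.ι (mk _ hZ)) ^ 2 := by
    rw [x1, x2, H.a, H.a, sq, sq, ← map_mul, ← map_mul, ← map_mul, ← map_mul, NF.aR, NF.aR, mk_mul,
      mk_mul, mk_mul, mk_mul]
    refine congrArg _ (mk_eq.2 fun q hq => ?_)
    rw [dZ q hq, dW q hq]
    have t0 : lin (-1 / 2) 1 (lin ((0 : ℤ) : ℝ) 1 q) = (q.1 - q.2 / 2, q.2) := by
      simp only [lin_apply]; congr 1 <;> push_cast <;> ring
    have t1 : lin (-1 / 2) 1 (lin ((1 : ℤ) : ℝ) 1 q) = (q.1 - q.2 / 2 + q.2, q.2) := by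
      simp only [lin_apply]; congr 1 <;> push_cast <;> ring
    have t2 : θ q = ψ (q.1 - q.2 / 2 + q.2, q.2) := by
      simp only [hθ, lin_apply]; congr 2 <;> ring
    rw [la, la, lφ, lφ, t0, t1, ← L.ang (q.1 - q.2 / 2) q.2 hq, ← t2]
    generalize δ (q.1 - q.2 / 2 + q.2, q.2) = d
    have k1 : exp ((θ q + d : ℝ) * I) * exp ((θ q - d : ℝ) * I) * exp (-(θ q * I)) =
        exp (θ q * I) := by
      rw [← exp_add, ← exp_add]
      push_cast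
      ring_nf
    rw [← k1]
    ring
  have n0 : C.a 0 ≠ 0 := by
    rw [H.a, map_ne_zero_iff _ F.inj, NF.aR, Ne, mk_eq_zero]
    intro k
    exact neg_ne_zero.2 (pow_ne_zero 2 (exp_ne_zero _)) (k (0, 0) (by simpa [Lam] using N.pos))
  have n1 : C.dx C.Xp ≠ 0 := by
    rw [x1, map_ne_zero_iff _ F.inj, Ne, mk_eq_zero]
    intro k
    have z : ((0 : ℝ), (0 : ℝ)) ∈ Lam ε := by simpa [Lam] using N.pos
    have := k _ z
    rw [dW _ z] at this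
    have c : fderiv ℝ θ (0, 0) (1, 0) = fderiv ℝ ψ (0, 0) (1, 0) := by
      have u : lin (1 / 2) 1 ((0 : ℝ), (0 : ℝ)) = (0, 0) := by simp [lin_apply]
      have u' : HasFDerivAt ψ (fderiv ℝ ψ (0, 0)) (lin (1 / 2) 1 (0, 0)) := by
        rw [u]
        exact (N.aψ _ z).differentiableAt.hasFDerivAt
      have := (u'.comp (0, 0) (lin (1 / 2) 1).hasFDerivAt).fderiv
      rw [show θ = ψ ∘ lin (1 / 2) 1 from rfl, this]
      simp [lin_apply]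
    rw [c] at this
    exact mul_ne_zero (ofReal_ne_zero.2 (N.dψ 0)) (neg_ne_zero.2 (mul_ne_zero (mul_ne_zero
      (ofReal_ne_zero.2 (N.tab.2.2 _).ne') I_ne_zero) (exp_ne_zero _))) this
  have m0 : C.a 0 ∈ C.dfield {C.a 0, C.b 0, C.Xp} := C.sub_dfield _ (by simp)
  have m1 : C.b 0 ∈ C.dfield {C.a 0, C.b 0, C.Xp} := C.sub_dfield _ (by simp)
  have m2 : C.Xp ∈ C.dfield {C.a 0, C.b 0, C.Xp} := C.sub_dfield _ (by simp)
  have m3 : F.ι (mk _ hZ) ∈ C.dfield {C.a 0, C.b 0, C.Xp} := e0 ▸ add_mem (mul_mem m0 m2) m1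
  have m4 : C.a 1 ∈ C.dfield {C.a 0, C.b 0, C.Xp} := by
    rw [eq_div_of_mul_eq (mul_ne_zero n0 (pow_ne_zero 2 n1)) r]
    exact div_mem (pow_mem (C.dfield_closed _ _ m3).1 2)
      (mul_mem m0 (pow_mem (C.dfield_closed _ _ m2).1 2))
  refine ⟨?_, m4, ?_⟩
  · unfold QChain.Burg
    linear_combination b + C.dx C.Xp * zw - C.dw C.Xp * zx
  · rw [eq_sub_of_add_eq' e1]
    exact sub_mem m3 (mul_mem m4 m2)

end Vale.Agent.P097T.Gm
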