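import Vale.Agent.P097T.MFrame
import Vale.Agent.P097T.MXp
import Vale.Agent.P097T.MFd
import Vale.Agent.P097T.MEv

/-!
# P097T: the billiard is a model of the algebraic core
-/

namespace Vale.Agent.P097T.Out

open Vale.Agent.P097T.Gm

theorem model : Spec_MODEL :=
  model_of frame (chain line) (xp vert) (br (xp vert)) (fd line)
    (ev line (xp vert) (br (xp vert))) vert

end Vale.Agent.P097T.Out
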