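import Vale.Agent.P097T.GermDefs
import Vale.Agent.P097A.Step
import Vale.Agent.P097A.Cx2

/-!
# P097T: division by `w`, order of vanishing and derivations in the ring of analytic functions
-/

set_option linter.all false

noncomputable section

namespace Vale.Agent.P097T.Gm

open Filter Topology Set

variable {ε : ℝ}

/-- Complexification of a complex valued real analytic germ. -/
theorem cxc {f : ℝ × ℝ → ℂ} {q : ℝ × ℝ} (hf : AnalyticAt ℝ f q) :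
    ∃ G : ℂ × ℂ → ℂ, AnalyticAt ℂ G ((q.1 : ℂ), (q.2 : ℂ)) ∧
      ∀ᶠ z in 𝓝 q, G ((z.1 : ℂ), (z.2 : ℂ)) = f z := by
  have t : AnalyticAt ℝ (fun z : ℝ × ℝ => f (q + z)) 0 :=
    hf.comp_of_eq (analyticAt_const.add analyticAt_id) (by simp)
  obtain ⟨G1, a1, e1⟩ := P097A.cx2 ((Complex.reCLM.analyticAt _).comp t)
  obtain ⟨G2, a2, e2⟩ := P097A.cx2 ((Complex.imCLM.analyticAt _).comp t)
  have s : AnalyticAt ℂ (fun z : ℂ × ℂ => z - ((q.1 : ℂ), (q.2 : ℂ))) ((q.1 : ℂ), (q.2 : ℂ)) :=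
    analyticAt_id.sub analyticAt_const
  refine ⟨fun z => G1 (z - ((q.1 : ℂ), (q.2 : ℂ))) + G2 (z - ((q.1 : ℂ), (q.2 : ℂ))) * Complex.I,
    (a1.comp_of_eq s (by simp)).add ((a2.comp_of_eq s (by simp)).mul analyticAt_const), ?_⟩
  have u : Tendsto (fun z : ℝ × ℝ => z - q) (𝓝 q) (𝓝 0) :=
    Continuous.tendsto' (by fun_prop) _ _ (by simp)
  filter_upwards [u.eventually e1, u.eventually e2] with z k1 k2
  have e : (((z.1 : ℂ), (z.2 : ℂ)) : ℂ × ℂ) - ((q.1 : ℂ), (q.2 : ℂ)) =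
      (((z - q).1 : ℂ), ((z - q).2 : ℂ)) := by
    simp
  rw [e, k1, k2]
  simp

theorem div_loc {f : ℝ × ℝ → ℂ} {x : ℝ} (hf : AnalyticAt ℝ f (x, 0)) (h0 : ∀ y, f (y, 0) = 0) :
    ∃ g : ℝ × ℝ → ℂ, AnalyticAt ℝ g (x, 0) ∧ ∀ᶠ z in 𝓝 (x, (0 : ℝ)), f z = z.2 * g z := by
  obtain ⟨G, aG, eG⟩ := cxc hf
  have a1 := P097A.dd ℂ G x 0 (by simpa using aG)
  have a2 : AnalyticAt ℝ (fun z : ℝ × ℝ => (((z.1 : ℂ), (0 : ℂ), (z.2 : ℂ)) : ℂ × ℂ × ℂ)) (x, 0) :=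
    ((Complex.ofRealCLM.analyticAt _).comp analyticAt_fst).prod
      (analyticAt_const.prod ((Complex.ofRealCLM.analyticAt _).comp analyticAt_snd))
  refine ⟨_, (a1.restrictScalars (𝕜 := ℝ)).comp_of_eq a2 (by simp), ?_⟩
  have u : Tendsto (fun z : ℝ × ℝ => (z.1, (0 : ℝ))) (𝓝 (x, 0)) (𝓝 (x, 0)) :=
    Continuous.tendsto' (by fun_prop) _ _ rfl
  filter_upwards [eG, u.eventually eG] with z k1 k2
  have := sub_smul_dslope (fun y => G (z.1, y)) 0 (z.2 : ℂ)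
  simp only [Complex.ofReal_zero] at k2
  rw [sub_zero, smul_eq_mul, k1, k2, h0, sub_zero] at this
  exact this.symm

theorem div_w {f : ℝ × ℝ → ℂ} (hf : An ε f) (h0 : ∀ y, f (y, 0) = 0) :
    ∃ g : ℝ × ℝ → ℂ, An ε g ∧ (∀ q ∈ Lam ε, f q = q.2 * g q) ∧
      ∀ y, g (y, 0) = fderiv ℝ f (y, 0) (0, 1) := by
  classical
  refine ⟨fun q => if q.2 = 0 then fderiv ℝ f q (0, 1) else f q / q.2, fun q hq => ?_,
    fun q hq => ?_, fun y => by simp⟩
  · by_cases h : q.2 = 0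
    · obtain ⟨x, w⟩ := q
      obtain rfl : w = 0 := h
      obtain ⟨g, ag, eg⟩ := div_loc (hf _ hq) h0
      refine ag.congr ?_
      filter_upwards [eg.eventually_nhds, ag.eventually_analyticAt] with z k1 k2
      split_ifs with hz
      · have d1 : HasFDerivAt (fun z : ℝ × ℝ => ((z.2 : ℝ) : ℂ))
            (Complex.ofRealCLM.comp (ContinuousLinearMap.snd ℝ ℝ ℝ)) z :=
          (Complex.ofRealCLM.comp (ContinuousLinearMap.snd ℝ ℝ ℝ)).hasFDerivAt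
        rw [((d1.mul k2.differentiableAt.hasFDerivAt).congr_of_eventuallyEq k1).fderiv]
        simp [hz]
      · rw [k1.self_of_nhds]
        field_simp [Complex.ofReal_ne_zero.2 hz]
    · refine ((hf q hq).div (an_w (ε := ε) q hq) (Complex.ofReal_ne_zero.2 h)).congr ?_
      filter_upwards [continuous_snd.continuousAt.eventually_ne h] with z hz
      simp [hz]
  · by_cases h : q.2 = 0
    · obtain ⟨x, w⟩ := q
      obtain rfl : w = 0 := h
      simp [h0]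
    · simp only [h, if_false]
      field_simp [Complex.ofReal_ne_zero.2 h]

theorem der_comm (u v : ℝ × ℝ) (a : Rg ε) : der u (der v a) = der v (der u a) := by
  obtain ⟨f, hf, rfl⟩ := mk_surj a
  rw [der_mk, der_mk, der_mk, der_mk, mk_eq]
  intro q hq
  have d := (hf q hq).fderiv.differentiableAt.hasFDerivAt
  have k : ∀ v, fderiv ℝ (fun q => fderiv ℝ f q v) q =
      (ContinuousLinearMap.apply ℝ ℂ v).comp (fderiv ℝ (fderiv ℝ f) q) := fun v =>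
    ((ContinuousLinearMap.apply ℝ ℂ v).hasFDerivAt.comp q d).fderiv
  rw [k, k]
  exact (hf q hq).contDiffAt.isSymmSndFDerivAt_of_omega u v

theorem der_pre (c s : ℝ) (hs : |s| = 1) (v : ℝ × ℝ) (a : Rg ε) :
    der v (pre c s hs a) = pre c s hs (der (lin c s v) a) := by
  obtain ⟨f, hf, rfl⟩ := mk_surj a
  rw [pre_mk, der_mk, der_mk, pre_mk, mk_eq]
  intro q hq
  have := ((hf _ (lin_mem hs hq)).differentiableAt.hasFDerivAt.comp q (lin c s).hasFDerivAt).fderiv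
  exact congrArg (fun L => L v) this

theorem der_add (u v : ℝ × ℝ) (a : Rg ε) : der (u + v) a = der u a + der v a := by
  obtain ⟨f, hf, rfl⟩ := mk_surj a
  rw [der_mk, der_mk, der_mk, mk_add, mk_eq]
  intro q hq
  rw [map_add]

theorem der_neg (u : ℝ × ℝ) (a : Rg ε) : der (-u) a = -der u a := by
  obtain ⟨f, hf, rfl⟩ := mk_surj a
  rw [der_mk, der_mk, mk_neg, mk_eq]
  intro q hq
  rw [map_neg]

theorem shR_dx (a : Rg ε) : der (1, 0) (shR a) = shR (der (1, 0) a) := by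
  have := der_pre 1 1 abs_one (1, 0) a
  rw [show lin 1 1 (1, 0) = (1, 0) by simp [lin_apply]] at this
  exact this

theorem shR_dw (a : Rg ε) : der (0, 1) (shR a) = shR (der (0, 1) a) + shR (der (1, 0) a) := by
  have := der_pre 1 1 abs_one (0, 1) a
  rw [show lin 1 1 (0, 1) = (0, 1) + (1, 0) by simp [lin_apply], der_add, map_add] at this
  exact this

theorem ioR_dx (a : Rg ε) : der (1, 0) (ioR a) = ioR (der (1, 0) a) := by
  have := der_pre 0 (-1) abs_m1 (1, 0) a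
  rw [show lin 0 (-1) (1, 0) = (1, 0) by simp [lin_apply]] at this
  exact this

theorem ioR_dw (a : Rg ε) : der (0, 1) (ioR a) = -ioR (der (0, 1) a) := by
  have := der_pre 0 (-1) abs_m1 (0, 1) a
  rw [show lin 0 (-1) (0, 1) = -(0, 1) by simp [lin_apply], der_neg, map_neg] at this
  exact this

theorem der_cj (v : ℝ × ℝ) (a : Rg ε) : der v (cjR a) = cjR (der v a) := by
  obtain ⟨f, hf, rfl⟩ := mk_surj a
  rw [cjR_mk, der_mk, der_mk, cjR_mk, mk_eq]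
  intro q hq
  have := (Complex.conjCLE.toContinuousLinearMap.hasFDerivAt.comp q
    (hf q hq).differentiableAt.hasFDerivAt).fderiv
  exact congrArg (fun L => L v) this

theorem cjR_cjR (a : Rg ε) : cjR (cjR a) = a := by
  obtain ⟨f, hf, rfl⟩ := mk_surj a
  rw [cjR_mk, cjR_mk, mk_eq]
  intro q _
  simp

theorem ioR_ioR (a : Rg ε) : ioR (ioR a) = a := ioR.symm_apply_apply a

theorem der_w (v : ℝ × ℝ) : der v (wR : Rg ε) = algebraMap ℂ _ v.2 := by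
  rw [wR, der_mk, mk_const, mk_eq]
  intro q _
  have := ((Complex.ofRealCLM.comp (ContinuousLinearMap.snd ℝ ℝ ℝ)).hasFDerivAt (x := q)).fderiv
  exact congrArg (fun L => L v) this

theorem ioR_w : ioR (wR : Rg ε) = -wR := by
  rw [wR, ioR_mk, mk_neg, mk_eq]
  intro q _
  simp [lin_apply]

theorem cjR_w : cjR (wR : Rg ε) = wR := by
  rw [wR, cjR_mk, mk_eq]
  intro q _
  simp

variable [Fact (0 < ε)]

/-- `φ` vanishes on `w = 0`. -/
def Z0 (φ : Rg ε) : Prop := ∀ x : ℝ, φ.1 ⟨(x, 0), zero_mem x⟩ = 0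

theorem Z0_mk {f : ℝ × ℝ → ℂ} {hf : An ε f} : Z0 (mk f hf) ↔ ∀ x, f (x, 0) = 0 := Iff.rfl

theorem Z0.mul_left {a : Rg ε} (h : Z0 a) (b : Rg ε) : Z0 (b * a) := fun x => by
  show b.1 _ * a.1 _ = 0
  rw [h x, mul_zero]

theorem Z0_w : Z0 (wR : Rg ε) := fun x => by simp [wR, mk]

theorem not_Z0_one : ¬Z0 (1 : Rg ε) := fun h => one_ne_zero (h 0)

theorem Z0.of_mul {a b : Rg ε} (h : Z0 (a * b)) : Z0 a ∨ Z0 b := by
  obtain ⟨f, hf, rfl⟩ := mk_surj a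
  obtain ⟨g, hg, rfl⟩ := mk_surj b
  rw [mk_mul, Z0_mk] at h
  rw [Z0_mk, Z0_mk]
  have t : ∀ {f : ℝ × ℝ → ℂ}, An ε f → AnalyticOnNhd ℝ (fun x : ℝ => f (x, 0)) univ :=
    fun hf x _ => (hf _ (zero_mem x)).comp_of_eq (f := fun x : ℝ => (x, (0 : ℝ)))
      (analyticAt_id.prod analyticAt_const) rfl
  by_contra k
  push Not at k
  obtain ⟨⟨x, k1⟩, ⟨y, k2⟩⟩ := k
  refine k2 ((t hg).eqOn_zero_of_preconnected_of_eventuallyEq_zero isPreconnected_univ
    (mem_univ x) ?_ (mem_univ y))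
  filter_upwards [(t hf x trivial).continuousAt.eventually_ne k1] with z h1
  exact (mul_eq_zero.1 (h z)).resolve_left h1

theorem not_Z0_mul {a b : Rg ε} (ha : ¬Z0 a) (hb : ¬Z0 b) : ¬Z0 (a * b) :=
  fun h => h.of_mul.elim ha hb

theorem Z0.dvd {a : Rg ε} (h : Z0 a) : ∃ b, a = wR * b := by
  obtain ⟨f, hf, rfl⟩ := mk_surj a
  obtain ⟨g, hg, e, -⟩ := div_w hf h
  exact ⟨mk g hg, by rw [wR, mk_mul, mk_eq]; exact e⟩

theorem ne_of_not_Z0 {a : Rg ε} (h : ¬Z0 a) : a ≠ 0 := by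
  rintro rfl
  exact h fun _ => rfl

theorem w_ne : (wR : Rg ε) ≠ 0 := by
  rw [wR, Ne, mk_eq_zero]
  intro h
  have e : (0 : ℝ) < ε := Fact.out
  have := h (0, ε / 2) (by
    show |ε / 2| < ε
    rw [abs_of_pos (by linarith)]
    linarith)
  simp at this
  linarith

theorem exists_ord {a : Rg ε} (ha : a ≠ 0) : ∃ (n : ℕ) (b : Rg ε), ¬Z0 b ∧ a = wR ^ n * b := by
  by_contra k
  push Not at k
  have k1 : ∀ n : ℕ, ∃ b, a = wR ^ n * b := by
    intro n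
    induction n with
    | zero => exact ⟨a, by rw [pow_zero, one_mul]⟩
    | succ n ih =>
      obtain ⟨b, hb⟩ := ih
      by_cases h : Z0 b
      · obtain ⟨c, rfl⟩ := h.dvd
        exact ⟨c, by rw [hb, pow_succ, mul_assoc]⟩
      · exact absurd hb (k n b h)
  obtain ⟨f, hf, rfl⟩ := mk_surj a
  refine ha (mk_eq_zero.2 fun q hq => ?_)
  have t : ∀ {f : ℝ × ℝ → ℂ}, An ε f → AnalyticOnNhd ℝ (fun w : ℝ => f (q.1, w)) (Ioo (-ε) ε) :=
    fun hf w hw => (hf (q.1, w) (abs_lt.2 hw)).comp_of_eq (f := fun w : ℝ => (q.1, w))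
      (analyticAt_const.prod analyticAt_id) rfl
  have e : (0 : ℝ) < ε := Fact.out
  have m0 : (0 : ℝ) ∈ Ioo (-ε) ε := ⟨by linarith, e⟩
  refine (t hf).eqOn_zero_of_preconnected_of_eventuallyEq_zero isPreconnected_Ioo m0
    (analyticOrderAt_eq_top.1 (ENat.eq_top_iff_forall_ge.2 fun n => ?_)) (abs_lt.1 hq)
  obtain ⟨b, hb⟩ := k1 n
  obtain ⟨g, hg, rfl⟩ := mk_surj b
  refine (natCast_le_analyticOrderAt (t hf 0 m0)).2 ⟨_, t hg 0 m0, ?_⟩
  filter_upwards [isOpen_Ioo.mem_nhds m0] with w hw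
  have := congrFun (congrArg Subtype.val hb) ⟨(q.1, w), abs_lt.2 hw⟩
  simpa [mk, wR] using this

theorem Z0_io {a : Rg ε} : Z0 (ioR a) ↔ Z0 a := by
  obtain ⟨f, hf, rfl⟩ := mk_surj a
  rw [ioR_mk, Z0_mk, Z0_mk]
  simp [lin_apply]

theorem Z0_res (f g : Rg ε) : Z0 (ioR f * g - f * ioR g) := by
  obtain ⟨f, hf, rfl⟩ := mk_surj f
  obtain ⟨g, hg, rfl⟩ := mk_surj g
  rw [ioR_mk, ioR_mk, mk_mul, mk_mul, mk_sub, Z0_mk]
  simp [lin_apply]

theorem Z0_cj {g : Rg ε} (k : Z0 (cjR g)) : Z0 g := fun x => by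
  have : (starRingEnd ℂ) (g.1 ⟨(x, 0), zero_mem x⟩) = 0 := k x
  simpa using this

theorem Z0_sq (s : Finset ℕ) (f : ℕ → Rg ε) (e2 : ∀ i ∈ s, cjR (f i) = f i)
    (e3 : Z0 (∑ i ∈ s, f i ^ 2)) : ∀ i ∈ s, Z0 (f i) := by
  intro i hi x
  let v : ℕ → ℂ := fun i => (f i).1 ⟨(x, 0), zero_mem x⟩
  have r1 : ∀ i ∈ s, (((v i).re : ℝ) : ℂ) = v i := fun i hi =>
    Complex.conj_eq_iff_re.1 (congrFun (congrArg Subtype.val (e2 i hi)) _)
  have r2 : ∑ i ∈ s, v i ^ 2 = 0 := by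
    have := e3 x
    simpa [v] using this
  have r3 : ∑ i ∈ s, (v i).re ^ 2 = 0 := by
    apply Complex.ofReal_injective
    push_cast
    rw [← r2]
    exact Finset.sum_congr rfl fun i hi => by rw [r1 i hi]
  have := (Finset.sum_eq_zero_iff_of_nonneg fun i _ => sq_nonneg _).1 r3 i hi
  show v i = 0
  rw [← r1 i hi, pow_eq_zero_iff two_ne_zero |>.1 this, Complex.ofReal_zero]

end Vale.Agent.P097T.Gm
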