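import Vale.Agent.P097T.ModelDefs
import Vale.Agent.P097T.MRing

/-!
# P097T: the field of quotients of real analytic functions on a strip as a valued differential
field
-/

set_option linter.all false

noncomputable section

namespace Vale.Agent.P097T.Gm

section gen

variable {R E : Type} [CommRing R] [IsDomain R] [Field E] [Algebra R E] [IsFractionRing R E]

theorem fr_surj (R : Type) {E : Type} [CommRing R] [IsDomain R] [Field E] [Algebra R E]
    [IsFractionRing R E] (e : E) :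
    ∃ f g : R, algebraMap R E g ≠ 0 ∧ e = algebraMap R E f / algebraMap R E g := by
  obtain ⟨f, g, hg, rfl⟩ := IsFractionRing.div_surjective (A := R) e
  exact ⟨f, g, (map_ne_zero_iff _ (IsFractionRing.injective R E)).2 (nonZeroDivisors.ne_zero hg),
    rfl⟩

theorem fr_der [CharZero R] (d : R → R) (h1 : ∀ x y, d (x + y) = d x + d y)
    (h2 : ∀ x y, d (x * y) = x * d y + y * d x) :
    ∃ D : Derivation ℤ E E, ∀ a, D (algebraMap R E a) = algebraMap R E (d a) := by
  haveI : Algebra.IsAlgebraic R E := IsLocalization.isAlgebraic E (nonZeroDivisors R)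
  let d' : Derivation ℤ R E := Derivation.mk'
    (AddMonoidHom.toIntLinearMap (AddMonoidHom.mk' (fun x => algebraMap R E (d x))
      fun x y => by rw [h1, map_add])) fun x y => by
      show algebraMap R E (d (x * y)) = x • algebraMap R E (d y) + y • algebraMap R E (d x)
      rw [h2, map_add, map_mul, map_mul, Algebra.smul_def, Algebra.smul_def]
  exact Q.exists_der_extend (k := ℤ) (P := R) (K := E) d'

theorem leib_frac (R : Type) {E : Type} [CommRing R] [IsDomain R] [Field E] [Algebra R E]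
    [IsFractionRing R E] (σ : E →+* E) (D : E → E)
    (hD : ∀ x y, D (x * y) = σ x * D y + σ y * D x) (h0 : ∀ a, D (algebraMap R E a) = 0) (z : E) :
    D z = 0 := by
  obtain ⟨f, g, hg, rfl⟩ := fr_surj R z
  have := hD (algebraMap R E f / algebraMap R E g) (algebraMap R E g)
  rw [div_mul_cancel₀ _ hg, h0, h0, mul_zero, zero_add] at this
  exact (mul_eq_zero.1 this.symm).resolve_left ((map_ne_zero σ).2 hg)

theorem comm_frac (R : Type) {E : Type} [CommRing R] [IsDomain R] [Field E] [Algebra R E]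
    [IsFractionRing R E] (σ : E →+* E) (d d₁ d₂ : Derivation ℤ E E) (c₁ c₂ : E)
    (h : ∀ a : R, d (σ (algebraMap R E a)) =
      c₁ * σ (d₁ (algebraMap R E a)) + c₂ * σ (d₂ (algebraMap R E a))) (z : E) :
    d (σ z) = c₁ * σ (d₁ z) + c₂ * σ (d₂ z) :=
  sub_eq_zero.1 (leib_frac R σ (fun z => d (σ z) - (c₁ * σ (d₁ z) + c₂ * σ (d₂ z)))
    (fun x y => by
      simp only [map_mul, Derivation.leibniz, smul_eq_mul, map_add]
      ring) (fun a => sub_eq_zero.2 (h a)) z)

theorem comm_frac2 (R : Type) {E : Type} [CommRing R] [IsDomain R] [Field E] [Algebra R E]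
    [IsFractionRing R E] (d₁ d₂ : Derivation ℤ E E)
    (h : ∀ a : R, d₁ (d₂ (algebraMap R E a)) = d₂ (d₁ (algebraMap R E a))) (z : E) :
    d₁ (d₂ z) = d₂ (d₁ z) :=
  sub_eq_zero.1 (leib_frac R (RingHom.id _) (fun z => d₁ (d₂ z) - d₂ (d₁ z))
    (fun x y => by
      simp only [Derivation.leibniz, smul_eq_mul, map_add, RingHom.id_apply]
      ring) (fun a => sub_eq_zero.2 (h a)) z)

/-- A prime element `w` given by the predicate `Z` of being divisible by `w`. -/
structure PZ (Z : R → Prop) (w : R) : Prop where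
  mul : ∀ a b, Z a → Z (b * a)
  zw : Z w
  one : ¬Z 1
  pr : ∀ a b, ¬Z a → ¬Z b → ¬Z (a * b)
  dvd : ∀ a, Z a → ∃ b, a = w * b
  ne : w ≠ 0
  ord : ∀ a, a ≠ 0 → ∃ (n : ℕ) (b : R), ¬Z b ∧ a = w ^ n * b

namespace PZ

variable {Z : R → Prop} {w : R} (P : PZ Z w)
include P

theorem ne' {a : R} (h : ¬Z a) : algebraMap R E a ≠ 0 :=
  (map_ne_zero_iff _ (IsFractionRing.injective R E)).2 fun e => h (by
    rw [e, ← zero_mul w]
    exact P.mul _ _ P.zw)

theorem wne : algebraMap R E w ≠ 0 := (map_ne_zero_iff _ (IsFractionRing.injective R E)).2 P.ne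

/-- The valuation ring. -/
def O (E : Type) [Field E] [Algebra R E] : Subring E where
  carrier := {e | ∃ f g : R, ¬Z g ∧ e * algebraMap R E g = algebraMap R E f}
  mul_mem' := by
    rintro a b ⟨f, g, hg, e⟩ ⟨f', g', hg', e'⟩
    exact ⟨f * f', g * g', P.pr _ _ hg hg', by rw [map_mul, map_mul, ← e, ← e']; ring⟩
  one_mem' := ⟨1, 1, P.one, by simp⟩
  add_mem' := by
    rintro a b ⟨f, g, hg, e⟩ ⟨f', g', hg', e'⟩
    exact ⟨f * g' + f' * g, g * g', P.pr _ _ hg hg', by
      rw [map_add, map_mul, map_mul, map_mul, ← e, ← e']; ring⟩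
  zero_mem' := ⟨0, 1, P.one, by simp⟩
  neg_mem' := by
    rintro a ⟨f, g, hg, e⟩
    exact ⟨-f, g, hg, by rw [map_neg, ← e]; ring⟩

theorem mem (a : R) : algebraMap R E a ∈ P.O E := ⟨a, 1, P.one, by simp⟩

theorem div_mem (a : R) {b : R} (hb : ¬Z b) : algebraMap R E a / algebraMap R E b ∈ P.O E :=
  ⟨a, b, hb, div_mul_cancel₀ _ (P.ne' hb)⟩

theorem der_mem (D : Derivation ℤ E E) (d : R → R)
    (hd : ∀ a, D (algebraMap R E a) = algebraMap R E (d a)) {e : E} (h : e ∈ P.O E) :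
    D e ∈ P.O E := by
  obtain ⟨f, g, hg, e1⟩ := h
  refine ⟨d f * g - f * d g, g * g, P.pr _ _ hg hg, ?_⟩
  have := congrArg D e1
  rw [Derivation.leibniz, hd, hd, smul_eq_mul, smul_eq_mul] at this
  rw [map_sub, map_mul, map_mul, map_mul, ← this, ← e1]
  ring

theorem winv : (algebraMap R E w)⁻¹ ∉ P.O E := by
  rintro ⟨f, g, hg, e⟩
  refine hg ?_
  have : g = f * w := IsFractionRing.injective R E (by
    rw [map_mul, ← e]
    field_simp [P.wne (E := E)])
  rw [this]
  exact P.mul _ _ P.zw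

theorem unif (e : E) (he : e ≠ 0) :
    ∃ (n : ℤ) (u : E), u ∈ P.O E ∧ u⁻¹ ∈ P.O E ∧ e = algebraMap R E w ^ n * u := by
  obtain ⟨f, g, hg, rfl⟩ := fr_surj R e
  have hf : f ≠ 0 := by
    rintro rfl
    simp at he
  obtain ⟨n, f1, h1, rfl⟩ := P.ord f hf
  obtain ⟨m, g1, h2, rfl⟩ := P.ord g (by
    rintro rfl
    simp at hg)
  refine ⟨(n : ℤ) - m, algebraMap R E f1 / algebraMap R E g1, P.div_mem _ h2, by
    rw [inv_div]
    exact P.div_mem _ h1, ?_⟩
  rw [map_mul, map_mul, map_pow, map_pow, zpow_sub₀ P.wne, zpow_natCast, zpow_natCast]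
  field_simp

theorem sm {e : E} {f g : R} (hg : ¬Z g) (h : e * algebraMap R E g = algebraMap R E f) :
    (algebraMap R E w)⁻¹ * e ∈ P.O E ↔ Z f := by
  constructor
  · rintro ⟨f', g', hg', e'⟩
    have : g' * f = f' * g * w := IsFractionRing.injective R E (by
      rw [map_mul, map_mul, map_mul, ← e', ← h]
      field_simp [P.wne (E := E)])
    by_contra k
    refine P.pr _ _ hg' k ?_
    rw [this]
    exact P.mul _ _ P.zw
  · intro k
    obtain ⟨b, rfl⟩ := P.dvd _ k
    refine ⟨b, g, hg, ?_⟩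
    rw [mul_assoc, h, map_mul, ← mul_assoc, inv_mul_cancel₀ P.wne, one_mul]

theorem hom_mem (σ : E →+* E) (s : R → R) (hs : ∀ a, σ (algebraMap R E a) = algebraMap R E (s a))
    (hz : ∀ a, Z (s a) → Z a) {e : E} (h : e ∈ P.O E) : σ e ∈ P.O E := by
  obtain ⟨f, g, hg, e1⟩ := h
  exact ⟨s f, s g, fun k => hg (hz _ k), by rw [← hs, ← hs, ← map_mul, e1]⟩

theorem hom_res (σ : E →+* E) (s : R → R) (hs : ∀ a, σ (algebraMap R E a) = algebraMap R E (s a))
    (hz : ∀ a, Z (s a) → Z a) (hr : ∀ f g, Z (s f * g - f * s g)) {e : E} (h : e ∈ P.O E) :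
    (algebraMap R E w)⁻¹ * (σ e - e) ∈ P.O E := by
  obtain ⟨f, g, hg, e1⟩ := h
  have e2 : σ e * algebraMap R E (s g) = algebraMap R E (s f) := by
    rw [← hs, ← hs, ← map_mul, e1]
  refine (P.sm (f := s f * g - f * s g) (P.pr _ _ hg fun k => hg (hz _ k)) ?_).2 (hr f g)
  rw [map_sub, map_mul, map_mul, map_mul, ← e1, ← e2]
  ring

theorem common (s : Finset ℕ) (a : ℕ → E) (h : ∀ i ∈ s, a i ∈ P.O E) :
    ∃ g : R, ¬Z g ∧ ∀ i ∈ s, ∃ f, a i * algebraMap R E g = algebraMap R E f := by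
  classical
  induction s using Finset.induction_on with
  | empty => exact ⟨1, P.one, by simp⟩
  | insert j s _ ih =>
    obtain ⟨g, hg, k⟩ := ih fun i hi => h i (Finset.mem_insert_of_mem hi)
    obtain ⟨f', g', hg', e⟩ := h j (Finset.mem_insert_self _ _)
    refine ⟨g * g', P.pr _ _ hg hg', fun i hi => ?_⟩
    rcases Finset.mem_insert.1 hi with rfl | hi
    · exact ⟨g * f', by rw [map_mul, map_mul, ← e]; ring⟩
    · obtain ⟨f, e⟩ := k i hi
      exact ⟨f * g', by rw [map_mul, map_mul, ← e]; ring⟩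

theorem real (σ : E →+* E) (c : R →+* R) (hs : ∀ a, σ (algebraMap R E a) = algebraMap R E (c a))
    (hc : ∀ a, c (c a) = a) (hz : ∀ a, Z (c a) → Z a)
    (hq : ∀ (s : Finset ℕ) (f : ℕ → R), (∀ i ∈ s, c (f i) = f i) → Z (∑ i ∈ s, f i ^ 2) →
      ∀ i ∈ s, Z (f i))
    (s : Finset ℕ) (a : ℕ → E) (h : ∀ i ∈ s, a i ∈ P.O E ∧ σ (a i) = a i)
    (h2 : (algebraMap R E w)⁻¹ * ∑ i ∈ s, a i ^ 2 ∈ P.O E) :
    ∀ i ∈ s, (algebraMap R E w)⁻¹ * a i ∈ P.O E := by
  obtain ⟨g, hg, k⟩ := P.common s a fun i hi => (h i hi).1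
  choose! f hf using k
  have hG := P.pr _ _ hg fun k => hg (hz _ k)
  have e1 : ∀ i ∈ s, a i * algebraMap R E (g * c g) = algebraMap R E (f i * c g) := fun i hi => by
    rw [map_mul, map_mul, ← hf i hi, mul_assoc]
  have e2 : ∀ i ∈ s, c (f i * c g) = f i * c g := fun i hi => IsFractionRing.injective R E (by
    rw [← hs, ← e1 i hi, map_mul, (h i hi).2, hs, map_mul c, hc, mul_comm g])
  have e3 := (P.sm (f := ∑ i ∈ s, (f i * c g) ^ 2) (P.pr _ _ hG hG) (by
    rw [map_sum, Finset.sum_mul]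
    refine Finset.sum_congr rfl fun i hi => ?_
    rw [map_pow, ← e1 i hi, map_mul (algebraMap R E) (g * c g)]
    ring)).1 h2
  exact fun i hi => (P.sm hG (e1 i hi)).2 (hq s _ e2 e3 i hi)

end PZ

end gen

theorem pz (ε : ℝ) [Fact (0 < ε)] : PZ (Z0 (ε := ε)) wR :=
  ⟨fun _ b h => h.mul_left b, Z0_w, not_Z0_one, fun _ _ => not_Z0_mul, fun _ h => h.dvd, w_ne,
    fun _ => exists_ord⟩

theorem frame_of (ε : ℝ) [Fact (0 < ε)] (E : Type) [Field E] [CharZero E] [Algebra ℂ E]
    [Algebra (Rg ε) E] [IsScalarTower ℂ (Rg ε) E] [IsFractionRing (Rg ε) E] :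
    Nonempty (Frame ε E) := by
  have P := pz ε
  haveI : CharZero (Rg ε) := charZero_of_injective_algebraMap (algebraMap ℂ (Rg ε)).injective
  have hd : ∀ v, ∃ D : Derivation ℤ E E, ∀ a, D (algebraMap (Rg ε) E a) =
      algebraMap (Rg ε) E (der v a) := fun v =>
    fr_der (der v) (map_add _) fun x y => (der v).leibniz x y
  obtain ⟨dx, hx⟩ := hd (1, 0)
  obtain ⟨dw, hw⟩ := hd (0, 1)
  have inj := IsFractionRing.injective (Rg ε) E
  obtain ⟨S, hS⟩ : ∃ S : E ≃ₐ[ℂ] E, ∀ a, S (algebraMap (Rg ε) E a) = algebraMap (Rg ε) E (shR a) :=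
    ⟨IsFractionRing.algEquivOfAlgEquiv shR, IsFractionRing.algEquivOfAlgEquiv_algebraMap _⟩
  obtain ⟨io, hi⟩ : ∃ S : E ≃ₐ[ℂ] E, ∀ a, S (algebraMap (Rg ε) E a) = algebraMap (Rg ε) E (ioR a) :=
    ⟨IsFractionRing.algEquivOfAlgEquiv ioR, IsFractionRing.algEquivOfAlgEquiv_algebraMap _⟩
  obtain ⟨cj, hc⟩ : ∃ S : E →+* E, ∀ a, S (algebraMap (Rg ε) E a) = algebraMap (Rg ε) E (cjR a) :=
    ⟨IsFractionRing.lift (g := (algebraMap (Rg ε) E).comp cjR)
      (inj.comp (Function.LeftInverse.injective cjR_cjR)), IsFractionRing.lift_algebraMap _⟩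
  have cst : ∀ c : ℂ, algebraMap (Rg ε) E (algebraMap ℂ (Rg ε) c) = algebraMap ℂ E c := fun c =>
    (IsScalarTower.algebraMap_apply _ _ _ c).symm
  have hS' : ∀ a, (S : E →+* E) (algebraMap (Rg ε) E a) = algebraMap (Rg ε) E (shR a) := hS
  have hi' : ∀ a, (io : E →+* E) (algebraMap (Rg ε) E a) = algebraMap (Rg ε) E (ioR a) := hi
  let V : VField E :=
    { O := P.O E
      w := algebraMap (Rg ε) E wR
      dx := dx
      dw := dw
      w_mem := P.mem _
      w_ne := P.wne
      winv := P.winv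
      unif := P.unif
      dx_mem := fun e => P.der_mem dx _ hx
      dw_mem := fun e => P.der_mem dw _ hw
      dx_w := by rw [hx, der_w, cst, Complex.ofReal_zero, map_zero]
      dw_w := by rw [hw, der_w, cst, Complex.ofReal_one, map_one] }
  have sm : ∀ f, V.Sm (algebraMap (Rg ε) E f) ↔ Z0 f := fun f =>
    P.sm P.one (by rw [map_one, mul_one])
  refine ⟨
    { ι := algebraMap (Rg ε) E
      V := V
      S := S.toRingEquiv
      io := io
      cj := cj
      inj := inj
      const := cst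
      w_eq := rfl
      dx_ι := hx
      dw_ι := hw
      S_ι := hS
      io_ι := hi
      cj_ι := hc
      ι_mem := P.mem
      sm_mk := fun f hf => sm _
      sm_div := fun f hf h0 => ?_
      comm := comm_frac2 (Rg ε) dx dw fun a => by rw [hw, hx, hx, hw, der_comm]
      S_dx := fun z => ?_
      S_dw := fun z => ?_
      io_dx := fun z => ?_
      io_dw := fun z => ?_
      cj_dx := fun z => ?_
      cj_dw := fun z => ?_
      dx_c := fun c => ?_
      dw_c := fun c => ?_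
      io_io := fun z => ?_
      io_w := by
        show io (algebraMap (Rg ε) E wR) = -algebraMap (Rg ε) E wR
        rw [hi, ioR_w, map_neg]
      cj_w := by
        show cj (algebraMap (Rg ε) E wR) = algebraMap (Rg ε) E wR
        rw [hc, cjR_w]
      io_mem := fun e => P.hom_mem (io : E →+* E) ioR hi' fun a => Z0_io.1
      io_res := fun e => P.hom_res (io : E →+* E) ioR hi' (fun a => Z0_io.1) Z0_res
      real := P.real cj cjR hc cjR_cjR (fun a => Z0_cj) Z0_sq }⟩
  · obtain ⟨g, hg, e, k⟩ := div_w hf h0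
    have : mk f hf = wR * mk g hg := by rw [wR, mk_mul, mk_eq]; exact e
    have e2 : V.w⁻¹ * algebraMap (Rg ε) E (mk f hf) = algebraMap (Rg ε) E (mk g hg) := by
      rw [this, map_mul, ← mul_assoc]
      exact (congrArg (· * _) (inv_mul_cancel₀ P.wne)).trans (one_mul _)
    rw [e2, sm, Z0_mk]
    simp only [k]
  · have := comm_frac (Rg ε) (S : E →+* E) dx dx dx 1 0 (fun a => by
      rw [hS', hx, hx, hS', shR_dx, one_mul, zero_mul, add_zero]) z
    rwa [one_mul, zero_mul, add_zero] at this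
  · have := comm_frac (Rg ε) (S : E →+* E) dw dw dx 1 1 (fun a => by
      rw [hS', hx, hw, hw, hS', hS', shR_dw, one_mul, one_mul, map_add]) z
    rwa [one_mul, one_mul] at this
  · have := comm_frac (Rg ε) (io : E →+* E) dx dx dx 1 0 (fun a => by
      rw [hi', hx, hx, hi', ioR_dx, one_mul, zero_mul, add_zero]) z
    rwa [one_mul, zero_mul, add_zero] at this
  · have := comm_frac (Rg ε) (io : E →+* E) dw dw dw (-1) 0 (fun a => by
      rw [hi', hw, hw, hi', ioR_dw, neg_one_mul, zero_mul, add_zero, map_neg]) z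
    rwa [neg_one_mul, zero_mul, add_zero] at this
  · have := comm_frac (Rg ε) cj dx dx dx 1 0 (fun a => by
      rw [hc, hx, hx, hc, der_cj, one_mul, zero_mul, add_zero]) z
    rw [one_mul, zero_mul, add_zero] at this
    exact this.symm
  · have := comm_frac (Rg ε) cj dw dw dw 1 0 (fun a => by
      rw [hc, hw, hw, hc, der_cj, one_mul, zero_mul, add_zero]) z
    rw [one_mul, zero_mul, add_zero] at this
    exact this.symm
  · show dx _ = 0
    rw [← cst, hx, Derivation.map_algebraMap, map_zero]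
  · show dw _ = 0
    rw [← cst, hw, Derivation.map_algebraMap, map_zero]
  · obtain ⟨f, g, -, rfl⟩ := fr_surj (Rg ε) z
    rw [map_div₀, map_div₀, hi, hi, hi, hi, ioR_ioR, ioR_ioR]

theorem frame : Spec_FRAME := fun ε hε => by
  haveI : Fact (0 < ε) := ⟨hε⟩
  haveI : CharZero (Eg ε) := charZero_of_injective_algebraMap (algebraMap ℂ (Eg ε)).injective
  exact ⟨Eg ε, inferInstance, inferInstance, inferInstance, frame_of ε (Eg ε)⟩

end Vale.Agent.P097T.Gm
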