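import Vale.Agent.P097T.ModelDefs

/-!
# P097T: the lines of the billiard form a chain
-/

set_option linter.all false

noncomputable section

namespace Vale.Agent.P097T.Gm

open Filter Topology Set Complex
open Vale.Agent.P097T.Q

theorem eq_of_pos {ε : ℝ} (hε : 0 < ε) {f g : ℝ × ℝ → ℝ} (hf : AnalyticOnNhd ℝ f (Lam ε))
    (hg : AnalyticOnNhd ℝ g (Lam ε)) (e : ∀ x w : ℝ, 0 < w → w < ε → f (x, w) = g (x, w)) :
    ∀ x w : ℝ, |w| < ε → f (x, w) = g (x, w) := fun x w hw =>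
  hf.eqOn_of_preconnected_of_eventuallyEq hg (convex_Lam ε).isPreconnected (z₀ := (0, ε / 2))
    (show |ε / 2| < ε by rw [abs_of_pos (by linarith)]; linarith) (by
      filter_upwards [(isOpen_Ioo.preimage continuous_snd).mem_nhds
        (show ((0 : ℝ), ε / 2) ∈ Prod.snd ⁻¹' Ioo 0 ε from ⟨by linarith, by linarith⟩)] with q hq
      exact e q.1 q.2 hq.1 hq.2) (show (x, w) ∈ Lam ε from hw)

theorem step_off {h : ℝ → ℝ} {a d a' d' : ℝ} (S : P097.Step h a d a' d') :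
    h a' * Real.cos d' - deriv h a' * Real.sin d' = h a * Real.cos d + deriv h a * Real.sin d := by
  obtain ⟨-, -, -, -, e1, l, -, e⟩ := S
  have k1 : exp (a' * I) = exp ((a + d : ℝ) * I) * exp (d' * I) := by
    rw [e1, ← exp_add]
    push_cast
    ring_nf
  have k2 : exp (a * I) = exp ((a + d : ℝ) * I) * exp ((-d : ℝ) * I) := by
    rw [← exp_add]
    push_cast
    ring_nf
  rw [P097.bdry, P097.bdry, k1, k2] at e
  have k3 : ((h a' : ℂ) + (deriv h a' : ℝ) * I) * exp (d' * I) =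
      ((h a : ℂ) + (deriv h a : ℝ) * I) * exp ((-d : ℝ) * I) + l * I :=
    mul_left_cancel₀ (exp_ne_zero ((a + d : ℝ) * I)) (by linear_combination e)
  have k4 := congrArg re k3
  generalize deriv h a' = D' at k4 ⊢
  generalize deriv h a = D at k4 ⊢
  simp only [add_re, mul_re, ofReal_re, ofReal_im, I_re, I_im, add_im, mul_im,
    exp_ofReal_mul_I_re, exp_ofReal_mul_I_im, Real.cos_neg, Real.sin_neg] at k4
  linarith

theorem line : Spec_LINE := fun h ε ψ δ N => by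
  have l1 : ∀ x w : ℝ, lin 1 1 (x, w) = (x + w, w) := fun x w => by simp [lin_apply]
  have ah : ∀ {f : ℝ × ℝ → ℝ}, AnalyticOnNhd ℝ f (Lam ε) →
      AnalyticOnNhd ℝ (fun q => h (f q)) (Lam ε) := fun hf q hq => (N.tab.1 _).comp (hf q hq)
  have ad : ∀ {f : ℝ × ℝ → ℝ}, AnalyticOnNhd ℝ f (Lam ε) →
      AnalyticOnNhd ℝ (fun q => deriv h (f q)) (Lam ε) :=
    fun hf q hq => (N.tab.1 _).deriv.comp (hf q hq)
  have ac : ∀ {f : ℝ × ℝ → ℝ}, AnalyticOnNhd ℝ f (Lam ε) →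
      AnalyticOnNhd ℝ (fun q => Real.cos (f q)) (Lam ε) :=
    fun hf q hq => Real.analyticAt_cos.comp (hf q hq)
  have as : ∀ {f : ℝ × ℝ → ℝ}, AnalyticOnNhd ℝ f (Lam ε) →
      AnalyticOnNhd ℝ (fun q => Real.sin (f q)) (Lam ε) :=
    fun hf q hq => Real.analyticAt_sin.comp (hf q hq)
  have p1 := anr_lin N.aψ 1 abs_one
  have d1 := anr_lin N.aδ 1 abs_one
  have ang : ∀ x w : ℝ, |w| < ε → ψ (x + w, w) - δ (x + w, w) = ψ (x, w) + δ (x, w) := by
    have := eq_of_pos N.pos (p1.sub d1) (N.aψ.add N.aδ) fun x w h0 h1 => by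
      have := (N.step x w h0 h1).2.2.2.2.1
      simp only [Pi.sub_apply, Pi.add_apply, l1]
      linarith
    simpa only [Pi.sub_apply, Pi.add_apply, l1] using this
  have off : ∀ x w : ℝ, |w| < ε →
      h (ψ (x + w, w)) * Real.cos (δ (x + w, w)) -
        deriv h (ψ (x + w, w)) * Real.sin (δ (x + w, w)) =
      h (ψ (x, w)) * Real.cos (δ (x, w)) + deriv h (ψ (x, w)) * Real.sin (δ (x, w)) := by
    have := eq_of_pos N.pos (((ah p1).mul (ac d1)).sub ((ad p1).mul (as d1)))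
      (((ah N.aψ).mul (ac N.aδ)).add ((ad N.aψ).mul (as N.aδ))) fun x w h0 h1 => by
      simp only [Pi.sub_apply, Pi.add_apply, Pi.mul_apply, l1]
      exact step_off (N.step x w h0 h1)
    simpa only [Pi.sub_apply, Pi.add_apply, Pi.mul_apply, l1] using this
  refine ⟨fun x => ?_, ang, off, fun x w hw => ?_⟩
  · have := (N.sym (x, 0) (by simpa [Lam] using N.pos)).2
    simp only [neg_zero] at this
    linarith
  · have e1 : lin (-1 / 2) 1 (x, -w) = (x - w / 2 + w, -w) := by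
      rw [lin_apply]; congr 1 <;> ring
    have e2 : lin (-1 / 2) 1 (x, w) = (x - w / 2, w) := by
      rw [lin_apply]; congr 1 <;> ring
    obtain ⟨s1, s2⟩ := N.sym (x - w / 2 + w, w) hw
    simp only at s1 s2
    refine ⟨?_, ?_⟩
    · rw [lφ, lφ, e1, e2, s1, s2, ← ang _ _ hw, ← sub_eq_add_neg]
    · rw [lp, lp, e1, e2, s1, s2, ← off _ _ hw, Real.cos_neg, Real.sin_neg]
      ring

theorem chain (hL : Spec_LINE) : Spec_CHAIN := fun h ε ψ δ N E _ _ _ F => by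
  have L := hL h ε ψ δ N
  have s : ∀ (j : ℤ) (q : ℝ × ℝ), lin j 1 (lin 1 1 q) = lin ((j + 1 : ℤ) : ℝ) 1 q := fun j q => by
    simp only [lin_apply]; congr 1 <;> push_cast <;> ring
  have r1 : ∀ (j : ℤ) (q : ℝ × ℝ), lin j 1 (lin 0 (-1) q) = (q.1 - j * q.2, -q.2) := fun j q => by
    simp only [lin_apply]; congr 1 <;> ring
  have r2 : ∀ (j : ℤ) (q : ℝ × ℝ), lin ((-j : ℤ) : ℝ) 1 q = (q.1 - j * q.2, q.2) := fun j q => by
    simp only [lin_apply]; congr 1 <;> push_cast <;> ring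
  refine ⟨⟨F.V.dx, F.V.dw, fun j => F.ι (N.aR j), fun j => F.ι (N.bR j), F.S, F.io.toRingEquiv,
    fun j => ?_, fun j => ?_, fun j => ?_, fun j => ?_, F.S_dx, F.S_dw, F.io_dx, F.io_dw⟩,
    rfl, rfl, fun _ => rfl, fun _ => rfl, rfl, fun _ => rfl⟩
  · rw [F.S_ι, NF.aR, shR_mk, NF.aR]
    exact congrArg _ (mk_eq.2 fun q _ => by rw [s])
  · rw [F.S_ι, NF.bR, shR_mk, NF.bR]
    exact congrArg _ (mk_eq.2 fun q _ => by rw [s])
  · show F.io _ = _
    rw [F.io_ι, NF.aR, ioR_mk, NF.aR]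
    exact congrArg _ (mk_eq.2 fun q hq => by rw [r1, r2, la, la, (L.even _ _ hq).1])
  · show F.io _ = _
    rw [F.io_ι, NF.bR, ioR_mk, NF.bR]
    exact congrArg _ (mk_eq.2 fun q hq => by
      rw [r1, r2, lb, lb, (L.even _ _ hq).1, (L.even _ _ hq).2])

end Vale.Agent.P097T.Gm
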