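import Vale.Agent.P097T.OutDefs
import Vale.Agent.P097T.UDefs

/-!
# P097T: the continuation theorem T3, interface with the model and with block (U)
-/

set_option linter.all false

noncomputable section

namespace Vale.Agent.P097T.Out

open Filter Topology Set Metric Complex
open Vale.Agent.P097T.Gm Vale.Agent.P097A Vale.Agent.P097T.Q

/-- `f` extends holomorphically to the tube over the rectangle, around the leaf `w₀`. -/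
def TubeW (f : ℝ × ℝ → ℂ) (x₀ δ T w₀ η : ℝ) : Prop :=
  ∃ F : ℂ × ℂ → ℂ, AnalyticOnNhd ℂ F (U.Rect x₀ δ T ×ˢ ball (w₀ : ℂ) η) ∧
    ∀ x w : ℝ, |x - x₀| < δ → |w - w₀| < η → F (x, w) = f (x, w)

/-- all but countably many leaves near `w₀` are generic -/
def Spec_U2w : Prop := ∀ (A : Type) [Field A] [CharZero A] (C : QChain A) (ε : ℝ)
  (ι : Gm.Rg ε →+* A) (a b : ℝ × ℝ → ℂ) (x₀ δ T w₀ η : ℝ), U.Model C ε ι a b → 0 < δ → 0 < T →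
  0 < η → |w₀| + η ≤ ε → TubeW a x₀ δ T w₀ η → TubeW b x₀ δ T w₀ η →
  ∃ Z : Set ℝ, Z.Countable ∧ ∀ w ∉ Z, |w - w₀| < η →
    ∃ (V : Ultrafilter ℂ) (lf : C.K univ →+* Germ (V : Filter ℂ) ℂ),
      U.Leaf C V x₀ w δ T lf ∧ (∀ᶠ z in (V : Filter ℂ), z.im = 0) ∧
      ∀ (f : ℝ × ℝ → ℂ) (hf : Gm.An ε f) (c : C.K univ), (c : A) = ι (Gm.mk f hf) →
        lf c = ((fun z => f (z.re, w) : ℂ → ℂ) : Germ (V : Filter ℂ) ℂ)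

/-- block (U) around the leaf `w₀` -/
def Spec_Uw : Prop := ∀ (A : Type) [Field A] [CharZero A] [IsAlgClosed A] (C : QChain A) (ε : ℝ)
  (ι : Gm.Rg ε →+* A) (a b : ℝ × ℝ → ℂ) (x₀ δ T w₀ η : ℝ), U.Good C → U.Model C ε ι a b → 0 < δ →
  0 < T → 0 < η → |w₀| + η ≤ ε → TubeW a x₀ δ T w₀ η → TubeW b x₀ δ T w₀ η →
  ∃ Z : Set ℝ, Z.Countable ∧ ∀ w ∉ Z, |w - w₀| < η →
    ∀ (f : ℝ × ℝ → ℂ) (hf : Gm.An ε f), ι (Gm.mk f hf) ∈ C.K univ →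
      ∃ g : ℂ → ℂ, MeromorphicOn g (U.St T) ∧ ∀ x : ℝ, g x = f (x, w)

/-- the billiard is a model of the algebraic core -/
def Spec_MODEL : Prop := ∀ (h : ℝ → ℝ) (ε : ℝ) (ψ δ : ℝ × ℝ → ℝ), NF h ε ψ δ →
  ∃ (A : Type) (_ : Field A) (_ : CharZero A) (_ : IsAlgClosed A) (C : QChain A)
    (ι : Gm.Rg ε →+* A), U.Good C ∧ U.Model C ε ι (la ψ δ) (lb h ψ δ)

/-- a column of ordinary points of the curve gives a tube for the lines -/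
def Spec_TUBE0 : Prop := ∀ (h : ℝ → ℝ) (ε : ℝ) (ψ δ : ℝ × ℝ → ℝ), NF h ε ψ δ →
  ∀ (c T : ℝ) (Z W : ℂ → ℂ), 0 ≤ T → (∀ s ∈ Icc 0 T, Reg Z W (c + s * I)) →
    (∀ᶠ x : ℝ in 𝓝 c, Z x = vZ h ψ (x, 0) ∧ W x = vW h ψ (x, 0)) →
    ∃ κ : ℝ, 0 < κ ∧ κ ≤ ε ∧ TubeW (la ψ δ) c κ (T + κ) 0 κ ∧ TubeW (lb h ψ δ) c κ (T + κ) 0 κ

/-- T3 at an arbitrary leaf: from one tube to the whole strip -/
def Spec_T3t : Prop := ∀ (h : ℝ → ℝ) (ε : ℝ) (ψ δ : ℝ × ℝ → ℝ), NF h ε ψ δ →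
  ∀ c κ T w₀ η : ℝ, 0 < κ → 0 < T → 0 < η → |w₀| < ε → TubeW (la ψ δ) c κ T w₀ η →
    TubeW (lb h ψ δ) c κ T w₀ η →
    Ext (Hs T) (fun x => la ψ δ (x, w₀)) ∧ Ext (Hs T) (fun x => lb h ψ δ (x, w₀)) ∧
    Ext (Hs T) (fun x => vZ h ψ (x, w₀)) ∧ Ext (Hs T) (fun x => vW h ψ (x, w₀))

end Vale.Agent.P097T.Out
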