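import Vale.Agent.P097T.GermAlg
import Vale.Agent.P097T.Even2
import Vale.Agent.P097T.OutDefs2

/-!
# P097T: the billiard as a model of the algebraic core, definitions and statements
-/

set_option linter.all false

noncomputable section

namespace Vale.Agent.P097T.Gm

open Vale.Agent.P097T.Q

/-- The field of quotients of `Rg ε` with its valuation, derivations and symmetries. -/
structure Frame (ε : ℝ) (E : Type) [Field E] [Algebra ℂ E] where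
  ι : Rg ε →+* E
  V : VField E
  S : RingAut E
  io : E ≃ₐ[ℂ] E
  cj : E →+* E
  inj : Function.Injective ι
  const : ∀ c : ℂ, ι (algebraMap ℂ (Rg ε) c) = algebraMap ℂ E c
  w_eq : V.w = ι wR
  dx_ι : ∀ f, V.dx (ι f) = ι (der (1, 0) f)
  dw_ι : ∀ f, V.dw (ι f) = ι (der (0, 1) f)
  S_ι : ∀ f, S (ι f) = ι (shR f)
  io_ι : ∀ f, io (ι f) = ι (ioR f)
  cj_ι : ∀ f, cj (ι f) = ι (cjR f)
  ι_mem : ∀ f, ι f ∈ V.O
  sm_mk : ∀ (f : ℝ × ℝ → ℂ) (hf : An ε f), V.Sm (ι (mk f hf)) ↔ ∀ x, f (x, 0) = 0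
  sm_div : ∀ (f : ℝ × ℝ → ℂ) (hf : An ε f), (∀ x, f (x, 0) = 0) →
    (V.Sm (V.w⁻¹ * ι (mk f hf)) ↔ ∀ x, fderiv ℝ f (x, 0) (0, 1) = 0)
  comm : ∀ e, V.dx (V.dw e) = V.dw (V.dx e)
  S_dx : ∀ z, V.dx (S z) = S (V.dx z)
  S_dw : ∀ z, V.dw (S z) = S (V.dw z) + S (V.dx z)
  io_dx : ∀ z, V.dx (io z) = io (V.dx z)
  io_dw : ∀ z, V.dw (io z) = -io (V.dw z)
  cj_dx : ∀ z, cj (V.dx z) = V.dx (cj z)
  cj_dw : ∀ z, cj (V.dw z) = V.dw (cj z)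
  dx_c : ∀ c : ℂ, V.dx (algebraMap ℂ E c) = 0
  dw_c : ∀ c : ℂ, V.dw (algebraMap ℂ E c) = 0
  io_io : ∀ e, io (io e) = e
  io_w : io V.w = -V.w
  cj_w : cj V.w = V.w
  io_mem : ∀ e ∈ V.O, io e ∈ V.O
  io_res : ∀ e ∈ V.O, V.Sm (io e - e)
  real : ∀ (s : Finset ℕ) (a : ℕ → E), (∀ i ∈ s, a i ∈ V.O ∧ cj (a i) = a i) →
    V.Sm (∑ i ∈ s, a i ^ 2) → ∀ i ∈ s, V.Sm (a i)

/-- The line which leaves `(x, w)` is the line which arrives at `(x + w, w)`. -/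
structure Line (h : ℝ → ℝ) (ε : ℝ) (ψ δ : ℝ × ℝ → ℝ) : Prop where
  zero : ∀ x : ℝ, δ (x, 0) = 0
  ang : ∀ x w : ℝ, |w| < ε → ψ (x + w, w) - δ (x + w, w) = ψ (x, w) + δ (x, w)
  off : ∀ x w : ℝ, |w| < ε →
    h (ψ (x + w, w)) * Real.cos (δ (x + w, w)) - deriv h (ψ (x + w, w)) * Real.sin (δ (x + w, w)) =
      h (ψ (x, w)) * Real.cos (δ (x, w)) + deriv h (ψ (x, w)) * Real.sin (δ (x, w))
  even : ∀ x w : ℝ, |w| < ε → lφ ψ δ (x, -w) = lφ ψ δ (x, w) ∧ lp h ψ δ (x, -w) = lp h ψ δ (x, w)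

/-- `C` is the chain of the lines of the billiard. -/
structure IsChain {h : ℝ → ℝ} {ε : ℝ} {ψ δ : ℝ × ℝ → ℝ} (N : NF h ε ψ δ) {E : Type} [Field E]
    [CharZero E] [Algebra ℂ E] (F : Frame ε E) (C : QChain E) : Prop where
  dx : C.dx = F.V.dx
  dw : C.dw = F.V.dw
  a : ∀ j, C.a j = F.ι (N.aR j)
  b : ∀ j, C.b j = F.ι (N.bR j)
  S : C.S = F.S
  ρ : ∀ z, C.ρ z = F.io z

def Spec_FRAME : Prop := ∀ ε : ℝ, 0 < ε →
  ∃ (E : Type) (_ : Field E) (_ : CharZero E) (_ : Algebra ℂ E), Nonempty (Frame ε E)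

def Spec_LINE : Prop := ∀ (h : ℝ → ℝ) (ε : ℝ) (ψ δ : ℝ × ℝ → ℝ), NF h ε ψ δ → Line h ε ψ δ

def Spec_CHAIN : Prop := ∀ (h : ℝ → ℝ) (ε : ℝ) (ψ δ : ℝ × ℝ → ℝ) (N : NF h ε ψ δ)
  (E : Type) [Field E] [CharZero E] [Algebra ℂ E] (F : Frame ε E), ∃ C, IsChain N F C

/-- The forward vertex is the boundary point of the phase point `(x + w / 2, w)`. -/
def Spec_XP : Prop := ∀ (h : ℝ → ℝ) (ε : ℝ) (ψ δ : ℝ × ℝ → ℝ) (N : NF h ε ψ δ)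
  (E : Type) [Field E] [CharZero E] [Algebra ℂ E] (F : Frame ε E) (C : QChain E), IsChain N F C →
  (∀ hW : An ε fun q => Out.vW h ψ (lin (1 / 2) 1 q), C.Xp = F.ι (mk _ hW)) ∧
    (∀ hZ : An ε fun q => Out.vZ h ψ (lin (1 / 2) 1 q),
      C.a 0 * C.Xp + C.b 0 = F.ι (mk _ hZ)) ∧ C.Xm = F.io C.Xp ∧ C.Xp ≠ C.Xm

def Spec_BR : Prop := ∀ (h : ℝ → ℝ) (ε : ℝ) (ψ δ : ℝ × ℝ → ℝ) (N : NF h ε ψ δ)
  (E : Type) [Field E] [CharZero E] [Algebra ℂ E] (F : Frame ε E) (C : QChain E), IsChain N F C →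
  C.Burg C.Xp ∧ C.Ref

def Spec_FD : Prop := ∀ (h : ℝ → ℝ) (ε : ℝ) (ψ δ : ℝ × ℝ → ℝ) (N : NF h ε ψ δ)
  (E : Type) [Field E] [CharZero E] [Algebra ℂ E] (F : Frame ε E) (C : QChain E), IsChain N F C →
  C.FD

def Spec_EV : Prop := ∀ (h : ℝ → ℝ) (ε : ℝ) (ψ δ : ℝ × ℝ → ℝ) (N : NF h ε ψ δ)
  (E : Type) [Field E] [CharZero E] [Algebra ℂ E] (F : Frame ε E) (C : QChain E), IsChain N F C →
  ∀ (A : Type) [Field A] [CharZero A] [Algebra E A] [IsAlgClosure E A] (C' : QChain A),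
    QChain.Hom C C' (algebraMap E A) → C'.Ev'

theorem model_of (h1 : Spec_FRAME) (h2 : Spec_CHAIN) (h3 : Spec_XP) (h4 : Spec_BR) (h5 : Spec_FD)
    (h6 : Spec_EV) (hV : Out.Spec_VERT) : Out.Spec_MODEL := fun h ε ψ δ N => by
  obtain ⟨E, _, _, _, ⟨F⟩⟩ := h1 ε N.pos
  obtain ⟨C, H⟩ := h2 h ε ψ δ N E F
  let A := AlgebraicClosure E
  obtain ⟨C', K⟩ := QChain.exists_ext (A := A) C
  refine ⟨A, inferInstance, inferInstance, inferInstance, C', (algebraMap E A).comp F.ι,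
    ⟨K.ne.2 (h3 h ε ψ δ N E F C H).2.2.2, K.burgp.2 (h4 h ε ψ δ N E F C H).1,
      K.ref.2 (h4 h ε ψ δ N E F C H).2, K.fd.2 (h5 h ε ψ δ N E F C H),
      h6 h ε ψ δ N E F C H A C' K⟩,
    (algebraMap E A).injective.comp F.inj, N.an_la, N.an_lb,
    fun q hq => ⟨((hV h ε ψ δ N).2.2.1 q hq).1, ((hV h ε ψ δ N).2.2.1 q hq).2.1⟩, ?_, ?_,
    fun f => ?_, fun f => ?_, fun f => ?_⟩
  · rw [K.a, H.a, RingHom.comp_apply, NF.aR]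
    congr 2
    exact mk_eq.2 fun q _ => by simp [lin_apply]
  · rw [K.b, H.b, RingHom.comp_apply, NF.bR]
    congr 2
    exact mk_eq.2 fun q _ => by simp [lin_apply]
  · rw [RingHom.comp_apply, K.dx, H.dx, F.dx_ι, RingHom.comp_apply]
  · rw [RingHom.comp_apply, K.dw, H.dw, F.dw_ι, RingHom.comp_apply]
  · rw [RingHom.comp_apply, K.S, H.S, F.S_ι, RingHom.comp_apply]

end Vale.Agent.P097T.Gm
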