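import Vale.Agent.P097T.EndDefs
import Vale.Agent.P097T.GermDefs

/-! P097T: the two descriptions of the normal form. -/

set_option linter.all false

noncomputable section

namespace Vale.Agent.P097T.Out

open Filter Topology Set Vale.Agent.P097T.Gm

theorem nf_of' {h : ℝ → ℝ} {ε η : ℝ} {Φ J : ℝ × ℝ → ℝ × ℝ} (ht : P097.IsTable h)
    (H : NForm h ε η Φ J) : NF h ε (fun q => (Φ q).1) (fun q => (Φ q).2) := by
  obtain ⟨e0, e1, aΦ, aJ, -, hJ, per, sym, step⟩ := H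
  have z0 : |(0 : ℝ)| < ε := by simpa using e0
  have d0 : ∀ x, (Φ (x, 0)).2 = 0 := fun x => by
    have := congrArg Prod.snd (sym x 0 z0)
    simp only [neg_zero] at this
    linarith
  have dΦ : ∀ x, HasFDerivAt Φ (fderiv ℝ Φ (x, 0)) (x, 0) := fun x =>
    (aΦ (x, 0) z0).differentiableAt.hasFDerivAt
  have inj : ∀ x v, fderiv ℝ Φ (x, 0) v = 0 → v = 0 := by
    intro x v hv
    have h1 := ((aJ (Φ (x, 0)) (by simpa [d0] using e1)).differentiableAt.hasFDerivAt).comp _ (dΦ x)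
    have h2 : J ∘ Φ =ᶠ[𝓝 (x, 0)] id := by
      filter_upwards [(isOpen_Lam ε).mem_nhds (show ((x, 0) : ℝ × ℝ) ∈ Lam ε from z0)] with q hq
      exact hJ q hq
    have h3 := (h1.congr_of_eventuallyEq h2.symm).unique (hasFDerivAt_id _)
    have := congrArg (fun L : ℝ × ℝ →L[ℝ] ℝ × ℝ => L v) h3
    simpa [hv] using this.symm
  have c1 : ∀ x, (fderiv ℝ Φ (x, 0) (1, 0)).2 = 0 := by
    intro x
    have h1 : HasDerivAt (fun t : ℝ => ((t, 0) : ℝ × ℝ)) (1, 0) x :=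
      (hasDerivAt_id x).prodMk (hasDerivAt_const x 0)
    have h2 : HasDerivAt (fun t : ℝ => (Φ (t, 0)).2) (fderiv ℝ Φ (x, 0) (1, 0)).2 x :=
      HasFDerivAt.comp_hasDerivAt (f := fun t : ℝ => ((t, 0) : ℝ × ℝ)) x (dΦ x).snd h1
    have h3 : (fun t : ℝ => (Φ (t, 0)).2) = fun _ => 0 := funext d0
    rw [h3] at h2
    exact h2.unique (hasDerivAt_const x 0)
  have c2 : ∀ x, (fderiv ℝ Φ (x, 0) (0, 1)).1 = 0 := by
    intro x
    have h1 : HasDerivAt (fun t : ℝ => ((x, t) : ℝ × ℝ)) (0, 1) 0 :=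
      (hasDerivAt_const 0 x).prodMk (hasDerivAt_id 0)
    have h2 : HasDerivAt (fun t : ℝ => (Φ (x, t)).1) (fderiv ℝ Φ (x, 0) (0, 1)).1 0 :=
      (dΦ x).fst.comp_hasDerivAt 0 h1
    have h3 : HasDerivAt (fun t : ℝ => (Φ (x, -t)).1) (-(fderiv ℝ Φ (x, 0) (0, 1)).1) 0 := by
      have := HasDerivAt.comp (h₂ := fun t : ℝ => (Φ (x, t)).1) 0 (by simpa using h2)
        (hasDerivAt_neg (0 : ℝ))
      rw [mul_neg_one] at this
      exact this
    have h4 : (fun t : ℝ => (Φ (x, t)).1) =ᶠ[𝓝 0] fun t : ℝ => (Φ (x, -t)).1 := by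
      filter_upwards [Ioo_mem_nhds (neg_lt_zero.2 e0) e0] with t ht
      rw [sym x t (abs_lt.2 ht)]
    have := h2.unique (h3.congr_of_eventuallyEq h4)
    linarith
  refine ⟨e0, ht, fun q hq => analyticAt_fst.comp (aΦ q hq), fun q hq => analyticAt_snd.comp (aΦ q hq),
    fun q hq => by simp only [per q.1 q.2 hq, and_self], fun q hq => by
      simp only [sym q.1 q.2 hq, and_self], step, fun x hx => ?_, fun x hx => ?_⟩
  · rw [(dΦ x).fst.fderiv] at hx
    simpa using inj x (1, 0) (Prod.ext hx (c1 x))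
  · rw [(dΦ x).snd.fderiv] at hx
    simpa using inj x (0, 1) (Prod.ext (c2 x) hx)

end Vale.Agent.P097T.Out
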