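import Vale.Agent.P097T.OutMatch

/-!
# P097T: the normal form continues along a vertical segment (`Out.Spec_CONT`)
-/

set_option linter.all false

noncomputable section

namespace Vale.Agent.P097T.Out

open Filter Topology Set Metric Complex Vale.Agent.P097A Vale.Agent.P097A.Gauge

theorem ev_zero_of_conn {F : ℂ × ℂ → ℂ} {K : Set (ℂ × ℂ)} (hK : IsPreconnected K)
    (hF : AnalyticOnNhd ℂ F K) {p : ℂ × ℂ} (hp : p ∈ K) (h : F =ᶠ[𝓝 p] 0) :
    ∀ q ∈ K, F =ᶠ[𝓝 q] 0 := by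
  intro q hq
  have ho : IsOpen {x | AnalyticAt ℂ F x} := isOpen_analyticAt ℂ F
  have hs : K ⊆ connectedComponentIn {x | AnalyticAt ℂ F x} p :=
    hK.subset_connectedComponentIn hp hF
  have h1 : AnalyticOnNhd ℂ F (connectedComponentIn {x | AnalyticAt ℂ F x} p) :=
    fun x hx => connectedComponentIn_subset {x | AnalyticAt ℂ F x} p hx
  filter_upwards [ho.connectedComponentIn.mem_nhds (hs hq)] with x hx
  exact h1.eqOn_zero_of_preconnected_of_eventuallyEq_zero isPreconnected_connectedComponentIn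
    (hs hp) h hx

/-- The rectangle over `c`. -/
def Rc (c κ s : ℝ) : Set ℂ := {z | |z.re - c| < κ ∧ -κ < z.im ∧ z.im < s + κ}

theorem isOpen_Rc (c κ s : ℝ) : IsOpen (Rc c κ s) :=
  (isOpen_lt (f := fun z : ℂ => |z.re - c|) (by fun_prop) continuous_const).inter
    ((isOpen_lt continuous_const continuous_im).inter (isOpen_lt continuous_im continuous_const))

theorem convex_Rc (c κ s : ℝ) : Convex ℝ (Rc c κ s) := by
  have : Rc c κ s = (reLm ⁻¹' Ioo (c - κ) (c + κ)) ∩ (imLm ⁻¹' Ioo (-κ) (s + κ)) := by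
    ext z
    simp only [Rc, mem_setOf_eq, abs_lt, mem_inter_iff, mem_preimage, mem_Ioo, reLm_coe, imLm_coe]
    constructor
    · rintro ⟨⟨h1, h2⟩, h3, h4⟩; exact ⟨⟨by linarith, by linarith⟩, h3, h4⟩
    · rintro ⟨⟨h1, h2⟩, h3, h4⟩; exact ⟨⟨by linarith, by linarith⟩, h3, h4⟩
  rw [this]
  exact ((convex_Ioo _ _).linear_preimage _).inter ((convex_Ioo _ _).linear_preimage _)

theorem seg_mem {c κ s t : ℝ} (hκ : 0 < κ) (h0 : 0 ≤ t) (h1 : t ≤ s) :
    (c : ℂ) + t * I ∈ Rc c κ s := by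
  simp only [Rc, mem_setOf_eq, add_re, ofReal_re, mul_re, I_re, mul_zero, ofReal_im, I_im,
    mul_one, sub_self, add_zero, abs_zero, add_im, mul_im, zero_add, add_sub_cancel_left]
  exact ⟨hκ, by linarith, by linarith⟩

/-- The normal form continues to height `s`. -/
def Pc (c : ℝ) (Y : ℂ × ℂ → ℂ) (s : ℝ) : Prop := ∃ (κ : ℝ) (Y' : ℂ × ℂ → ℂ), 0 < κ ∧
  AnalyticOnNhd ℂ Y' (Rc c κ s ×ˢ ball 0 κ) ∧ Y' =ᶠ[𝓝 ((c : ℂ), (0 : ℂ))] Y ∧
  ∀ z ∈ Rc c κ s, Y' (z, 0) = z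

theorem solves_seg {E : ℂ × ℂ × ℂ → ℂ} {c s κ : ℝ} {Y Y' : ℂ × ℂ → ℂ} (hs : 0 ≤ s) (hκ : 0 < κ)
    (hE : ∀ t ∈ Icc 0 s, IsLaw E (c + t * I)) (sY : Solves E (fun p => Y (c + p.1, p.2)))
    (a : AnalyticOnNhd ℂ Y' (Rc c κ s ×ˢ ball 0 κ)) (e : Y' =ᶠ[𝓝 ((c : ℂ), (0 : ℂ))] Y)
    (z0 : ∀ z ∈ Rc c κ s, Y' (z, 0) = z) : Solves E (fun p => Y' (c + s * I + p.1, p.2)) := by
  let F : ℂ × ℂ → ℂ := fun q => E (Y' (q.1 - q.2, q.2), Y' q, Y' (q.1 + q.2, q.2))
  have m1 : ∀ y : ℂ, AnalyticAt ℂ (fun q : ℂ × ℂ => (q.1 - q.2, q.2)) (y, 0) := fun y =>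
    (analyticAt_fst.sub analyticAt_snd).prod analyticAt_snd
  have m2 : ∀ y : ℂ, AnalyticAt ℂ (fun q : ℂ × ℂ => (q.1 + q.2, q.2)) (y, 0) := fun y =>
    (analyticAt_fst.add analyticAt_snd).prod analyticAt_snd
  have m3 : ∀ y : ℂ, AnalyticAt ℂ (fun q : ℂ × ℂ => (y + q.1, q.2)) 0 := fun y =>
    (analyticAt_const.add analyticAt_fst).prod analyticAt_snd
  have hK : IsPreconnected ((fun t : ℝ => ((c : ℂ) + t * I, (0 : ℂ))) '' Icc 0 s) :=
    isPreconnected_Icc.image _ (by fun_prop)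
  have hF : AnalyticOnNhd ℂ F ((fun t : ℝ => ((c : ℂ) + t * I, (0 : ℂ))) '' Icc 0 s) := by
    rintro _ ⟨t, ht, rfl⟩
    have hm := seg_mem (c := c) hκ ht.1 ht.2
    have a1 := a ((c : ℂ) + t * I, 0) ⟨hm, mem_ball_self hκ⟩
    exact cmp (hE t ht).an ((cmp a1 (m1 _) (by simp)).prod (a1.prod (cmp a1 (m2 _) (by simp))))
      (by simp [z0 _ hm])
  have h0 : F =ᶠ[𝓝 ((c : ℂ) + (0 : ℝ) * I, (0 : ℂ))] 0 := by
    have m4 : AnalyticAt ℂ (fun q : ℂ × ℂ => (q.1 - c, q.2)) (c, 0) :=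
      (analyticAt_fst.sub analyticAt_const).prod analyticAt_snd
    simp only [ofReal_zero, zero_mul, add_zero]
    filter_upwards [(tend m4 (q := 0) (by simp)).eventually sY, e,
      (tend (m1 c) (q := ((c : ℂ), 0)) (by simp)).eventually e,
      (tend (m2 c) (q := ((c : ℂ), 0)) (by simp)).eventually e] with q h1 h2 h3 h4
    simp only [F, h2, h3, h4, Pi.zero_apply]
    have e1 : (c : ℂ) + (q.1 - c - q.2) = q.1 - q.2 := by ring
    have e2 : (c : ℂ) + (q.1 - c + q.2) = q.1 + q.2 := by ring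
    have e3 : (c : ℂ) + (q.1 - c) = q.1 := by ring
    simp only [e1, e2, e3] at h1
    exact h1
  have h1 := ev_zero_of_conn hK hF ⟨0, left_mem_Icc.2 hs, rfl⟩ h0 _ ⟨s, right_mem_Icc.2 hs, rfl⟩
  filter_upwards [(tend (m3 (c + s * I)) (q := ((c : ℂ) + s * I, 0)) (by simp)).eventually h1]
    with p hp
  simp only [F, Pi.zero_apply] at hp
  simp only [← add_sub_assoc, ← add_assoc]
  exact hp

theorem der_one {Y : ℂ × ℂ → ℂ} {y : ℂ} (a : AnalyticAt ℂ Y 0)
    (e : ∀ᶠ z in 𝓝 (0 : ℂ), Y (z, 0) = y + z) : fderiv ℂ Y 0 (1, 0) = 1 :=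
  (hd1 (a := 0) (b := 0) a.differentiableAt).unique
    (((hasDerivAt_id (0 : ℂ)).const_add y).congr_of_eventuallyEq e)

/-- near an integrable point every normal form extends to a disc of fixed radius -/
theorem loc_ext {E : ℂ × ℂ × ℂ → ℂ} {y₀ : ℂ} (h : IntLaw E y₀) :
    ∃ δ ρ : ℝ, 0 < δ ∧ 0 < ρ ∧ ∀ y ∈ ball y₀ δ, IsLaw E y → ∀ Y : ℂ × ℂ → ℂ,
      AnalyticAt ℂ Y (y, 0) → (∀ᶠ z in 𝓝 y, Y (z, 0) = z) →
      Solves E (fun p => Y (y + p.1, p.2)) →
      ∃ (κ : ℝ) (G : ℂ × ℂ → ℂ), 0 < κ ∧ AnalyticOnNhd ℂ G (ball y ρ ×ˢ ball 0 κ) ∧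
        G =ᶠ[𝓝 (y, 0)] Y := by
  obtain ⟨Θ, aΘ, Θ0, dΘ, sΘ⟩ := h
  set a := fderiv ℂ Θ 0 (1, 0) with ha
  have ap : 0 < ‖a‖ := norm_pos_iff.2 dΘ
  have c1 : ContinuousAt (fun p => ‖fderiv ℂ Θ p (1, 0)‖) 0 :=
    (((ContinuousLinearMap.apply ℂ ℂ ((1 : ℂ), (0 : ℂ))).continuous.continuousAt).comp
      aΘ.fderiv.continuousAt).norm
  obtain ⟨r, r0, hr⟩ := Metric.eventually_nhds_iff_ball.1 (aΘ.eventually_analyticAt.and
    ((eventually_eventually_nhds.2 sΘ).and (c1.eventually (lt_mem_nhds (half_lt_self ap)))))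
  have dT := hd1 (a := 0) (b := 0) aΘ.differentiableAt
  have aτ : AnalyticAt ℂ (fun η => Θ (η, 0)) 0 := cmp aΘ (analyticAt_id.prod analyticAt_const) rfl
  have k := aτ.hasStrictDerivAt.map_nhds_eq (by rw [dT.deriv]; exact dΘ)
  have k2 : (fun η => Θ (η, 0)) '' ball 0 (r / 4) ∈ 𝓝 y₀ := by
    rw [← Θ0]
    exact k ▸ image_mem_map (ball_mem_nhds _ (by positivity))
  obtain ⟨δ, δ0, hδ⟩ := Metric.mem_nhds_iff.1 k2
  refine ⟨δ, r / 4 * (‖a‖ / 3), δ0, by positivity, fun y hy hE Y aY eY sY => ?_⟩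
  obtain ⟨η, hη, rfl⟩ := hδ hy
  rw [mem_ball_zero_iff] at hη
  have hη' : ((η, 0) : ℂ × ℂ) ∈ ball (0 : ℂ × ℂ) r := by
    rw [mem_ball_zero_iff, Prod.norm_mk, norm_zero]
    exact max_lt (by linarith) r0
  obtain ⟨b1, b2, b3⟩ := hr _ hη'
  have m3 : ∀ y : ℂ, AnalyticAt ℂ (fun q : ℂ × ℂ => (y + q.1, q.2)) 0 := fun y =>
    (analyticAt_const.add analyticAt_fst).prod analyticAt_snd
  have aΘ' : AnalyticAt ℂ (fun q : ℂ × ℂ => Θ (η + q.1, q.2)) 0 := cmp b1 (m3 η) (by simp)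
  have dΘ' : fderiv ℂ (fun q : ℂ × ℂ => Θ (η + q.1, q.2)) 0 (1, 0) = fderiv ℂ Θ (η, 0) (1, 0) := by
    have h1 := (hd1 b1.differentiableAt)
    rw [show η = η + 0 by simp] at h1
    have h2 := h1.comp_const_add η 0
    have h3 := (hd1 (a := 0) (b := 0) aΘ'.differentiableAt).unique h2
    rwa [add_zero] at h3
  have aY' : AnalyticAt ℂ (fun q : ℂ × ℂ => Y (Θ (η, 0) + q.1, q.2)) 0 := cmp aY (m3 _) (by simp)
  have eY' : ∀ᶠ z in 𝓝 (0 : ℂ), Y (Θ (η, 0) + z, 0) = Θ (η, 0) + z :=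
    (tend (f := fun z : ℂ => Θ (η, 0) + z) (analyticAt_const.add analyticAt_id)
      (by simp)).eventually eY
  obtain ⟨l, m, al, am, l0, m0, e⟩ := match' E _ _ _ hE aΘ' (by simp)
    (by rw [dΘ']; exact norm_pos_iff.1 ((half_pos ap).trans b3))
    (by filter_upwards [(tend (m3 η) (q := (η, 0)) (by simp)).eventually b2] with p hp
        simp only [← add_sub_assoc, ← add_assoc]
        exact hp)
    aY' (by simpa using eY.self_of_nhds) (by rw [der_one aY' eY']; exact one_ne_zero) sY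
  have l1 : fderiv ℂ Θ (η, 0) (1, 0) * l 0 = 1 := by
    have h1 := hd1 b1.differentiableAt
    rw [show η = η + l 0 * 0 by simp] at h1
    have h2 := h1.comp 0 (((hasDerivAt_id (0 : ℂ)).const_mul (l 0)).const_add η)
    have h3 := h2.unique (((hasDerivAt_id (0 : ℂ)).const_add (Θ (η, 0))).congr_of_eventuallyEq (by
      filter_upwards [eY', (tend (f := fun z : ℂ => (z, (0 : ℂ)))
        (analyticAt_id.prod analyticAt_const) (q := 0) rfl).eventually e] with z h4 h5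
      simp only [m0, zero_add, mul_zero] at h5
      simp [← h5, h4]))
    simpa using h3
  have l2 : ‖l 0‖ < 3 / ‖a‖ := by
    have h1 := congrArg norm l1
    rw [norm_mul, norm_one] at h1
    rw [lt_div_iff₀ ap]
    nlinarith [norm_nonneg (l 0), norm_pos_iff.2 l0]
  have c2 : ContinuousAt (fun v => ‖l v * v‖) 0 := (al.continuousAt.mul continuousAt_id).norm
  obtain ⟨κ, κ0, hκ⟩ := Metric.eventually_nhds_iff_ball.1
    ((al.eventually_analyticAt.and am.eventually_analyticAt).and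
      ((al.continuousAt.norm.eventually (gt_mem_nhds l2)).and
        ((am.continuousAt.norm.eventually (gt_mem_nhds (show ‖m 0‖ < r / 4 by
          rw [m0, norm_zero]; positivity))).and
          (c2.eventually (gt_mem_nhds (show ‖l 0 * 0‖ < r by simpa using r0))))))
  refine ⟨κ, fun q => Θ (η + (m q.2 + l q.2 * (q.1 - Θ (η, 0))), l q.2 * q.2), κ0, ?_, ?_⟩
  · rintro ⟨z, v⟩ ⟨hz, hv⟩
    obtain ⟨⟨d1, d2⟩, d3, d4, d5⟩ := hκ v hv
    rw [mem_ball, dist_eq_norm] at hz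
    have d6 : ‖l v * (z - Θ (η, 0))‖ ≤ r / 4 := by
      rw [norm_mul]
      calc ‖l v‖ * ‖z - Θ (η, 0)‖ ≤ 3 / ‖a‖ * (r / 4 * (‖a‖ / 3)) :=
            mul_le_mul d3.le hz.le (norm_nonneg _) (by positivity)
        _ = r / 4 := by field_simp
    refine cmp (hr (η + (m v + l v * (z - Θ (η, 0))), l v * v) ?_).1
      ((analyticAt_const.add ((cmp d2 analyticAt_snd rfl).add ((cmp d1 analyticAt_snd rfl).mul
        (analyticAt_fst.sub analyticAt_const)))).prod
        ((cmp d1 analyticAt_snd rfl).mul analyticAt_snd)) rfl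
    rw [mem_ball_zero_iff, Prod.norm_mk]
    refine max_lt ?_ d5
    have := norm_add_le η (m v + l v * (z - Θ (η, 0)))
    have := norm_add_le (m v) (l v * (z - Θ (η, 0)))
    linarith
  · have m4 : AnalyticAt ℂ (fun q : ℂ × ℂ => (q.1 - Θ (η, 0), q.2)) (Θ (η, 0), 0) :=
      (analyticAt_fst.sub analyticAt_const).prod analyticAt_snd
    filter_upwards [(tend m4 (q := 0) (by simp)).eventually e] with q hq
    simpa using hq.symm

theorem cont : Spec_CONT := by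
  intro E c T Y hT hE aY eY sY
  have hint : ∀ s ∈ Icc 0 T, IntLaw E (c + s * I) := by
    have ho : IsOpen {x | IsLaw E x} := isOpen_iff_mem_nhds.2 fun x hx => by
      have h1 := (lawf.1 _ 0 x (lawf.2 E 0 x hx)).1
      filter_upwards [(tend (f := fun z : ℂ => ((0 : ℂ), z))
        (analyticAt_const.prod analyticAt_id) rfl).eventually h1] with z hz
      exact (lawf.1 _ _ _ hz).2
    have hK : IsPreconnected ((fun t : ℝ => (c : ℂ) + t * I) '' Icc 0 T) :=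
      isPreconnected_Icc.image _ (by fun_prop)
    have h0 : (c : ℂ) ∈ (fun t : ℝ => (c : ℂ) + t * I) '' Icc 0 T :=
      ⟨0, left_mem_Icc.2 hT, by simp⟩
    have hs := hK.subset_connectedComponentIn (F := {x | IsLaw E x}) h0
      (by rintro _ ⟨t, ht, rfl⟩; exact hE t ht)
    have aY' : AnalyticAt ℂ (fun q : ℂ × ℂ => Y (c + q.1, q.2)) 0 :=
      cmp aY ((analyticAt_const.add analyticAt_fst).prod analyticAt_snd) (by simp)
    intro s hs'
    refine prop' E _ ho.connectedComponentIn isPreconnected_connectedComponentIn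
      (fun x hx => connectedComponentIn_subset {x | IsLaw E x} c hx) c (hs h0)
      ⟨_, aY', by simpa using eY.self_of_nhds, ?_, sY⟩ _ (hs ⟨s, hs', rfl⟩)
    rw [der_one (y := c) aY' ((tend (f := fun z : ℂ => (c : ℂ) + z)
      (analyticAt_const.add analyticAt_id) (by simp)).eventually eY)]
    exact one_ne_zero
  have base : Pc c Y 0 := by
    obtain ⟨r, r0, hr⟩ := Metric.eventually_nhds_iff_ball.1 aY.eventually_analyticAt
    obtain ⟨r', r1, hr'⟩ := Metric.eventually_nhds_iff_ball.1 eY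
    have hb : ∀ z ∈ Rc c (min r r' / 2) 0, dist z c < min r r' := fun z hz => by
      rw [dist_eq_norm]
      refine (norm_le_abs_re_add_abs_im _).trans_lt ?_
      have h1 : |z.im| < min r r' / 2 := abs_lt.2 ⟨hz.2.1, by simpa using hz.2.2⟩
      have h2 := hz.1
      simp only [sub_re, ofReal_re, sub_im, ofReal_im, sub_zero]
      linarith
    refine ⟨min r r' / 2, Y, half_pos (lt_min r0 r1), ?_, EventuallyEq.rfl, fun z hz =>
      hr' z ((hb z hz).trans_le (min_le_right _ _))⟩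
    rintro ⟨z, v⟩ ⟨hz, hv⟩
    refine hr _ ?_
    rw [← ball_prod_same]
    exact ⟨(hb z hz).trans_le (min_le_left _ _), ball_subset_ball
      ((half_le_self (lt_min r0 r1).le).trans (min_le_left _ _)) hv⟩
  have step : ∀ s₀ ∈ Icc 0 T, ∃ δ : ℝ, 0 < δ ∧ ∀ s ∈ Icc 0 T, |s - s₀| < δ → Pc c Y s →
      ∀ s' ≤ s₀ + δ, Pc c Y s' := by
    intro s₀ hs₀
    obtain ⟨δ, ρ, δ0, ρ0, hδ⟩ := loc_ext (hint s₀ hs₀)
    refine ⟨min δ (ρ / 4), lt_min δ0 (by positivity), ?_⟩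
    rintro s hs h1 ⟨κ, Y', κ0, a, e, z0⟩ s' h2
    have hm := seg_mem (c := c) κ0 hs.1 le_rfl
    obtain ⟨κ', G, κ1, aG, eG⟩ := hδ (c + s * I) (by
        rw [mem_ball, dist_eq_norm, add_sub_add_left_eq_sub, ← sub_mul, norm_mul, norm_I, mul_one,
          ← ofReal_sub, norm_real]
        exact h1.trans_le (min_le_left _ _)) (hE s hs) Y' (a _ ⟨hm, mem_ball_self κ0⟩)
      (by filter_upwards [(isOpen_Rc c κ s).mem_nhds hm] with z hz using z0 z hz)
      (solves_seg hs.1 κ0 (fun t ht => hE t ⟨ht.1, ht.2.trans hs.2⟩) sY a e z0)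
    set k := min (min κ κ') (ρ / 4) with hk
    have k0 : 0 < k := lt_min (lt_min κ0 κ1) (by positivity)
    have k1 : k ≤ κ := (min_le_left _ _).trans (min_le_left _ _)
    have k2 : k ≤ κ' := (min_le_left _ _).trans (min_le_right _ _)
    have k3 : k ≤ ρ / 4 := min_le_right _ _
    have agree : EqOn G Y' ((Rc c κ s ∩ ball ((c : ℂ) + s * I) ρ) ×ˢ ball 0 k) :=
      (aG.mono (prod_mono inter_subset_right (ball_subset_ball k2))).eqOn_of_preconnected_of_eventuallyEq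
        (a.mono (prod_mono inter_subset_left (ball_subset_ball k1)))
        (((convex_Rc c κ s).inter (convex_ball _ _)).prod (convex_ball _ _)).isPreconnected
        (z₀ := ((c : ℂ) + s * I, 0)) ⟨⟨hm, mem_ball_self ρ0⟩, mem_ball_self k0⟩ eG
    have G0 : EqOn (fun z => G (z, 0)) id (ball ((c : ℂ) + s * I) ρ) := by
      refine AnalyticOnNhd.eqOn_of_preconnected_of_eventuallyEq (𝕜 := ℂ)
        (fun z hz => cmp (aG (z, 0) ⟨hz, mem_ball_self κ1⟩) (analyticAt_id.prod analyticAt_const) rfl)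
        (fun z _ => analyticAt_id) (convex_ball _ _).isPreconnected (mem_ball_self ρ0) ?_
      filter_upwards [(isOpen_Rc c κ s).mem_nhds hm, ball_mem_nhds _ ρ0] with z h3 h4
      exact (agree (x := (z, 0)) ⟨⟨h3, h4⟩, mem_ball_self k0⟩).trans (z0 z h3)
    have cover : ∀ z ∈ Rc c k s', z ∉ Rc c κ s → z ∈ ball ((c : ℂ) + s * I) ρ := by
      intro z hz hn
      have h3 : s + κ ≤ z.im := by
        by_contra h3
        exact hn ⟨hz.1.trans_le k1, by linarith [hz.2.1], not_le.1 h3⟩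
      have h4 := (abs_lt.1 (h1.trans_le (min_le_right _ _))).1
      have h5 := min_le_right δ (ρ / 4)
      have h6 := hz.2.2
      have h7 := hz.1
      rw [mem_ball, dist_eq_norm]
      refine (norm_le_abs_re_add_abs_im _).trans_lt ?_
      have h8 : (z - (c + s * I)).re = z.re - c := by simp
      have h9 : (z - (c + s * I)).im = z.im - s := by simp
      rw [h8, h9, abs_of_nonneg (by linarith : 0 ≤ z.im - s)]
      linarith
    classical
    refine ⟨k, fun q => if q.1 ∈ Rc c κ s then Y' q else G q, k0, ?_, ?_, ?_⟩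
    · rintro ⟨z, v⟩ ⟨hz, hv⟩
      by_cases h3 : z ∈ Rc c κ s
      · refine (a (z, v) ⟨h3, ball_subset_ball k1 hv⟩).congr ?_
        filter_upwards [continuous_fst.continuousAt.eventually ((isOpen_Rc c κ s).mem_nhds h3)]
          with q hq
        exact (if_pos hq).symm
      · have h4 := cover z hz h3
        refine (aG (z, v) ⟨h4, ball_subset_ball k2 hv⟩).congr ?_
        filter_upwards [(isOpen_ball.prod isOpen_ball).mem_nhds
          (show (z, v) ∈ ball ((c : ℂ) + s * I) ρ ×ˢ ball (0 : ℂ) k from ⟨h4, hv⟩)] with q hq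
        split_ifs with h5
        · exact agree ⟨⟨h5, hq.1⟩, hq.2⟩
        · rfl
    · have h3 : (c : ℂ) ∈ Rc c κ s := by simpa using seg_mem (c := c) κ0 le_rfl hs.1
      filter_upwards [e, continuous_fst.continuousAt.eventually
        ((isOpen_Rc c κ s).mem_nhds (x := ((c : ℂ), (0 : ℂ)).1) h3)] with q h4 h5
      exact (if_pos h5).trans h4
    · intro z hz
      by_cases h3 : z ∈ Rc c κ s
      · exact (if_pos h3).trans (z0 z h3)
      · exact (if_neg h3).trans (G0 (cover z hz h3))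
  have fin : Pc c Y T := by
    let A : Set ℝ := {s | s ∈ Icc 0 T ∧ Pc c Y s}
    have hne : A.Nonempty := ⟨0, left_mem_Icc.2 hT, base⟩
    have hbd : BddAbove A := ⟨T, fun s hs => hs.1.2⟩
    have h1 : sSup A ∈ Icc 0 T :=
      ⟨le_csSup hbd ⟨left_mem_Icc.2 hT, base⟩, csSup_le hne fun s hs => hs.1.2⟩
    obtain ⟨δ, δ0, hδ⟩ := step _ h1
    obtain ⟨s, hs, h2⟩ := exists_lt_of_lt_csSup hne (sub_lt_self (sSup A) δ0)
    have h3 := le_csSup hbd hs
    have h4 := hδ s hs.1 (abs_lt.2 ⟨by linarith, by linarith⟩) hs.2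
    by_cases h5 : T ≤ sSup A + δ
    · exact h4 T h5
    · have h6 := le_csSup hbd (show sSup A + δ ∈ A from
        ⟨⟨by linarith [h1.1], (not_le.1 h5).le⟩, h4 _ le_rfl⟩)
      linarith
  obtain ⟨κ, Y', κ0, a, e, z0⟩ := fin
  exact ⟨κ, Y', κ0, a, e, fun z h1 h2 h3 => z0 z ⟨h1, h2, h3⟩⟩

end Vale.Agent.P097T.Out
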