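import Vale.Agent.P097T.ExtDefs
import Vale.Agent.P097T.GermDefs
import Vale.Agent.P097A.Defs

/-!
# P097T: the continuation theorem T3 (statements)
-/

set_option linter.all false

noncomputable section

namespace Vale.Agent.P097T.Out

open Filter Topology Set Metric Complex
open Vale.Agent.P097T.Gm Vale.Agent.P097A

/-- All jets of the line `L` along the leaf `w` extend meromorphically to `U`. -/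
def LJ (h : ℝ → ℝ) (ψ δ : ℝ × ℝ → ℝ) (U : Set ℂ) (w : ℝ) : Prop :=
  Jets U (la ψ δ) w ∧ Jets U (lb h ψ δ) w

/-- The vertex of the phase point `(x, w)`. -/
def vZ (h : ℝ → ℝ) (ψ : ℝ × ℝ → ℝ) (q : ℝ × ℝ) : ℂ := P097.bdry h (ψ q)

/-- Its conjugate. -/
def vW (h : ℝ → ℝ) (ψ : ℝ × ℝ → ℝ) (q : ℝ × ℝ) : ℂ := (starRingEnd ℂ) (vZ h ψ q)

/-- one step: the jets extend across every point of the top line -/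
def Spec_U1 : Prop := ∀ (h : ℝ → ℝ) (ε : ℝ) (ψ δ : ℝ × ℝ → ℝ), NF h ε ψ δ →
  ∃ N : Set ℝ, N.Countable ∧ ∀ w ∉ N, |w| < ε → ∀ c κ t T : ℝ, 0 < κ → 0 < t → t < T →
    LJ h ψ δ (Bx c κ T) w → LJ h ψ δ (Hs t) w →
    ∀ y : ℂ, y.im = t → ∃ ρ : ℝ, 0 < ρ ∧ LJ h ψ δ (Hs t ∪ ball y ρ) w

/-- the leaf theorem: from one column to the whole strip -/
def Spec_T3L : Prop := ∀ (h : ℝ → ℝ) (ε : ℝ) (ψ δ : ℝ × ℝ → ℝ), NF h ε ψ δ →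
  ∃ N : Set ℝ, N.Countable ∧ ∀ w ∉ N, |w| < ε → ∀ c κ T : ℝ, 0 < κ →
    LJ h ψ δ (Bx c κ T) w → LJ h ψ δ (Hs T) w

/-- the vertex is the intersection of two consecutive lines; periodicity and analyticity -/
def Spec_VERT : Prop := ∀ (h : ℝ → ℝ) (ε : ℝ) (ψ δ : ℝ × ℝ → ℝ), NF h ε ψ δ →
  An ε (vZ h ψ) ∧ An ε (vW h ψ) ∧
  (∀ q ∈ Lam ε, la ψ δ (q.1 + 1, q.2) = la ψ δ q ∧ lb h ψ δ (q.1 + 1, q.2) = lb h ψ δ q ∧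
    vZ h ψ (q.1 + 1, q.2) = vZ h ψ q ∧ vW h ψ (q.1 + 1, q.2) = vW h ψ q) ∧
  (∀ x w : ℝ, |w| < ε →
    vZ h ψ (x, w) = la ψ δ (x + w / 2, w) * vW h ψ (x, w) + lb h ψ δ (x + w / 2, w) ∧
    vZ h ψ (x, w) = la ψ δ (x - w / 2, w) * vW h ψ (x, w) + lb h ψ δ (x - w / 2, w)) ∧
  (∃ x w : ℝ, |w| < ε ∧ la ψ δ (x + w / 2, w) ≠ la ψ δ (x - w / 2, w)) ∧
  ∀ x w : ℝ, |w| < ε → w ≠ 0 → vW h ψ (x + w / 2, w) ≠ vW h ψ (x - w / 2, w)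

/-- T3 at an arbitrary leaf -/
def Spec_T3w : Prop := ∀ (h : ℝ → ℝ) (ε : ℝ) (ψ δ : ℝ × ℝ → ℝ), NF h ε ψ δ →
  ∀ c κ T w₀ : ℝ, 0 < κ → |w₀| < ε → Col (la ψ δ) c κ T w₀ → Col (lb h ψ δ) c κ T w₀ →
    Ext (Hs T) (fun x => la ψ δ (x, w₀)) ∧ Ext (Hs T) (fun x => lb h ψ δ (x, w₀)) ∧
    Ext (Hs T) (fun x => vZ h ψ (x, w₀)) ∧ Ext (Hs T) (fun x => vW h ψ (x, w₀))

/-- two normal forms of a law differ by a gauge transformation -/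
def Spec_MATCH : Prop := ∀ (E : ℂ × ℂ × ℂ → ℂ) (y : ℂ) (Θ Y : ℂ × ℂ → ℂ), IsLaw E y →
  AnalyticAt ℂ Θ 0 → Θ 0 = y → fderiv ℂ Θ 0 (1, 0) ≠ 0 → Solves E Θ →
  AnalyticAt ℂ Y 0 → Y 0 = y → fderiv ℂ Y 0 (1, 0) ≠ 0 → Solves E Y →
  ∃ l m : ℂ → ℂ, AnalyticAt ℂ l 0 ∧ AnalyticAt ℂ m 0 ∧ l 0 ≠ 0 ∧ m 0 = 0 ∧
    ∀ᶠ p in 𝓝 (0 : ℂ × ℂ), Y p = Θ (m p.2 + l p.2 * p.1, l p.2 * p.2)

/-- the normal form continues along a vertical segment of ordinary points -/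
def Spec_CONT : Prop := ∀ (E : ℂ × ℂ × ℂ → ℂ) (c T : ℝ) (Y : ℂ × ℂ → ℂ), 0 ≤ T →
  (∀ s ∈ Icc 0 T, IsLaw E (c + s * I)) → AnalyticAt ℂ Y (c, 0) →
  (∀ᶠ z in 𝓝 (c : ℂ), Y (z, 0) = z) → Solves E (fun p => Y (c + p.1, p.2)) →
  ∃ (κ : ℝ) (Y' : ℂ × ℂ → ℂ), 0 < κ ∧
    AnalyticOnNhd ℂ Y' ({z | |z.re - c| < κ ∧ -κ < z.im ∧ z.im < T + κ} ×ˢ ball 0 κ) ∧
    Y' =ᶠ[𝓝 ((c : ℂ), (0 : ℂ))] Y ∧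
    ∀ z : ℂ, |z.re - c| < κ → -κ < z.im → z.im < T + κ → Y' (z, 0) = z

/-- the normal form at a real point, in the parameter `x` of the boundary leaf -/
def Spec_Y0 : Prop := ∀ (h : ℝ → ℝ) (ε : ℝ) (ψ δ : ℝ × ℝ → ℝ), NF h ε ψ δ →
  ∀ (c : ℝ) (Z W : ℂ → ℂ), Reg Z W c →
    (∀ᶠ x : ℝ in 𝓝 c, Z x = vZ h ψ (x, 0) ∧ W x = vW h ψ (x, 0)) →
    ∃ Y : ℂ × ℂ → ℂ, AnalyticAt ℂ Y (c, 0) ∧ (∀ᶠ z in 𝓝 (c : ℂ), Y (z, 0) = z) ∧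
      Solves (lawZ Z W) (fun p => Y (c + p.1, p.2)) ∧
      ∀ᶠ q : ℝ × ℝ in 𝓝 (c, 0), Z (Y (q.1, q.2)) = vZ h ψ q ∧ W (Y (q.1, q.2)) = vW h ψ q

/-- a column of ordinary points of the curve gives a column for the lines -/
def Spec_COL0 : Prop := ∀ (h : ℝ → ℝ) (ε : ℝ) (ψ δ : ℝ × ℝ → ℝ), NF h ε ψ δ →
  ∀ (c T : ℝ) (Z W : ℂ → ℂ), 0 ≤ T → (∀ s ∈ Icc 0 T, Reg Z W (c + s * I)) →
    (∀ᶠ x : ℝ in 𝓝 c, Z x = vZ h ψ (x, 0) ∧ W x = vW h ψ (x, 0)) →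
    ∃ κ : ℝ, 0 < κ ∧ Col (la ψ δ) c κ (T + κ) 0 ∧ Col (lb h ψ δ) c κ (T + κ) 0

/-- T3, column form -/
def Spec_T3c : Prop := ∀ (h : ℝ → ℝ) (ε : ℝ) (ψ δ : ℝ × ℝ → ℝ), NF h ε ψ δ →
  ∀ (c T : ℝ) (Z W : ℂ → ℂ), 0 ≤ T → (∀ s ∈ Icc 0 T, Reg Z W (c + s * I)) →
    (∀ᶠ x : ℝ in 𝓝 c, Z x = vZ h ψ (x, 0) ∧ W x = vW h ψ (x, 0)) →
    ∃ (T' : ℝ) (Z' W' : ℂ → ℂ), T < T' ∧ MeromorphicOn Z' {z | |z.im| < T'} ∧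
      MeromorphicOn W' {z | |z.im| < T'} ∧ ∀ x : ℝ, Z' x = vZ h ψ (x, 0) ∧ W' x = vW h ψ (x, 0)

/-- a meromorphic continuation of the curve is ordinary off a countable set -/
def Spec_SEL : Prop := ∀ (h : ℝ → ℝ) (ε : ℝ) (ψ δ : ℝ × ℝ → ℝ), NF h ε ψ δ →
  ∀ (U : Set ℂ) (Z W : ℂ → ℂ), IsOpen U → IsPreconnected U → (∀ x : ℝ, (x : ℂ) ∈ U) →
    MeromorphicOn Z U → MeromorphicOn W U →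
    (∀ x : ℝ, Z x = vZ h ψ (x, 0) ∧ W x = vW h ψ (x, 0)) → {z ∈ U | ¬Reg Z W z}.Countable

/-- T3: one regular point on the top line of a strip of meromorphy moves the line up -/
def Spec_T3 : Prop := ∀ (h : ℝ → ℝ) (ε : ℝ) (ψ δ : ℝ × ℝ → ℝ), NF h ε ψ δ →
  ∀ (r ρ : ℝ) (y₀ : ℂ) (Z W : ℂ → ℂ), 0 < r → 0 < ρ → y₀.im = r →
    MeromorphicOn Z ({z | |z.im| < r} ∪ ball y₀ ρ) → MeromorphicOn W ({z | |z.im| < r} ∪ ball y₀ ρ) →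
    (∀ x : ℝ, Z x = vZ h ψ (x, 0) ∧ W x = vW h ψ (x, 0)) →
    ∃ (r' : ℝ) (Z' W' : ℂ → ℂ), r < r' ∧ MeromorphicOn Z' {z | |z.im| < r'} ∧
      MeromorphicOn W' {z | |z.im| < r'} ∧ ∀ x : ℝ, Z' x = vZ h ψ (x, 0) ∧ W' x = vW h ψ (x, 0)

end Vale.Agent.P097T.Out
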