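import Vale.Agent.P097T.OutDefs
import Vale.Agent.P097A.All

/-!
# P097T: two normal forms of a law differ by a gauge transformation (`Out.Spec_MATCH`)
-/

set_option linter.all false

noncomputable section

namespace Vale.Agent.P097T.Out

open Filter Topology Set Metric Complex Vale.Agent.P097A Vale.Agent.P097A.Gauge

theorem match' : Spec_MATCH := by
  intro E y Θ Y hE aΘ Θ0 dΘ sΘ aY Y0 dY sY
  have s1 : AnalyticAt ℂ (fun q : ℂ × ℂ => (q.1 + q.2, q.2)) 0 :=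
    (analyticAt_fst.add analyticAt_snd).prod analyticAt_snd
  have aΘ' : AnalyticAt ℂ (fun q : ℂ × ℂ => Θ (q.1 + q.2, q.2)) 0 := cmp aΘ s1 (by simp)
  let S : ℂ × ℂ →L[ℂ] ℂ × ℂ :=
    (ContinuousLinearMap.fst ℂ ℂ ℂ + ContinuousLinearMap.snd ℂ ℂ ℂ).prod
      (ContinuousLinearMap.snd ℂ ℂ ℂ)
  have dS : HasFDerivAt (fun q : ℂ × ℂ => Θ (q.1 + q.2, q.2)) ((fderiv ℂ Θ 0).comp S) 0 := by
    have h1 : HasFDerivAt Θ (fderiv ℂ Θ 0) (S 0) := by
      rw [map_zero]; exact aΘ.differentiableAt.hasFDerivAt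
    exact h1.comp 0 S.hasFDerivAt
  let L : ℂ × ℂ →L[ℂ] ℂ × ℂ := (fderiv ℂ Θ 0).prod ((fderiv ℂ Θ 0).comp S)
  have hk : LinearMap.ker (L : ℂ × ℂ →ₗ[ℂ] ℂ × ℂ) = ⊥ := by
    rw [LinearMap.ker_eq_bot']
    rintro ⟨u, v⟩ huv
    have h1 : fderiv ℂ Θ 0 (u, v) = 0 := congrArg Prod.fst huv
    have h2 : fderiv ℂ Θ 0 (u + v, v) = 0 := congrArg Prod.snd huv
    rw [show (u + v, v) = (u, v) + v • ((1 : ℂ), (0 : ℂ)) by simp, map_add, h1, map_smul,
      smul_eq_mul, zero_add] at h2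
    obtain rfl := (mul_eq_zero.1 h2).resolve_right dΘ
    rw [show (u, (0 : ℂ)) = u • ((1 : ℂ), (0 : ℂ)) by simp, map_smul, smul_eq_mul] at h1
    simp [(mul_eq_zero.1 h1).resolve_right dΘ]
  let i := ContinuousLinearEquiv.ofBijective L hk (LinearMap.ker_eq_bot_iff_range_eq_top.1 hk)
  have hG : AnalyticAt ℂ (fun q : ℂ × ℂ => (Θ q, Θ (q.1 + q.2, q.2))) 0 := aΘ.prod aΘ'
  have hd : HasFDerivAt (fun q : ℂ × ℂ => (Θ q, Θ (q.1 + q.2, q.2)))
      (i : ℂ × ℂ →L[ℂ] ℂ × ℂ) 0 := aΘ.differentiableAt.hasFDerivAt.prodMk dS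
  have hc : ContDiffAt ℂ ⊤ (fun q : ℂ × ℂ => (Θ q, Θ (q.1 + q.2, q.2))) 0 := hG.contDiffAt
  have hs := hc.hasStrictFDerivAt' hd (by simp)
  have G0 : (Θ 0, Θ ((0 : ℂ × ℂ).1 + (0 : ℂ × ℂ).2, (0 : ℂ × ℂ).2)) = (y, y) := by
    simp only [Prod.fst_zero, Prod.snd_zero, add_zero]
    exact Prod.ext Θ0 Θ0
  obtain ⟨C, hC⟩ : ∃ C, C = hc.localInverse hd (by simp) := ⟨_, rfl⟩
  have aC : AnalyticAt ℂ C (y, y) := by
    rw [hC, ← G0]; exact (hc.to_localInverse hd (by simp)).analyticAt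
  have C0 : C (y, y) = 0 := by rw [hC, ← G0]; exact hc.localInverse_apply_image hd (by simp)
  have C1 : ∀ᶠ q in 𝓝 (y, y), (Θ (C q), Θ ((C q).1 + (C q).2, (C q).2)) = q := by
    rw [hC, ← G0]; exact hs.eventually_right_inverse
  have a1 : AnalyticAt ℂ (fun v : ℂ => Y (0, v)) 0 :=
    cmp aY (analyticAt_const.prod analyticAt_id) rfl
  have a2 : AnalyticAt ℂ (fun v : ℂ => Y (v, v)) 0 :=
    cmp aY (analyticAt_id.prod analyticAt_id) rfl
  have e12 : (Y (0, 0), Y (0, 0)) = (y, y) := Prod.ext Y0 Y0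
  obtain ⟨c, hcd⟩ : ∃ c : ℂ → ℂ × ℂ, c = fun v => C (Y (0, v), Y (v, v)) := ⟨_, rfl⟩
  have ac : AnalyticAt ℂ c 0 := hcd ▸ cmp aC (a1.prod a2) e12
  have c0 : c 0 = 0 := by rw [hcd]; simp only [e12, C0]
  have c1 : ∀ᶠ v in 𝓝 (0 : ℂ), Θ (c v) = Y (0, v) ∧ Θ ((c v).1 + (c v).2, (c v).2) = Y (v, v) := by
    rw [hcd]
    filter_upwards [(tend (a1.prod a2) e12).eventually C1] with v hv
    exact ⟨congrArg Prod.fst hv, congrArg Prod.snd hv⟩
  have am : AnalyticAt ℂ (fun v => (c v).1) 0 := analyticAt_fst.comp ac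
  have au : AnalyticAt ℂ (fun v => (c v).2) 0 := analyticAt_snd.comp ac
  have u0 : (c 0).2 = 0 := by rw [c0]; rfl
  have m0 : (c 0).1 = 0 := by rw [c0]; rfl
  obtain ⟨l, hl⟩ : ∃ l, l = dslope (fun v => (c v).2) 0 := ⟨_, rfl⟩
  have al : AnalyticAt ℂ l 0 := by
    obtain ⟨p, hp⟩ := au
    exact hl ▸ ⟨_, hp.has_fpower_series_dslope_fslope⟩
  have ul : ∀ v, l v * v = (c v).2 := fun v => by
    have := sub_smul_dslope (fun v => (c v).2) 0 v
    rw [hl, mul_comm]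
    simpa [u0] using this
  have l0 : l 0 ≠ 0 := by
    intro h0
    rw [hl, dslope_same] at h0
    have d0 := ac.differentiableAt.hasDerivAt
    have d2 : (deriv c 0).2 = 0 := by
      exact ((hasFDerivAt_snd.comp_hasDerivAt 0 d0).deriv).symm.trans h0
    have hΘ : HasFDerivAt Θ (fderiv ℂ Θ 0) (c 0) := by
      rw [c0]; exact aΘ.differentiableAt.hasFDerivAt
    have hΘ' : HasFDerivAt (fun q : ℂ × ℂ => Θ (q.1 + q.2, q.2)) ((fderiv ℂ Θ 0).comp S)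
        (c 0) := by rw [c0]; exact dS
    have hY : HasFDerivAt Y (fderiv ℂ Y 0) (0, 0) := aY.differentiableAt.hasFDerivAt
    have k1 := (hΘ.comp_hasDerivAt 0 d0).unique
      ((hY.comp_hasDerivAt 0 ((hasDerivAt_const (0 : ℂ) (0 : ℂ)).prodMk
        (hasDerivAt_id (0 : ℂ)))).congr_of_eventuallyEq (c1.mono fun v hv => hv.1))
    have k2 := (hΘ'.comp_hasDerivAt 0 d0).unique
      ((HasFDerivAt.comp_hasDerivAt (f := fun v : ℂ => (v, v)) 0 hY ((hasDerivAt_id (0 : ℂ)).prodMk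
        (hasDerivAt_id (0 : ℂ)))).congr_of_eventuallyEq (c1.mono fun v hv => hv.2))
    have k3 : S (deriv c 0) = deriv c 0 := by
      ext <;> simp [S, d2]
    rw [ContinuousLinearMap.comp_apply, k3, k1,
      show ((1 : ℂ), (1 : ℂ)) = (0, 1) + (1, 0) by simp, map_add] at k2
    exact dY (by linear_combination -k2)
  have aT : AnalyticAt ℂ (fun p : ℂ × ℂ => ((c p.2).1 + l p.2 * p.1, l p.2 * p.2)) 0 :=
    ((cmp am analyticAt_snd rfl).add ((cmp al analyticAt_snd rfl).mul analyticAt_fst)).prod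
      ((cmp al analyticAt_snd rfl).mul analyticAt_snd)
  have T0 : (fun p : ℂ × ℂ => ((c p.2).1 + l p.2 * p.1, l p.2 * p.2)) 0 = 0 := by
    simp [m0]
  refine ⟨l, fun v => (c v).1, al, am, l0, m0, ?_⟩
  refine uniq lines E y Y (fun p => Θ ((c p.2).1 + l p.2 * p.1, l p.2 * p.2)) hE aY
    (cmp aΘ aT T0) Y0 (by rw [← Θ0]; exact congrArg Θ T0) sY ?_ ?_
  · filter_upwards [(tend aT T0).eventually sΘ] with p hp
    have e1 : (c p.2).1 + l p.2 * (p.1 - p.2) = (c p.2).1 + l p.2 * p.1 - l p.2 * p.2 := by ring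
    have e2 : (c p.2).1 + l p.2 * (p.1 + p.2) = (c p.2).1 + l p.2 * p.1 + l p.2 * p.2 := by ring
    simp only [e1, e2]
    exact hp
  · filter_upwards [c1] with v hv
    simp only [mul_zero, add_zero, ul]
    exact ⟨hv.1.symm, hv.2.symm⟩

end Vale.Agent.P097T.Out
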