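import Vale.Agent.P097T.ExtDefs

/-! P097T: small Hankel determinants give a recurrence. -/

set_option linter.all false

noncomputable section

namespace Vale.Agent.P097T.Out

open Filter Topology Set Metric Polynomial

namespace Pade

theorem small_vec {N : ℕ} (A : Matrix (Fin (N + 1)) (Fin (N + 1)) ℂ) {s : ℝ} (hs : 0 < s)
    (h : (N + 1).factorial * ‖A.det‖ < s ^ (N + 1)) :
    ∃ q : Fin (N + 1) → ℂ, ‖q‖ = 1 ∧ ‖A.mulVec q‖ ≤ s := by
  by_contra hq
  push Not at hq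
  have h1 : ∀ v : Fin (N + 1) → ℂ, s * ‖v‖ ≤ ‖A.mulVec v‖ := by
    intro v
    by_cases hv : v = 0
    · simp [hv]
    have hn : 0 < ‖v‖ := norm_pos_iff.2 hv
    have := hq ((‖v‖⁻¹ : ℝ) • v) (by rw [norm_smul]; simp [hn.ne'])
    rw [Matrix.mulVec_smul, norm_smul, norm_inv, norm_norm, ← div_eq_inv_mul, lt_div_iff₀ hn]
      at this
    exact this.le
  have h2 : A.det ≠ 0 := fun h0 => by
    obtain ⟨v, hv, hv'⟩ := Matrix.exists_mulVec_eq_zero_iff.2 h0
    have := h1 v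
    rw [hv', norm_zero] at this
    exact absurd (mul_pos hs (norm_pos_iff.2 hv)) (not_lt.2 this)
  have h3 : ∀ i j, ‖A⁻¹ i j‖ ≤ s⁻¹ := by
    intro i j
    have := h1 (A⁻¹.mulVec (Pi.single j 1))
    rw [Matrix.mulVec_mulVec, Matrix.mul_nonsing_inv _ (Ne.isUnit h2), Matrix.one_mulVec,
      Pi.norm_single, norm_one] at this
    have e := norm_le_pi_norm (A⁻¹.mulVec (Pi.single j 1)) i
    rw [Matrix.mulVec_single_one] at e this
    rw [← one_div s, le_div_iff₀ hs]
    change ‖A⁻¹ i j‖ ≤ _ at e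
    nlinarith
  have h4 := Matrix.det_le (A := A⁻¹) (abv := IsAbsoluteValue.toAbsoluteValue (norm : ℂ → ℝ)) h3
  replace h4 : ‖A⁻¹.det‖ ≤ _ := h4
  rw [Matrix.det_nonsing_inv, Ring.inverse_eq_inv', norm_inv, Fintype.card_fin, nsmul_eq_mul,
    inv_pow, ← div_eq_mul_inv, le_div_iff₀ (pow_pos hs _), ← div_eq_inv_mul,
    div_le_iff₀ (norm_pos_iff.2 h2)] at h4
  exact absurd h (not_lt.2 h4)

theorem low {r ε : ℝ} (hε : 0 < ε) (hε1 : ε ≤ 1) {z : ℂ} (hz : ‖z‖ = r) (m : ℕ) :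
    ∀ Q : ℂ[X], Q.natDegree ≤ m → (∀ ζ ∈ Q.roots, ε ≤ |r - ‖ζ‖|) →
      ∀ j, ‖Q.coeff j‖ ≤ ‖Q.eval z‖ * ((2 * r + 2) / ε) ^ m := by
  have hr : 0 ≤ r := hz ▸ norm_nonneg z
  have hK : 1 ≤ (2 * r + 2) / ε := by rw [le_div_iff₀ hε]; linarith
  have h0 : ∀ Q : ℂ[X], Q.natDegree = 0 → ∀ j, ‖Q.coeff j‖ ≤ ‖Q.eval z‖ := by
    intro Q hQ j
    rw [eq_C_of_natDegree_eq_zero hQ, coeff_C, eval_C]
    split_ifs <;> simp
  induction m with
  | zero => intro Q hQ _ j; simpa using h0 Q (by omega) j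
  | succ m ih =>
    intro Q hQ hR j
    by_cases hd : Q.natDegree = 0
    · exact (h0 Q hd j).trans (le_mul_of_one_le_right (norm_nonneg _) (one_le_pow₀ hK))
    have hQ0 : Q ≠ 0 := by rintro rfl; simp at hd
    obtain ⟨ζ, hζ⟩ := IsAlgClosed.exists_root Q (fun h => hd (natDegree_eq_of_degree_eq_some h))
    obtain ⟨Q1, rfl⟩ := dvd_iff_isRoot.2 hζ
    have hQ1 : Q1 ≠ 0 := right_ne_zero_of_mul hQ0
    rw [natDegree_mul (X_sub_C_ne_zero ζ) hQ1, natDegree_X_sub_C] at hQ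
    rw [roots_mul hQ0, roots_X_sub_C] at hR
    have i1 := ih Q1 (by omega) fun x hx => hR x (Multiset.mem_add.2 (Or.inr hx))
    have i2 : ε ≤ |r - ‖ζ‖| := hR ζ (by simp)
    have i3 : 1 + ‖ζ‖ ≤ ‖z - ζ‖ * ((2 * r + 2) / ε) := by
      have a1 : |r - ‖ζ‖| ≤ ‖z - ζ‖ := hz ▸ abs_norm_sub_norm_le z ζ
      have a2 : ‖ζ‖ - r ≤ |r - ‖ζ‖| := by rw [abs_sub_comm]; exact le_abs_self _
      rw [← mul_div_assoc, le_div_iff₀ hε]
      by_cases hb : ‖ζ‖ ≤ 2 * r + 1
      · nlinarith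
      · nlinarith [norm_nonneg ζ]
    set B := ‖Q1.eval z‖ * ((2 * r + 2) / ε) ^ m with hB
    have hB0 : 0 ≤ B := by positivity
    have i4 : ‖((X - C ζ) * Q1).coeff j‖ ≤ (1 + ‖ζ‖) * B := by
      rw [sub_mul, coeff_sub, coeff_C_mul]
      refine (norm_sub_le _ _).trans ?_
      rw [norm_mul, add_mul, one_mul]
      refine add_le_add ?_ (mul_le_mul_of_nonneg_left (i1 j) (norm_nonneg _))
      cases j with
      | zero => simpa using hB0
      | succ j => rw [coeff_X_mul]; exact i1 j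
    refine i4.trans ?_
    rw [eval_mul, norm_mul, eval_sub, eval_X, eval_C, pow_succ]
    calc _ ≤ ‖z - ζ‖ * ((2 * r + 2) / ε) * B := mul_le_mul_of_nonneg_right i3 hB0
      _ = _ := by rw [hB]; ring

theorem cauchy (P : ℂ[X]) {r K : ℝ} (hr : 0 < r) (h : ∀ z : ℂ, ‖z‖ = r → ‖P.eval z‖ ≤ K) (k : ℕ) :
    ‖P.coeff k‖ ≤ K / r ^ k := by
  have e : ∀ k, iteratedDeriv k (fun x => P.eval x) = fun x => (derivative^[k] P).eval x := by
    intro k
    induction k with
    | zero => simp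
    | succ k ih =>
      rw [iteratedDeriv_succ, ih, Function.iterate_succ_apply']
      ext x
      exact Polynomial.deriv _
  have := Complex.norm_iteratedDeriv_le_of_forall_mem_sphere_norm_le (c := 0) (C := K) k hr
    (f := fun x => P.eval x) P.differentiable.diffContOnCl (fun z hz => h z (by simpa using hz))
  rw [e] at this
  simp only [← coeff_zero_eq_eval_zero, coeff_iterate_derivative, zero_add,
    Nat.descFactorial_self, nsmul_eq_mul, norm_mul, Complex.norm_natCast] at this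
  rw [mul_div_assoc] at this
  exact le_of_mul_le_mul_left this (by positivity)

theorem circle (Q : ℕ → ℂ[X]) {m : ℕ} (hQ : ∀ n, (Q n).natDegree ≤ m) {a b θ : ℝ} (hab : a < b)
    (h0 : 0 < θ) (h1 : θ < 1) : ∃ e r : ℝ, 0 < e ∧ e ≤ 1 ∧ a < r ∧ r < b ∧
      ∀ n, ∀ ζ ∈ (Q n).roots, e * θ ^ n ≤ |r - ‖ζ‖| := by
  classical
  obtain ⟨e, e0, e1, e2⟩ : ∃ e : ℝ, 0 < e ∧ e ≤ 1 ∧ m * (2 * e) * (1 - θ)⁻¹ < b - a := by
    have : Tendsto (fun e : ℝ => m * (2 * e) * (1 - θ)⁻¹) (𝓝[>] 0) (𝓝 0) := by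
      refine Tendsto.mono_left ?_ nhdsWithin_le_nhds
      exact Continuous.tendsto' (by fun_prop) _ _ (by simp)
    obtain ⟨e, h2, h3⟩ := ((this.eventually (gt_mem_nhds (sub_pos.2 hab))).and
      (Ioc_mem_nhdsGT one_pos)).exists
    exact ⟨e, h3.1, h3.2, h2⟩
  by_contra hc
  push Not at hc
  have hs : Ioo a b ⊆ ⋃ n, ⋃ ζ ∈ (Q n).roots.toFinset, ball ‖ζ‖ (e * θ ^ n) := by
    intro r hr
    obtain ⟨n, ζ, h2, h3⟩ := hc e r e0 e1 hr.1 hr.2
    simp only [mem_iUnion]
    exact ⟨n, ζ, Multiset.mem_toFinset.2 h2, h3⟩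
  have h2 := (MeasureTheory.measure_mono (μ := MeasureTheory.volume) hs).trans
    (MeasureTheory.measure_iUnion_le _)
  have h3 : ∀ n, MeasureTheory.volume (⋃ ζ ∈ (Q n).roots.toFinset, ball ‖ζ‖ (e * θ ^ n)) ≤
      ENNReal.ofReal (m * (2 * e) * θ ^ n) := by
    intro n
    refine (MeasureTheory.measure_biUnion_finset_le _ _).trans ?_
    simp only [Real.volume_ball, Finset.sum_const, nsmul_eq_mul]
    rw [mul_assoc, ENNReal.ofReal_mul (Nat.cast_nonneg m), ENNReal.ofReal_natCast, mul_assoc]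
    gcongr
    exact_mod_cast ((Multiset.toFinset_card_le _).trans (card_roots' _)).trans (hQ n)
  have hsum : HasSum (fun n => m * (2 * e) * θ ^ n) (m * (2 * e) * (1 - θ)⁻¹) :=
    (hasSum_geometric_of_lt_one h0.le h1).mul_left _
  have h4 := h2.trans (ENNReal.tsum_le_tsum h3)
  rw [← ENNReal.ofReal_tsum_of_nonneg (fun n => by positivity) hsum.summable, hsum.tsum_eq,
    Real.volume_Ioo, ENNReal.ofReal_le_ofReal_iff (by have := sub_pos.2 h1; positivity)] at h4
  linarith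

/-- The polynomial with coefficients `q`. -/
def pol {m : ℕ} (q : Fin (m + 1) → ℂ) : ℂ[X] := ∑ l : Fin (m + 1), monomial (l : ℕ) (q l)

/-- The coefficients as a sequence. -/
def ext {m : ℕ} (q : Fin (m + 1) → ℂ) (l : ℕ) : ℂ := if h : l < m + 1 then q ⟨l, h⟩ else 0

theorem coeff_pol {m : ℕ} (q : Fin (m + 1) → ℂ) (l : ℕ) : (pol q).coeff l = ext q l := by
  rw [pol, finsetSum_coeff, ext]
  simp only [coeff_monomial]
  split_ifs with h
  · rw [Finset.sum_eq_single ⟨l, h⟩ (fun b _ hb => if_neg fun e => hb (Fin.ext e)) (by simp)]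
    simp
  · exact Finset.sum_eq_zero fun b _ => if_neg fun e => h (by have := b.2; omega)

theorem deg_pol {m : ℕ} (q : Fin (m + 1) → ℂ) : (pol q).natDegree ≤ m :=
  natDegree_le_iff_coeff_eq_zero.2 fun l hl => by rw [coeff_pol, ext, dif_neg (by omega)]

theorem norm_ext {m : ℕ} (q : Fin (m + 1) → ℂ) (l : ℕ) : ‖ext q l‖ ≤ ‖q‖ := by
  unfold ext
  split_ifs
  · exact norm_le_pi_norm q _
  · simp

theorem coeff_mul_le {m : ℕ} (q : Fin (m + 1) → ℂ) (hq : ‖q‖ = 1) (E : PowerSeries ℂ) {s : ℝ}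
    {k : ℕ} (h : ∀ j ≤ k, ‖PowerSeries.coeff j E‖ ≤ s) :
    ‖PowerSeries.coeff k ((pol q : PowerSeries ℂ) * E)‖ ≤ (m + 1) * s := by
  have hs : 0 ≤ s := (norm_nonneg _).trans (h 0 k.zero_le)
  have : (pol q : PowerSeries ℂ) * E = ∑ l : Fin (m + 1), PowerSeries.C (q l) *
      (PowerSeries.X ^ (l : ℕ) * E) := by
    rw [pol, ← coeToPowerSeries.ringHom_apply, map_sum, Finset.sum_mul]
    refine Finset.sum_congr rfl fun l _ => ?_
    rw [← C_mul_X_pow_eq_monomial, coeToPowerSeries.ringHom_apply]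
    simp [mul_assoc]
  rw [this, map_sum]
  refine (norm_sum_le _ _).trans ((Finset.sum_le_card_nsmul _ _ s fun l _ => ?_).trans (by simp))
  rw [PowerSeries.coeff_C_mul, PowerSeries.coeff_X_pow_mul', norm_mul]
  have h1 := (norm_le_pi_norm q l).trans hq.le
  split_ifs
  · exact (mul_le_of_le_one_left (norm_nonneg _) h1).trans (h _ (Nat.sub_le _ _))
  · simpa using hs

theorem coeff_cv {m : ℕ} (q : Fin (m + 1) → ℂ) (c : ℕ → ℂ) {k : ℕ} (hk : m ≤ k) :
    PowerSeries.coeff k ((pol q : PowerSeries ℂ) * PowerSeries.mk c) = cv m (ext q) c k := by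
  rw [PowerSeries.coeff_mul, Finset.Nat.sum_antidiagonal_eq_sum_range_succ_mk, cv]
  simp only [coeff_coe, coeff_pol, PowerSeries.coeff_mk]
  refine (Finset.sum_subset (Finset.range_mono (by omega)) fun l _ hl => ?_).symm
  rw [ext, dif_neg (by simpa using hl), zero_mul]

theorem cv_fin {m : ℕ} (q : Fin (m + 1) → ℂ) (c : ℕ → ℂ) (k : ℕ) :
    cv m (ext q) c k = ∑ l : Fin (m + 1), c (k - l) * q l := by
  rw [cv, Finset.sum_range]
  exact Finset.sum_congr rfl fun l _ => by rw [ext, dif_pos l.2, mul_comm]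

theorem norm_eval_le (P : ℂ[X]) {N : ℕ} (hN : P.natDegree < N) {z : ℂ} {r : ℝ} (hz : ‖z‖ = r) :
    ‖P.eval z‖ ≤ ∑ k ∈ Finset.range N, ‖P.coeff k‖ * r ^ k := by
  rw [eval_eq_sum_range' hN]
  refine (norm_sum_le _ _).trans (le_of_eq (Finset.sum_congr rfl fun k _ => ?_))
  rw [norm_mul, norm_pow, hz]

end Pade

open Pade in
theorem pade : Spec_PADE := by
  intro m n₀ c C M R R' hR' hR _ hH
  have R0 : 0 < R := by linarith
  obtain ⟨C', C0, hC⟩ : ∃ C' : ℝ, 0 < C' ∧ (m + 1).factorial * C < C' ^ (m + 1) := by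
    refine ⟨(m + 1).factorial * |C| + 1, by positivity, ?_⟩
    have h1 : (1 : ℝ) ≤ (m + 1).factorial * |C| + 1 := by
      have : (0 : ℝ) ≤ (m + 1).factorial * |C| := by positivity
      linarith
    refine lt_of_lt_of_le ?_ (le_self_pow₀ h1 (Nat.succ_ne_zero m))
    have := mul_le_mul_of_nonneg_left (le_abs_self C) (Nat.cast_nonneg (α := ℝ) (m + 1).factorial)
    linarith
  set n₁ := max n₀ m + 1 with hn₁
  have hq : ∀ n : ℕ, ∃ q : Fin (m + 1) → ℂ, ‖q‖ = 1 ∧ ∀ k, n₁ + n ≤ k → k ≤ n₁ + n + m →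
      ‖PowerSeries.coeff k ((pol q : PowerSeries ℂ) * PowerSeries.mk c)‖ ≤
        C' * R⁻¹ ^ (n₁ + n) := by
    intro n
    obtain ⟨q, h1, h2⟩ := small_vec (Matrix.of fun i j : Fin (m + 1) => c (n₁ + n + i - j))
      (s := C' * R⁻¹ ^ (n₁ + n)) (by positivity) (by
        rw [mul_pow]
        refine lt_of_le_of_lt (mul_le_mul_of_nonneg_left (hH _ (by omega)) (Nat.cast_nonneg _)) ?_
        rw [← mul_assoc]
        exact mul_lt_mul_of_pos_right hC (by positivity))
    refine ⟨q, h1, fun k k1 k2 => ?_⟩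
    obtain ⟨i, rfl⟩ := Nat.exists_eq_add_of_le k1
    rw [coeff_cv q c (by omega), cv_fin]
    exact (norm_le_pi_norm _ (⟨i, by omega⟩ : Fin (m + 1))).trans' (le_of_eq rfl) |>.trans h2
  choose q q1 q2 using hq
  obtain ⟨θ, θ0, θ1, θ2⟩ : ∃ θ : ℝ, 0 < θ ∧ θ < 1 ∧ (R' + R) / 2 / R < θ ^ (2 * m) := by
    have : Tendsto (fun θ : ℝ => θ ^ (2 * m)) (𝓝[<] 1) (𝓝 1) := by
      refine Tendsto.mono_left ?_ nhdsWithin_le_nhds
      exact Continuous.tendsto' (by fun_prop) _ _ (by simp)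
    obtain ⟨θ, h2, h3⟩ := ((this.eventually (lt_mem_nhds (show (R' + R) / 2 / R < 1 by
      rw [div_lt_one R0]; linarith))).and (Ioo_mem_nhdsLT one_pos)).exists
    exact ⟨θ, h3.1, h3.2, h2⟩
  obtain ⟨e, r, e0, e1, r1, r2, hr⟩ := circle (fun n => pol (q n)) (fun n => deg_pol _)
    (show R' < (R' + R) / 2 by linarith) θ0 θ1
  have r0 : 0 < r := by linarith
  have r3 : 1 ≤ r := by linarith
  set f : PowerSeries ℂ := PowerSeries.mk c with hf
  set P : ℕ → ℂ[X] := fun n => PowerSeries.trunc (n₁ + n) ((pol (q n) : PowerSeries ℂ) * f) with hP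
  set K := (2 * r + 2) / e with hK
  have K0 : 0 < K := by positivity
  have hlow : ∀ n, ∀ z : ℂ, ‖z‖ = r → 1 ≤ ‖(pol (q n)).eval z‖ * (K ^ m * (θ ^ m)⁻¹ ^ n) := by
    intro n z hz
    have h1 := low (ε := e * θ ^ n) (by positivity)
      (mul_le_one₀ e1 (by positivity) (pow_le_one₀ θ0.le θ1.le)) hz m _ (deg_pol (q n)) (hr n)
    have h2 : ‖q n‖ ≤ ‖(pol (q n)).eval z‖ * ((2 * r + 2) / (e * θ ^ n)) ^ m :=
      (pi_norm_le_iff_of_nonneg (by positivity)).2 fun l => by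
        have := h1 l
        rwa [coeff_pol, Pade.ext, dif_pos l.2] at this
    rw [q1] at h2
    convert h2 using 2
    rw [hK, ← div_div, div_pow _ (θ ^ n), inv_pow, ← pow_mul, ← pow_mul, mul_comm n m,
      div_eq_mul_inv (_ ^ m)]
  have hdeg : ∀ n, (P n).natDegree < n₁ + n := fun n => by
    have : n₁ + n = (max n₀ m + n) + 1 := by omega
    simp only [hP, this]
    exact PowerSeries.natDegree_trunc_lt _ _
  have hE : ∀ n j, j ≤ n₁ + n + m → ‖PowerSeries.coeff j ((pol (q n) : PowerSeries ℂ) * f - (P n : PowerSeries ℂ))‖ ≤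
      if j < n₁ + n then 0 else C' * R⁻¹ ^ (n₁ + n) := by
    intro n j hj
    simp only [hP, map_sub, coeff_coe, PowerSeries.coeff_trunc]
    split_ifs with h
    · simp
    · simpa using q2 n j (by omega) hj
  have hA : ∀ n, ∀ z : ℂ, ‖z‖ = r → ‖(pol (q n) * P (n + 1) - pol (q (n + 1)) * P n).eval z‖ ≤
      (m + 1) * (2 * (m + 1) * C' * R⁻¹ ^ n₁ * r ^ (n₁ + m)) * (r / R) ^ n := by
    intro n z hz
    set A := pol (q n) * P (n + 1) - pol (q (n + 1)) * P n with hAd
    have d1 : A.natDegree < n₁ + n + (m + 1) := by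
      refine lt_of_le_of_lt (natDegree_sub_le _ _) (max_lt ?_ ?_)
      · have := natDegree_mul_le (p := pol (q n)) (q := P (n + 1))
        have := deg_pol (q n)
        have := hdeg (n + 1)
        omega
      · have := natDegree_mul_le (p := pol (q (n + 1))) (q := P n)
        have := deg_pol (q (n + 1))
        have := hdeg n
        omega
    have d2 : ∀ k, A.coeff k =
        PowerSeries.coeff k ((pol (q (n + 1)) : PowerSeries ℂ) * ((pol (q n) : PowerSeries ℂ) * f - (P n : PowerSeries ℂ))) -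
        PowerSeries.coeff k ((pol (q n) : PowerSeries ℂ) *
          ((pol (q (n + 1)) : PowerSeries ℂ) * f - (P (n + 1) : PowerSeries ℂ))) := by
      intro k
      rw [← map_sub, ← coeff_coe, hAd]
      congr 1
      push_cast
      ring
    have s0 : 0 ≤ C' * R⁻¹ ^ (n₁ + n) := by positivity
    have s1 : C' * R⁻¹ ^ (n₁ + (n + 1)) ≤ C' * R⁻¹ ^ (n₁ + n) :=
      mul_le_mul_of_nonneg_left (pow_le_pow_of_le_one (by positivity)
        (inv_le_one_of_one_le₀ (by linarith)) (by omega)) C0.le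
    have d3 : ∀ k < n₁ + n, ‖A.coeff k‖ ≤ 0 := by
      intro k hk
      rw [d2]
      refine (norm_sub_le _ _).trans ?_
      have a1 := coeff_mul_le _ (q1 (n + 1)) _ (s := 0) (k := k) fun j hj => by
        simpa only [if_pos (show j < n₁ + n by omega)] using hE n j (by omega)
      have a2 := coeff_mul_le _ (q1 n) _ (s := 0) (k := k) fun j hj => by
        simpa only [if_pos (show j < n₁ + (n + 1) by omega)] using hE (n + 1) j (by omega)
      linarith
    have d4 : ∀ k ≤ n₁ + n + m, ‖A.coeff k‖ ≤ 2 * (m + 1) * (C' * R⁻¹ ^ (n₁ + n)) := by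
      intro k hk
      rw [d2]
      refine (norm_sub_le _ _).trans ?_
      have a1 := coeff_mul_le _ (q1 (n + 1)) _ (s := C' * R⁻¹ ^ (n₁ + n)) (k := k) fun j hj =>
        (hE n j (by omega)).trans (by split_ifs; exacts [s0, le_rfl])
      have a2 := coeff_mul_le _ (q1 n) _ (s := C' * R⁻¹ ^ (n₁ + n)) (k := k) fun j hj =>
        (hE (n + 1) j (by omega)).trans (by split_ifs; exacts [s0, s1])
      linarith
    refine (norm_eval_le A d1 hz).trans ?_
    rw [Finset.sum_range_add, Finset.sum_eq_zero (fun k hk => by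
      rw [le_antisymm (d3 k (Finset.mem_range.1 hk)) (norm_nonneg _), zero_mul]), zero_add]
    refine (Finset.sum_le_card_nsmul _ _
      (2 * (m + 1) * (C' * R⁻¹ ^ (n₁ + n)) * r ^ (n₁ + n + m)) fun k hk => ?_).trans (le_of_eq ?_)
    · have hk := Finset.mem_range.1 hk
      exact mul_le_mul (d4 _ (by omega)) (pow_le_pow_right₀ r3 (by omega)) (by positivity)
        (by positivity)
    · rw [Finset.card_range, nsmul_eq_mul, div_eq_mul_inv, mul_pow]
      push_cast
      ring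
  set lam := r / R * ((θ ^ m)⁻¹) ^ 2 with hlam
  have l0 : 0 ≤ lam := by positivity
  have l1 : lam < 1 := by
    rw [hlam, inv_pow, ← pow_mul, mul_comm m 2, ← div_eq_mul_inv, div_lt_one (by positivity)]
    exact lt_trans (div_lt_div_of_pos_right r2 R0) θ2
  set B := (m + 1) * (2 * (m + 1) * C' * R⁻¹ ^ n₁ * r ^ (n₁ + m)) * (K ^ m * K ^ m * (θ ^ m)⁻¹)
    with hB
  have B0 : 0 ≤ B := by positivity
  set U := (∑ k ∈ Finset.range (n₁ + 0), ‖(P 0).coeff k‖ * r ^ k) * K ^ m + B * (1 - lam)⁻¹ with hU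
  have hu : ∀ z : ℂ, ‖z‖ = r → ∀ n, ‖(P n).eval z / (pol (q n)).eval z‖ ≤ U := by
    intro z hz
    have n0 : ∀ n, 0 < ‖(pol (q n)).eval z‖ := fun n =>
      (norm_nonneg _).lt_of_ne fun h => by have := hlow n z hz; rw [← h] at this; norm_num at this
    have inv : ∀ n, ‖(pol (q n)).eval z‖⁻¹ ≤ K ^ m * (θ ^ m)⁻¹ ^ n := fun n => by
      rw [inv_le_iff_one_le_mul₀' (n0 n)]; exact hlow n z hz
    have st : ∀ n, dist ((P n).eval z / (pol (q n)).eval z)
        ((P (n + 1)).eval z / (pol (q (n + 1))).eval z) ≤ B * lam ^ n := by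
      intro n
      have a1 := norm_pos_iff.1 (n0 n)
      have a2 := norm_pos_iff.1 (n0 (n + 1))
      have a3 : (P (n + 1)).eval z / (pol (q (n + 1))).eval z - (P n).eval z / (pol (q n)).eval z =
          (pol (q n) * P (n + 1) - pol (q (n + 1)) * P n).eval z * ((pol (q n)).eval z)⁻¹ *
            ((pol (q (n + 1))).eval z)⁻¹ := by
        simp only [eval_sub, eval_mul]
        field_simp
      rw [dist_comm, dist_eq_norm, a3, norm_mul, norm_mul, norm_inv, norm_inv]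
      refine (mul_le_mul (mul_le_mul (hA n z hz) (inv n) (by positivity) (by positivity))
        (inv (n + 1)) (by positivity) (by positivity)).trans (le_of_eq ?_)
      rw [hB, hlam, mul_pow (r / R)]
      ring
    intro n
    have a1 := dist_le_range_sum_of_dist_le n fun {k} _ => st k
    have a2 : ∑ k ∈ Finset.range n, B * lam ^ k ≤ B * (1 - lam)⁻¹ :=
      sum_le_hasSum _ (fun k _ => by positivity) ((hasSum_geometric_of_lt_one l0 l1).mul_left B)
    have a3 : ‖(P 0).eval z / (pol (q 0)).eval z‖ ≤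
        (∑ k ∈ Finset.range (n₁ + 0), ‖(P 0).coeff k‖ * r ^ k) * K ^ m := by
      rw [norm_div, div_eq_mul_inv]
      exact mul_le_mul (norm_eval_le _ (hdeg 0) hz) (by simpa using inv 0) (by positivity)
        (Finset.sum_nonneg fun k _ => by positivity)
    have a4 := norm_le_norm_add_norm_sub' ((P n).eval z / (pol (q n)).eval z)
      ((P 0).eval z / (pol (q 0)).eval z)
    rw [dist_comm, dist_eq_norm] at a1
    linarith
  have hPz : ∀ n, ∀ z : ℂ, ‖z‖ = r → ‖(P n).eval z‖ ≤ U * ((m + 1) * r ^ m) := by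
    intro n z hz
    have a1 : (pol (q n)).eval z ≠ 0 := fun h => by
      have := hlow n z hz; rw [h] at this; norm_num at this
    rw [← div_mul_cancel₀ ((P n).eval z) a1, norm_mul]
    refine mul_le_mul (hu z hz n) ?_ (norm_nonneg _) ((norm_nonneg _).trans (hu z hz n))
    refine (norm_eval_le _ (Nat.lt_succ_of_le (deg_pol _)) hz).trans
      ((Finset.sum_le_card_nsmul _ _ (r ^ m) fun k hk => ?_).trans (by simp))
    rw [coeff_pol]
    exact (mul_le_of_le_one_left (by positivity) ((norm_ext _ _).trans (q1 n).le)).trans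
      (pow_le_pow_right₀ r3 (by have := Finset.mem_range.1 hk; omega))
  obtain ⟨q', hq', φ, hφ, hl⟩ := (isCompact_sphere (0 : Fin (m + 1) → ℂ) 1).tendsto_subseq
    (x := q) fun n => by simpa using q1 n
  have U0 : 0 ≤ U * ((m + 1) * r ^ m) :=
    (norm_nonneg _).trans (hPz 0 r (by simp [r0.le]))
  refine ⟨m, Pade.ext q', U * ((m + 1) * r ^ m), ?_, fun k hk => ?_⟩
  · by_contra h
    push Not at h
    have : q' = 0 := funext fun l => by
      have := h l (by omega)
      rwa [Pade.ext, dif_pos l.2] at this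
    simp [this] at hq'
  · have a1 : Tendsto (fun n => ‖cv m (Pade.ext (q (φ n))) c k‖) atTop
        (𝓝 ‖cv m (Pade.ext q') c k‖) := by
      simp only [cv_fin]
      exact (tendsto_finsetSum _ fun l _ => ((tendsto_pi_nhds.1 hl) l).const_mul _).norm
    refine le_of_tendsto a1 ?_
    filter_upwards [eventually_ge_atTop k] with n hn
    have a2 := cauchy (P (φ n)) r0 (hPz _) k
    have a3 : k < n₁ + φ n := by have := hφ.id_le n; simp only [id] at this; omega
    simp only [hP, PowerSeries.coeff_trunc, if_pos a3, hf, coeff_cv _ _ hk] at a2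
    refine a2.trans ?_
    rw [div_eq_mul_inv, ← inv_pow]
    exact mul_le_mul_of_nonneg_left (pow_le_pow_left₀ (by positivity)
      (inv_anti₀ (by linarith) r1.le) k) U0

end Vale.Agent.P097T.Out
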