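import Mathlib

/-!
# P097T: the differential-algebraic core of T3 over the prime field

`A` is a field of functions of `(x, w)`, `a j`, `b j` are the coordinates of the line
`L j : Y = a j * X + b j`, `L j (x, w) = L (x + j w, w)`, `S` is the shift `x ↦ x + w`,
`ρ` is the reversal `w ↦ -w`.
-/

set_option linter.all false

noncomputable section

namespace Vale.Agent.P097T.Q

open Filter Polynomial


/-- A field with two derivations, a chain of lines, a shift and a reversal. -/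
structure QChain (A : Type) [Field A] [CharZero A] where
  dx : Derivation ℤ A A
  dw : Derivation ℤ A A
  a : ℤ → A
  b : ℤ → A
  S : RingAut A
  ρ : RingAut A
  S_a : ∀ j, S (a j) = a (j + 1)
  S_b : ∀ j, S (b j) = b (j + 1)
  ρ_a : ∀ j, ρ (a j) = a (-j)
  ρ_b : ∀ j, ρ (b j) = b (-j)
  S_dx : ∀ z, dx (S z) = S (dx z)
  S_dw : ∀ z, dw (S z) = S (dw z) + S (dx z)
  ρ_dx : ∀ z, dx (ρ z) = ρ (dx z)
  ρ_dw : ∀ z, dw (ρ z) = -ρ (dw z)

namespace QChain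

variable {A : Type} [Field A] [CharZero A] (C : QChain A)

/-- The least subfield which contains `T` and is closed under both derivations. -/
def dfield (T : Set A) : Subfield A :=
  sInf {F | T ⊆ F ∧ ∀ z ∈ F, C.dx z ∈ F ∧ C.dw z ∈ F}

/-- The differential field of the lines `L j`, `j ∈ J`. -/
def K (J : Set ℤ) : Subfield A := C.dfield (C.a '' J ∪ C.b '' J)

/-- The abscissa of the forward vertex on `L 0`. -/
def Xp : A := -(C.b 1 - C.b 0) / (C.a 1 - C.a 0)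

/-- The abscissa of the backward vertex on `L 0`. -/
def Xm : A := -(C.b (-1) - C.b 0) / (C.a (-1) - C.a 0)

/-- The point of `L 0` with abscissa `X` moves on a curve. -/
def Burg (X : A) : Prop :=
  C.dx X * (X * C.dw (C.a 0) + C.dw (C.b 0)) = C.dw X * (X * C.dx (C.a 0) + C.dx (C.b 0))

/-- `τ` commutes with both derivations. -/
def Dif (τ : RingAut A) : Prop := ∀ z, C.dx (τ z) = τ (C.dx z) ∧ C.dw (τ z) = τ (C.dw z)

/-- The reflected line is a differential rational function of the line and the vertex. -/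
def Ref : Prop :=
  C.a 1 ∈ C.dfield {C.a 0, C.b 0, C.Xp} ∧ C.b 1 ∈ C.dfield {C.a 0, C.b 0, C.Xp}

/-- Finite determinacy. -/
def FD : Prop := ∀ i m : ℤ, 0 < i → i < m →
  IsAlgebraic (C.K {0, m}) (C.a i) ∧ IsAlgebraic (C.K {0, m}) (C.b i)

/-- Evenness of third points. -/
def Ev : Prop := ∀ X : A, C.Burg X → X = C.Xp ∨ X = C.Xm ∨ C.ρ X = X

/-- A monodromy with finite range. -/
def Mono (ν : RingAut A) : Prop :=
  C.Dif ν ∧ (ν (C.a 0) ≠ C.a 0 ∨ ν (C.b 0) ≠ C.b 0) ∧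
    ∀ p : A[X], p.Monic → p.Separable → (∀ i, p.coeff i ∈ C.K Set.univ) →
      ∀ᶠ s : ℤ in cofinite, ∀ r : A, (p.map ((C.S ^ s : RingAut A) : A →+* A)).IsRoot r → ν r = r

end QChain

/-- The algebraic core: there is no monodromy with finite range. -/
def Spec_CORE : Prop := ∀ (A : Type) [Field A] [CharZero A] (C : QChain A),
  C.Xp ≠ C.Xm → C.Burg C.Xp → C.Ref → C.FD → C.Ev → ∀ ν, ¬C.Mono ν



theorem alg_iff {A : Type} [Field A] (F : Subfield A) (z : A) :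
    IsAlgebraic F z ↔ ∃ p : A[X], p ≠ 0 ∧ (∀ i, p.coeff i ∈ F) ∧ p.IsRoot z := by
  constructor
  · rintro ⟨p, p0, hp⟩
    refine ⟨p.map (algebraMap F A), Polynomial.map_ne_zero p0, fun i => ?_, ?_⟩
    · rw [coeff_map]
      exact (p.coeff i).2
    · rw [IsRoot, eval_map_algebraMap]
      exact hp
  · rintro ⟨p, p0, hc, hz⟩
    have hl : p ∈ Polynomial.lifts (algebraMap F A) := by
      rw [lifts_iff_coeff_lifts]
      intro n
      exact ⟨⟨p.coeff n, hc n⟩, rfl⟩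
    obtain ⟨q, hq⟩ := (mem_lifts p).1 hl
    refine ⟨q, ?_, ?_⟩
    · rintro rfl
      exact p0 (by rw [← hq, Polynomial.map_zero])
    · rw [← eval_map_algebraMap, hq]
      exact hz

variable {A : Type} [Field A] [CharZero A]

/-- The elements which are algebraic over `F`. -/
def acl (F : Subfield A) : Subfield A :=
  (algebraicClosure F A).toSubfield

theorem mem_acl {F : Subfield A} {z : A} : z ∈ acl F ↔ IsAlgebraic F z := by
  rw [acl, IntermediateField.mem_toSubfield, mem_algebraicClosure_iff]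

theorem le_acl (F : Subfield A) : F ≤ acl F := fun z hz =>
  mem_acl.2 (isAlgebraic_algebraMap (⟨z, hz⟩ : F))

theorem acl_map {F F' : Subfield A} (σ : RingAut A) (h : ∀ z ∈ F, σ z ∈ F') {z : A}
    (hz : z ∈ acl F) : σ z ∈ acl F' := by
  rw [mem_acl, alg_iff] at hz ⊢
  obtain ⟨p, p0, hc, hr⟩ := hz
  refine ⟨p.map (σ : A →+* A), Polynomial.map_ne_zero p0, fun i => ?_, ?_⟩
  · rw [coeff_map]
    exact h _ (hc i)
  · have := hr.map (f := (σ : A →+* A))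
    exact this

theorem acl_mono {F F' : Subfield A} (h : F ≤ F') : acl F ≤ acl F' := fun z hz =>
  acl_map (1 : RingAut A) (fun y hy => h hy) hz

theorem acl_le {F F' : Subfield A} (h : F ≤ acl F') : acl F ≤ acl F' := by
  intro z hz
  have h1 : z ∈ acl (acl F') := acl_mono h hz
  have h2 : IsAlgebraic (algebraicClosure F' A) z := mem_acl.1 h1
  rw [mem_acl]
  exact (isIntegral_trans z h2.isIntegral).isAlgebraic

theorem der_acl (D : Derivation ℤ A A) {F : Subfield A} (h : ∀ z ∈ F, D z ∈ F) {z : A}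
    (hz : z ∈ acl F) : D z ∈ acl F := by
  have hi : IsIntegral F z := (mem_acl.1 hz).isIntegral
  set p := minpoly F z with hp
  have hs : p.Separable := (minpoly.irreducible hi).separable
  have h0 : aeval z p = 0 := minpoly.aeval F z
  have h1 : aeval z (derivative p) ≠ 0 := hs.aeval_derivative_ne_zero h0
  have h2 : ∀ q : F[X], aeval z q ∈ acl F := by
    intro q
    rw [aeval_eq_sum_range]
    refine sum_mem fun i _ => ?_
    rw [Algebra.smul_def]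
    exact mul_mem (le_acl F (q.coeff i).2) (pow_mem hz _)
  have h3 : ∀ q : F[X], D (aeval z q) - aeval z (derivative q) * D z ∈ acl F := by
    intro q
    induction q using Polynomial.induction_on' with
    | add q r hq hr =>
      have := add_mem hq hr
      convert this using 1
      simp only [map_add]
      ring
    | monomial n c =>
      have e : D (aeval z (monomial n c)) - aeval z (derivative (monomial n c)) * D z =
          D (c : A) * z ^ n := by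
        rw [derivative_monomial, aeval_monomial, aeval_monomial, Derivation.leibniz,
          Derivation.leibniz_pow]
        simp only [smul_eq_mul, nsmul_eq_mul, map_mul, map_natCast]
        have : algebraMap F A c = (c : A) := rfl
        rw [this]
        ring
      rw [e]
      exact mul_mem (le_acl F (h _ c.2)) (pow_mem hz _)
  have h4 := h3 p
  rw [h0, map_zero, zero_sub] at h4
  have h5 : D z = -(-(aeval z (derivative p) * D z)) / aeval z (derivative p) := by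
    field_simp
  rw [h5]
  exact div_mem (neg_mem h4) (h2 _)

namespace QChain

variable (C : QChain A)

theorem sub_dfield (T : Set A) : T ⊆ C.dfield T := fun z hz => by
  have : z ∈ C.dfield T := by
    rw [dfield, Subfield.mem_sInf]
    exact fun F hF => hF.1 hz
  exact this

theorem dfield_le {T : Set A} {F : Subfield A} (h1 : T ⊆ F)
    (h2 : ∀ z ∈ F, C.dx z ∈ F ∧ C.dw z ∈ F) : C.dfield T ≤ F := sInf_le ⟨h1, h2⟩

theorem dfield_closed (T : Set A) :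
    ∀ z ∈ C.dfield T, C.dx z ∈ C.dfield T ∧ C.dw z ∈ C.dfield T := by
  intro z hz
  simp only [dfield, Subfield.mem_sInf] at hz ⊢
  exact ⟨fun F hF => (hF.2 z (hz F hF)).1, fun F hF => (hF.2 z (hz F hF)).2⟩

theorem dfield_mono {T T' : Set A} (h : T ⊆ T') : C.dfield T ≤ C.dfield T' :=
  C.dfield_le (h.trans (C.sub_dfield T')) (C.dfield_closed T')

theorem K_mono {J J' : Set ℤ} (h : J ⊆ J') : C.K J ≤ C.K J' :=
  C.dfield_mono (Set.union_subset_union (Set.image_mono h) (Set.image_mono h))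

theorem a_mem {J : Set ℤ} {j : ℤ} (h : j ∈ J) : C.a j ∈ C.K J :=
  C.sub_dfield _ (Or.inl ⟨j, h, rfl⟩)

theorem b_mem {J : Set ℤ} {j : ℤ} (h : j ∈ J) : C.b j ∈ C.K J :=
  C.sub_dfield _ (Or.inr ⟨j, h, rfl⟩)

theorem K_closed (J : Set ℤ) : ∀ z ∈ C.K J, C.dx z ∈ C.K J ∧ C.dw z ∈ C.K J :=
  C.dfield_closed _

theorem K_le {J : Set ℤ} {F : Subfield A} (h1 : ∀ j ∈ J, C.a j ∈ F ∧ C.b j ∈ F)
    (h2 : ∀ z ∈ F, C.dx z ∈ F ∧ C.dw z ∈ F) : C.K J ≤ F := by
  refine C.dfield_le ?_ h2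
  rintro _ (⟨j, hj, rfl⟩ | ⟨j, hj, rfl⟩)
  · exact (h1 j hj).1
  · exact (h1 j hj).2

theorem acl_closed {F : Subfield A} (h : ∀ z ∈ F, C.dx z ∈ F ∧ C.dw z ∈ F) :
    ∀ z ∈ acl F, C.dx z ∈ acl F ∧ C.dw z ∈ acl F := fun z hz =>
  ⟨der_acl C.dx (fun y hy => (h y hy).1) hz, der_acl C.dw (fun y hy => (h y hy).2) hz⟩

theorem fix_dfield {τ : RingAut A} (hτ : C.Dif τ) {T : Set A} (hT : ∀ t ∈ T, τ t = t) :
    ∀ z ∈ C.dfield T, τ z = z := by
  let F : Subfield A :=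
    RingHom.eqLocusField (τ : A →+* A) (RingHom.id A)
  have hF : ∀ z, z ∈ F ↔ τ z = z := fun z => Iff.rfl
  have : C.dfield T ≤ F := by
    refine C.dfield_le (fun t ht => (hF t).2 (hT t ht)) fun z hz => ?_
    rw [hF] at hz
    rw [hF, hF, ← (hτ z).1, ← (hτ z).2, hz]
    exact ⟨rfl, rfl⟩
  exact fun z hz => (hF z).1 (this hz)

/-- `σ` acts on the derivations by a constant triangular matrix. -/
def Tri (σ : RingAut A) : Prop :=
  ∃ c d : ℤ, ∀ z, σ (C.dx z) = C.dx (σ z) ∧ σ (C.dw z) = c • C.dw (σ z) + d • C.dx (σ z)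

theorem map_dfield {σ : RingAut A} (hσ : C.Tri σ) {T : Set A} {F : Subfield A}
    (hT : ∀ t ∈ T, σ t ∈ F) (hF : ∀ z ∈ F, C.dx z ∈ F ∧ C.dw z ∈ F) :
    ∀ z ∈ C.dfield T, σ z ∈ F := by
  obtain ⟨c, d, h⟩ := hσ
  have : C.dfield T ≤ F.comap (σ : A →+* A) := by
    refine C.dfield_le (fun t ht => hT t ht) fun z hz => ?_
    have hz' : σ z ∈ F := hz
    constructor
    · show σ (C.dx z) ∈ F
      rw [(h z).1]
      exact (hF _ hz').1
    · show σ (C.dw z) ∈ F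
      rw [(h z).2]
      exact add_mem (zsmul_mem (hF _ hz').2 _) (zsmul_mem (hF _ hz').1 _)
  exact fun z hz => this hz

theorem Sinv_a (j : ℤ) : C.S⁻¹ (C.a j) = C.a (j - 1) := by
  have := C.S_a (j - 1)
  rw [sub_add_cancel] at this
  rw [← this]
  exact C.S.symm_apply_apply _

theorem Sinv_b (j : ℤ) : C.S⁻¹ (C.b j) = C.b (j - 1) := by
  have := C.S_b (j - 1)
  rw [sub_add_cancel] at this
  rw [← this]
  exact C.S.symm_apply_apply _

theorem zpow_ab (s : ℤ) : ∀ j, (C.S ^ s) (C.a j) = C.a (j + s) ∧ (C.S ^ s) (C.b j) = C.b (j + s) := by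
  induction s using Int.induction_on with
  | zero => intro j; simp
  | succ n ih =>
    intro j
    rw [zpow_add_one, RingAut.mul_apply, RingAut.mul_apply, C.S_a, C.S_b, (ih _).1, (ih _).2]
    constructor <;> congr 1 <;> ring
  | pred n ih =>
    intro j
    rw [zpow_sub_one, RingAut.mul_apply, RingAut.mul_apply, C.Sinv_a, C.Sinv_b, (ih _).1,
      (ih _).2]
    constructor <;> congr 1 <;> ring

theorem zpow_d (s : ℤ) : ∀ z, C.dx ((C.S ^ s) z) = (C.S ^ s) (C.dx z) ∧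
    C.dw ((C.S ^ s) z) = (C.S ^ s) (C.dw z) + s • (C.S ^ s) (C.dx z) := by
  have i1 : ∀ z, C.dx (C.S⁻¹ z) = C.S⁻¹ (C.dx z) := by
    intro z
    obtain ⟨y, rfl⟩ := C.S.surjective z
    rw [C.S_dx]
    show C.dx (C.S.symm _) = C.S.symm _
    rw [C.S.symm_apply_apply, C.S.symm_apply_apply]
  have i2 : ∀ z, C.dw (C.S⁻¹ z) = C.S⁻¹ (C.dw z) - C.S⁻¹ (C.dx z) := by
    intro z
    obtain ⟨y, rfl⟩ := C.S.surjective z
    rw [C.S_dx, C.S_dw]
    show C.dw (C.S.symm _) = C.S.symm _ - C.S.symm _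
    rw [map_add, C.S.symm_apply_apply, C.S.symm_apply_apply, C.S.symm_apply_apply]
    ring
  induction s using Int.induction_on with
  | zero => intro z; simp
  | succ n ih =>
    intro z
    simp only [zpow_add_one, RingAut.mul_apply]
    rw [(ih _).1, (ih _).2, C.S_dx, C.S_dw, map_add]
    refine ⟨rfl, ?_⟩
    push_cast
    rw [add_smul, one_smul]
    ring
  | pred n ih =>
    intro z
    simp only [zpow_sub_one, RingAut.mul_apply]
    rw [(ih _).1, (ih _).2, i1, i2, map_sub]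
    refine ⟨rfl, ?_⟩
    push_cast
    rw [sub_smul, one_smul]
    ring

theorem tri_zpow (s : ℤ) : C.Tri (C.S ^ s) := by
  refine ⟨1, -s, fun z => ⟨(C.zpow_d s z).1.symm, ?_⟩⟩
  rw [(C.zpow_d s z).2, (C.zpow_d s z).1, one_smul, neg_smul]
  ring

theorem tri_ρ : C.Tri C.ρ := by
  refine ⟨-1, 0, fun z => ⟨(C.ρ_dx z).symm, ?_⟩⟩
  rw [C.ρ_dw]
  simp

theorem dif_one : C.Dif 1 := fun z => ⟨rfl, rfl⟩

theorem Dif.mul {C : QChain A} {σ τ : RingAut A} (hσ : C.Dif σ) (hτ : C.Dif τ) : C.Dif (σ * τ) := by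
  intro z
  simp only [RingAut.mul_apply]
  rw [(hσ _).1, (hσ _).2, (hτ _).1, (hτ _).2]
  exact ⟨rfl, rfl⟩

theorem Dif.inv {C : QChain A} {σ : RingAut A} (hσ : C.Dif σ) : C.Dif σ⁻¹ := by
  intro z
  obtain ⟨y, rfl⟩ := σ.surjective z
  rw [(hσ y).1, (hσ y).2]
  show C.dx (σ.symm _) = σ.symm _ ∧ C.dw (σ.symm _) = σ.symm _
  simp only [σ.symm_apply_apply, and_self]

theorem Dif.conjS {C : QChain A} {τ : RingAut A} (hτ : C.Dif τ) (s : ℤ) :
    C.Dif (C.S ^ s * τ * C.S ^ (-s)) := by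
  intro z
  simp only [RingAut.mul_apply]
  rw [(C.zpow_d s _).1, (C.zpow_d s _).2, (hτ _).1, (hτ _).2, (C.zpow_d (-s) _).1,
    (C.zpow_d (-s) _).2]
  refine ⟨rfl, ?_⟩
  simp only [map_add, map_zsmul]
  push_cast
  rw [neg_smul]
  ring

theorem Dif.conjρ {C : QChain A} {τ : RingAut A} (hτ : C.Dif τ) : C.Dif (C.ρ * τ * C.ρ⁻¹) := by
  intro z
  obtain ⟨y, rfl⟩ := C.ρ.surjective z
  have e : ∀ y, C.ρ⁻¹ (C.ρ y) = y := fun y => C.ρ.symm_apply_apply y
  simp only [RingAut.mul_apply]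
  rw [e, C.ρ_dx, C.ρ_dw, C.ρ_dx, C.ρ_dw, (hτ _).1, (hτ _).2, e, map_neg, e, map_neg, map_neg]
  exact ⟨rfl, rfl⟩

theorem ρ_Xm : C.ρ C.Xm = C.Xp := by
  simp only [Xm, Xp, map_div₀, map_neg, map_sub, C.ρ_a, C.ρ_b, neg_neg, neg_zero]

theorem ρ_Xp : C.ρ C.Xp = C.Xm := by
  simp only [Xm, Xp, map_div₀, map_neg, map_sub, C.ρ_a, C.ρ_b, neg_neg, neg_zero]

theorem burg_ρ {X : A} (h : C.Burg X) : C.Burg (C.ρ X) := by
  have ea : C.ρ (C.a 0) = C.a 0 := by rw [C.ρ_a, neg_zero]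
  have eb : C.ρ (C.b 0) = C.b 0 := by rw [C.ρ_b, neg_zero]
  have h1 := congrArg C.ρ h
  simp only [map_mul, map_add] at h1
  unfold Burg
  rw [← ea, ← eb, C.ρ_dx, C.ρ_dx, C.ρ_dx, C.ρ_dw, C.ρ_dw, C.ρ_dw]
  linear_combination -h1

theorem burg_dif {τ : RingAut A} (hτ : C.Dif τ) (ha : τ (C.a 0) = C.a 0) (hb : τ (C.b 0) = C.b 0)
    {X : A} (h : C.Burg X) : C.Burg (τ X) := by
  have h1 := congrArg τ h
  simp only [map_mul, map_add] at h1
  unfold Burg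
  rw [← ha, ← hb, (hτ _).1, (hτ _).1, (hτ _).1, (hτ _).2, (hτ _).2, (hτ _).2]
  exact h1

end QChain



namespace QChain

variable (C : QChain A)

/-- `r` is a reversal. -/
def Rev (r : RingAut A) : Prop :=
  (∀ j, r (C.a j) = C.a (-j)) ∧ (∀ j, r (C.b j) = C.b (-j)) ∧
    (∀ z, C.dx (r z) = r (C.dx z)) ∧ ∀ z, C.dw (r z) = -r (C.dw z)

/-- Evenness of third points, the reversal may depend on the point. -/
def Ev' : Prop := ∀ X : A, C.Burg X → X = C.Xp ∨ X = C.Xm ∨ ∃ r, C.Rev r ∧ r X = X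

theorem Ev.ev' {C : QChain A} (h : C.Ev) : C.Ev' := fun X hX =>
  (h X hX).imp_right fun h => h.imp_right fun h => ⟨C.ρ, ⟨C.ρ_a, C.ρ_b, C.ρ_dx, C.ρ_dw⟩, h⟩

/-- The same chain with another reversal. -/
def withRev (r : RingAut A) (h : C.Rev r) : QChain A :=
  { C with ρ := r, ρ_a := h.1, ρ_b := h.2.1, ρ_dx := h.2.2.1, ρ_dw := h.2.2.2 }

/-- `τ` fixes the line `L j`. -/
def Fx (τ : RingAut A) (j : ℤ) : Prop := τ (C.a j) = C.a j ∧ τ (C.b j) = C.b j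

theorem fix_K {τ : RingAut A} (hτ : C.Dif τ) {J : Set ℤ} (h : ∀ j ∈ J, C.Fx τ j) :
    ∀ z ∈ C.K J, τ z = z := by
  refine C.fix_dfield hτ ?_
  rintro _ (⟨j, hj, rfl⟩ | ⟨j, hj, rfl⟩)
  · exact (h j hj).1
  · exact (h j hj).2

theorem fix_Xp {τ : RingAut A} (h0 : C.Fx τ 0) (h1 : C.Fx τ 1) : τ C.Xp = C.Xp := by
  simp only [Xp, map_div₀, map_neg, map_sub, h0.1, h0.2, h1.1, h1.2]

theorem fix_Xm {τ : RingAut A} (h0 : C.Fx τ 0) (h1 : C.Fx τ (-1)) : τ C.Xm = C.Xm := by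
  simp only [Xm, map_div₀, map_neg, map_sub, h0.1, h0.2, h1.1, h1.2]

theorem ref_m (h : C.Ref) : C.a (-1) ∈ C.dfield {C.a 0, C.b 0, C.Xm} ∧
    C.b (-1) ∈ C.dfield {C.a 0, C.b 0, C.Xm} := by
  have k : ∀ z ∈ C.dfield {C.a 0, C.b 0, C.Xp}, C.ρ z ∈ C.dfield {C.a 0, C.b 0, C.Xm} := by
    refine C.map_dfield C.tri_ρ ?_ (C.dfield_closed _)
    rintro t (rfl | rfl | rfl)
    · rw [C.ρ_a, neg_zero]
      exact C.sub_dfield _ (by simp)
    · rw [C.ρ_b, neg_zero]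
      exact C.sub_dfield _ (by simp)
    · rw [C.ρ_Xp]
      exact C.sub_dfield _ (by simp)
  rw [← C.ρ_a 1, ← C.ρ_b 1]
  exact ⟨k _ h.1, k _ h.2⟩

theorem fx_one (h : C.Ref) {τ : RingAut A} (hτ : C.Dif τ) (h0 : C.Fx τ 0)
    (hX : τ C.Xp = C.Xp) : C.Fx τ 1 := by
  have k := C.fix_dfield hτ (T := {C.a 0, C.b 0, C.Xp}) (by
    rintro t (rfl | rfl | rfl)
    exacts [h0.1, h0.2, hX])
  exact ⟨k _ h.1, k _ h.2⟩

theorem fx_neg_one (h : C.Ref) {τ : RingAut A} (hτ : C.Dif τ) (h0 : C.Fx τ 0)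
    (hX : τ C.Xm = C.Xm) : C.Fx τ (-1) := by
  have k := C.fix_dfield hτ (T := {C.a 0, C.b 0, C.Xm}) (by
    rintro t (rfl | rfl | rfl)
    exacts [h0.1, h0.2, hX])
  exact ⟨k _ (C.ref_m h).1, k _ (C.ref_m h).2⟩

theorem fx_conj (τ : RingAut A) (s j : ℤ) :
    C.Fx (C.S ^ s * τ * C.S ^ (-s)) j ↔ C.Fx τ (j - s) := by
  unfold Fx
  simp only [RingAut.mul_apply]
  rw [(C.zpow_ab (-s) j).1, (C.zpow_ab (-s) j).2]
  have e1 : C.a j = (C.S ^ s) (C.a (j - s)) := by rw [(C.zpow_ab s _).1, sub_add_cancel]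
  have e2 : C.b j = (C.S ^ s) (C.b (j - s)) := by rw [(C.zpow_ab s _).2, sub_add_cancel]
  rw [← sub_eq_add_neg]
  conv_lhs => rw [e1, e2]
  rw [(C.S ^ s).injective.eq_iff, (C.S ^ s).injective.eq_iff]

theorem fx_conjρ (τ : RingAut A) (j : ℤ) (h : C.Fx τ (-j)) : C.Fx (C.ρ * τ * C.ρ⁻¹) j := by
  have ea : C.ρ⁻¹ (C.a j) = C.a (-j) := by
    have := C.ρ_a (-j)
    rw [neg_neg] at this
    rw [← this]
    exact C.ρ.symm_apply_apply _
  have eb : C.ρ⁻¹ (C.b j) = C.b (-j) := by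
    have := C.ρ_b (-j)
    rw [neg_neg] at this
    rw [← this]
    exact C.ρ.symm_apply_apply _
  unfold Fx
  simp only [RingAut.mul_apply]
  rw [ea, eb, h.1, h.2, C.ρ_a, C.ρ_b, neg_neg]
  exact ⟨rfl, rfl⟩

theorem ρ_K {J J' : Set ℤ} (h : ∀ j ∈ J, -j ∈ J') : ∀ z ∈ C.K J, C.ρ z ∈ C.K J' := by
  refine C.map_dfield C.tri_ρ ?_ (C.K_closed _)
  rintro _ (⟨j, hj, rfl⟩ | ⟨j, hj, rfl⟩)
  · rw [C.ρ_a]
    exact C.a_mem (h j hj)
  · rw [C.ρ_b]
    exact C.b_mem (h j hj)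

theorem zpow_K (s : ℤ) {J J' : Set ℤ} (h : ∀ j ∈ J, j + s ∈ J') :
    ∀ z ∈ C.K J, (C.S ^ s) z ∈ C.K J' := by
  refine C.map_dfield (C.tri_zpow s) ?_ (C.K_closed _)
  rintro _ (⟨j, hj, rfl⟩ | ⟨j, hj, rfl⟩)
  · rw [(C.zpow_ab s j).1]
    exact C.a_mem (h j hj)
  · rw [(C.zpow_ab s j).2]
    exact C.b_mem (h j hj)

/-- Case (D) is automatic. -/
theorem caseD (hB : C.Burg C.Xp) (hR : C.Ref) (hF : C.FD) (hE : C.Ev') (hne : C.Xp ≠ C.Xm)
    {τ : RingAut A} (hτ : C.Dif τ) {m : ℤ} (hm : 1 < m) (h1 : ¬C.Fx τ 1)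
    (h0 : ∀ j ≤ 0, C.Fx τ j) (hm' : C.Fx τ m) : C.Xm ∈ acl (C.K (Set.Ici 0)) := by
  have f0 := h0 0 le_rfl
  have n1 : τ C.Xp ≠ C.Xp := fun h => h1 (C.fx_one hR hτ f0 h)
  have n2 : τ C.Xp ≠ C.Xm := fun h => hne (τ.injective (by
    rw [h, C.fix_Xm f0 (h0 _ (by norm_num))]))
  obtain ⟨r, hr, hX⟩ := ((hE _ (C.burg_dif hτ f0.1 f0.2 hB)).resolve_left n1).resolve_left n2
  have a1 : C.Xp ∈ acl (C.K {0, m}) := by
    have := hF 1 m one_pos hm
    have a0 : C.a 0 ∈ acl (C.K {0, m}) := le_acl _ (C.a_mem (by simp))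
    have b0 : C.b 0 ∈ acl (C.K {0, m}) := le_acl _ (C.b_mem (by simp))
    exact div_mem (neg_mem (sub_mem (mem_acl.2 this.2) b0)) (sub_mem (mem_acl.2 this.1) a0)
  have a2 : τ C.Xp ∈ acl (C.K {0, m}) := by
    refine acl_map τ (fun z hz => ?_) a1
    rw [C.fix_K hτ (J := {0, m}) (by
      rintro j (rfl | rfl)
      exacts [f0, hm']) z hz]
    exact hz
  have a3 : τ C.Xp ∈ acl (C.K (Set.Iic 0)) := by
    rw [← hX]
    refine acl_map r ((C.withRev r hr).ρ_K ?_) a2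
    rintro j (rfl | rfl)
    · simp
    · simp only [Set.mem_Iic]
      omega
  have a4 : C.Xp ∈ acl (C.K (Set.Iic 0)) := by
    have := acl_map (F' := C.K (Set.Iic 0)) τ⁻¹ (fun z hz => by
      have e := C.fix_K hτ (J := Set.Iic 0) h0 z hz
      have e' : τ⁻¹ z = z := by
        conv_lhs => rw [← e]
        exact τ.symm_apply_apply z
      rw [e']
      exact hz) a3
    have e : τ⁻¹ (τ C.Xp) = C.Xp := τ.symm_apply_apply _
    rwa [e] at this
  rw [← C.ρ_Xp]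
  refine acl_map C.ρ (C.ρ_K fun j hj => ?_) a4
  simp only [Set.mem_Iic, Set.mem_Ici] at hj ⊢
  omega

theorem all_alg (hR : C.Ref) (hD : C.Xm ∈ acl (C.K (Set.Ici 0))) (n : ℕ) :
    C.K (Set.Ici (-(n : ℤ))) ≤ acl (C.K (Set.Ici 0)) := by
  have one : C.K (Set.Ici (-1)) ≤ acl (C.K (Set.Ici 0)) := by
    have cl := C.acl_closed (C.K_closed (Set.Ici 0))
    have k : C.dfield {C.a 0, C.b 0, C.Xm} ≤ acl (C.K (Set.Ici 0)) := by
      refine C.dfield_le ?_ cl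
      rintro t (rfl | rfl | rfl)
      · exact le_acl _ (C.a_mem (by simp))
      · exact le_acl _ (C.b_mem (by simp))
      · exact hD
    refine C.K_le (fun j hj => ?_) cl
    rcases eq_or_lt_of_le (Set.mem_Ici.1 hj) with rfl | h
    · exact ⟨k (C.ref_m hR).1, k (C.ref_m hR).2⟩
    · have : j ∈ Set.Ici (0 : ℤ) := by
        simp only [Set.mem_Ici]
        omega
      exact ⟨le_acl _ (C.a_mem this), le_acl _ (C.b_mem this)⟩
  induction n with
  | zero => simpa using le_acl _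
  | succ n ih =>
    refine C.K_le (fun j hj => ?_) (C.acl_closed (C.K_closed _))
    have hj' : j + n ∈ Set.Ici (-1 : ℤ) := by
      simp only [Set.mem_Ici] at hj ⊢
      push_cast at hj
      omega
    have k : ∀ z ∈ acl (C.K (Set.Ici 0)), (C.S ^ (-(n : ℤ))) z ∈ acl (C.K (Set.Ici 0)) := by
      intro z hz
      refine acl_le ih (acl_map _ (C.zpow_K _ fun i hi => ?_) hz)
      simp only [Set.mem_Ici] at hi ⊢
      omega
    have ka := k _ (one (C.a_mem hj'))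
    have kb := k _ (one (C.b_mem hj'))
    rw [(C.zpow_ab _ _).1, add_neg_cancel_right] at ka
    rw [(C.zpow_ab _ _).2, add_neg_cancel_right] at kb
    exact ⟨ka, kb⟩

/-- A uniform window. -/
theorem window (hD : C.Xm ∈ acl (C.K (Set.Ici 0))) : ∃ n : ℕ, ∀ τ, C.Dif τ →
    (∀ j, 0 ≤ j → C.Fx τ j) → (∃ M : ℤ, ∀ j ≤ M, C.Fx τ j) →
    ∃ σ, C.Dif σ ∧ (∀ j, 0 ≤ j → C.Fx σ j) ∧ (∀ j ≤ -(n : ℤ) - 1, C.Fx σ j) ∧
      σ C.Xm = τ C.Xm := by
  classical
  obtain ⟨p, p0, hc, hr⟩ := (alg_iff _ _).1 (mem_acl.1 hD)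
  let P : A → ℕ → Prop := fun Q n => ∃ σ, C.Dif σ ∧ (∀ j, 0 ≤ j → C.Fx σ j) ∧
    (∀ j ≤ -(n : ℤ) - 1, C.Fx σ j) ∧ σ C.Xm = Q
  let f : A → ℕ := fun Q => if h : ∃ n, P Q n then h.choose else 0
  refine ⟨p.roots.toFinset.sup f, fun τ hτ h0 ⟨M, hM⟩ => ?_⟩
  have hP : ∃ n, P (τ C.Xm) n :=
    ⟨M.natAbs, τ, hτ, h0, fun j hj => hM j (by omega), rfl⟩
  have hm : τ C.Xm ∈ p.roots.toFinset := by
    rw [Multiset.mem_toFinset, mem_roots p0]
    have e : p.map (τ : A →+* A) = p := by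
      ext i
      rw [coeff_map]
      exact C.fix_K hτ (J := Set.Ici 0) h0 _ (hc i)
    have := hr.map (f := (τ : A →+* A))
    rwa [e] at this
  have hf : P (τ C.Xm) (f (τ C.Xm)) := by
    simp only [f, dif_pos hP]
    exact hP.choose_spec
  obtain ⟨σ, s1, s2, s3, s4⟩ := hf
  refine ⟨σ, s1, s2, fun j hj => s3 j ?_, s4⟩
  have : f (τ C.Xm) ≤ p.roots.toFinset.sup f := Finset.le_sup hm
  omega

/-- A configuration: `β` moves finitely many lines, `N` is the last index moved by `β⁻¹ ν β`. -/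
def Cfg (ν : RingAut A) (n : ℕ) (β : RingAut A) (N : ℤ) : Prop :=
  C.Dif β ∧ ¬C.Fx (β⁻¹ * ν * β) N ∧ (∀ j, N < j → C.Fx (β⁻¹ * ν * β) j) ∧
    (∃ M : ℤ, ∀ j ≤ M, C.Fx (β⁻¹ * ν * β) j) ∧ ∀ j, N + n ≤ j → C.Fx β j

theorem last_moved (τ : RingAut A) {c M : ℤ} (hc : ¬C.Fx τ c) (hM : ∀ j, M ≤ j → C.Fx τ j) :
    ∃ N, c ≤ N ∧ ¬C.Fx τ N ∧ ∀ j, N < j → C.Fx τ j := by
  obtain ⟨N, hN, hmax⟩ := Int.exists_greatest_of_bdd (P := fun j => ¬C.Fx τ j)
    ⟨M, fun j hj => by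
      by_contra h
      exact hj (hM j (by omega))⟩ ⟨c, hc⟩
  refine ⟨N, hmax c hc, hN, fun j hj => ?_⟩
  by_contra h
  have := hmax j h
  omega

theorem fx_conj_of {τ γ : RingAut A} {j : ℤ} (h1 : C.Fx γ j) (h2 : C.Fx τ j) :
    C.Fx (γ⁻¹ * τ * γ) j := by
  unfold Fx
  simp only [RingAut.mul_apply]
  rw [h1.1, h1.2, h2.1, h2.2]
  constructor
  · conv_lhs => rw [← h1.1]
    exact γ.symm_apply_apply _
  · conv_lhs => rw [← h1.2]
    exact γ.symm_apply_apply _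

/-- The pushing step. -/
theorem push_step (hB : C.Burg C.Xp) (hR : C.Ref) (hE : C.Ev') (hne : C.Xp ≠ C.Xm)
    {ν : RingAut A} (hν : C.Dif ν) {n : ℕ} (hn : ∀ τ, C.Dif τ →
      (∀ j, 0 ≤ j → C.Fx τ j) → (∃ M : ℤ, ∀ j ≤ M, C.Fx τ j) →
      ∃ σ, C.Dif σ ∧ (∀ j, 0 ≤ j → C.Fx σ j) ∧ (∀ j ≤ -(n : ℤ) - 1, C.Fx σ j) ∧
        σ C.Xm = τ C.Xm)
    {β : RingAut A} {N : ℤ} (h : C.Cfg ν n β N) : ∃ β' N', N < N' ∧ C.Cfg ν n β' N' := by
  obtain ⟨hβ, h1, h2, ⟨M, h3⟩, h4⟩ := h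
  set τ := β⁻¹ * ν * β with hτd
  have hτ : C.Dif τ := (hβ.inv.mul hν).mul hβ
  set c : ℤ := N + 1 with hc
  set τc := C.S ^ (-c) * τ * C.S ^ (- -c) with hτc
  have dc : C.Dif τc := hτ.conjS (-c)
  have fc : ∀ j, C.Fx τc j ↔ C.Fx τ (j + c) := fun j => by
    rw [hτc, C.fx_conj, sub_neg_eq_add]
  have f0 : ∀ j, 0 ≤ j → C.Fx τc j := fun j hj => (fc j).2 (h2 _ (by omega))
  have n1 : τc C.Xm ≠ C.Xm := fun e => h1 (by
    have := (fc _).1 (C.fx_neg_one hR dc (f0 0 le_rfl) e)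
    rwa [show (-1 + c : ℤ) = N by omega] at this)
  have n2 : τc C.Xm ≠ C.Xp := fun e => hne (τc.injective (by
    rw [e, C.fix_Xp (f0 0 le_rfl) (f0 1 zero_le_one)]))
  have hBm : C.Burg C.Xm := by
    rw [← C.ρ_Xp]
    exact C.burg_ρ hB
  obtain ⟨r, hr, hX⟩ :=
    ((hE _ (C.burg_dif dc (f0 0 le_rfl).1 (f0 0 le_rfl).2 hBm)).resolve_left n2).resolve_left n1
  obtain ⟨σ, s1, s2, s3, s4⟩ := hn τc dc f0 ⟨M - c, fun j hj => (fc j).2 (h3 _ (by omega))⟩
  set σ' := r * σ * r⁻¹ with hσ'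
  have d' : C.Dif σ' := Dif.conjρ (C := C.withRev r hr) s1
  have g1 : ∀ j, (j ≤ 0 ∨ (n : ℤ) + 1 ≤ j) → C.Fx σ' j := by
    intro j hj
    refine (C.withRev r hr).fx_conjρ σ j ?_
    rcases hj with hj | hj
    · exact s2 _ (by omega)
    · exact s3 _ (by omega)
  have g2 : σ' C.Xp = τc C.Xm := by
    have e : r C.Xm = C.Xp := (C.withRev r hr).ρ_Xm
    have e' : r⁻¹ C.Xp = C.Xm := by
      rw [← e]
      exact r.symm_apply_apply _
    simp only [hσ', RingAut.mul_apply]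
    rw [e', s4, hX]
  set γ := C.S ^ c * σ' * C.S ^ (-c) with hγ
  have dγ : C.Dif γ := d'.conjS c
  have g3 : ∀ j, (j ≤ c ∨ c + n + 1 ≤ j) → C.Fx γ j := fun j hj =>
    (C.fx_conj σ' c j).2 (g1 _ (by omega))
  have e1 : (β * γ)⁻¹ * ν * (β * γ) = γ⁻¹ * τ * γ := by
    rw [hτd]
    group
  have e2 : γ⁻¹ * τ * γ = C.S ^ c * (σ'⁻¹ * τc * σ') * C.S ^ (-c) := by
    rw [hγ, hτc]
    group
  have m1 : ¬C.Fx (γ⁻¹ * τ * γ) (c + 1) := by
    rw [e2, C.fx_conj, show c + 1 - c = 1 by ring]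
    intro k
    have k0 : C.Fx (σ'⁻¹ * τc * σ') 0 := C.fx_conj_of (g1 0 (Or.inl le_rfl)) (f0 0 le_rfl)
    have k1 := C.fix_Xp k0 k
    simp only [RingAut.mul_apply] at k1
    have k2 : τc (σ' C.Xp) = σ' C.Xp := by
      conv_rhs => rw [← k1]
      exact (σ'.apply_symm_apply _).symm
    rw [g2] at k2
    exact n1 (τc.injective k2)
  obtain ⟨N', l1, l2, l3⟩ := C.last_moved (γ⁻¹ * τ * γ) m1 (M := c + n + 1)
    (fun j hj => C.fx_conj_of (g3 j (Or.inr hj)) (h2 j (by omega)))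
  refine ⟨β * γ, N', by omega, hβ.mul dγ, by rwa [e1], by rwa [e1], ⟨min M c, fun j hj => ?_⟩,
    fun j hj => ?_⟩
  · rw [e1]
    exact C.fx_conj_of (g3 j (Or.inl (by omega))) (h3 j (by omega))
  · have k1 := g3 j (Or.inr (by omega))
    have k2 := h4 j (by omega)
    unfold Fx
    simp only [RingAut.mul_apply]
    rw [k1.1, k1.2]
    exact k2

theorem fin_one {ν : RingAut A} (hν : C.Mono ν) {z : A} (hz : z ∈ acl (C.K (Set.Ici 0))) :
    ∀ᶠ s : ℤ in cofinite, ∀ β, C.Dif β → (∀ j, s ≤ j → C.Fx β j) →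
      ν (β ((C.S ^ s) z)) = β ((C.S ^ s) z) := by
  have hi : IsIntegral (C.K (Set.Ici 0)) z := (mem_acl.1 hz).isIntegral
  set q := minpoly (C.K (Set.Ici 0)) z with hq
  set p := q.map (algebraMap (C.K (Set.Ici 0)) A) with hp
  have hc : ∀ i, p.coeff i ∈ C.K (Set.Ici 0) := fun i => by
    rw [hp, coeff_map]
    exact (q.coeff i).2
  have hr : p.IsRoot z := by
    rw [IsRoot, hp, eval_map_algebraMap]
    exact minpoly.aeval _ z
  filter_upwards [hν.2.2 p ((minpoly.monic hi).map _) (minpoly.irreducible hi).separable.map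
    (fun i => C.K_mono (Set.subset_univ _) (hc i))] with s hs β hβ hf
  refine hs _ ?_
  have e : (p.map ((C.S ^ s : RingAut A) : A →+* A)).map (β : A →+* A) =
      p.map ((C.S ^ s : RingAut A) : A →+* A) := by
    ext i
    rw [coeff_map, coeff_map]
    refine C.fix_K hβ (J := Set.Ici s) hf _ (C.zpow_K s (J := Set.Ici 0) (fun j hj => ?_) _ (hc i))
    simp only [Set.mem_Ici] at hj ⊢
    omega
  have := (hr.map (f := ((C.S ^ s : RingAut A) : A →+* A))).map (f := (β : A →+* A))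
  rwa [e] at this

theorem fin_fx {ν : RingAut A} (hν : C.Mono ν) : ∀ᶠ s : ℤ in cofinite, C.Fx ν s := by
  filter_upwards [C.fin_one hν (le_acl _ (C.a_mem (j := 0) (by simp))),
    C.fin_one hν (le_acl _ (C.b_mem (j := 0) (by simp)))] with s h1 h2
  have k1 := h1 1 C.dif_one fun j _ => ⟨rfl, rfl⟩
  have k2 := h2 1 C.dif_one fun j _ => ⟨rfl, rfl⟩
  rw [(C.zpow_ab s 0).1, zero_add] at k1
  rw [(C.zpow_ab s 0).2, zero_add] at k2
  exact ⟨k1, k2⟩

theorem bdd {P : ℤ → Prop} (h : ∀ᶠ s : ℤ in cofinite, P s) :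
    ∃ M : ℤ, ∀ s, (M ≤ s ∨ s ≤ -M) → P s := by
  rw [Int.cofinite_eq, eventually_sup, eventually_atBot, eventually_atTop] at h
  obtain ⟨⟨M1, h1⟩, ⟨M2, h2⟩⟩ := h
  refine ⟨max (-M1) M2, fun s hs => ?_⟩
  rcases hs with hs | hs
  · exact h2 s (by omega)
  · exact h1 s (by omega)

theorem core' (hne : C.Xp ≠ C.Xm) (hB : C.Burg C.Xp) (hR : C.Ref) (hF : C.FD) (hE : C.Ev')
    (ν : RingAut A) : ¬C.Mono ν := by
  intro hν
  obtain ⟨M, hM⟩ := bdd (C.fin_fx hν)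
  have h0 : ¬C.Fx ν 0 := fun h => hν.2.1.elim (fun k => k h.1) fun k => k h.2
  obtain ⟨i, hi, hmin⟩ := Int.exists_least_of_bdd (P := fun j => ¬C.Fx ν j)
    ⟨-M, fun j hj => by
      by_contra h
      exact hj (hM j (Or.inr (by omega)))⟩ ⟨0, h0⟩
  have hiM : i < M := by
    by_contra h
    exact hi (hM i (Or.inl (by omega)))
  have hD : C.Xm ∈ acl (C.K (Set.Ici 0)) := by
    refine C.caseD hB hR hF hE hne (hν.1.conjS (1 - i)) (m := M + 1 - i) (by omega) ?_ ?_ ?_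
    · rw [C.fx_conj]
      rwa [show 1 - (1 - i) = i by ring]
    · intro j hj
      rw [C.fx_conj]
      by_contra h
      have := hmin _ h
      omega
    · rw [C.fx_conj]
      exact hM _ (Or.inl (by omega))
  obtain ⟨n, hn⟩ := C.window hD
  have e1 : (1 : RingAut A)⁻¹ * ν * 1 = ν := by group
  obtain ⟨N0, -, l2, l3⟩ := C.last_moved ν h0 (M := M) fun j hj => hM j (Or.inl hj)
  have c0 : C.Cfg ν n 1 N0 := ⟨C.dif_one, by rwa [e1], by rwa [e1],
    ⟨-M, fun j hj => by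
      rw [e1]
      exact hM j (Or.inr hj)⟩, fun j _ => ⟨rfl, rfl⟩⟩
  have all : ∀ k : ℕ, ∃ β N, N0 + k ≤ N ∧ C.Cfg ν n β N := by
    intro k
    induction k with
    | zero => exact ⟨1, N0, by simp, c0⟩
    | succ k ih =>
      obtain ⟨β, N, h1, h2⟩ := ih
      obtain ⟨β', N', h3, h4⟩ := C.push_step hB hR hE hne hν.1 hn h2
      exact ⟨β', N', by push_cast; omega, h4⟩
  have hj : (-(n : ℤ)) ∈ Set.Ici (-(n : ℤ)) := Set.mem_Ici.2 le_rfl
  obtain ⟨M', hM'⟩ := bdd ((C.fin_one hν (C.all_alg hR hD n (C.a_mem hj))).and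
    (C.fin_one hν (C.all_alg hR hD n (C.b_mem hj))))
  obtain ⟨β, N, h1, h2⟩ := all (M' - N0).natAbs
  obtain ⟨k1, k2⟩ := hM' (N + n) (Or.inl (by omega))
  have k3 := k1 β h2.1 h2.2.2.2.2
  have k4 := k2 β h2.1 h2.2.2.2.2
  rw [(C.zpow_ab _ _).1, show -(n : ℤ) + (N + n) = N by ring] at k3
  rw [(C.zpow_ab _ _).2, show -(n : ℤ) + (N + n) = N by ring] at k4
  refine h2.2.1 ⟨?_, ?_⟩
  · simp only [RingAut.mul_apply]
    rw [k3]
    exact β.symm_apply_apply _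
  · simp only [RingAut.mul_apply]
    rw [k4]
    exact β.symm_apply_apply _

end QChain

/-- The algebraic core, the reversal in the evenness hypothesis may depend on the point. -/
def Spec_CORE' : Prop := ∀ (A : Type) [Field A] [CharZero A] (C : QChain A),
  C.Xp ≠ C.Xm → C.Burg C.Xp → C.Ref → C.FD → C.Ev' → ∀ ν, ¬C.Mono ν

theorem core' : Spec_CORE' := fun A _ _ C h1 h2 h3 h4 h5 ν => C.core' h1 h2 h3 h4 h5 ν

theorem core : Spec_CORE := fun A _ _ C h1 h2 h3 h4 h5 ν => C.core' h1 h2 h3 h4 h5.ev' ν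

end Vale.Agent.P097T.Q
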