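import Vale.Agent.P097T.ExtDefs

/-!
# P097T: a recurrence makes the Hankel determinants small (`Spec_DET`)
-/

set_option linter.all false

noncomputable section

namespace Vale.Agent.P097T.Out

open Finset

namespace Det

/-- a determinant is bounded by the product of bounds for the columns -/
theorem norm_det_le {N : ℕ} (A : Matrix (Fin N) (Fin N) ℂ) (B : Fin N → ℝ)
    (h : ∀ i j, ‖A i j‖ ≤ B j) : ‖A.det‖ ≤ N.factorial * ∏ j, B j := by
  rw [Matrix.det_apply']
  refine (norm_sum_le _ _).trans ?_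
  have h1 : ∀ σ : Equiv.Perm (Fin N),
      ‖((Equiv.Perm.sign σ : ℤ) : ℂ) * ∏ i, A (σ i) i‖ ≤ ∏ j, B j := by
    intro σ
    rw [norm_mul, norm_prod]
    have h2 : ‖((Equiv.Perm.sign σ : ℤ) : ℂ)‖ = 1 := by
      rcases Int.units_eq_one_or (Equiv.Perm.sign σ) with h | h <;> simp [h]
    rw [h2, one_mul]
    exact prod_le_prod (fun i _ => norm_nonneg _) fun i _ => h _ _
  refine (sum_le_sum fun σ _ => h1 σ).trans ?_
  simp [Fintype.card_perm]

/-- the matrix of the column operations -/
def U (p m : ℕ) (q : ℕ → ℂ) : Matrix (Fin (m + 1)) (Fin (m + 1)) ℂ := Matrix.of fun r j =>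
  if (j : ℕ) + p ≤ m then (if (j : ℕ) ≤ r ∧ (r : ℕ) ≤ j + p then q (r - j) else 0)
  else if r = j then 1 else 0

theorem det_U (p m : ℕ) (q : ℕ → ℂ) (hq : q 0 = 1) : (U p m q).det = 1 := by
  rw [Matrix.det_of_lowerTriangular]
  · refine prod_eq_one fun j _ => ?_
    simp [U, hq]
  · intro r j h
    have h1 : r < j := h
    have h2 : ¬ ((j : ℕ) ≤ r ∧ (r : ℕ) ≤ j + p) := fun h3 => absurd h3.1 (not_le.2 h1)
    simp only [U, Matrix.of_apply, if_neg h2, if_neg h1.ne, ite_self]

theorem mul_U (p m n : ℕ) (q c : ℕ → ℂ) (i j : Fin (m + 1)) :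
    ((Matrix.of fun i j : Fin (m + 1) => c (n + i - j)) * U p m q) i j =
      if (j : ℕ) + p ≤ m then cv p q c (n + i - j) else c (n + i - j) := by
  rw [Matrix.mul_apply]
  split_ifs with h
  · simp only [U, Matrix.of_apply, if_pos h]
    rw [Fin.sum_univ_eq_sum_range
      (fun r => c (n + i - r) * if (j : ℕ) ≤ r ∧ r ≤ j + p then q (r - j) else 0) (m + 1), cv]
    symm
    refine sum_bij_ne_zero (fun l _ _ => j + l) ?_ ?_ ?_ ?_
    · intro l hl _
      rw [mem_range] at hl ⊢
      omega
    · intro l _ _ l' _ _ e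
      omega
    · intro r hr hne
      by_cases h1 : (j : ℕ) ≤ r ∧ r ≤ j + p
      · rw [if_pos h1] at hne
        refine ⟨r - j, mem_range.2 (by omega), ?_, by omega⟩
        rw [mul_comm, show n + i - j - (r - j) = n + i - r by omega]
        exact hne
      · rw [if_neg h1, mul_zero] at hne
        exact absurd rfl hne
    · intro l hl _
      rw [mem_range] at hl
      rw [if_pos ⟨by omega, by omega⟩, mul_comm, show (j : ℕ) + l - j = l by omega,
        show n + i - (j + l) = n + i - j - l by omega]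
  · simp [U, if_neg h]

theorem prod_B (p m : ℕ) (hp : p ≤ m) (K M : ℝ) :
    ∏ j : Fin (m + 1), (if (j : ℕ) + p ≤ m then K else M) = K ^ (m + 1 - p) * M ^ p := by
  rw [Fin.prod_univ_eq_prod_range (fun j => if j + p ≤ m then K else M) (m + 1)]
  conv_lhs => rw [show m + 1 = (m + 1 - p) + p by omega]
  rw [prod_range_add]
  congr 1
  · rw [prod_congr rfl fun j hj => if_pos (by rw [mem_range] at hj; omega)]
    simp
  · rw [prod_congr rfl fun j hj => if_neg (by omega)]
    simp

end Det

open Det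

theorem det : Spec_DET := by
  intro p m n q c k M R hp hn hR hq hc hcv
  have hR0 : 0 < R := by linarith
  have hk : 0 ≤ k := by
    have h1 := (norm_nonneg _).trans (hcv p le_rfl)
    by_contra h2
    have : k * R⁻¹ ^ p < 0 := mul_neg_of_neg_of_pos (not_le.1 h2) (by positivity)
    linarith
  have e : hank m n c = ((Matrix.of fun i j : Fin (m + 1) => c (n + i - j)) * U p m q).det := by
    rw [Matrix.det_mul, det_U p m q hq, mul_one, hank]
  rw [e, ← prod_B p m hp]
  refine norm_det_le _ _ fun i j => ?_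
  rw [mul_U]
  have hj := j.2
  split_ifs with h
  · refine (hcv _ (by omega)).trans ?_
    rw [mul_assoc]
    refine mul_le_mul_of_nonneg_left ?_ hk
    have h1 : R⁻¹ ^ (n + i - j) ≤ R⁻¹ ^ (n - m) :=
      pow_le_pow_of_le_one (by positivity) (inv_le_one_of_one_le₀ hR) (by omega)
    refine h1.trans (le_of_eq ?_)
    conv_rhs => rw [show n = m + (n - m) by omega, pow_add, ← mul_assoc, ← mul_pow,
      mul_inv_cancel₀ hR0.ne', one_pow, one_mul]
  · exact hc _

end Vale.Agent.P097T.Out
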