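import Vale.Agent.P097T.ExtDefs

/-!
# P097T: a meromorphic extension gives a recurrence for the Fourier coefficients (row **F1**)
-/

set_option linter.all false

noncomputable section

namespace Vale.Agent.P097T.Out

open Filter Topology Set Metric Complex

namespace F1A

/-- the coordinate at the lower end -/
def ze (z : ℂ) : ℂ := cexp (-(2 * Real.pi * I * z))

theorem ze_an (z : ℂ) : AnalyticAt ℂ ze z := by
  unfold ze
  fun_prop

theorem ze_add (z : ℂ) : ze (z + 1) = ze z := by
  unfold ze
  rw [show -(2 * (Real.pi : ℂ) * I * (z + 1)) = -(2 * Real.pi * I * z) - 2 * Real.pi * I by ring,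
    Complex.exp_sub, Complex.exp_two_pi_mul_I, div_one]

theorem pol_an (p : Polynomial ℂ) (z : ℂ) : AnalyticAt ℂ (fun z => p.eval (ze z)) z := by
  simp only [Polynomial.eval_eq_sum_range]
  exact Finset.analyticAt_fun_sum _ fun l _ => analyticAt_const.mul ((ze_an z).pow l)

/-- a polynomial in `ze` which kills the poles on a compact set -/
theorem kill {K : Set ℂ} (hK : IsCompact K) {F : ℂ → ℂ} (hF : ∀ z ∈ K, MeromorphicAt F z) :
    ∃ p : Polynomial ℂ, p ≠ 0 ∧ ∀ z ∈ K, AnalyticAt ℂ (fun z => p.eval (ze z) * F z) z := by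
  refine hK.induction_on (p := fun s => ∃ p : Polynomial ℂ, p ≠ 0 ∧
    ∀ z ∈ s, AnalyticAt ℂ (fun z => p.eval (ze z) * F z) z) ⟨1, one_ne_zero, fun z hz => hz.elim⟩
    (fun s u hs ⟨p, p0, hp⟩ => ⟨p, p0, fun z hz => hp z (hs hz)⟩) ?_ ?_
  · rintro s u ⟨p, p0, hp⟩ ⟨q, q0, hq⟩
    refine ⟨p * q, mul_ne_zero p0 q0, fun z hz => ?_⟩
    rcases hz with hz | hz
    · have := (pol_an q z).mul (hp z hz)
      refine this.congr (Eventually.of_forall fun w => ?_)
      simp only [Pi.mul_apply, Polynomial.eval_mul]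
      ring
    · have := (pol_an p z).mul (hq z hz)
      refine this.congr (Eventually.of_forall fun w => ?_)
      simp only [Pi.mul_apply, Polynomial.eval_mul]
      ring
  · intro c hc
    obtain ⟨n, hn⟩ := hF c hc
    have h1 : AnalyticAt ℂ (dslope ze c) c := by
      obtain ⟨P, hP⟩ := ze_an c
      exact ⟨_, hP.has_fpower_series_dslope_fslope⟩
    have h2 : AnalyticAt ℂ (fun z => ((Polynomial.X - Polynomial.C (ze c)) ^ n).eval (ze z) * F z)
        c := by
      refine ((h1.pow n).mul hn).congr (Eventually.of_forall fun w => ?_)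
      have e : ze w - ze c = (w - c) * dslope ze c w := (sub_smul_dslope ze c w).symm
      simp only [Pi.mul_apply, Pi.pow_apply, Polynomial.eval_pow, Polynomial.eval_sub,
        Polynomial.eval_X, Polynomial.eval_C, smul_eq_mul, e, mul_pow]
      ring
    exact ⟨_, mem_nhdsWithin_of_mem_nhds h2.eventually_analyticAt, _,
      pow_ne_zero n (Polynomial.X_sub_C_ne_zero _), fun z hz => hz⟩

theorem conv (T : ℝ) : IsPreconnected (Hs T) :=
  ((convex_halfSpace_im_ge 0).inter (convex_halfSpace_im_lt T)).isPreconnected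

theorem shift {f : ℝ → ℂ} {F : ℂ → ℂ} {T : ℝ} (hf : ∀ x, f (x + 1) = f x)
    (h : IsExt (Hs T) f F) : IsExt (Hs T) f fun z => F (z + 1) := by
  refine ⟨fun z hz => ?_, ?_⟩
  · have h1 : z + 1 ∈ Hs T := by simpa [Hs] using hz
    exact MeromorphicAt.comp_analyticAt (g := fun z : ℂ => z + 1) (h.1 _ h1) (by fun_prop)
  · refine (h.2.image fun x => x - 1).mono fun x hx => ?_
    refine ⟨x + 1, ⟨?_, ?_⟩, by ring⟩
    · simpa [Hs] using hx.1
    · rw [hf x]
      push_cast
      exact hx.2

/-- the coefficients of the product -/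
theorem cv_eq {f : ℝ → ℂ} (hf : Continuous f) (p : Polynomial ℂ) {n : ℕ} (hn : p.natDegree ≤ n) :
    cv p.natDegree p.coeff (fc f) n =
      ∫ x in (0 : ℝ)..1, p.eval (ze x) * f x * cexp (2 * Real.pi * I * n * x) := by
  unfold cv fc
  simp only [← intervalIntegral.integral_const_mul]
  rw [← intervalIntegral.integral_finset_sum]
  · refine intervalIntegral.integral_congr fun x _ => ?_
    simp only [Polynomial.eval_eq_sum_range, Finset.sum_mul]
    refine Finset.sum_congr rfl fun l hl => ?_
    have hl' : l ≤ n := (Nat.lt_succ_iff.1 (Finset.mem_range.1 hl)).trans hn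
    have e : cexp (2 * Real.pi * I * ((n - l : ℕ) : ℂ) * x) =
        ze x ^ l * cexp (2 * Real.pi * I * n * x) := by
      unfold ze
      rw [← Complex.exp_nat_mul, ← Complex.exp_add, Nat.cast_sub hl']
      congr 1
      ring
    rw [e]
    ring
  · intro l _
    exact Continuous.intervalIntegrable (by fun_prop) _ _

end F1A

open F1A in
theorem f1 : Spec_XU → Spec_F1 := by
  intro xu f t T t0 tT fc0 fp ⟨F, hF⟩
  have real : ∀ x : ℝ, (x : ℂ) ∈ Hs T := fun x => by
    simp only [Hs, mem_setOf_eq, Complex.ofReal_im]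
    exact ⟨le_rfl, by linarith⟩
  have per := xu (Hs T) f F _ 0 (conv T) (Eventually.of_forall real) hF (shift fp hF)
  set K : Set ℂ := uIcc (0 : ℝ) 1 ×ℂ uIcc (0 : ℝ) t with hK
  have Kc : IsCompact K := isCompact_uIcc.reProdIm isCompact_uIcc
  have KH : ∀ z ∈ K, z ∈ Hs T := fun z hz => by
    have := hz.2
    rw [mem_preimage, uIcc_of_le t0.le] at this
    exact ⟨this.1, this.2.trans_lt tT⟩
  obtain ⟨p, p0, hp⟩ := kill Kc fun z hz => hF.1 z (KH z hz)
  set G : ℂ → ℂ := fun z => p.eval (ze z) * F z with hG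
  obtain ⟨C, hC⟩ := Kc.exists_bound_of_continuousOn
    (f := G) fun z hz => (hp z hz).continuousAt.continuousWithinAt
  refine ⟨p.natDegree, p.coeff, C, ⟨_, le_rfl, Polynomial.leadingCoeff_ne_zero.2 p0⟩,
    fun n hn => ?_⟩
  rw [cv_eq fc0 p hn]
  set g : ℂ → ℂ := fun z => G z * cexp (2 * Real.pi * I * n * z) with hg
  have e1 : ∫ x in (0 : ℝ)..1, p.eval (ze x) * f x * cexp (2 * Real.pi * I * n * x) =
      ∫ x in (0 : ℝ)..1, g x := by
    refine intervalIntegral.integral_congr_ae ?_
    filter_upwards [hF.2.ae_notMem MeasureTheory.volume] with x hx _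
    have : F x = f x := by
      by_contra h
      exact hx ⟨real x, h⟩
    simp only [hg, hG, this]
  have gd : DifferentiableOn ℂ g K := fun z hz =>
    ((hp z hz).differentiableAt.mul (by fun_prop)).differentiableWithinAt
  have rect := Complex.integral_boundary_rect_eq_zero_of_differentiableOn g 0 ⟨1, t⟩ gd
  have side : ∫ y in (0 : ℝ)..t, g (((1 : ℝ) : ℂ) + y * I) =
      ∫ y in (0 : ℝ)..t, g (((0 : ℝ) : ℂ) + y * I) := by
    refine intervalIntegral.integral_congr fun y hy => ?_
    have k0 : (y : ℂ) * I ∈ K := by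
      refine ⟨?_, ?_⟩
      · simp
      · simpa using hy
    have k1 : (y : ℂ) * I + 1 ∈ K := by
      refine ⟨?_, ?_⟩
      · simp
      · simpa using hy
    have c0 : Tendsto G (𝓝[≠] (y * I)) (𝓝 (G (y * I))) :=
      (hp _ k0).continuousAt.tendsto.mono_left nhdsWithin_le_nhds
    have c1 : Tendsto (fun z => G (z + 1)) (𝓝[≠] (y * I)) (𝓝 (G (y * I + 1))) :=
      (ContinuousAt.comp (f := fun z : ℂ => z + 1) (hp _ k1).continuousAt
        (by fun_prop)).tendsto.mono_left nhdsWithin_le_nhds
    have eq : G (y * I) = G (y * I + 1) := by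
      refine tendsto_nhds_unique_of_eventuallyEq c0 c1 ?_
      filter_upwards [per _ (KH _ k0)] with z hz
      simp only [hG, ze_add, hz]
    have ex : cexp (2 * Real.pi * I * n * (y * I + 1)) = cexp (2 * Real.pi * I * n * (y * I)) := by
      rw [mul_add, Complex.exp_add, mul_one, mul_comm (2 * (Real.pi : ℂ) * I) n,
        Complex.exp_nat_mul_two_pi_mul_I, mul_one]
    show g _ = g _
    simp only [hg, Complex.ofReal_one, Complex.ofReal_zero, zero_add]
    rw [add_comm (1 : ℂ), ← eq, ex]
  have e2 : ∫ x in (0 : ℝ)..1, g x = ∫ x in (0 : ℝ)..1, g (x + t * I) := by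
    simp only [Complex.zero_re, Complex.zero_im] at rect
    rw [side] at rect
    simp only [Complex.ofReal_zero, zero_mul, add_zero] at rect
    linear_combination rect
  rw [e1, e2]
  have bd := intervalIntegral.norm_integral_le_of_norm_le_const (a := 0) (b := 1)
    (f := fun x : ℝ => g (x + t * I)) (C := C * (Real.exp (2 * Real.pi * t))⁻¹ ^ n) fun x hx => by
      have k : (x : ℂ) + t * I ∈ K := by
        refine ⟨?_, ?_⟩
        · simpa using uIoc_subset_uIcc hx
        · simp
      have e : ‖cexp (2 * Real.pi * I * n * (x + t * I))‖ = (Real.exp (2 * Real.pi * t))⁻¹ ^ n := by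
        rw [Complex.norm_exp, ← Real.exp_neg, ← Real.exp_nat_mul]
        congr 1
        simp
        ring
      simp only [hg]
      rw [norm_mul, e]
      exact mul_le_mul_of_nonneg_right (hC _ k) (by positivity)
  simpa using bd

end Vale.Agent.P097T.Out
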