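import Vale.Agent.P097T.ExtDefs

/-!
# P097T: a recurrence for the Fourier coefficients gives the meromorphic extension
-/

set_option linter.all false

noncomputable section

namespace Vale.Agent.P097T.Out

open Filter Topology Set Metric Complex

namespace RF2

/-- the characters -/
def E (n : ℤ) (z : ℂ) : ℂ := cexp (2 * Real.pi * I * n * z)

theorem E_diff (n : ℤ) : Differentiable ℂ (E n) := by
  unfold E; fun_prop

theorem E_norm (n : ℤ) (z : ℂ) : ‖E n z‖ = Real.exp (-(n * (2 * Real.pi * z.im))) := by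
  unfold E
  rw [Complex.norm_exp]
  congr 1
  simp
  ring

theorem E_per (n : ℤ) (z : ℂ) : E n (z + 1) = E n z := by
  unfold E
  rw [mul_add, Complex.exp_add, mul_one, mul_comm (2 * (Real.pi : ℂ) * I) n,
    Complex.exp_int_mul_two_pi_mul_I, mul_one]

theorem E_add (n k : ℤ) (z : ℂ) : E (n + k) z = E n z * E k z := by
  unfold E
  rw [← Complex.exp_add]
  congr 1
  push_cast
  ring

theorem E_pow (l : ℕ) (z : ℂ) : E (-(l : ℤ)) z = E (-1) z ^ l := by
  unfold E
  rw [← Complex.exp_nat_mul]
  congr 1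
  push_cast
  ring

/-- shifting the contour -/
theorem shift {H : ℂ → ℂ} {η s : ℝ} (hs : |s| < η) (hH : DifferentiableOn ℂ H {z | |z.im| < η})
    (hp : ∀ z : ℂ, |z.im| < η → H (z + 1) = H z) :
    ∫ x in (0 : ℝ)..1, H x = ∫ x in (0 : ℝ)..1, H (x + s * I) := by
  have hin : ∀ y ∈ uIcc (0 : ℝ) s, |y| < η := by
    intro y hy
    have := abs_sub_left_of_mem_uIcc hy
    simp only [sub_zero] at this
    exact this.trans_lt hs
  have h := integral_boundary_rect_eq_zero_of_differentiableOn H 0 (1 + s * I) (hH.mono (by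
    intro z hz
    have h2 := hz.2
    simp only [mem_preimage, zero_im, add_im, one_im, mul_im, ofReal_re, I_im, mul_one, ofReal_im,
      I_re, mul_zero, add_zero, zero_add] at h2
    exact hin _ h2))
  have h2 : ∫ y in (0 : ℝ)..s, H (1 + y * I) = ∫ y in (0 : ℝ)..s, H (y * I) := by
    refine intervalIntegral.integral_congr (fun y hy => ?_)
    show H (1 + y * I) = H (y * I)
    rw [add_comm]
    exact hp _ (by simpa using hin y hy)
  simp only [zero_re, zero_im, add_re, one_re, mul_re, ofReal_re, I_re, mul_zero, ofReal_im, I_im,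
    mul_one, sub_self, add_zero, add_im, one_im, mul_im, zero_add, ofReal_zero, zero_mul,
    ofReal_one] at h
  rw [h2] at h
  linear_combination h

/-- the Fourier coefficients -/
def co (H : ℂ → ℂ) (n : ℤ) : ℂ := ∫ x in (0 : ℝ)..1, E (-n) x * H x

theorem co_bd {H : ℂ → ℂ} {η : ℝ} (hη : 0 < η) (hH : DifferentiableOn ℂ H {z | |z.im| < η})
    (hp : ∀ z : ℂ, |z.im| < η → H (z + 1) = H z) :
    ∃ C : ℝ, ∀ n : ℕ, ‖co H n‖ ≤ C * Real.exp (-(Real.pi * η * n)) := by
  have hs : |(-(η / 2))| < η := by rw [abs_neg, abs_of_pos (by linarith)]; linarith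
  have hc : Continuous (fun x : ℝ => H (x + (-(η / 2) : ℝ) * I)) :=
    hH.continuousOn.comp_continuous (by fun_prop) (fun x => by
      show |((x : ℂ) + (-(η / 2) : ℝ) * I).im| < η
      simpa using hs)
  obtain ⟨C, hC⟩ := (isCompact_uIcc (a := (0 : ℝ)) (b := 1)).exists_bound_of_continuousOn
    hc.continuousOn
  refine ⟨C, fun n => ?_⟩
  unfold co
  rw [shift (H := fun z => E (-n) z * H z) hs ((E_diff _).differentiableOn.mul hH)
    (fun z hz => by simp only [E_per, hp z hz])]
  have := intervalIntegral.norm_integral_le_of_norm_le_const (a := 0) (b := 1)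
    (C := C * Real.exp (-(Real.pi * η * n)))
    (f := fun x : ℝ => E (-n) (x + (-(η / 2) : ℝ) * I) * H (x + (-(η / 2) : ℝ) * I))
    (fun x hx => by
      rw [norm_mul, E_norm, mul_comm]
      refine mul_le_mul (hC x (uIoc_subset_uIcc hx)) (le_of_eq ?_) (Real.exp_pos _).le
        ((norm_nonneg _).trans (hC x (uIoc_subset_uIcc hx)))
      congr 1
      simp
      ring)
  simpa using this

theorem geo {c : ℝ} (hc : 0 < c) (C : ℝ) : Summable (fun n : ℕ => C * Real.exp (-(c * n))) := by
  refine Summable.mul_left C ?_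
  have := summable_geometric_of_lt_one (Real.exp_pos (-c)).le (Real.exp_lt_one_iff.2 (by linarith))
  refine this.congr (fun n => ?_)
  rw [← Real.exp_nat_mul]
  congr 1
  ring

theorem sumZ {a : ℤ → ℂ} {α β C C' s : ℝ} {m : ℕ}
    (h1 : ∀ n : ℕ, ‖a n‖ ≤ C * Real.exp (-(α * n)))
    (h2 : ∀ n : ℕ, m ≤ n → ‖a (-n)‖ ≤ C' * Real.exp (-(β * n))) (hα : -α < s) (hβ : s < β) :
    Summable (fun n : ℤ => ‖a n‖ * Real.exp (-(n * s))) := by
  refine Summable.of_nat_of_neg ?_ ?_
  · refine Summable.of_norm_bounded (geo (c := α + s) (by linarith) C) (fun n => ?_)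
    rw [Real.norm_of_nonneg (by positivity)]
    refine (mul_le_mul_of_nonneg_right (h1 n) (Real.exp_pos _).le).trans (le_of_eq ?_)
    rw [mul_assoc, ← Real.exp_add]
    congr 2
    push_cast
    ring
  · refine Summable.of_norm_bounded_eventually_nat (geo (c := β - s) (by linarith) C') ?_
    filter_upwards [eventually_ge_atTop m] with n hn
    rw [Real.norm_of_nonneg (by positivity)]
    refine (mul_le_mul_of_nonneg_right (h2 n hn) (Real.exp_pos _).le).trans (le_of_eq ?_)
    rw [mul_assoc, ← Real.exp_add]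
    congr 2
    push_cast
    ring

theorem ser_an {a : ℤ → ℂ} {α β : ℝ}
    (h : ∀ s, -α < s → s < β → Summable (fun n : ℤ => ‖a n‖ * Real.exp (-(n * s)))) {z : ℂ}
    (h1 : -α < 2 * Real.pi * z.im) (h2 : 2 * Real.pi * z.im < β) :
    AnalyticAt ℂ (fun w => ∑' n : ℤ, a n * E n w) z := by
  obtain ⟨s₁, k1, k2⟩ := exists_between h1
  obtain ⟨s₂, k3, k4⟩ := exists_between h2
  have hU : IsOpen {w : ℂ | s₁ < 2 * Real.pi * w.im ∧ 2 * Real.pi * w.im < s₂} :=
    (isOpen_lt (f := fun _ : ℂ => s₁) (g := fun w : ℂ => 2 * Real.pi * w.im) continuous_const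
      (by fun_prop)).inter (isOpen_lt (f := fun w : ℂ => 2 * Real.pi * w.im)
        (g := fun _ : ℂ => s₂) (by fun_prop) continuous_const)
  refine (differentiableOn_tsum_of_summable_norm
    ((h s₁ k1 (by linarith)).add (h s₂ (by linarith) k4))
    (fun n => ((E_diff n).const_mul (a n)).differentiableOn) hU (fun n w hw => ?_)).analyticAt
    (hU.mem_nhds ⟨k2, k3⟩)
  rw [norm_mul, E_norm, ← mul_add]
  refine mul_le_mul_of_nonneg_left ?_ (norm_nonneg _)
  have e1 := Real.exp_pos (-(n * s₁))
  have e2 := Real.exp_pos (-(n * s₂))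
  rcases le_total (0 : ℝ) n with hn | hn
  · have : Real.exp (-(n * (2 * Real.pi * w.im))) ≤ Real.exp (-(n * s₁)) :=
      Real.exp_le_exp.2 (by nlinarith [hw.1])
    linarith
  · have : Real.exp (-(n * (2 * Real.pi * w.im))) ≤ Real.exp (-(n * s₂)) :=
      Real.exp_le_exp.2 (by nlinarith [hw.2])
    linarith

/-- Fourier inversion -/
theorem inversion {H : ℂ → ℂ} (hc : Continuous fun x : ℝ => H x)
    (hp : ∀ x : ℝ, H (x + 1) = H x) (hs : Summable (co H)) (x : ℝ) :
    ∑' n : ℤ, co H n * E n x = H x := by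
  have hper : Function.Periodic (fun x : ℝ => H x) 1 := fun x => by
    simpa using hp x
  haveI : Fact ((0 : ℝ) < 1) := ⟨one_pos⟩
  let f : C(AddCircle (1 : ℝ), ℂ) := ⟨hper.lift, continuous_coinduced_dom.mpr hc⟩
  have hf : ∀ x : ℝ, f (x : AddCircle (1 : ℝ)) = H x := fun x => rfl
  have he : ∀ (n : ℤ) (x : ℝ), fourier n (x : AddCircle (1 : ℝ)) = E n x := by
    intro n x
    rw [fourier_coe_apply]
    simp [E]
  have hco : fourierCoeff f = co H := by
    funext n
    rw [fourierCoeff_eq_intervalIntegral f n 0]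
    simp only [he, hf, smul_eq_mul, zero_add, div_one, one_smul]
    rfl
  have := has_pointwise_sum_fourier_series_of_summable (f := f) (by rwa [hco])
    (x : AddCircle (1 : ℝ))
  rw [hco, hf] at this
  simp only [he, smul_eq_mul] at this
  exact this.tsum_eq

end RF2

open RF2 in
theorem f2 : Spec_F2 := by
  rintro F η t hη ht hF hp ⟨m, q, C', ⟨l₀, hl₀, hq⟩, hC'⟩
  obtain ⟨Q, hQ⟩ : ∃ Q : ℂ → ℂ, Q = fun z => ∑ l ∈ Finset.range (m + 1), q l * E (-(l : ℤ)) z :=
    ⟨_, rfl⟩
  have hQd : Differentiable ℂ Q := by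
    rw [hQ]
    exact Differentiable.fun_sum (fun l _ => (E_diff _).const_mul _)
  have hQp : ∀ z, Q (z + 1) = Q z := by
    intro z
    simp only [hQ, E_per]
  have hH : DifferentiableOn ℂ (fun z => Q z * F z) {z | |z.im| < η} :=
    hQd.differentiableOn.mul hF
  have hHp : ∀ z : ℂ, |z.im| < η → Q (z + 1) * F (z + 1) = Q z * F z := fun z hz => by
    rw [hQp, hp z hz]
  have hre : ∀ x : ℝ, (x : ℂ) ∈ {z : ℂ | |z.im| < η} := fun x => by
    show |(x : ℂ).im| < η
    simpa using hη
  have hFc : Continuous fun x : ℝ => F x :=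
    hF.continuousOn.comp_continuous continuous_ofReal hre
  obtain ⟨C, hC⟩ := co_bd hη hH hHp
  have hneg : ∀ n : ℕ, m ≤ n → ‖co (fun z => Q z * F z) (-n)‖ ≤
      C' * Real.exp (-(2 * Real.pi * t * n)) := by
    intro n hn
    have e1 : co (fun z => Q z * F z) (-n) = cv m q (fc fun x => F x) n := by
      unfold co cv fc
      simp only [hQ, neg_neg, Finset.sum_mul, Finset.mul_sum]
      rw [intervalIntegral.integral_finset_sum
        (f := fun (l : ℕ) (x : ℝ) => E n x * (q l * E (-(l : ℤ)) x * F x))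
        (fun l _ => Continuous.intervalIntegrable
        (((E_diff _).continuous.comp continuous_ofReal).mul ((continuous_const.mul
          ((E_diff _).continuous.comp continuous_ofReal)).mul hFc)) _ _)]
      refine Finset.sum_congr rfl (fun l hl => ?_)
      rw [← intervalIntegral.integral_const_mul]
      refine intervalIntegral.integral_congr (fun x _ => ?_)
      have hln : l ≤ n := by have := Finset.mem_range.1 hl; omega
      have e2 : cexp (2 * Real.pi * I * ((n - l : ℕ) : ℂ) * x) = E n x * E (-(l : ℤ)) x := by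
        rw [← E_add]
        unfold E
        congr 1
        push_cast [hln]
        ring
      simp only [e2]
      ring
    rw [e1]
    refine (hC' n hn).trans (le_of_eq ?_)
    rw [← Real.exp_neg, ← Real.exp_nat_mul]
    congr 2
    ring
  have hsum : ∀ s, -(Real.pi * η) < s → s < 2 * Real.pi * t → Summable
      (fun n : ℤ => ‖co (fun z => Q z * F z) n‖ * Real.exp (-(n * s))) :=
    fun s h1 h2 => sumZ hC hneg h1 h2
  have hpi := Real.pi_pos
  refine ⟨fun z => (∑' n : ℤ, co (fun z => Q z * F z) n * E n z) / Q z, fun z hz => ?_, ?_⟩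
  · refine (ser_an hsum ?_ ?_).meromorphicAt.div (hQd.analyticAt z).meromorphicAt
    · have := hz.1
      have : 0 ≤ 2 * Real.pi * z.im := by positivity
      have : 0 < Real.pi * η := by positivity
      linarith
    · exact mul_lt_mul_of_pos_left hz.2 (by positivity)
  · obtain ⟨p, hpp⟩ : ∃ p : Polynomial ℂ,
        p = ∑ l ∈ Finset.range (m + 1), Polynomial.C (q l) * Polynomial.X ^ l := ⟨_, rfl⟩
    have h1 : p.coeff l₀ = q l₀ := by
      rw [hpp, Polynomial.finset_sum_coeff]
      simp [Polynomial.coeff_C_mul_X_pow, Nat.lt_succ_iff, hl₀]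
    have h2 : p ≠ 0 := by
      intro h
      rw [h, Polynomial.coeff_zero] at h1
      exact hq h1.symm
    have hinj : Function.Injective (fun x : ℝ => 2 * (Real.pi : ℂ) * I * ((-1 : ℤ) : ℂ) * x) := by
      refine (mul_right_injective₀ ?_).comp ofReal_injective
      simp [Real.pi_ne_zero]
    refine ((Polynomial.finite_setOf_isRoot h2).countable.preimage_cexp.preimage hinj).mono ?_
    rintro x ⟨-, hx⟩
    show p.eval (E (-1) x) = 0
    have h3 : p.eval (E (-1) x) = Q x := by
      rw [hpp, hQ, Polynomial.eval_finset_sum]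
      simp [E_pow]
    rw [h3]
    by_contra h4
    apply hx
    have h5 := inversion (H := fun z => Q z * F z)
      ((hQd.continuous.comp continuous_ofReal).mul hFc) (fun x => hHp x (hre x))
      (Summable.of_norm (by
        simpa using hsum 0 (by have : 0 < Real.pi * η := by positivity
                               linarith) (by positivity))) x
    simp only [h5]
    exact mul_div_cancel_left₀ _ h4

end Vale.Agent.P097T.Out
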