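import Vale.Agent.P097T.ExtDefs

/-!
# P097T: interpolation from a fat subset of a short real segment
-/

set_option linter.all false

noncomputable section

namespace Vale.Agent.P097T.Out

open Filter Topology Set Metric Complex MeasureTheory

namespace RInt

/-- well separated nodes in a set of large outer measure -/
theorem nodes (γ : ℝ) (hγ : 0 < γ) : ∀ (k : ℕ) (E : Set ℝ), BddBelow E →
    ENNReal.ofReal (2 * γ * k) < volume E →
    ∃ t : ℕ → ℝ, (∀ i ≤ k, t i ∈ E) ∧ ∀ i < k, t i + γ ≤ t (i + 1) := by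
  intro k
  induction k with
  | zero =>
    intro E _ hv
    have hne : E.Nonempty := nonempty_of_measure_ne_zero (μ := volume) (by
      intro h; rw [h] at hv; exact absurd hv (by simp))
    obtain ⟨a, ha⟩ := hne
    exact ⟨fun _ => a, fun _ _ => ha, fun i hi => absurd hi (by omega)⟩
  | succ k ih =>
    intro E hb hv
    have hne : E.Nonempty := nonempty_of_measure_ne_zero (μ := volume) (by
      intro h; rw [h] at hv; exact absurd hv (by simp))
    obtain ⟨a, ha, ha'⟩ := exists_lt_of_csInf_lt hne (show sInf E < sInf E + γ by linarith)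
    have hsub : E ⊆ Icc (sInf E) (sInf E + 2 * γ) ∪ (E ∩ Ici (sInf E + 2 * γ)) := by
      intro x hx
      by_cases h : x ≤ sInf E + 2 * γ
      · exact Or.inl ⟨csInf_le hb hx, h⟩
      · exact Or.inr ⟨hx, le_of_lt (not_le.mp h)⟩
    have h1 : volume E ≤ ENNReal.ofReal (2 * γ) + volume (E ∩ Ici (sInf E + 2 * γ)) := by
      refine (measure_mono hsub).trans ((measure_union_le _ _).trans ?_)
      rw [Real.volume_Icc]
      have : sInf E + 2 * γ - sInf E = 2 * γ := by ring
      rw [this]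
    have h2 : ENNReal.ofReal (2 * γ * k) < volume (E ∩ Ici (sInf E + 2 * γ)) := by
      by_contra hc
      have hc := not_lt.mp hc
      have h3 : volume E ≤ ENNReal.ofReal (2 * γ) + ENNReal.ofReal (2 * γ * k) :=
        h1.trans (add_le_add le_rfl hc)
      rw [← ENNReal.ofReal_add (by positivity) (by positivity)] at h3
      have h4 : 2 * γ + 2 * γ * k = 2 * γ * ((k + 1 : ℕ) : ℝ) := by push_cast; ring
      rw [h4] at h3
      exact absurd hv (not_lt.mpr h3)
    obtain ⟨t, ht, ht'⟩ := ih _ (hb.mono inter_subset_left) h2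
    refine ⟨fun i => Nat.casesOn i a t, ?_, ?_⟩
    · intro i hi
      cases i with
      | zero => exact ha
      | succ i => exact (ht i (by omega)).1
    · intro i hi
      cases i with
      | zero =>
        have := (ht 0 (by omega)).2
        simp only [mem_Ici] at this
        show a + γ ≤ t 0
        linarith
      | succ i => exact ht' i (by omega)

theorem sep (γ : ℝ) (k : ℕ) (t : ℕ → ℝ) (ht : ∀ i < k, t i + γ ≤ t (i + 1)) (i : ℕ) :
    ∀ m : ℕ, i + m ≤ k → t i + m * γ ≤ t (i + m) := by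
  intro m
  induction m with
  | zero => intro _; simp
  | succ m ih =>
    intro h
    have h1 := ih (by omega)
    have h2 := ht (i + m) (by omega)
    rw [← add_assoc]
    push_cast
    linarith

theorem sep' (γ : ℝ) (hγ : 0 < γ) (k : ℕ) (t : ℕ → ℝ) (ht : ∀ i < k, t i + γ ≤ t (i + 1))
    (i j : ℕ) (hi : i ≤ k) (hj : j ≤ k) : γ * |(i : ℝ) - j| ≤ |t i - t j| := by
  rcases le_total i j with h | h
  · obtain ⟨m, rfl⟩ := Nat.exists_eq_add_of_le h
    have h1 := sep γ k t ht i m hj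
    have h2 : |(i : ℝ) - ((i + m : ℕ) : ℝ)| = m := by
      push_cast
      rw [show (i : ℝ) - (i + m) = -m by ring, abs_neg, abs_of_nonneg (Nat.cast_nonneg m)]
    rw [h2, abs_sub_comm]
    exact le_trans (by linarith) (le_abs_self _)
  · obtain ⟨m, rfl⟩ := Nat.exists_eq_add_of_le h
    have h1 := sep γ k t ht j m hi
    have h2 : |((j + m : ℕ) : ℝ) - (j : ℝ)| = m := by
      push_cast
      rw [show (j : ℝ) + m - j = m by ring, abs_of_nonneg (Nat.cast_nonneg m)]
    rw [h2]
    exact le_trans (by linarith) (le_abs_self _)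

theorem prodf (i m : ℕ) : ∏ j ∈ (Finset.range (i + m + 1)).erase i, |(i : ℝ) - j| =
    (i.factorial : ℝ) * m.factorial := by
  induction m with
  | zero =>
    rw [add_zero, Finset.range_add_one, Finset.erase_insert (by simp), Nat.factorial_zero,
      Nat.cast_one, mul_one, ← Finset.prod_range_add_one_eq_factorial, Nat.cast_prod,
      ← Finset.prod_range_reflect (fun j => ((j + 1 : ℕ) : ℝ)) i]
    refine Finset.prod_congr rfl fun j hj => ?_
    have hj := Finset.mem_range.mp hj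
    have h1 : i - 1 - j + 1 = i - j := by omega
    rw [h1, Nat.cast_sub hj.le, abs_of_nonneg]
    have : (j : ℝ) ≤ i := by exact_mod_cast hj.le
    linarith
  | succ m ih =>
    rw [show i + (m + 1) + 1 = (i + m + 1) + 1 by ring, Finset.range_add_one (n := i + m + 1),
      Finset.erase_insert_of_ne (by omega), Finset.prod_insert (by simp), ih, Nat.factorial_succ]
    have h2 : |(i : ℝ) - ((i + m + 1 : ℕ) : ℝ)| = m + 1 := by
      push_cast
      rw [show (i : ℝ) - (i + m + 1) = -(m + 1) by ring, abs_neg, abs_of_nonneg (by positivity)]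
    rw [h2]
    push_cast
    ring

/-- dividing by the node polynomial -/
theorem fac (U : Set ℂ) (hU : IsOpen U) (v : ℕ → ℂ) (h : ℂ → ℂ) (hh : DifferentiableOn ℂ h U)
    (s : Finset ℕ) : (∀ i ∈ s, ∀ j ∈ s, i ≠ j → v i ≠ v j) → (∀ i ∈ s, v i ∈ U) →
    (∀ i ∈ s, h (v i) = 0) →
    ∃ g : ℂ → ℂ, DifferentiableOn ℂ g U ∧ ∀ z, h z = (∏ i ∈ s, (z - v i)) * g z := by
  induction s using Finset.induction_on with
  | empty => intro _ _ _; exact ⟨h, hh, fun z => by simp⟩
  | insert a s ha ih =>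
    intro h1 h2 h3
    obtain ⟨g, hg, hg'⟩ := ih
      (fun i hi j hj => h1 i (Finset.mem_insert_of_mem hi) j (Finset.mem_insert_of_mem hj))
      (fun i hi => h2 i (Finset.mem_insert_of_mem hi))
      (fun i hi => h3 i (Finset.mem_insert_of_mem hi))
    have ha0 : g (v a) = 0 := by
      have h4 := hg' (v a)
      rw [h3 a (Finset.mem_insert_self _ _)] at h4
      refine (mul_eq_zero.mp h4.symm).resolve_left ?_
      refine Finset.prod_ne_zero_iff.mpr fun i hi => sub_ne_zero.mpr ?_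
      exact h1 a (Finset.mem_insert_self _ _) i (Finset.mem_insert_of_mem hi)
        (fun e => ha (e ▸ hi))
    refine ⟨dslope g (v a), (Complex.differentiableOn_dslope
      (hU.mem_nhds (h2 a (Finset.mem_insert_self _ _)))).mpr hg, fun z => ?_⟩
    have h5 := sub_smul_dslope g (v a) z
    rw [ha0, sub_zero, smul_eq_mul] at h5
    rw [Finset.prod_insert ha, hg' z, ← h5]
    ring

/-- the Lagrange weights -/
theorem wts (δ : ℝ) (hδ : 0 < δ) (N : ℕ) (t : ℕ → ℝ)
    (ht : ∀ i < N, t i + δ / (2 * (N + 1)) ≤ t (i + 1)) (i : ℕ) (hi : i ≤ N) :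
    δ ^ N ≤ 12 ^ (N + 1) * ∏ j ∈ (Finset.range (N + 1)).erase i, |t i - t j| := by
  have hγ : 0 < δ / (2 * (N + 1)) := by positivity
  have hc : ((Finset.range (N + 1)).erase i).card = N := by
    rw [Finset.card_erase_of_mem (Finset.mem_range.mpr (by omega)), Finset.card_range]; omega
  have h1 : (δ / (2 * (N + 1))) ^ N * ((i.factorial : ℝ) * (N - i).factorial) ≤
      ∏ j ∈ (Finset.range (N + 1)).erase i, |t i - t j| := by
    have h0 := prodf i (N - i)
    rw [show i + (N - i) = N by omega] at h0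
    rw [← h0]
    nth_rewrite 2 [← hc]
    rw [← Finset.prod_const, ← Finset.prod_mul_distrib]
    refine Finset.prod_le_prod (fun j _ => by positivity) fun j hj => ?_
    have hj := Finset.mem_range.mp (Finset.mem_of_mem_erase hj)
    exact sep' _ hγ N t ht i j hi (by omega)
  have h2 : (N.factorial : ℝ) ≤ 2 ^ N * ((i.factorial : ℝ) * (N - i).factorial) := by
    have h3 := Nat.choose_mul_factorial_mul_factorial hi
    have h4 := Nat.choose_le_two_pow N i
    have h5 : N.factorial ≤ 2 ^ N * (i.factorial * (N - i).factorial) := by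
      rw [← h3, mul_assoc]
      exact Nat.mul_le_mul_right _ h4
    exact_mod_cast h5
  have h3 : ((N : ℝ) + 1) ^ N ≤ 3 ^ (N + 1) * N.factorial := by
    have h4 := Real.pow_div_factorial_le_exp ((N : ℝ) + 1) (by positivity) N
    rw [div_le_iff₀ (by positivity)] at h4
    refine h4.trans (mul_le_mul_of_nonneg_right ?_ (by positivity))
    have h5 : Real.exp ((N : ℝ) + 1) = Real.exp 1 ^ (N + 1) := by
      rw [← Real.exp_nat_mul]; push_cast; ring_nf
    rw [h5]
    exact pow_le_pow_left₀ (by positivity) (by linarith [Real.exp_one_lt_d9]) _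
  have h4 : δ ^ N = (δ / (2 * (N + 1))) ^ N * (2 ^ N * ((N : ℝ) + 1) ^ N) := by
    rw [← mul_pow, ← mul_pow]
    congr 1
    field_simp
  set F : ℝ := (i.factorial : ℝ) * (N - i).factorial with hF
  have hF0 : 0 ≤ F := by positivity
  have h5 : 2 ^ N * ((N : ℝ) + 1) ^ N ≤ 12 ^ (N + 1) * F := by
    calc 2 ^ N * ((N : ℝ) + 1) ^ N ≤ 2 ^ N * (3 ^ (N + 1) * (2 ^ N * F)) := by
          refine mul_le_mul_of_nonneg_left (h3.trans ?_) (by positivity)
          exact mul_le_mul_of_nonneg_left h2 (by positivity)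
      _ = (4 ^ N * 3 ^ (N + 1)) * F := by
          rw [show (4 : ℝ) = 2 * 2 by norm_num, mul_pow]; ring
      _ ≤ (4 ^ (N + 1) * 3 ^ (N + 1)) * F := by
          refine mul_le_mul_of_nonneg_right (mul_le_mul_of_nonneg_right ?_ (by positivity)) hF0
          exact pow_le_pow_right₀ (by norm_num) (by omega)
      _ = 12 ^ (N + 1) * F := by rw [← mul_pow]; norm_num
  calc δ ^ N = (δ / (2 * (N + 1))) ^ N * (2 ^ N * ((N : ℝ) + 1) ^ N) := h4
    _ ≤ (δ / (2 * (N + 1))) ^ N * (12 ^ (N + 1) * F) :=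
        mul_le_mul_of_nonneg_left h5 (by positivity)
    _ = 12 ^ (N + 1) * ((δ / (2 * (N + 1))) ^ N * F) := by ring
    _ ≤ _ := mul_le_mul_of_nonneg_left h1 (by positivity)

/-- The Lagrange interpolation polynomial. -/
def lag (y : ℕ → ℂ) (t : ℕ → ℝ) (N : ℕ) (z : ℂ) : ℂ := ∑ i ∈ Finset.range (N + 1),
  y i * ∏ j ∈ (Finset.range (N + 1)).erase i, ((z - t j) / ((t i : ℂ) - t j))

theorem lag_diff (y : ℕ → ℂ) (t : ℕ → ℝ) (N : ℕ) : Differentiable ℂ (lag y t N) := by
  unfold lag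
  refine Differentiable.fun_sum fun i _ => Differentiable.const_mul ?_ _
  exact Differentiable.fun_finsetProd fun j _ => by fun_prop

theorem lag_node (y : ℕ → ℂ) (t : ℕ → ℝ) (N : ℕ)
    (hinj : ∀ i ∈ Finset.range (N + 1), ∀ j ∈ Finset.range (N + 1), i ≠ j → (t i : ℂ) ≠ t j)
    (k : ℕ) (hk : k ∈ Finset.range (N + 1)) : lag y t N (t k) = y k := by
  unfold lag
  rw [Finset.sum_eq_single k]
  · rw [Finset.prod_eq_one, mul_one]
    intro j hj
    exact div_self (sub_ne_zero.mpr (hinj k hk j (Finset.mem_of_mem_erase hj)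
      (Finset.ne_of_mem_erase hj).symm))
  · intro i _ hik
    rw [Finset.prod_eq_zero (i := k) (Finset.mem_erase.mpr ⟨hik.symm, hk⟩) (by simp), mul_zero]
  · intro h; exact absurd hk h

theorem lag_le (y : ℕ → ℂ) (δ M ρ : ℝ) (hδ : 0 < δ) (hM : 0 ≤ M) (hρ : 0 ≤ ρ) (N : ℕ) (t : ℕ → ℝ)
    (ht : ∀ i < N, t i + δ / (2 * (N + 1)) ≤ t (i + 1)) (hy : ∀ i ≤ N, ‖y i‖ ≤ M) (z : ℂ)
    (hz : ∀ j ≤ N, ‖z - t j‖ ≤ ρ) : ‖lag y t N z‖ ≤ M * (24 ^ (N + 1) * (ρ / δ) ^ N) := by
  have h1 : ∀ i ∈ Finset.range (N + 1),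
      ‖y i * ∏ j ∈ (Finset.range (N + 1)).erase i, ((z - t j) / ((t i : ℂ) - t j))‖ ≤
        M * (12 ^ (N + 1) * (ρ / δ) ^ N) := by
    intro i hi
    have hi : i ≤ N := by have := Finset.mem_range.mp hi; omega
    have hc : ((Finset.range (N + 1)).erase i).card = N := by
      rw [Finset.card_erase_of_mem (Finset.mem_range.mpr (by omega)), Finset.card_range]; omega
    rw [norm_mul]
    refine mul_le_mul (hy i hi) ?_ (norm_nonneg _) hM
    rw [Finset.prod_div_distrib, norm_div, norm_prod, norm_prod]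
    have h2 : ∏ j ∈ (Finset.range (N + 1)).erase i, ‖(t i : ℂ) - t j‖ =
        ∏ j ∈ (Finset.range (N + 1)).erase i, |t i - t j| :=
      Finset.prod_congr rfl fun j _ => by rw [← Complex.ofReal_sub, Complex.norm_real, Real.norm_eq_abs]
    have h3 : ∏ j ∈ (Finset.range (N + 1)).erase i, ‖z - t j‖ ≤ ρ ^ N := by
      nth_rewrite 2 [← hc]
      rw [← Finset.prod_const]
      refine Finset.prod_le_prod (fun j _ => norm_nonneg _) fun j hj => hz j ?_
      have := Finset.mem_range.mp (Finset.mem_of_mem_erase hj); omega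
    have h4 := wts δ hδ N t ht i hi
    rw [h2]
    set P := ∏ j ∈ (Finset.range (N + 1)).erase i, |t i - t j| with hP
    have hδN : 0 < δ ^ N := by positivity
    have hP0 : 0 < P := by
      by_contra hc
      have : 12 ^ (N + 1) * P ≤ 0 := mul_nonpos_of_nonneg_of_nonpos (by positivity) (not_lt.mp hc)
      linarith
    rw [div_le_iff₀ hP0, div_pow]
    refine h3.trans ?_
    calc ρ ^ N = ρ ^ N / δ ^ N * δ ^ N := by field_simp
      _ ≤ ρ ^ N / δ ^ N * (12 ^ (N + 1) * P) := mul_le_mul_of_nonneg_left h4 (by positivity)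
      _ = _ := by ring
  unfold lag
  refine (norm_sum_le_of_le _ h1).trans ?_
  rw [Finset.sum_const, Finset.card_range, nsmul_eq_mul]
  have h2 : ((N + 1 : ℕ) : ℝ) ≤ 2 ^ (N + 1) := by exact_mod_cast (Nat.lt_two_pow_self (n := N + 1)).le
  calc ((N + 1 : ℕ) : ℝ) * (M * (12 ^ (N + 1) * (ρ / δ) ^ N))
      ≤ 2 ^ (N + 1) * (M * (12 ^ (N + 1) * (ρ / δ) ^ N)) :=
        mul_le_mul_of_nonneg_right h2 (by positivity)
    _ = _ := by rw [show (24 : ℝ) = 2 * 12 by norm_num, mul_pow]; ring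

end RInt

open RInt in
theorem int : Spec_INT := by
  refine ⟨120, by norm_num, fun f η δ M₀ M₁ E N hδ hη hf hM₁ hE hv hM₀ => ?_⟩
  have hη0 : 0 < η := by linarith
  have hγ : 0 < δ / (2 * (N + 1)) := by positivity
  obtain ⟨t, htE, ht⟩ := nodes _ hγ N E ((bddBelow_Icc).mono hE) (by
    refine lt_of_lt_of_le ?_ hv
    rw [ENNReal.ofReal_lt_ofReal_iff hδ]
    have : 2 * (δ / (2 * (N + 1))) * N = δ * (N / (N + 1)) := by field_simp
    rw [this]
    have h2 : (N : ℝ) / (N + 1) < 1 := by rw [div_lt_one (by positivity)]; linarith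
    nlinarith)
  have hM0 : 0 ≤ M₀ := (norm_nonneg _).trans (hM₀ _ (htE 0 (Nat.zero_le _)))
  have hM1 : 0 ≤ M₁ := (norm_nonneg _).trans (hM₁ 0 (mem_ball_self hη0))
  have htn : ∀ j ≤ N, ‖(t j : ℂ)‖ ≤ δ := fun j hj => by
    rw [Complex.norm_real, Real.norm_eq_abs]; exact abs_le.mpr (hE (htE j hj))
  have hinj : ∀ i ∈ Finset.range (N + 1), ∀ j ∈ Finset.range (N + 1), i ≠ j → (t i : ℂ) ≠ t j := by
    intro i hi j hj hij e
    have hi := Finset.mem_range.mp hi
    have hj := Finset.mem_range.mp hj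
    have h1 := sep' _ hγ N t ht i j (by omega) (by omega)
    have e' : t i = t j := by exact_mod_cast e
    rw [e', sub_self, abs_zero] at h1
    have h2 : 0 < |(i : ℝ) - j| := abs_pos.mpr (sub_ne_zero.mpr (by exact_mod_cast hij))
    exact absurd (mul_pos hγ h2) (not_lt.mpr h1)
  set L := lag (fun i => f (t i)) t N with hL
  obtain ⟨g, hg, hg'⟩ := fac (ball 0 η) isOpen_ball (fun i => (t i : ℂ)) (fun z => f z - L z)
    (hf.sub (lag_diff _ _ _).differentiableOn) (Finset.range (N + 1)) hinj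
    (fun i hi => by
      have hi := Finset.mem_range.mp hi
      rw [mem_ball_zero_iff]
      linarith [htn i (by omega)])
    (fun i hi => by rw [hL, lag_node _ _ _ hinj i hi, sub_self])
  have hy : ∀ i ≤ N, ‖f (t i)‖ ≤ M₀ := fun i hi => hM₀ _ (htE i hi)
  have hL0 : ‖L 0‖ ≤ M₀ * 24 ^ (N + 1) := by
    have := lag_le (fun i => f (t i)) δ M₀ δ hδ hM0 hδ.le N t ht hy 0
      (fun j hj => by rw [zero_sub, norm_neg]; exact htn j hj)
    rwa [div_self hδ.ne', one_pow, mul_one] at this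
  have hg0 : ‖g 0‖ ≤ (M₁ + M₀ * (24 ^ (N + 1) * (η / δ) ^ N)) / (η / 4) ^ (N + 1) := by
    refine Complex.norm_le_of_forall_mem_frontier_norm_le (U := ball 0 (η / 2)) isBounded_ball
      (hg.diffContOnCl_ball (closedBall_subset_ball (by linarith))) ?_
      (subset_closure (mem_ball_self (by linarith)))
    intro z hz
    rw [frontier_ball _ (by linarith : η / 2 ≠ 0), mem_sphere_zero_iff_norm] at hz
    have h1 : ‖L z‖ ≤ M₀ * (24 ^ (N + 1) * (η / δ) ^ N) :=
      lag_le (fun i => f (t i)) δ M₀ η hδ hM0 hη0.le N t ht hy z fun j hj =>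
        (norm_sub_le _ _).trans (by linarith [htn j hj])
    have h2 : ‖f z‖ ≤ M₁ := hM₁ z (by rw [mem_ball_zero_iff]; linarith)
    have h3 : (η / 4) ^ (N + 1) ≤ ‖∏ i ∈ Finset.range (N + 1), (z - (t i : ℂ))‖ := by
      rw [norm_prod]
      nth_rewrite 1 [← Finset.card_range (N + 1)]
      rw [← Finset.prod_const]
      refine Finset.prod_le_prod (fun _ _ => by positivity) fun j hj => ?_
      have hj := Finset.mem_range.mp hj
      have := norm_sub_norm_le z (t j)
      linarith [htn j (by omega)]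
    rw [le_div_iff₀ (by positivity)]
    calc ‖g z‖ * (η / 4) ^ (N + 1) ≤ ‖g z‖ * ‖∏ i ∈ Finset.range (N + 1), (z - (t i : ℂ))‖ :=
          mul_le_mul_of_nonneg_left h3 (norm_nonneg _)
      _ = ‖f z - L z‖ := by rw [hg' z, norm_mul, mul_comm]
      _ ≤ _ := (norm_sub_le _ _).trans (add_le_add h2 h1)
  have h4 : ‖∏ i ∈ Finset.range (N + 1), ((0 : ℂ) - (t i : ℂ))‖ ≤ δ ^ (N + 1) := by
    rw [norm_prod]
    nth_rewrite 2 [← Finset.card_range (N + 1)]
    rw [← Finset.prod_const]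
    refine Finset.prod_le_prod (fun _ _ => norm_nonneg _) fun j hj => ?_
    have hj := Finset.mem_range.mp hj
    rw [zero_sub, norm_neg]
    exact htn j (by omega)
  have h5 : ‖f 0‖ ≤ ‖L 0‖ + δ ^ (N + 1) *
      ((M₁ + M₀ * (24 ^ (N + 1) * (η / δ) ^ N)) / (η / 4) ^ (N + 1)) := by
    have h6 : f 0 = L 0 + (f 0 - L 0) := by ring
    rw [h6]
    refine (norm_add_le _ _).trans (add_le_add le_rfl ?_)
    rw [hg' 0, norm_mul]
    exact mul_le_mul h4 hg0 (norm_nonneg _) (by positivity)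
  have h6 : δ ^ (N + 1) * ((M₁ + M₀ * (24 ^ (N + 1) * (η / δ) ^ N)) / (η / 4) ^ (N + 1)) =
      (4 * δ / η) ^ (N + 1) * M₁ + M₀ * (24 ^ (N + 1) * 4 ^ N * (4 * δ / η)) := by
    simp only [div_pow, mul_pow, pow_succ]
    field_simp
  have h7 : 4 * δ / η ≤ 1 := by rw [div_le_one hη0]; exact hη
  have h8 : (4 * δ / η) ^ (N + 1) ≤ (120 * δ / η) ^ (N + 1) :=
    pow_le_pow_left₀ (by positivity) (div_le_div_of_nonneg_right (by linarith) hη0.le) _
  have h9 : (24 : ℝ) ^ (N + 1) + 24 ^ (N + 1) * 4 ^ N * (4 * δ / η) ≤ 120 ^ (N + 1) := by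
    have h10 : (24 : ℝ) ^ (N + 1) * 4 ^ N * (4 * δ / η) ≤ 24 ^ (N + 1) * 4 ^ N :=
      mul_le_of_le_one_right (by positivity) h7
    have h11 : (1 : ℝ) ≤ 4 ^ N := one_le_pow₀ (by norm_num)
    have h12 : (4 : ℝ) ^ N ≤ 5 ^ N := pow_le_pow_left₀ (by norm_num) (by norm_num) _
    have h13 : (120 : ℝ) ^ (N + 1) = 24 ^ (N + 1) * (5 ^ N * 5) := by
      rw [← pow_succ, ← mul_pow]; norm_num
    have h14 : (0 : ℝ) < 24 ^ (N + 1) := by positivity
    rw [h13]
    nlinarith
  rw [h6] at h5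
  have h15 := mul_le_mul_of_nonneg_right h8 hM1
  have h16 := mul_le_mul_of_nonneg_left h9 hM0
  linarith

end Vale.Agent.P097T.Out
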