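import Vale.Agent.P097T.ExtDefs

/-!
# P097T: the radius of meromorphy passes to the limit (row 504)
-/

set_option linter.all false

noncomputable section

namespace Vale.Agent.P097T.Out

open Filter Topology Set Metric Complex

namespace Roth

/-- normal form of a recurrence -/
theorem norm_mer {R : ℝ} (hR : 0 < R) {c : ℕ → ℂ} (h : Mer R c) : ∃ K : ℕ, ∃ p ≤ K, ∃ q : ℕ → ℂ,
    q 0 = 1 ∧ ∀ j, p ≤ j → ‖cv p q c j‖ ≤ K * R⁻¹ ^ j := by
  classical
  obtain ⟨m, q, C, hq, hC⟩ := h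
  have hex : ∃ l, q l ≠ 0 := hq.imp fun l hl => hl.2
  set l0 := Nat.find hex with hl0
  have h0 : q l0 ≠ 0 := Nat.find_spec hex
  have hle : l0 ≤ m := by
    obtain ⟨l, hl, hl'⟩ := hq
    exact (Nat.find_min' hex hl').trans hl
  have hz : ∀ l < l0, q l = 0 := fun l hl => by
    by_contra hne
    exact Nat.find_min hex hl hne
  obtain ⟨p, rfl⟩ := Nat.exists_eq_add_of_le hle
  obtain ⟨K0, hK0⟩ := exists_nat_ge (C * R⁻¹ ^ l0 / ‖q l0‖)
  refine ⟨max p K0, p, le_max_left _ _, fun l => q (l0 + l) / q l0, by simp [h0], fun j hj => ?_⟩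
  have e : cv p (fun l => q (l0 + l) / q l0) c j = cv (l0 + p) q c (l0 + j) / q l0 := by
    unfold cv
    rw [add_assoc, Finset.sum_range_add _ l0, Finset.sum_eq_zero (s := Finset.range l0), zero_add,
      Finset.sum_div]
    · refine Finset.sum_congr rfl fun l _ => ?_
      rw [Nat.add_sub_add_left]
      ring
    · intro l hl
      rw [hz l (Finset.mem_range.1 hl), zero_mul]
  have hn : 0 < ‖q l0‖ := norm_pos_iff.2 h0
  have hp : 0 ≤ R⁻¹ ^ j := by positivity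
  rw [e, norm_div, div_le_iff₀ hn]
  refine (hC _ (by omega)).trans ?_
  have h1 : C * R⁻¹ ^ l0 ≤ K0 * ‖q l0‖ := (div_le_iff₀ hn).1 hK0
  have h2 : (K0 : ℝ) ≤ ((max p K0 : ℕ) : ℝ) := by exact_mod_cast le_max_right _ _
  calc C * R⁻¹ ^ (l0 + j) = C * R⁻¹ ^ l0 * R⁻¹ ^ j := by rw [pow_add, mul_assoc]
    _ ≤ K0 * ‖q l0‖ * R⁻¹ ^ j := mul_le_mul_of_nonneg_right h1 hp
    _ ≤ ((max p K0 : ℕ) : ℝ) * ‖q l0‖ * R⁻¹ ^ j :=
        mul_le_mul_of_nonneg_right (mul_le_mul_of_nonneg_right h2 hn.le) hp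
    _ = _ := by ring

/-- a fat set of leaves with uniform recurrences -/
theorem fat {c : ℕ → ℂ → ℂ} {η δ R : ℝ} {N : Set ℝ} (hR : 0 < R) (hδ : 0 < δ) (hη : δ < η)
    (hN : N.Countable) (h : ∀ w : ℝ, w ∉ N → |w| < η → Mer R fun n => c n w) :
    ∃ (K : ℕ) (E : Set ℝ), 1 ≤ K ∧ E ⊆ Icc (-δ) δ ∧ ENNReal.ofReal δ ≤ MeasureTheory.volume E ∧
      ∀ w ∈ E, ∃ p ≤ K, ∃ q : ℕ → ℂ, q 0 = 1 ∧
        ∀ j, p ≤ j → ‖cv p q (fun n => c n w) j‖ ≤ K * R⁻¹ ^ j := by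
  let E : ℕ → Set ℝ := fun K => {w | w ∈ Icc (-δ) δ ∧ ∃ p ≤ K, ∃ q : ℕ → ℂ, q 0 = 1 ∧
    ∀ j, p ≤ j → ‖cv p q (fun n => c n w) j‖ ≤ K * R⁻¹ ^ j}
  have hm : Monotone E := by
    intro K K' hK w ⟨hw, p, hp, q, h0, hq⟩
    refine ⟨hw, p, hp.trans hK, q, h0, fun j hj => (hq j hj).trans ?_⟩
    exact mul_le_mul_of_nonneg_right (by exact_mod_cast hK) (by positivity)
  have hsub : Icc (-δ) δ \ N ⊆ ⋃ K, E K := by
    intro w ⟨hw, hwN⟩
    obtain ⟨K, hK⟩ := norm_mer hR (h w hwN ((abs_le.2 hw).trans_lt hη))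
    exact mem_iUnion.2 ⟨K, hw, hK⟩
  have h1 : ENNReal.ofReal δ < ⨆ K, MeasureTheory.volume (E K) := by
    rw [← hm.measure_iUnion]
    refine lt_of_lt_of_le ?_ (MeasureTheory.measure_mono hsub)
    rw [MeasureTheory.measure_diff_null (hN.measure_zero _), Real.volume_Icc]
    exact (ENNReal.ofReal_lt_ofReal_iff (by linarith)).2 (by linarith)
  obtain ⟨K, hK⟩ := lt_iSup_iff.1 h1
  refine ⟨K + 1, E (K + 1), by omega, fun w hw => hw.1,
    hK.le.trans (MeasureTheory.measure_mono (hm (Nat.le_succ K))), fun w hw => hw.2⟩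

theorem diff_hank {c : ℕ → ℂ → ℂ} {U : Set ℂ} (h : ∀ n, DifferentiableOn ℂ (c n) U) (m n : ℕ) :
    DifferentiableOn ℂ (fun w => hank m n fun k => c k w) U := by
  simp only [hank, Matrix.det_apply', Matrix.of_apply]
  refine DifferentiableOn.fun_sum fun σ _ => DifferentiableOn.const_mul ?_ _
  exact DifferentiableOn.fun_finsetProd fun i _ => h _

theorem hank_le (hD : Spec_DET) {c : ℕ → ℂ} {M : ℝ} (h : ∀ j, ‖c j‖ ≤ M) {m n : ℕ} (hn : m ≤ n) :
    ‖hank m n c‖ ≤ (m + 1).factorial * M ^ (m + 1) := by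
  have := hD 0 m n (fun _ => 1) c M M 1 (Nat.zero_le _) (by omega) le_rfl rfl h
    (fun j _ => by simpa [cv] using h j)
  simpa using this

end Roth

open Roth in
theorem roth (hI : Spec_INT) (hD : Spec_DET) (hP : Spec_PADE) : Spec_ROTH := by
  intro c η M R R' N hη hR' hR hN hd hM h
  obtain ⟨K0, hK0, hI⟩ := hI
  obtain ⟨R1, h1, h1'⟩ := exists_between hR
  obtain ⟨R2, h2, h2'⟩ := exists_between h1'
  have p1 : 1 < R1 := hR'.trans h1
  have p2 : 1 < R2 := p1.trans h2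
  have pR : 1 < R := p2.trans h2'
  have z1 : 0 < R1 := by linarith
  have z2 : 0 < R2 := by linarith
  have zR : 0 < R := by linarith
  have zK : 0 < K0 := by linarith
  have hρ : 1 < R2 / R1 := (one_lt_div z1).2 h2
  obtain ⟨L0, hL0⟩ := pow_unbounded_of_one_lt K0 hρ
  set L := L0 + 1 with hL
  have hKL : K0 ≤ (R2 / R1) ^ L := hL0.le.trans (pow_le_pow_right₀ hρ.le (Nat.le_succ _))
  set δ := min (η / 4) (η / (K0 * R1 ^ L)) with hδ
  have zδ : 0 < δ := lt_min (by linarith) (by positivity)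
  have hδ4 : 4 * δ ≤ η := by have := min_le_left (η / 4) (η / (K0 * R1 ^ L)); linarith
  have hδL : K0 * δ / η ≤ R1⁻¹ ^ L := by
    have h3 : δ ≤ η / (K0 * R1 ^ L) := min_le_right _ _
    rw [le_div_iff₀ (by positivity)] at h3
    rw [div_le_iff₀ hη, inv_pow, inv_mul_eq_div, le_div_iff₀ (by positivity)]
    linarith
  obtain ⟨K, E, hK1, hE, hv, hq⟩ := fat zR zδ (by linarith) hN h
  obtain ⟨m0, hm0⟩ := pow_unbounded_of_one_lt (R ^ K) ((one_lt_div z2).2 h2')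
  set m := m0 + K with hm
  have hdm : R⁻¹ ^ (m0 + 1) ≤ R2⁻¹ ^ (m + 1) := by
    have h3 : R ^ K ≤ (R / R2) ^ (m + 1) :=
      hm0.le.trans (pow_le_pow_right₀ ((one_lt_div z2).2 h2').le (by omega))
    rw [div_pow, le_div_iff₀ (by positivity), show m + 1 = K + (m0 + 1) by omega, pow_add R,
      mul_le_mul_iff_right₀ (by positivity)] at h3
    rw [inv_pow, inv_pow, show m + 1 = K + (m0 + 1) by omega]
    exact inv_anti₀ (by positivity) h3
  set M1 := max M 1 with hM1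
  have oM : 1 ≤ M1 := le_max_right _ _
  have hM' : ∀ n, ∀ w ∈ ball (0 : ℂ) η, ‖c n w‖ ≤ M1 := fun n w hw =>
    (hM n w hw).trans (le_max_left _ _)
  have oK : (1 : ℝ) ≤ K := by exact_mod_cast hK1
  have oA : 1 ≤ (K : ℝ) * R ^ m := one_le_mul_of_one_le_of_one_le oK (one_le_pow₀ pR.le)
  set F : ℝ := ((m + 1).factorial : ℝ) with hF
  have zF : 0 ≤ F := Nat.cast_nonneg _
  set A : ℝ := F * (((K : ℝ) * R ^ m) ^ (m + 1) * M1 ^ (m + 1)) with hA
  have zA : 0 ≤ A := by positivity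
  refine hP m (2 * m) (fun n => c n 0) (K0 * A + F * M1 ^ (m + 1)) M1 R1 R' hR' h1
    (fun j => hM' j 0 (mem_ball_self hη)) fun n hn => ?_
  set N0 := n * (m + 1) / L with hN0
  have hN1 : L * N0 ≤ n * (m + 1) := Nat.mul_div_le _ _
  have hN2 : n * (m + 1) ≤ L * (N0 + 1) := (Nat.lt_mul_div_succ _ (Nat.succ_pos L0)).le
  have hi := hI (fun w => hank m n fun k => c k w) η δ (A * (R2⁻¹ ^ (m + 1)) ^ n)
    (F * M1 ^ (m + 1)) E N0 zδ hδ4 (diff_hank hd m n)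
    (fun z hz => hank_le hD (fun j => hM' j z hz) (by omega)) hE hv (fun t ht => by
      obtain ⟨p, hp, q, h0, hq⟩ := hq t ht
      have ht' : (t : ℂ) ∈ ball (0 : ℂ) η := by
        rw [mem_ball_zero_iff, Complex.norm_real, Real.norm_eq_abs]
        exact (abs_le.2 (hE ht)).trans_lt (by linarith)
      refine (hD p m n q (fun k => c k t) K M1 R (by omega) (by omega) pR.le h0
        (fun j => hM' j t ht') hq).trans ?_
      have i1 : R⁻¹ ^ n ≤ 1 := pow_le_one₀ (by positivity) (inv_le_one_of_one_le₀ pR.le)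
      have a1 : ((K : ℝ) * R ^ m) ^ (m + 1 - p) ≤ ((K : ℝ) * R ^ m) ^ (m + 1) :=
        pow_le_pow_right₀ oA (by omega)
      have a2 : (R⁻¹ ^ n) ^ (m + 1 - p) ≤ (R2⁻¹ ^ (m + 1)) ^ n := by
        refine (pow_le_pow_of_le_one (by positivity) i1 (show m0 + 1 ≤ m + 1 - p by omega)).trans ?_
        rw [← pow_mul, mul_comm n, pow_mul]
        exact pow_le_pow_left₀ (by positivity) hdm n
      have a3 : M1 ^ p ≤ M1 ^ (m + 1) := pow_le_pow_right₀ oM (by omega)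
      rw [mul_pow, hA, mul_assoc F]
      refine mul_le_mul_of_nonneg_left ?_ zF
      calc _ ≤ ((K : ℝ) * R ^ m) ^ (m + 1) * (R2⁻¹ ^ (m + 1)) ^ n * M1 ^ (m + 1) := by gcongr
        _ = _ := by ring)
  refine hi.trans ?_
  have b1 : K0 ^ (N0 + 1) * (R2⁻¹ ^ (m + 1)) ^ n ≤ K0 * (R1⁻¹ ^ n) ^ (m + 1) := by
    have c1 : K0 ^ N0 ≤ (R2 / R1) ^ (n * (m + 1)) := by
      refine (pow_le_pow_left₀ zK.le hKL N0).trans ?_
      rw [← pow_mul]
      exact pow_le_pow_right₀ hρ.le hN1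
    have c2 : (R2 / R1) ^ (n * (m + 1)) * (R2⁻¹ ^ (m + 1)) ^ n = (R1⁻¹ ^ n) ^ (m + 1) := by
      rw [← pow_mul, ← pow_mul, mul_comm (m + 1) n, ← mul_pow]
      congr 1
      field_simp
    rw [← c2, pow_succ', mul_assoc]
    gcongr
  have b2 : (K0 * δ / η) ^ (N0 + 1) ≤ (R1⁻¹ ^ n) ^ (m + 1) := by
    refine (pow_le_pow_left₀ (by positivity) hδL _).trans ?_
    rw [← pow_mul, ← pow_mul]
    exact pow_le_pow_of_le_one (by positivity) (inv_le_one_of_one_le₀ p1.le) hN2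
  have zM : 0 ≤ F * M1 ^ (m + 1) := by positivity
  calc _ = K0 ^ (N0 + 1) * (R2⁻¹ ^ (m + 1)) ^ n * A + (K0 * δ / η) ^ (N0 + 1) * (F * M1 ^ (m + 1)) := by
        ring
    _ ≤ K0 * (R1⁻¹ ^ n) ^ (m + 1) * A + (R1⁻¹ ^ n) ^ (m + 1) * (F * M1 ^ (m + 1)) := by gcongr
    _ = _ := by ring

end Vale.Agent.P097T.Out
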