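import Vale.Agent.P097T.ExtDefs

/-!
# P097T: uniqueness, increasing unions and reflection of meromorphic extensions
-/

noncomputable section

namespace Vale.Agent.P097T.Out

open Filter Topology Set Metric Complex

theorem x_freq {C : Set ℝ} (hC : C.Countable) (x₀ : ℝ) : ∃ᶠ x in 𝓝[≠] x₀, x ∉ C := by
  have h1 : Dense (insert x₀ C)ᶜ := (hC.insert x₀).dense_compl ℝ
  rw [frequently_nhdsWithin_iff]
  refine (mem_closure_iff_frequently.1 (h1 x₀)).mono fun x hx => ?_
  rw [mem_compl_iff, mem_insert_iff, not_or] at hx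
  exact ⟨hx.2, hx.1⟩

theorem x_tend (x₀ : ℝ) : Tendsto (fun x : ℝ => (x : ℂ)) (𝓝[≠] x₀) (𝓝[≠] (x₀ : ℂ)) :=
  tendsto_nhdsWithin_iff.2 ⟨continuous_ofReal.continuousAt.tendsto.mono_left nhdsWithin_le_nhds,
    eventually_nhdsWithin_of_forall fun _ hx h => hx (ofReal_injective h)⟩

theorem x_germ {F G : ℂ → ℂ} {x₀ : ℝ} (hF : MeromorphicAt F x₀) (hG : MeromorphicAt G x₀)
    {C : Set ℝ} (hC : C.Countable) (h : ∀ᶠ x : ℝ in 𝓝 x₀, x ∉ C → F x = G x) :
    F =ᶠ[𝓝[≠] (x₀ : ℂ)] G := by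
  have h1 : ∃ᶠ z in 𝓝[≠] (x₀ : ℂ), (F - G) z = 0 := by
    refine (x_tend x₀).frequently ?_
    refine ((x_freq hC x₀).and_eventually (h.filter_mono nhdsWithin_le_nhds)).mono ?_
    intro x hx
    exact sub_eq_zero.2 (hx.2 hx.1)
  exact ((hF.sub hG).frequently_zero_iff_eventuallyEq_zero.1 h1).mono fun z hz => sub_eq_zero.1 hz

theorem xu : Spec_XU := by
  intro U f F G x₀ hU hx hF hG z hz
  have hx₀ : (x₀ : ℂ) ∈ U := hx.self_of_nhds
  have h1 := x_germ (hF.1 _ hx₀) (hG.1 _ hx₀) (hF.2.union hG.2) (hx.mono fun x hxU h => by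
    rw [mem_union, not_or] at h
    have h2 : F x = f x := not_not.1 fun e => h.1 ⟨hxU, e⟩
    have h3 : G x = f x := not_not.1 fun e => h.2 ⟨hxU, e⟩
    rw [h2, h3])
  have h2 : meromorphicOrderAt (F - G) z = ⊤ := by
    by_contra h
    have := ((hF.1.sub hG.1).exists_meromorphicOrderAt_ne_top_iff_forall ⟨⟨z, hz⟩, hU⟩).1
      ⟨⟨z, hz⟩, h⟩ ⟨x₀, hx₀⟩
    exact this (meromorphicOrderAt_eq_top_iff.2 (h1.mono fun w hw => sub_eq_zero.2 hw))
  exact (meromorphicOrderAt_eq_top_iff.1 h2).mono fun w hw => sub_eq_zero.1 hw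

theorem IsExt.mono {U V : Set ℂ} {f : ℝ → ℂ} {F : ℂ → ℂ} (h : IsExt U f F) (hV : V ⊆ U) :
    IsExt V f F :=
  ⟨fun z hz => h.1 z (hV hz), h.2.mono fun _ hx => And.intro (hV hx.1) hx.2⟩

theorem x_conv (t : ℝ) : Convex ℝ (Hs t) :=
  (convex_halfSpace_im_ge 0).inter (convex_halfSpace_im_lt t)

theorem x_val {F G : ℂ → ℂ} {w : ℂ} (hF : MeromorphicAt F w) (hG : AnalyticAt ℂ G w)
    (h : F =ᶠ[𝓝[≠] w] G) : toMeromorphicNFAt F w w = G w :=
  ((meromorphicNFAt_toMeromorphicNFAt.eventuallyEq_nhdsNE_iff_eventuallyEq_nhds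
    hG.meromorphicNFAt).1 (hF.eq_nhdsNE_toMeromorphicNFAt.symm.trans h)).eq_of_nhds

theorem xs : Spec_XS := by
  classical
  intro f T h
  rcases le_or_gt T 0 with hT | hT
  · refine ⟨0, fun z hz => absurd (hz.1.trans_lt hz.2) (not_lt.2 hT), ?_⟩
    exact countable_empty.mono fun x hx => absurd (hx.1.1.trans_lt hx.1.2) (not_lt.2 hT)
  choose! F hF using h
  refine ⟨fun w => if w.im ≤ 0 then F (T / 2) w else toMeromorphicNFAt (F ((w.im + T) / 2)) w w,
    fun z hz => ?_, ?_⟩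
  · have ht : (z.im + T) / 2 < T := by linarith [hz.2]
    have hzt : z ∈ Hs ((z.im + T) / 2) := ⟨hz.1, by linarith [hz.2]⟩
    have hm := (hF _ ht).1 z hzt
    refine hm.congr ?_
    have h1 : ∀ᶠ w in 𝓝 z, w.im < (z.im + T) / 2 :=
      continuous_im.continuousAt.eventually_lt continuousAt_const hzt.2
    have h2 : ∀ᶠ w in 𝓝 z, z.im = 0 ∨ 0 < w.im := by
      rcases hz.1.eq_or_lt with e | e
      · exact Eventually.of_forall fun _ => Or.inl e.symm
      · exact (continuousAt_const.eventually_lt continuous_im.continuousAt e).mono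
          fun _ hw => Or.inr hw
    filter_upwards [hm.eventually_analyticAt, h1.filter_mono nhdsWithin_le_nhds,
      h2.filter_mono nhdsWithin_le_nhds] with w ha hw1 hw2
    split_ifs with hw
    · rw [hw2.resolve_right (not_lt.2 hw), zero_add]
    · rw [not_le] at hw
      have hs : (w.im + T) / 2 < T := by linarith
      have hws : w.im < (w.im + T) / 2 := by linarith
      refine (x_val ((hF _ hs).1 w ⟨hw.le, hws⟩) ha ?_).symm
      refine xu (Hs (min ((w.im + T) / 2) ((z.im + T) / 2))) f _ _ 0 (x_conv _).isPreconnected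
        (Eventually.of_forall fun x => ⟨by simp, ?_⟩)
        ((hF _ hs).mono fun u hu => ⟨hu.1, hu.2.trans_le (min_le_left _ _)⟩)
        ((hF _ ht).mono fun u hu => ⟨hu.1, hu.2.trans_le (min_le_right _ _)⟩) w
        ⟨hw.le, lt_min hws hw1⟩
      rw [ofReal_im]
      exact lt_min (by linarith) (by linarith)
  · refine (hF (T / 2) (by linarith)).2.mono fun x hx => ?_
    refine And.intro (And.intro (by simp) (by simpa using hT)) ?_
    simpa using hx.2

theorem x_an {G : ℂ → ℂ} {z : ℂ} (h : AnalyticAt ℂ G ((starRingEnd ℂ) z)) :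
    AnalyticAt ℂ (fun w => (starRingEnd ℂ) (G ((starRingEnd ℂ) w))) z := by
  rw [analyticAt_iff_eventually_differentiableAt] at h ⊢
  filter_upwards [continuous_conj.continuousAt.tendsto.eventually h] with w hw
  have := hw.conj_conj
  rw [conj_conj] at this
  exact this

theorem x_mer {G : ℂ → ℂ} {z : ℂ} (h : MeromorphicAt G ((starRingEnd ℂ) z)) :
    MeromorphicAt (fun w => (starRingEnd ℂ) (G ((starRingEnd ℂ) w))) z := by
  obtain ⟨n, hn⟩ := h
  refine ⟨n, ?_⟩
  have := x_an hn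
  simpa using this

theorem x_ref {f : ℝ → ℂ} {T : ℝ} (hf : Continuous f) {F G : ℂ → ℂ} (hF : IsExt (Hs T) f F)
    (hG : IsExt (Hs T) (fun x => (starRingEnd ℂ) (f x)) G) :
    ∃ Z : ℂ → ℂ, MeromorphicOn Z {z | |z.im| < T} ∧ ∀ x : ℝ, Z x = f x := by
  classical
  refine ⟨fun w => if 0 < w.im then F w else if w.im < 0 then
    (starRingEnd ℂ) (G ((starRingEnd ℂ) w)) else f w.re, fun z hz => ?_, fun x => by simp⟩
  have hz' := abs_lt.1 (show |z.im| < T from hz)
  rcases lt_trichotomy z.im 0 with e | e | e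
  · refine (x_mer (hG.1 ((starRingEnd ℂ) z) ⟨?_, ?_⟩)).congr ?_
    · rw [conj_im]
      linarith
    · rw [conj_im]
      linarith
    · refine ((continuous_im.continuousAt.eventually_lt continuousAt_const e).filter_mono
        nhdsWithin_le_nhds).mono fun w hw => ?_
      simp only [if_neg (not_lt.2 hw.le), if_pos hw]
  · have hT : 0 < T := by linarith
    have hR : ∀ x : ℝ, (x : ℂ) ∈ Hs T := fun x => ⟨by simp, by simpa using hT⟩
    obtain ⟨x₀, rfl⟩ : ∃ x₀ : ℝ, z = x₀ := ⟨z.re, Complex.ext (by simp) (by simpa using e)⟩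
    have hm := hF.1 _ (hR x₀)
    have hm' : MeromorphicAt (fun w => (starRingEnd ℂ) (G ((starRingEnd ℂ) w))) x₀ :=
      x_mer (by rw [conj_ofReal]; exact hG.1 _ (hR x₀))
    have h1 := x_germ hm hm' (hF.2.union hG.2) (Eventually.of_forall fun x h => by
      rw [mem_union, not_or] at h
      have h2 : F x = f x := not_not.1 fun e => h.1 ⟨hR x, e⟩
      have h3 : G x = (starRingEnd ℂ) (f x) := not_not.1 fun e => h.2 ⟨hR x, e⟩
      simp only [conj_ofReal]
      rw [h2, h3, conj_conj])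
    refine hm.congr ?_
    filter_upwards [hm.eventually_analyticAt, h1] with w ha hw
    split_ifs with c1 c2
    · rfl
    · exact hw
    · obtain ⟨x, rfl⟩ : ∃ x : ℝ, w = x :=
        ⟨w.re, Complex.ext (by simp) (by simpa using le_antisymm (not_lt.1 c1) (not_lt.1 c2))⟩
      rw [ofReal_re]
      have t1 : Tendsto (fun y : ℝ => F y) (𝓝[≠] x) (𝓝 (F x)) :=
        ha.continuousAt.tendsto.comp ((x_tend x).mono_right nhdsWithin_le_nhds)
      have t2 : Tendsto f (𝓝[≠] x) (𝓝 (f x)) :=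
        hf.continuousAt.tendsto.mono_left nhdsWithin_le_nhds
      exact tendsto_nhds_unique_of_frequently_eq t1 t2
        ((x_freq hF.2 x).mono fun y hy => not_not.1 fun e => hy ⟨hR y, e⟩)
  · refine (hF.1 z ⟨e.le, hz'.2⟩).congr ?_
    refine ((continuousAt_const.eventually_lt continuous_im.continuousAt e).filter_mono
      nhdsWithin_le_nhds).mono fun w hw => ?_
    simp only [if_pos hw]

theorem xr : Spec_XR := by
  rintro f T - hf ⟨F, hF⟩ ⟨G, hG⟩
  have hc : Continuous f := continuous_iff_continuousAt.2 fun x => (hf x).continuousAt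
  obtain ⟨Z, h1, h2⟩ := x_ref hc hF hG
  obtain ⟨W, h3, h4⟩ := x_ref (continuous_conj.comp hc) hG (by simpa using hF)
  exact ⟨Z, W, h1, h3, fun x => ⟨h2 x, h4 x⟩⟩

end Vale.Agent.P097T.Out
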