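import Vale.Agent.P097T.Tube
import Vale.Agent.P097T.RRoth
import Vale.Agent.P097T.RInt
import Vale.Agent.P097T.RDet
import Vale.Agent.P097T.Pade
import Vale.Agent.P097T.RF1
import Vale.Agent.P097T.RF2
import Vale.Agent.P097T.XExt

/-!
# P097T: the transfer theorem (`Out.Spec_TR`)
-/

set_option linter.all false

noncomputable section

namespace Vale.Agent.P097T.Out

open Filter Topology Set Metric Complex MeasureTheory Vale.Agent.P097T.Tube

theorem par_int {G : ℂ × ℂ → ℂ} {u : ℝ → ℂ} (hu : Continuous u) {η : ℝ}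
    (hG : ∀ x : ℝ, ∀ w ∈ closedBall (0 : ℂ) η, AnalyticAt ℂ G (x, w)) :
    DifferentiableOn ℂ (fun w => ∫ x in (0 : ℝ)..1, G (x, w) * u x) (ball 0 η) := by
  have hK : IsCompact (Icc (0 : ℝ) 1 ×ˢ closedBall (0 : ℂ) η) :=
    isCompact_Icc.prod (isCompact_closedBall _ _)
  have c0 : Continuous fun p : ℝ × ℂ => ((p.1 : ℂ), p.2) := by fun_prop
  have c1 : ∀ x : ℝ, ∀ w ∈ closedBall (0 : ℂ) η,
      ContinuousAt (fun p : ℝ × ℂ => fderiv ℂ G (p.1, p.2) (0, 1) * u p.1) (x, w) :=
    fun x w hw => (((ContinuousLinearMap.apply ℂ ℂ ((0 : ℂ), (1 : ℂ))).continuous.continuousAt).comp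
      (ContinuousAt.comp (f := fun p : ℝ × ℂ => ((p.1 : ℂ), p.2))
        (hG x w hw).fderiv.continuousAt c0.continuousAt)).mul
      (hu.comp continuous_fst).continuousAt
  obtain ⟨B, hB⟩ := hK.exists_bound_of_continuousOn
    (f := fun p : ℝ × ℂ => fderiv ℂ G (p.1, p.2) (0, 1) * u p.1)
    fun p hp => (c1 p.1 p.2 hp.2).continuousWithinAt
  have c2 : ∀ w ∈ closedBall (0 : ℂ) η, Continuous fun x : ℝ => G (x, w) * u x := fun w hw =>
    (continuous_iff_continuousAt.2 fun x => ContinuousAt.comp (f := fun x : ℝ => ((x : ℂ), w))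
      (hG x w hw).continuousAt (by fun_prop)).mul hu
  intro w hw
  have hw' := ball_subset_closedBall hw
  refine (intervalIntegral.hasDerivAt_integral_of_dominated_loc_of_deriv_le (μ := volume)
    (F := fun w x => G (x, w) * u x) (F' := fun w x => fderiv ℂ G (x, w) (0, 1) * u x)
    (bound := fun _ => B) (isOpen_ball.mem_nhds hw) ?_ ((c2 w hw').intervalIntegrable _ _) ?_ ?_
    intervalIntegrable_const ?_).2.differentiableAt.differentiableWithinAt
  · filter_upwards [isOpen_ball.mem_nhds hw] with v hv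
    exact (c2 v (ball_subset_closedBall hv)).aestronglyMeasurable
  · exact (continuous_iff_continuousAt.2 fun x => ContinuousAt.comp (f := fun x : ℝ => (x, w))
      (c1 x w hw') (by fun_prop)).aestronglyMeasurable
  · refine Eventually.of_forall fun x hx v hv => hB (x, v) ⟨?_, ball_subset_closedBall hv⟩
    rw [uIoc_of_le zero_le_one] at hx
    exact Ioc_subset_Icc_self hx
  · refine Eventually.of_forall fun x _ v hv => HasDerivAt.mul_const ?_ _
    exact (hG x v (ball_subset_closedBall hv)).differentiableAt.hasFDerivAt.comp_hasDerivAt v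
      ((hasDerivAt_const v (x : ℂ)).prodMk (hasDerivAt_id v))

theorem tr (hR : Spec_ROTH) (h1 : Spec_F1) (h2 : Spec_F2) (hS : Spec_XS) : Spec_TR := by
  intro ε w₀ η T f N hf hp hw hη hN h
  refine hS _ T fun t ht => ?_
  rcases le_or_gt t 0 with t0 | t0
  · refine ⟨0, fun z hz => absurd (hz.1.trans_lt hz.2) (not_lt.2 t0), ?_⟩
    refine countable_empty.mono fun x hx => absurd (hx.1.1.trans_lt hx.1.2) (not_lt.2 t0)
  obtain ⟨e, e1, e2⟩ := exists_between hw
  obtain ⟨κ, κ0, F, aF, eF, pF⟩ := tube (c := 0) ((abs_nonneg _).trans_lt e1) e2 hf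
    (fun q hq => by rw [hp q hq, add_zero])
  obtain ⟨t₁, t1, t2⟩ := exists_between ht
  set r := min (min κ η) (e - |w₀|) / 2 with hr
  have m0 : 0 < min (min κ η) (e - |w₀|) := lt_min (lt_min κ0 hη) (by linarith)
  have r0 : 0 < r := half_pos m0
  have r1 : r < κ := (half_lt_self m0).trans_le ((min_le_left _ _).trans (min_le_left _ _))
  have r2 : r < η := (half_lt_self m0).trans_le ((min_le_left _ _).trans (min_le_right _ _))
  have r3 : r < e - |w₀| := (half_lt_self m0).trans_le (min_le_right _ _)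
  have mem : ∀ z : ℂ, |z.im| < κ → ∀ w ∈ closedBall (0 : ℂ) r, (z, w₀ + w) ∈ Tb κ e := by
    intro z hz w hw
    rw [mem_closedBall_zero_iff] at hw
    refine ⟨hz, ?_, ?_⟩
    · have := abs_re_le_norm w
      have h3 := abs_add_le w₀ w.re
      simp only [add_re, ofReal_re]
      linarith
    · have := abs_im_le_norm w
      simp only [add_im, ofReal_im, zero_add]
      linarith
  have aG : ∀ x : ℝ, ∀ w ∈ closedBall (0 : ℂ) r,
      AnalyticAt ℂ (fun p : ℂ × ℂ => F (p.1, w₀ + p.2)) (x, w) := fun x w hw =>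
    AnalyticAt.comp (g := F) (aF _ (mem x (by simpa using κ0) w hw))
      (analyticAt_fst.prod (analyticAt_const.add analyticAt_snd))
  obtain ⟨M, hM⟩ := (isCompact_Icc (a := (0 : ℝ)) (b := 1)).prod
    (isCompact_closedBall (0 : ℂ) r) |>.exists_bound_of_continuousOn
    (f := fun p : ℝ × ℂ => F (p.1, w₀ + p.2)) fun p hp =>
      (ContinuousAt.comp (f := fun p : ℝ × ℂ => ((p.1 : ℂ), p.2)) (aG p.1 p.2 hp.2).continuousAt
        (by fun_prop)).continuousWithinAt
  have key := hR (fun n w => fc (fun x => F (x, w₀ + w)) n) r M (Real.exp (2 * Real.pi * t₁))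
    (Real.exp (2 * Real.pi * t)) ((fun w => w₀ + w) ⁻¹' N) r0
    (Real.one_lt_exp_iff.2 (by positivity))
    (Real.exp_lt_exp.2 (mul_lt_mul_of_pos_left t1 (by positivity)))
    (hN.preimage (add_right_injective w₀))
    (fun n => par_int (G := fun p : ℂ × ℂ => F (p.1, w₀ + p.2))
      (u := fun x : ℝ => cexp (2 * Real.pi * I * n * x)) (by fun_prop) aG)
    (fun n w hw => by
      have := intervalIntegral.norm_integral_le_of_norm_le_const (a := (0 : ℝ)) (b := 1) (C := M)
        (f := fun x : ℝ => F (x, w₀ + w) * cexp (2 * Real.pi * I * n * x)) fun x hx => by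
          rw [uIoc_of_le zero_le_one] at hx
          have e3 : (2 * Real.pi * I * n * x : ℂ) = ((2 * Real.pi * n * x : ℝ) : ℂ) * I := by
            push_cast; ring
          rw [norm_mul, e3, norm_exp_ofReal_mul_I, mul_one]
          exact hM (x, w) ⟨Ioc_subset_Icc_self hx, ball_subset_closedBall hw⟩
      simpa [fc] using this)
    (fun w hn hw => by
      have b1 : |w₀ + w| < e := by linarith [abs_add_le w₀ w]
      have e3 : (fun x : ℝ => F (x, w₀ + w)) = fun x => f (x, w₀ + w) := funext fun x => by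
        rw [← eF (x, w₀ + w) b1]; simp [cx]
      simp only [e3]
      exact h1 _ t₁ T (t0.trans t1) t2
        (continuous_iff_continuousAt.2 fun x => ContinuousAt.comp (f := fun x : ℝ => (x, w₀ + w))
          (hf (x, w₀ + w) (b1.trans e2)).continuousAt (by fun_prop))
        (fun x => hp (x, w₀ + w) (b1.trans e2))
        (h _ hn (b1.trans e2) (by simpa using hw.trans r2)))
  have z0 : (0 : ℂ) ∈ closedBall (0 : ℂ) r := mem_closedBall_self r0.le
  have k := h2 (fun z => F (z, w₀ + 0)) κ t κ0 t0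
    (fun z hz => (AnalyticAt.comp (g := F) (f := fun z : ℂ => (z, (w₀ : ℂ) + 0))
      (aF _ (mem z hz 0 z0)) (analyticAt_id.prod analyticAt_const)).differentiableAt.differentiableWithinAt)
    (fun z hz => by simpa using pF _ (mem z hz 0 z0)) key
  have e3 : (fun x : ℝ => F (x, w₀ + 0)) = fun x => f (x, w₀) := funext fun x => by
    rw [← eF (x, w₀) e1]; simp [cx]
  rwa [e3] at k

/-- the transfer theorem, closed form -/
theorem tr' : Spec_TR := tr (roth int det pade) (f1 xu) f2 xs

end Vale.Agent.P097T.Out
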