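import Vale.Agent.P097T.OutDefs
import Vale.Agent.P097A.Bern
import Vale.Agent.P097A.Step
import Vale.Agent.P097A.Propag

/-!
# P097T: continuation of the normal form along a segment of ordinary points
-/

set_option linter.all false

noncomputable section

namespace Vale.Agent.P097T.Out

open Filter Topology Set Metric Complex Vale.Agent.P097A Vale.Agent.P097A.Propag

namespace Cont

lemma ext1 (E : ℂ × ℂ × ℂ → ℂ) (j : ℂ × ℂ → ℂ) (x₀ : ℂ) (ρ C : ℝ) (hρ : 0 < ρ)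
    (hC : 0 < C)
    (hE : ∀ a ∈ ball x₀ (3 * ρ), ∀ b ∈ ball x₀ (3 * ρ), ∀ c ∈ ball x₀ (3 * ρ),
      E (a, b, c) = 0 → c = j (a, b))
    (hj : ∀ a ∈ ball x₀ (3 * ρ), ∀ b ∈ ball x₀ (3 * ρ),
      AnalyticAt ℂ j (a, b) ∧ ‖j (a, b) - (2 * b - a)‖ ≤ C * ‖b - a‖ ^ 2) :
    ∃ L : ℝ, 0 < L ∧ ∀ x₁, ‖x₁ - x₀‖ < L → ∀ Θ : ℂ × ℂ → ℂ, AnalyticAt ℂ Θ 0 → Θ 0 = x₁ →
      fderiv ℂ Θ 0 (1, 0) = 1 → Solves E Θ → ∃ r : ℝ, 0 < r ∧ ∃ H : ℂ × ℂ → ℂ,
        AnalyticOnNhd ℂ H (ball 0 L ×ˢ ball 0 r) ∧ H =ᶠ[𝓝 0] Θ := by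
  set L : ℝ := min (ρ / 16) (1 / (8 * C)) with hLdef
  have hL0 : 0 < L := lt_min (by positivity) (by positivity)
  have hL1 : 16 * L ≤ ρ := by
    have := min_le_left (ρ / 16) (1 / (8 * C))
    linarith
  have hL2 : 8 * C * L ≤ 1 := by
    have := min_le_right (ρ / 16) (1 / (8 * C))
    rw [← hLdef, le_div_iff₀ (by positivity)] at this
    linarith
  refine ⟨L / 14, by positivity, fun x₁ hx₁ Θ ha h0 hd hs => ?_⟩
  have hx2 : ‖x₁ - x₀‖ < ρ / 8 := by linarith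
  -- choice of the radius
  have hst := (ha.hasStrictFDerivAt.isLittleO).bound (c := 1) one_pos
  have hcl : ∀ᶠ p in 𝓝 (0 : ℂ × ℂ), ‖Θ p - x₁‖ < ρ / 8 := by
    have := ha.continuousAt.eventually (ball_mem_nhds (Θ 0) (show 0 < ρ / 8 by positivity))
    filter_upwards [this] with p hp
    rwa [dist_eq_norm, h0] at hp
  obtain ⟨r₁, hr₁, hb₁⟩ := Metric.eventually_nhds_iff_ball.mp (hcl.and ha.eventually_analyticAt)
  obtain ⟨r₂, hr₂, hb₂⟩ := Metric.eventually_nhds_iff_ball.mp hst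
  set r : ℝ := min (min (r₁ / 2) (r₂ / 2)) (L / 2) with hrdef
  have hr : 0 < r := lt_min (lt_min (by positivity) (by positivity)) (by positivity)
  have hr1 : r ≤ r₁ / 2 := (min_le_left _ _).trans (min_le_left _ _)
  have hr2 : r ≤ r₂ / 2 := (min_le_left _ _).trans (min_le_right _ _)
  have hr3 : r ≤ L / 2 := min_le_right _ _
  have hnorm : ∀ (s : ℝ) (v : ℂ), 0 ≤ s → s ≤ 2 → ‖v‖ < r →
      ‖(((s : ℂ) * v, v) : ℂ × ℂ)‖ < 2 * r := by
    intro s v hs0 hs2 hv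
    rw [Prod.norm_def, max_lt_iff]
    refine ⟨?_, by simp only; linarith⟩
    simp only [norm_mul, Complex.norm_real, Real.norm_eq_abs, abs_of_nonneg hs0]
    nlinarith [norm_nonneg v]
  have hgerm := iter_germ j Θ (step_germ E j (ball x₀ (3 * ρ)) Θ ha.continuousAt
    (isOpen_ball.mem_nhds (by rw [h0, mem_ball, dist_eq_norm]; linarith)) hs
    hE)
  have hG : AnalyticAt ℂ (fun p => Θ p - x₀) 0 := ha.sub analyticAt_const
  obtain ⟨H, hHa, hHb, hHe⟩ := P097A.ext (fun p => Θ p - x₀) ρ r (L / r) hG hr (by positivity) (by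
    intro s hs0 hsS
    set n : ℕ := ⌊s⌋₊ with hn
    set σ : ℝ := s - n with hσ
    have hσ0 : 0 ≤ σ := by
      have := Nat.floor_le hs0
      linarith
    have hσ1 : σ ≤ 1 := by
      have := Nat.lt_floor_add_one s
      linarith
    have hnL : r * n ≤ L := by
      have h1 := Nat.floor_le hs0
      rw [le_div_iff₀ hr] at hsS
      nlinarith
    have key : ∀ v ∈ ball (0 : ℂ) r, ‖((T j)^[n] (pr Θ σ v)).1 - x₀‖ ≤ ρ ∧
        DifferentiableAt ℂ (fun v => ((T j)^[n] (pr Θ σ v)).1 - x₀) v := by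
      intro v hv
      rw [mem_ball_zero_iff] at hv
      have n1 := hnorm σ v hσ0 (by linarith) hv
      have n2 := hnorm (σ + 1) v (by linarith) (by linarith) hv
      push_cast at n2
      obtain ⟨b1, b2⟩ := hb₁ ((σ : ℂ) * v, v) (by rw [mem_ball_zero_iff]; linarith)
      obtain ⟨b3, b4⟩ := hb₁ (((σ : ℂ) + 1) * v, v) (by rw [mem_ball_zero_iff]; linarith)
      have b5 := hb₂ ((((σ : ℂ) + 1) * v, v), ((σ : ℂ) * v, v)) (by
        rw [mem_ball, Prod.dist_eq, max_lt_iff, dist_zero_right, dist_zero_right]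
        exact ⟨by simp only; linarith, by simp only; linarith⟩)
      have e1 : ((((σ : ℂ) + 1) * v, v) : ℂ × ℂ) - ((σ : ℂ) * v, v) = v • ((1, 0) : ℂ × ℂ) := by
        ext <;> simp; ring
      simp only [e1, map_smul, hd, smul_eq_mul, mul_one, one_mul, norm_smul] at b5
      have e2 : ‖((1, 0) : ℂ × ℂ)‖ = 1 := by simp [Prod.norm_def]
      rw [e2, mul_one] at b5
      have p1 : ‖(pr Θ σ v).1 - x₀‖ ≤ ρ / 4 := by
        show ‖Θ ((σ : ℂ) * v, v) - x₀‖ ≤ ρ / 4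
        calc ‖Θ ((σ : ℂ) * v, v) - x₀‖ = ‖(Θ ((σ : ℂ) * v, v) - x₁) + (x₁ - x₀)‖ := by
              congr 1; ring
          _ ≤ ‖Θ ((σ : ℂ) * v, v) - x₁‖ + ‖x₁ - x₀‖ := norm_add_le _ _
          _ ≤ ρ / 4 := by linarith
      have p2 : ‖(pr Θ σ v).2 - (pr Θ σ v).1‖ ≤ 2 * r := by
        show ‖Θ (((σ : ℂ) + 1) * v, v) - Θ ((σ : ℂ) * v, v)‖ ≤ 2 * r
        calc ‖Θ (((σ : ℂ) + 1) * v, v) - Θ ((σ : ℂ) * v, v)‖
            = ‖(Θ (((σ : ℂ) + 1) * v, v) - Θ ((σ : ℂ) * v, v) - v) + v‖ := by congr 1; ring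
          _ ≤ ‖Θ (((σ : ℂ) + 1) * v, v) - Θ ((σ : ℂ) * v, v) - v‖ + ‖v‖ := norm_add_le _ _
          _ ≤ 2 * r := by linarith
      obtain ⟨o1, -, o3⟩ := orbit j x₀ ρ C L r hρ hC hr (by linarith) hL1 hL2 hj (pr Θ σ v) p1 p2 n
        hnL
      refine ⟨by linarith, ?_⟩
      have l1 : AnalyticAt ℂ (fun v : ℂ => (((σ : ℂ) * v, v) : ℂ × ℂ)) v := by fun_prop
      have l2 : AnalyticAt ℂ (fun v : ℂ => ((((σ : ℂ) + 1) * v, v) : ℂ × ℂ)) v := by fun_prop
      have l3 : AnalyticAt ℂ (pr Θ σ) v :=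
        (AnalyticAt.comp_of_eq (g := Θ) b2 l1 rfl).prod (AnalyticAt.comp_of_eq (g := Θ) b4 l2 rfl)
      have l4 : AnalyticAt ℂ (fun v => (T j)^[n] (pr Θ σ v)) v :=
        AnalyticAt.comp (g := (T j)^[n]) o3 l3
      exact (l4.differentiableAt.fst).sub_const x₀
    refine ⟨fun v => ((T j)^[n] (pr Θ σ v)).1 - x₀,
      fun v hv => (key v hv).2.differentiableWithinAt, fun v hv => (key v hv).1, ?_⟩
    filter_upwards [hgerm σ n] with v hv
    rw [hv]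
    have e : (σ : ℂ) + n = (s : ℂ) := by rw [hσ]; push_cast; ring
    simp only [pr, e])
  have eL : L / r * r / 14 = L / 14 := by field_simp
  rw [eL] at hHa
  refine ⟨r / 14, by positivity, fun p => H p + x₀,
    fun p hp => (hHa p hp).fun_add analyticAt_const, ?_⟩
  filter_upwards [hHe] with p hp
  rw [hp, sub_add_cancel]

/-- normal forms extend to a disc of locally uniform radius -/
lemma loc {E : ℂ × ℂ × ℂ → ℂ} {x : ℂ} (hx : IsLaw E x) :
    ∃ L : ℝ, 0 < L ∧ ∀ x₁, ‖x₁ - x‖ < L → ∀ Θ : ℂ × ℂ → ℂ, AnalyticAt ℂ Θ 0 → Θ 0 = x₁ →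
      fderiv ℂ Θ 0 (1, 0) = 1 → Solves E Θ → ∃ r : ℝ, 0 < r ∧ ∃ H : ℂ × ℂ → ℂ,
        AnalyticOnNhd ℂ H (ball 0 L ×ˢ ball 0 r) ∧ H =ᶠ[𝓝 0] Θ := by
  obtain ⟨J, hJa, -, hJe, C, hJb⟩ := P097A.step (fun q => E q.2) 0 x (P097A.lawf.2 E 0 x hx)
  have t3 : Tendsto (fun q : ℂ × ℂ × ℂ => (((0 : ℂ), q) : ℂ × ℂ × ℂ × ℂ)) (𝓝 (x, x, x))
      (𝓝 (0, x, x, x)) := (Continuous.prodMk_right (0 : ℂ)).tendsto _
  have t2 : Tendsto (fun q : ℂ × ℂ => (((0 : ℂ), q) : ℂ × ℂ × ℂ)) (𝓝 (x, x))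
      (𝓝 (0, x, x)) := (Continuous.prodMk_right (0 : ℂ)).tendsto _
  obtain ⟨ρ₁, hρ₁, h₁⟩ := Metric.eventually_nhds_iff_ball.mp (t3.eventually hJe)
  obtain ⟨ρ₂, hρ₂, h₂⟩ := Metric.eventually_nhds_iff_ball.mp
    ((t2.eventually hJa.eventually_analyticAt).and (t2.eventually hJb))
  have hm : 0 < min ρ₁ ρ₂ := lt_min hρ₁ hρ₂
  have e3 : 3 * (min ρ₁ ρ₂ / 3) = min ρ₁ ρ₂ := by ring
  exact ext1 E (fun p => J (0, p)) x (min ρ₁ ρ₂ / 3) (|C| + 1)
    (by positivity) (by positivity)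
    (by
      intro a ha b hb c hc
      rw [e3] at ha hb hc
      have hmem : ((a, b, c) : ℂ × ℂ × ℂ) ∈ ball (x, x, x) ρ₁ := by
        rw [← ball_prod_same, ← ball_prod_same]
        exact ⟨ball_subset_ball (min_le_left _ _) ha, ball_subset_ball (min_le_left _ _) hb,
          ball_subset_ball (min_le_left _ _) hc⟩
      exact (h₁ _ hmem).mp)
    (by
      intro a ha b hb
      rw [e3] at ha hb
      have hmem : ((a, b) : ℂ × ℂ) ∈ ball (x, x) ρ₂ := by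
        rw [← ball_prod_same]
        exact ⟨ball_subset_ball (min_le_right _ _) ha, ball_subset_ball (min_le_right _ _) hb⟩
      obtain ⟨k1, k2⟩ := h₂ _ hmem
      have l : AnalyticAt ℂ (fun q : ℂ × ℂ => (((0 : ℂ), q) : ℂ × ℂ × ℂ)) (a, b) := by fun_prop
      refine ⟨AnalyticAt.comp (g := J) k1 l, k2.trans ?_⟩
      have : C ≤ |C| + 1 := by linarith [le_abs_self C]
      exact mul_le_mul_of_nonneg_right this (by positivity))

/-- the identity theorem for germs along a connected set -/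
lemma ev_zero {G : ℂ × ℂ → ℂ} {K : Set (ℂ × ℂ)} (hK : IsPreconnected K) (hG : AnalyticOnNhd ℂ G K)
    {p q : ℂ × ℂ} (hp : p ∈ K) (hq : q ∈ K) (h : G =ᶠ[𝓝 p] 0) : G =ᶠ[𝓝 q] 0 := by
  have hO : IsOpen {z | AnalyticAt ℂ G z} := isOpen_analyticAt ℂ G
  have hs := hK.subset_connectedComponentIn hp (F := {z | AnalyticAt ℂ G z}) hG
  filter_upwards [hO.connectedComponentIn.mem_nhds (hs hq)] with z hz
  exact AnalyticOnNhd.eqOn_zero_of_preconnected_of_eventuallyEq_zero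
    (fun z hz => connectedComponentIn_subset {z | AnalyticAt ℂ G z} p hz)
    isPreconnected_connectedComponentIn (hs hp) h hz

/-- The box over `c`. -/
def Bo (c κ t : ℝ) : Set ℂ := {z | |z.re - c| < κ ∧ -κ < z.im ∧ z.im < t + κ}

lemma isOpen_Bo (c κ t : ℝ) : IsOpen (Bo c κ t) :=
  (isOpen_lt (f := fun z : ℂ => |z.re - c|) (by fun_prop) continuous_const).inter
    ((isOpen_lt continuous_const continuous_im).inter (isOpen_lt continuous_im continuous_const))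

lemma convex_Bo (c κ t : ℝ) : Convex ℝ (Bo c κ t) := by
  have : Bo c κ t = ({z | c - κ < z.re} ∩ {z | z.re < c + κ}) ∩
      ({z | -κ < z.im} ∩ {z | z.im < t + κ}) := by
    ext z
    simp only [Bo, abs_lt, mem_setOf_eq, mem_inter_iff]
    constructor
    · rintro ⟨⟨a, b⟩, d⟩
      exact ⟨⟨by linarith, by linarith⟩, d⟩
    · rintro ⟨⟨a, b⟩, d⟩
      exact ⟨⟨by linarith, by linarith⟩, d⟩
  rw [this]
  exact ((convex_halfSpace_re_gt _).inter (convex_halfSpace_re_lt _)).inter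
    ((convex_halfSpace_im_gt _).inter (convex_halfSpace_im_lt _))

lemma mem_Bo {c κ t s : ℝ} (hκ : 0 < κ) (hs : s ∈ Icc 0 t) : (c + s * I : ℂ) ∈ Bo c κ t := by
  refine ⟨by simpa using hκ, ?_, ?_⟩ <;> simp <;> linarith [hs.1, hs.2]

/-- `Y` extends to a box of height `t`. -/
def P (c : ℝ) (Y : ℂ × ℂ → ℂ) (t : ℝ) : Prop := ∃ (κ : ℝ) (Y' : ℂ × ℂ → ℂ), 0 < κ ∧
  AnalyticOnNhd ℂ Y' (Bo c κ t ×ˢ ball 0 κ) ∧ Y' =ᶠ[𝓝 ((c : ℂ), (0 : ℂ))] Y

variable {E : ℂ × ℂ × ℂ → ℂ} {c κ t : ℝ} {Y Y' : ℂ × ℂ → ℂ}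

lemma P.near (h : P c Y t) : ∃ u, t < u ∧ ∀ s ≤ u, P c Y s := by
  obtain ⟨κ, Y', hκ, hY, e⟩ := h
  refine ⟨t + κ / 2, by linarith, fun s hs => ⟨κ / 2, Y', by linarith, hY.mono (prod_mono
    (fun z hz => ⟨by linarith [hz.1], by linarith [hz.2.1], by linarith [hz.2.2]⟩)
    (ball_subset_ball (by linarith))), e⟩⟩

lemma diag (hκ : 0 < κ) (ht : 0 ≤ t) (hY : AnalyticOnNhd ℂ Y' (Bo c κ t ×ˢ ball 0 κ))
    (e : Y' =ᶠ[𝓝 ((c : ℂ), (0 : ℂ))] Y) (h0 : ∀ᶠ z in 𝓝 (c : ℂ), Y (z, 0) = z) :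
    ∀ z ∈ Bo c κ t, Y' (z, 0) = z := by
  refine AnalyticOnNhd.eqOn_of_preconnected_of_eventuallyEq (f := fun z => Y' (z, 0)) (g := id)
    (fun z hz => (hY (z, 0) ⟨hz, mem_ball_self hκ⟩).comp_of_eq
      (analyticAt_id.prod analyticAt_const) rfl) analyticOnNhd_id (convex_Bo c κ t).isPreconnected
    (z₀ := c) (by simpa using mem_Bo (c := c) hκ (left_mem_Icc.2 ht)) ?_
  filter_upwards [((Continuous.prodMk_left (0 : ℂ)).tendsto (c : ℂ)).eventually e, h0] with z h1 h2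
  exact h1.trans h2

lemma solves_iff (y : ℂ) : Solves E (fun p => Y (y + p.1, p.2)) ↔
    ∀ᶠ p in 𝓝 (y, (0 : ℂ)), E (Y (p.1 - p.2, p.2), Y p, Y (p.1 + p.2, p.2)) = 0 := by
  constructor
  · intro h
    have t : Tendsto (fun p : ℂ × ℂ => (p.1 - y, p.2)) (𝓝 (y, 0)) (𝓝 0) :=
      Continuous.tendsto' (by fun_prop) _ _ (by simp)
    filter_upwards [t.eventually h] with p hp
    simpa only [← add_sub_assoc, ← add_assoc, add_sub_cancel_left, add_sub_cancel] using hp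
  · intro h
    have t : Tendsto (fun p : ℂ × ℂ => (y + p.1, p.2)) (𝓝 0) (𝓝 (y, 0)) :=
      Continuous.tendsto' (by fun_prop) _ _ (by simp)
    filter_upwards [t.eventually h] with p hp
    simpa only [add_sub_assoc, add_assoc] using hp

lemma step (ht : 0 ≤ t) (hE : ∀ s ∈ Icc 0 t, IsLaw E (c + s * I))
    (h0 : ∀ᶠ z in 𝓝 (c : ℂ), Y (z, 0) = z) (hs : Solves E fun p => Y (c + p.1, p.2)) {L : ℝ}
    (hL : 0 < L) (hx : ∀ Θ : ℂ × ℂ → ℂ, AnalyticAt ℂ Θ 0 → Θ 0 = c + t * I →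
      fderiv ℂ Θ 0 (1, 0) = 1 → Solves E Θ → ∃ r : ℝ, 0 < r ∧ ∃ H : ℂ × ℂ → ℂ,
        AnalyticOnNhd ℂ H (ball 0 L ×ˢ ball 0 r) ∧ H =ᶠ[𝓝 0] Θ) (h : P c Y t) :
    P c Y (t + L / 2) := by
  obtain ⟨κ, Y', hκ, hY, e⟩ := h
  have hd := diag hκ ht hY e h0
  set y : ℂ := c + t * I with hy
  have my : y ∈ Bo c κ t := mem_Bo hκ (right_mem_Icc.2 ht)
  have an : ∀ z ∈ Bo c κ t, AnalyticAt ℂ Y' (z, 0) := fun z hz => hY _ ⟨hz, mem_ball_self hκ⟩
  have a0 : AnalyticAt ℂ (fun p : ℂ × ℂ => Y' (y + p.1, p.2)) 0 :=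
    (an y my).comp_of_eq ((analyticAt_const.add analyticAt_fst).prod analyticAt_snd) (by simp)
  obtain ⟨r, hr, H, hH, e2⟩ := hx _ a0 (by simpa using hd y my) (by
    refine (hasDerivAt_line (η := 0) a0.differentiableAt).unique
      (((hasDerivAt_id (0 : ℂ)).const_add y).congr_of_eventuallyEq ?_)
    have t : Tendsto (fun z : ℂ => y + z) (𝓝 0) (𝓝 y) :=
      Continuous.tendsto' (by fun_prop) _ _ (by simp)
    filter_upwards [t.eventually ((isOpen_Bo c κ _).mem_nhds my)] with z hz using hd _ hz) (by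
    rw [solves_iff] at hs ⊢
    refine ev_zero (K := (fun s : ℝ => ((c + s * I : ℂ), (0 : ℂ))) '' Icc 0 t)
      (isPreconnected_Icc.image _ (by fun_prop)) ?_ (p := (c, 0)) ⟨0, left_mem_Icc.2 ht, by simp⟩
      ⟨t, right_mem_Icc.2 ht, rfl⟩ ?_
    · rintro _ ⟨s, hs, rfl⟩
      have m := mem_Bo (c := c) hκ hs
      exact (hE s hs).an.comp_of_eq (((an _ m).comp_of_eq
        ((analyticAt_fst.sub analyticAt_snd).prod analyticAt_snd) (by simp)).prod ((an _ m).prod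
        ((an _ m).comp_of_eq ((analyticAt_fst.add analyticAt_snd).prod analyticAt_snd) (by simp))))
        (by simp [hd _ m])
    · have t1 : Tendsto (fun p : ℂ × ℂ => (p.1 - p.2, p.2)) (𝓝 (c, 0)) (𝓝 (c, 0)) :=
        Continuous.tendsto' (by fun_prop) _ _ (by simp)
      have t2 : Tendsto (fun p : ℂ × ℂ => (p.1 + p.2, p.2)) (𝓝 (c, 0)) (𝓝 (c, 0)) :=
        Continuous.tendsto' (by fun_prop) _ _ (by simp)
      filter_upwards [t1.eventually e, t2.eventually e, e, hs] with p h1 h2 h3 h4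
      rw [h1, h2, h3]
      exact h4)
  set k := min κ (min r (L / 4)) with hk
  have k0 : 0 < k := lt_min hκ (lt_min hr (by linarith))
  have k1 : k ≤ κ := min_le_left ..
  have k2 : k ≤ r := (min_le_right ..).trans (min_le_left ..)
  have k3 : k ≤ L / 4 := (min_le_right ..).trans (min_le_right ..)
  have aH : AnalyticOnNhd ℂ (fun p : ℂ × ℂ => H (p.1 - y, p.2)) (ball y L ×ˢ ball 0 k) :=
    fun p hp => (hH (p.1 - y, p.2) ⟨by simpa [dist_eq_norm] using hp.1,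
      ball_subset_ball k2 hp.2⟩).comp_of_eq
      ((analyticAt_fst.sub analyticAt_const).prod analyticAt_snd) rfl
  have eq : EqOn Y' (fun p : ℂ × ℂ => H (p.1 - y, p.2)) ((Bo c κ t ∩ ball y L) ×ˢ ball 0 k) := by
    refine (hY.mono (prod_mono inter_subset_left (ball_subset_ball k1))).eqOn_of_preconnected_of_eventuallyEq
      (aH.mono (prod_mono inter_subset_right Subset.rfl))
      (((convex_Bo c κ t).inter (convex_ball _ _)).prod (convex_ball _ _)).isPreconnected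
      (z₀ := (y, 0)) ⟨⟨my, mem_ball_self hL⟩, mem_ball_self k0⟩ ?_
    have t : Tendsto (fun p : ℂ × ℂ => (p.1 - y, p.2)) (𝓝 (y, 0)) (𝓝 0) :=
      Continuous.tendsto' (by fun_prop) _ _ (by simp)
    filter_upwards [t.eventually e2] with p hp
    rw [hp]
    simp
  classical
  have e3 : ∀ p : ℂ × ℂ, p.1 ∈ Bo c κ t →
      (fun p : ℂ × ℂ => if p.1 ∈ Bo c κ t then Y' p else H (p.1 - y, p.2)) =ᶠ[𝓝 p] Y' :=
    fun p hp => by
      filter_upwards [continuous_fst.continuousAt.eventually ((isOpen_Bo c κ t).mem_nhds hp)]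
        with q hq using if_pos hq
  refine ⟨k, fun p => if p.1 ∈ Bo c κ t then Y' p else H (p.1 - y, p.2), k0, fun p hp => ?_,
    (e3 _ (by simpa using mem_Bo (c := c) hκ (left_mem_Icc.2 ht))).trans e⟩
  by_cases hb : p.1 ∈ Bo c κ t
  · exact (hY p ⟨hb, ball_subset_ball k1 hp.2⟩).congr (e3 p hb).symm
  · have m : p ∈ ball y L ×ˢ ball (0 : ℂ) k := by
      refine ⟨?_, hp.2⟩
      obtain ⟨b1, b2, b3⟩ := hp.1
      have b4 : t + κ ≤ p.1.im := not_lt.1 fun h => hb ⟨by linarith, by linarith, h⟩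
      rw [mem_ball, dist_eq_norm]
      refine (norm_le_abs_re_add_abs_im _).trans_lt ?_
      have e1 : (p.1 - y).re = p.1.re - c := by simp [hy]
      have e2 : (p.1 - y).im = p.1.im - t := by simp [hy]
      rw [e1, e2, abs_of_pos (show 0 < p.1.im - t by linarith)]
      linarith
    refine (aH p m).congr ?_
    filter_upwards [(isOpen_ball.prod isOpen_ball).mem_nhds m] with q hq
    split_ifs with h
    exacts [(eq ⟨⟨h, hq.1⟩, hq.2⟩).symm, rfl]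

end Cont

open Cont in
theorem cont' : Spec_CONT := by
  intro E c T Y hT hE hY h0 hs
  have p0 : P c Y 0 := by
    obtain ⟨r, r0, hr⟩ := Metric.eventually_nhds_iff_ball.1 hY.eventually_analyticAt
    refine ⟨r / 2, Y, by linarith, fun p hp => hr p ?_, EventuallyEq.rfl⟩
    rw [← ball_prod_same]
    refine ⟨?_, ball_subset_ball (by linarith) hp.2⟩
    obtain ⟨b1, b2, b3⟩ := hp.1
    rw [mem_ball, dist_eq_norm]
    refine (norm_le_abs_re_add_abs_im _).trans_lt ?_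
    have : |p.1.im| < r / 2 := abs_lt.2 ⟨b2, by linarith⟩
    simp only [sub_re, ofReal_re, sub_im, ofReal_im, sub_zero]
    linarith
  have op : IsOpen {t | P c Y t} := isOpen_iff_mem_nhds.2 fun t ht => by
    obtain ⟨u, hu, h⟩ := P.near ht
    exact mem_of_superset (Iic_mem_nhds hu) h
  obtain ⟨κ, Y', hκ, h1, h2⟩ : P c Y T := by
    refine isPreconnected_Icc.subset_of_closure_inter_subset op ⟨0, left_mem_Icc.2 hT, p0⟩ ?_
      (right_mem_Icc.2 hT)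
    rintro t ⟨hc, ht⟩
    obtain ⟨L, hL, hx⟩ := loc (hE t ht)
    obtain ⟨s, hs1, hs2⟩ := Metric.mem_closure_iff.1 hc (L / 2) (by linarith)
    rw [Real.dist_eq, abs_lt] at hs2
    rcases le_total t s with k | k
    · obtain ⟨u, hu, h⟩ := P.near hs1
      exact h t (by linarith)
    · have m0 : 0 ≤ max s 0 := le_max_right ..
      have m1 : max s 0 ≤ t := max_le k ht.1
      have m2 : s ≤ max s 0 := le_max_left ..
      obtain ⟨u, hu, h⟩ := P.near (step m0 (fun a ha => hE a ⟨ha.1, ha.2.trans (m1.trans ht.2)⟩)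
        h0 hs hL (hx _ (by
          rw [show ((c : ℂ) + (max s 0 : ℝ) * I - (c + t * I)) = ((max s 0 - t : ℝ) : ℂ) * I by
            push_cast; ring, norm_mul, norm_I, mul_one, norm_real, Real.norm_eq_abs, abs_lt]
          constructor <;> linarith)) (by
          rcases max_choice s 0 with e | e <;> rw [e]
          exacts [hs1, p0]))
      exact h t (by linarith)
  exact ⟨κ, Y', hκ, h1, h2, fun z a b d => diag hκ hT h1 h2 h0 z ⟨a, b, d⟩⟩

theorem cont (_ : Spec_MATCH) : Spec_CONT := cont'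

end Vale.Agent.P097T.Out
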