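import Vale.Agent.P097T.OutDefs
import Vale.Agent.P097A.Gauge
import Vale.Agent.P097A.Bern
import Vale.Agent.P097A.Step

/-!
# P097T: two normal forms of a law differ by a gauge transformation (MATCH)
-/

set_option linter.all false

noncomputable section

namespace Vale.Agent.P097T.Out

open Filter Topology Set Metric Complex
open Vale.Agent.P097A Vale.Agent.P097A.Gauge

theorem mtch_of (hDD : Spec_DD) (hU : Spec_UNIQ) : Spec_MATCH := by
  intro E y Θ Y hE aΘ Θ0 dΘ sΘ aY Y0 dY sY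
  have T0 : Θ (0, 0) = y := Θ0
  have Y0' : Y (0, 0) = y := Y0
  have aΘ' : AnalyticAt ℂ Θ (0, 0) := aΘ
  have aY' : AnalyticAt ℂ Y (0, 0) := aY
  -- the inverse of `Θ` in its first variable
  have aT : AnalyticAt ℂ (fun q : ℂ × ℂ => Θ (q.2, q.1)) (0, 0) :=
    cmp aΘ (analyticAt_snd.prod analyticAt_fst) rfl
  have dT := hd1 (a := 0) (b := 0) aΘ'.differentiableAt
  have dY' := hd1 (a := 0) (b := 0) aY'.differentiableAt
  obtain ⟨C, aC, C0, C1, -⟩ := inv2 aT (by rw [dT.deriv]; exact dΘ)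
  simp only [T0] at aC C0 C1
  -- `Y` in the coordinate `C`; the parameter is `(v, s)`
  obtain ⟨T, hT⟩ : ∃ T : (ℂ × ℂ) × ℂ → ℂ, T = fun q => C (q.1.2, Y (q.2, q.1.1)) := ⟨_, rfl⟩
  have m2 : AnalyticAt ℂ (fun q : (ℂ × ℂ) × ℂ => (q.1.2, Y (q.2, q.1.1))) ((0, 0), 0) :=
    (analyticAt_snd.comp analyticAt_fst).prod
      (cmp aY' (analyticAt_snd.prod (analyticAt_fst.comp analyticAt_fst)) rfl)
  have aT' : AnalyticAt ℂ T ((0, 0), 0) := hT ▸ cmp aC m2 (by simp [Y0'])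
  have vT : T ((0, 0), 0) = 0 := by rw [hT]; simp only [Y0']; exact C0
  have eT : ∀ᶠ q in 𝓝 (((0 : ℂ), (0 : ℂ)), (0 : ℂ)), Θ (T q, q.1.2) = Y (q.2, q.1.1) := by
    rw [hT]
    exact (tend m2 (by simp [Y0'])).eventually C1
  -- the divided difference
  obtain ⟨D, hD⟩ : ∃ D : ℂ × ℂ → ℂ, D = fun q => dslope (fun x => T (q, x)) 0 q.1 := ⟨_, rfl⟩
  have aD : AnalyticAt ℂ D (0, 0) := by
    have m : AnalyticAt ℂ (fun q : ℂ × ℂ => (q, (0 : ℂ), q.1)) (0, 0) :=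
      analyticAt_id.prod (analyticAt_const.prod analyticAt_fst)
    have := cmp (hDD (ℂ × ℂ) T (0, 0) 0 aT') m rfl
    rw [hD]
    exact this
  have D0 : D (0, 0) ≠ 0 := by
    rw [hD]
    simp only [dslope_same]
    intro h0
    have m4 : AnalyticAt ℂ (fun x : ℂ => (((0 : ℂ), (0 : ℂ)), x)) 0 :=
      analyticAt_const.prod analyticAt_id
    have k1 : HasDerivAt (fun x => T ((0, 0), x)) 0 0 :=
      (cmp aT' m4 rfl).differentiableAt.hasDerivAt.congr_deriv h0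
    have k2 : HasDerivAt (fun x => Θ (x, 0)) (fderiv ℂ Θ (0, 0) (1, 0)) (T ((0, 0), 0)) := by
      rw [vT]
      exact dT
    have k3 := (HasDerivAt.comp (h₂ := fun x => Θ (x, 0)) (h := fun x => T ((0, 0), x)) 0 k2 k1).congr_of_eventuallyEq
      (f₁ := fun x => Y (x, 0)) (((tend m4 rfl).eventually eT).mono fun x hx => hx.symm)
    exact dY ((dY'.unique k3).trans (mul_zero _))
  -- solve `s = v * D (v, s)`
  have aS : AnalyticAt ℂ (fun q : ℂ × ℂ => q.2 - q.1 * D q) (0, 0) :=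
    analyticAt_snd.sub (analyticAt_fst.mul aD)
  obtain ⟨W, aW, W0, W1, -⟩ := inv2 aS (by simp)
  simp only [zero_mul, sub_zero] at aW W0 W1
  have m5 : AnalyticAt ℂ (fun v : ℂ => (v, (0 : ℂ))) 0 := analyticAt_id.prod analyticAt_const
  have m6 : AnalyticAt ℂ (fun v : ℂ => (v, W (v, 0))) 0 := analyticAt_id.prod (cmp aW m5 rfl)
  have v6 : ((0 : ℂ), W (0, 0)) = (0, 0) := by rw [W0]
  obtain ⟨l, hl⟩ : ∃ l : ℂ → ℂ, l = fun v => D (v, W (v, 0)) := ⟨_, rfl⟩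
  obtain ⟨m, hm⟩ : ∃ m : ℂ → ℂ, m = fun v => T ((v, W (v, 0)), 0) := ⟨_, rfl⟩
  have m7 : AnalyticAt ℂ (fun v : ℂ => ((v, W (v, 0)), (0 : ℂ))) 0 := m6.prod analyticAt_const
  have m8 : AnalyticAt ℂ (fun v : ℂ => ((v, W (v, 0)), v)) 0 := m6.prod analyticAt_id
  have al : AnalyticAt ℂ l 0 := hl ▸ cmp aD m6 v6
  have am : AnalyticAt ℂ m 0 := hm ▸ cmp aT' m7 (by rw [W0])
  have l0 : l 0 ≠ 0 := by rw [hl]; simpa [W0] using D0
  have m0 : m 0 = 0 := by rw [hm]; simpa [W0] using vT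
  have eW : ∀ᶠ v in 𝓝 (0 : ℂ), l v * v = W (v, 0) := by
    filter_upwards [(tend m5 rfl).eventually W1] with v h1
    rw [hl]
    simp only at h1 ⊢
    linear_combination -h1
  refine ⟨l, m, al, am, l0, m0, ?_⟩
  have aA : AnalyticAt ℂ (fun p : ℂ × ℂ => (m p.2 + l p.2 * p.1, l p.2 * p.2)) 0 :=
    ((cmp am analyticAt_snd rfl).add ((cmp al analyticAt_snd rfl).mul analyticAt_fst)).prod
      ((cmp al analyticAt_snd rfl).mul analyticAt_snd)
  have vA : (m (0 : ℂ × ℂ).2 + l (0 : ℂ × ℂ).2 * (0 : ℂ × ℂ).1,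
      l (0 : ℂ × ℂ).2 * (0 : ℂ × ℂ).2) = (0 : ℂ × ℂ) := by
    simp [m0]
  refine hU E y Y (fun p => Θ (m p.2 + l p.2 * p.1, l p.2 * p.2)) hE aY (cmp aΘ aA vA) Y0
    (by simp only [vA]; exact Θ0) sY ?_ ?_
  · filter_upwards [(tend aA vA).eventually sΘ] with p hp
    rwa [mul_sub, mul_add, ← add_sub_assoc, ← add_assoc]
  · filter_upwards [eW, (tend m7 (by rw [W0])).eventually eT,
      (tend m8 (by rw [W0])).eventually eT] with v h1 h2 h3
    have k := sub_smul_dslope (fun x => T ((v, W (v, 0)), x)) 0 v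
    have e : m v + l v * v = T ((v, W (v, 0)), v) := by
      rw [hm, hl, hD]
      simp only [sub_zero, smul_eq_mul] at k ⊢
      linear_combination k
    refine ⟨?_, ?_⟩
    · rw [mul_zero, add_zero, h1, hm]
      exact h2.symm
    · rw [e, h1]
      exact h3.symm

theorem mtch : Spec_MATCH := mtch_of dd (uniq lines)

end Vale.Agent.P097T.Out
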