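import Vale.Agent.P097T.OutDefs2
import Vale.Agent.P097A.Law
import Vale.Agent.P097A.Step

/-!
# P097T: a column of ordinary points of the curve gives a tube for the lines (row 512)
-/

set_option linter.all false

noncomputable section

namespace Vale.Agent.P097T.Out

open Filter Topology Set Metric Complex
open Vale.Agent.P097T.Gm Vale.Agent.P097A

namespace Tube

/-- the tube lemma, and the leaf `w = 0` by continuity -/
theorem tube_of {F : ℂ × ℂ → ℂ} {f : ℝ × ℝ → ℂ} {c T ε : ℝ} (hT : 0 ≤ T) (hε : 0 < ε)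
    (hF : ∀ s ∈ Icc 0 T, AnalyticAt ℂ F (c + s * I, 0)) (hf : An ε f)
    (he : ∀ᶠ q : ℝ × ℝ in 𝓝 (c, 0), q.2 ≠ 0 → F (q.1, q.2) = f q) :
    ∃ κ₁ : ℝ, 0 < κ₁ ∧ ∀ κ : ℝ, 0 < κ → κ ≤ κ₁ → TubeW f c κ (T + κ) 0 κ := by
  have hK : IsCompact ((fun s : ℝ => (((c : ℂ) + s * I, 0) : ℂ × ℂ)) '' Icc 0 T) :=
    isCompact_Icc.image (by fun_prop)
  obtain ⟨d₁, d1, hd₁⟩ := hK.exists_thickening_subset_open (isOpen_analyticAt ℂ F)
    (by rintro _ ⟨s, hs, rfl⟩; exact hF s hs)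
  obtain ⟨d₂, d2, hd₂⟩ := Metric.eventually_nhds_iff.1 he
  refine ⟨min (d₁ / 2) d₂, lt_min (by linarith) d2, fun κ k0 hκ => ?_⟩
  have k1 : κ ≤ d₁ / 2 := hκ.trans (min_le_left _ _)
  have k2 : κ ≤ d₂ := hκ.trans (min_le_right _ _)
  have han : AnalyticOnNhd ℂ F (U.Rect c κ (T + κ) ×ˢ ball (((0 : ℝ) : ℂ)) κ) := by
    rintro ⟨z, v⟩ ⟨⟨h1, h2, h3⟩, h4⟩
    refine hd₁ (mem_thickening_iff.2 ⟨_, ⟨max 0 (min z.im T), ⟨le_max_left _ _,
      max_le hT (min_le_right _ _)⟩, rfl⟩, ?_⟩)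
    have h5 : |z.im - max 0 (min z.im T)| < κ := by
      simp only at h2 h3
      rw [abs_lt]
      rcases le_total z.im T with a | a
      · rw [min_eq_left a]
        rcases le_total 0 z.im with b | b
        · rw [max_eq_right b]
          constructor <;> linarith
        · rw [max_eq_left b]
          constructor <;> linarith
      · rw [min_eq_right a, max_eq_right hT]
        constructor <;> linarith
    rw [Prod.dist_eq]
    refine max_lt ?_ ?_
    · rw [dist_eq_norm]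
      refine (Complex.norm_le_abs_re_add_abs_im _).trans_lt ?_
      simp only at h1
      simp only [sub_re, add_re, ofReal_re, mul_re, I_re, mul_zero, ofReal_im, I_im, mul_one,
        sub_self, add_zero, sub_im, add_im, mul_im, zero_add]
      linarith
    · simp only [ofReal_zero, mem_ball] at h4
      simp only
      linarith
  have hne : ∀ x w : ℝ, |x - c| < κ → |w| < κ → w ≠ 0 → F (x, w) = f (x, w) := by
    intro x w hx hw h0
    refine hd₂ (y := (x, w)) ?_ h0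
    rw [Prod.dist_eq]
    refine max_lt ?_ ?_
    · rw [Real.dist_eq]
      exact hx.trans_le k2
    · rw [Real.dist_eq, sub_zero]
      exact hw.trans_le k2
  refine ⟨F, han, fun x w hx hw => ?_⟩
  rw [sub_zero] at hw
  by_cases h0 : w ≠ 0
  · exact hne x w hx hw h0
  · obtain rfl : w = 0 := not_not.1 h0
    have c1 : ContinuousAt (fun w : ℝ => F (x, w)) 0 := by
      have h1 : AnalyticAt ℂ F ((x : ℂ), ((0 : ℝ) : ℂ)) :=
        han _ ⟨⟨by simpa using hx, by simpa using k0, by simp; linarith⟩, mem_ball_self k0⟩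
      exact ContinuousAt.comp_of_eq (g := F) (f := fun w : ℝ => ((x : ℂ), (w : ℂ)))
        h1.continuousAt (by fun_prop) rfl
    have c2 : ContinuousAt (fun w : ℝ => f (x, w)) 0 :=
      ContinuousAt.comp_of_eq (g := f) (f := fun w : ℝ => (x, w))
        (hf (x, 0) (by simpa [Lam] using hε)).continuousAt (by fun_prop) rfl
    have e : (fun w : ℝ => F (x, w)) =ᶠ[𝓝[≠] 0] fun w : ℝ => f (x, w) := by
      have : ∀ᶠ w : ℝ in 𝓝 0, |w| < κ := by
        filter_upwards [ball_mem_nhds (0 : ℝ) k0] with w hw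
        simpa using hw
      filter_upwards [nhdsWithin_le_nhds this, self_mem_nhdsWithin] with w hw h0
      exact hne x w hx hw h0
    exact tendsto_nhds_unique ((c1.tendsto.mono_left nhdsWithin_le_nhds).congr' e)
      (c2.tendsto.mono_left nhdsWithin_le_nhds)

end Tube

theorem tube0 (hC : Spec_CONT) (hY : Spec_Y0) (hV : Spec_VERT) : Spec_TUBE0 := by
  intro h ε ψ δ N c T Z W hT hreg hreal
  have hc : Reg Z W c := by simpa using hreg 0 ⟨le_rfl, hT⟩
  obtain ⟨Y, Y1, Y2, Y3, Y4⟩ := hY h ε ψ δ N c Z W hc hreal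
  obtain ⟨κ₀, Y', k0, an', ev', id'⟩ := hC (lawZ Z W) c T Y hT
    (fun s hs => Law.isLaw dd (hreg s hs)) Y1 Y2 Y3
  obtain ⟨-, -, -, V4, -, V6⟩ := hV h ε ψ δ N
  -- the two vertices
  have hs : ∀ (σ : ℂ), ∀ s ∈ Icc 0 T,
      AnalyticAt ℂ (fun p : ℂ × ℂ => Y' (p.1 + σ * p.2, p.2)) (c + s * I, 0) ∧
        Y' ((c : ℂ) + s * I + σ * 0, 0) = c + s * I := by
    intro σ s hs
    have m1 : |((c : ℂ) + s * I).re - c| < κ₀ := by simpa using k0
    have m2 : -κ₀ < ((c : ℂ) + s * I).im := by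
      have := hs.1
      simp
      linarith
    have m3 : ((c : ℂ) + s * I).im < T + κ₀ := by
      have := hs.2
      simp
      linarith
    refine ⟨?_, by rw [mul_zero, add_zero]; exact id' _ m1 m2 m3⟩
    refine AnalyticAt.comp_of_eq (g := Y') (f := fun p : ℂ × ℂ => (p.1 + σ * p.2, p.2))
      (an' ((c : ℂ) + s * I, 0) ⟨⟨m1, m2, m3⟩, mem_ball_self k0⟩)
      ((analyticAt_fst.add (analyticAt_const.mul analyticAt_snd)).prod analyticAt_snd) (by simp)
  set Yp : ℂ × ℂ → ℂ := fun p => Y' (p.1 + (1 / 2) * p.2, p.2) with hYp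
  set Ym : ℂ × ℂ → ℂ := fun p => Y' (p.1 + (-1 / 2) * p.2, p.2) with hYm
  set A : ℂ × ℂ → ℂ := fun p => dslope Z (Ym p) (Yp p) / dslope W (Ym p) (Yp p) with hA
  set B : ℂ × ℂ → ℂ := fun p => Z (Yp p) - A p * W (Yp p) with hB
  have hAB : ∀ s ∈ Icc 0 T, AnalyticAt ℂ A (c + s * I, 0) ∧ AnalyticAt ℂ B (c + s * I, 0) := by
    intro s hs'
    have r := hreg s hs'
    obtain ⟨p1, p2⟩ := hs (1 / 2) s hs'
    obtain ⟨m1, m2⟩ := hs (-1 / 2) s hs'
    have p3 : Yp (c + s * I, 0) = c + s * I := p2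
    have m3 : Ym (c + s * I, 0) = c + s * I := m2
    have hd : ∀ f : ℂ → ℂ, AnalyticAt ℂ f (c + s * I) →
        AnalyticAt ℂ (fun p => dslope f (Ym p) (Yp p)) (c + s * I, 0) := fun f hf =>
      AnalyticAt.comp_of_eq (g := fun q : ℂ × ℂ => dslope f q.1 q.2)
        (f := fun p : ℂ × ℂ => (Ym p, Yp p)) (Law.an_ds dd hf) (m1.prod p1) (by rw [p3, m3])
    have hA' : AnalyticAt ℂ A (c + s * I, 0) := by
      refine (hd Z r.anZ).div (hd W r.anW) ?_
      rw [p3, m3, dslope_same]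
      exact r.dW
    refine ⟨hA', ?_⟩
    exact (AnalyticAt.comp_of_eq (g := Z) (f := Yp) r.anZ p1 p3).sub
      (hA'.mul (AnalyticAt.comp_of_eq (g := W) (f := Yp) r.anW p1 p3))
  -- real points
  have hre : ∀ σ : ℝ, ∀ᶠ q : ℝ × ℝ in 𝓝 (c, 0),
      Z (Y' (q.1 + (σ : ℂ) * q.2, q.2)) = vZ h ψ (q.1 + σ * q.2, q.2) ∧
        W (Y' (q.1 + (σ : ℂ) * q.2, q.2)) = vW h ψ (q.1 + σ * q.2, q.2) := by
    intro σ
    have t1 : Tendsto (fun q : ℝ × ℝ => ((q.1 + σ * q.2, q.2) : ℝ × ℝ)) (𝓝 (c, 0)) (𝓝 (c, 0)) :=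
      (show Continuous (fun q : ℝ × ℝ => ((q.1 + σ * q.2, q.2) : ℝ × ℝ)) by fun_prop).tendsto' _ _
        (by simp)
    have t2 : Tendsto (fun q : ℝ × ℝ => (((q.1 : ℂ) + (σ : ℂ) * q.2, (q.2 : ℂ)) : ℂ × ℂ))
        (𝓝 (c, 0)) (𝓝 ((c : ℂ), (0 : ℂ))) :=
      (show Continuous (fun q : ℝ × ℝ => (((q.1 : ℂ) + (σ : ℂ) * q.2, (q.2 : ℂ)) : ℂ × ℂ)) by
        fun_prop).tendsto' _ _ (by simp)
    filter_upwards [t1.eventually Y4, t2.eventually ev'] with q h1 h2
    rw [h2]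
    simpa using h1
  have hw : ∀ᶠ q : ℝ × ℝ in 𝓝 (c, 0), |q.2| < ε :=
    (isOpen_Lam ε).mem_nhds (show ((c, 0) : ℝ × ℝ) ∈ Lam ε by simpa [Lam] using N.pos)
  have hev : ∀ᶠ q : ℝ × ℝ in 𝓝 (c, 0), q.2 ≠ 0 →
      A (q.1, q.2) = la ψ δ q ∧ B (q.1, q.2) = lb h ψ δ q := by
    filter_upwards [hre (1 / 2), hre (-1 / 2), hw] with q hp hm hq h0
    obtain ⟨x, w⟩ := q
    have ep : x + 1 / 2 * w = x + w / 2 := by ring
    have em : x + -1 / 2 * w = x - w / 2 := by ring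
    have zp : Z (Yp (x, w)) = vZ h ψ (x + w / 2, w) := by
      rw [← ep, ← hp.1]
      simp [hYp]
    have wp : W (Yp (x, w)) = vW h ψ (x + w / 2, w) := by
      rw [← ep, ← hp.2]
      simp [hYp]
    have zm : Z (Ym (x, w)) = vZ h ψ (x - w / 2, w) := by
      rw [← em, ← hm.1]
      simp [hYm]
    have wm : W (Ym (x, w)) = vW h ψ (x - w / 2, w) := by
      rw [← em, ← hm.2]
      simp [hYm]
    have l1 := (V4 (x + w / 2) w hq).2
    have l2 := (V4 (x - w / 2) w hq).1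
    rw [add_sub_cancel_right] at l1
    rw [sub_add_cancel] at l2
    have n1 := V6 x w hq h0
    have n2 : Yp (x, w) ≠ Ym (x, w) := fun e => n1 (by rw [← wp, ← wm, e])
    have eA : A (x, w) = la ψ δ (x, w) := by
      show dslope Z (Ym (x, w)) (Yp (x, w)) / dslope W (Ym (x, w)) (Yp (x, w)) = _
      rw [dslope_of_ne _ n2, dslope_of_ne _ n2, slope_def_field, slope_def_field, zp, zm, wp, wm,
        l1, l2]
      rw [div_div_div_cancel_right₀ (sub_ne_zero.2 n2), div_eq_iff (sub_ne_zero.2 n1)]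
      ring
    refine ⟨eA, ?_⟩
    show Z (Yp (x, w)) - A (x, w) * W (Yp (x, w)) = _
    rw [eA, zp, wp, l1]
    ring
  obtain ⟨κ₁, k1, h1⟩ := Tube.tube_of hT N.pos (fun s hs => (hAB s hs).1) N.an_la
    (hev.mono fun q hq h0 => (hq h0).1)
  obtain ⟨κ₂, k2, h2⟩ := Tube.tube_of hT N.pos (fun s hs => (hAB s hs).2) N.an_lb
    (hev.mono fun q hq h0 => (hq h0).2)
  have k3 : 0 < min ε (min κ₁ κ₂) := lt_min N.pos (lt_min k1 k2)
  exact ⟨_, k3, min_le_left _ _, h1 _ k3 ((min_le_right _ _).trans (min_le_left _ _)),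
    h2 _ k3 ((min_le_right _ _).trans (min_le_right _ _))⟩

end Vale.Agent.P097T.Out
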