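import Vale.Agent.P097A.Cx2
import Vale.Agent.P097.H500.StripExt

/-!
# P097T: complexification of quasi-periodic real analytic functions on a strip
-/

set_option linter.all false

noncomputable section

namespace Vale.Agent.P097T.Tube

open Filter Topology Set Metric

/-- The real points of `ℂ × ℂ`. -/
def cx (q : ℝ × ℝ) : ℂ × ℂ := (q.1, q.2)

/-- The complex tube around the real strip `|w| < e`. -/
def Tb (κ e : ℝ) : Set (ℂ × ℂ) := {z | |z.1.im| < κ ∧ |z.2.re| < e ∧ |z.2.im| < κ}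

theorem continuous_cx : Continuous cx := by unfold cx; fun_prop

theorem dist_cx (p q : ℝ × ℝ) : dist (cx p) (cx q) = dist p q := by
  simp [cx, Prod.dist_eq, Complex.dist_eq, ← Complex.ofReal_sub, Real.dist_eq]

theorem isOpen_Tb (κ e : ℝ) : IsOpen (Tb κ e) :=
  (isOpen_lt (f := fun z : ℂ × ℂ => |z.1.im|) (by fun_prop) continuous_const).inter
    ((isOpen_lt (f := fun z : ℂ × ℂ => |z.2.re|) (by fun_prop) continuous_const).inter
      (isOpen_lt (f := fun z : ℂ × ℂ => |z.2.im|) (by fun_prop) continuous_const))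

theorem convex_abs_lt {E : Type*} [AddCommGroup E] [Module ℝ E] (l : E →ₗ[ℝ] ℝ) (c : ℝ) :
    Convex ℝ {z | |l z| < c} := by
  have : {z | |l z| < c} = l ⁻¹' Ioo (-c) c := by
    ext z
    simp [abs_lt]
  rw [this]
  exact (convex_Ioo _ _).linear_preimage l

theorem convex_Tb (κ e : ℝ) : Convex ℝ (Tb κ e) :=
  (convex_abs_lt (Complex.imLm.comp (LinearMap.fst ℝ ℂ ℂ)) κ).inter
    ((convex_abs_lt (Complex.reLm.comp (LinearMap.snd ℝ ℂ ℂ)) e).inter
      (convex_abs_lt (Complex.imLm.comp (LinearMap.snd ℝ ℂ ℂ)) κ))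

theorem cx_mem {κ e : ℝ} (hκ : 0 < κ) {q : ℝ × ℝ} : cx q ∈ Tb κ e ↔ |q.2| < e := by
  simp [Tb, cx, hκ]

theorem Tb_mono {κ e κ' e' : ℝ} (h1 : κ ≤ κ') (h2 : e ≤ e') : Tb κ e ⊆ Tb κ' e' :=
  fun _ hz => ⟨hz.1.trans_le h1, hz.2.1.trans_le h2, hz.2.2.trans_le h1⟩

/-- a germ which vanishes at the real points vanishes -/
theorem ev_eq {F G : ℂ × ℂ → ℂ} {q : ℝ × ℝ} (hF : AnalyticAt ℂ F (cx q))
    (hG : AnalyticAt ℂ G (cx q)) (h : ∀ᶠ p in 𝓝 q, F (cx p) = G (cx p)) : F =ᶠ[𝓝 (cx q)] G := by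
  obtain ⟨r, r0, hr⟩ := Metric.eventually_nhds_iff_ball.1
    (hF.eventually_analyticAt.and hG.eventually_analyticAt)
  obtain ⟨s, s0, hs⟩ := Metric.eventually_nhds_iff_ball.1 h
  have hb : ∀ {x w : ℂ}, x ∈ ball (q.1 : ℂ) r → w ∈ ball (q.2 : ℂ) r → (x, w) ∈ ball (cx q) r :=
    fun hx hw => by rw [cx, ← ball_prod_same]; exact ⟨hx, hw⟩
  have e1 : ∀ c : ℝ, ∀ᶠ y : ℝ in 𝓝 c, y ∈ ball c s ∧ (y : ℂ) ∈ ball (c : ℂ) r := fun c =>
    Eventually.and (ball_mem_nhds c s0)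
      ((Complex.continuous_ofReal.tendsto c).eventually (ball_mem_nhds _ r0))
  filter_upwards [ball_mem_nhds (cx q) r0] with z hz
  rw [cx, ← ball_prod_same] at hz
  refine P097.H500.eqOn_of_real isOpen_ball (convex_ball _ _).isPreconnected
    (f := fun w => F (z.1, w)) (g := fun w => G (z.1, w))
    (fun w hw => (((hr _ (hb hz.1 hw)).1.differentiableAt).comp w (by fun_prop)).differentiableWithinAt)
    (fun w hw => (((hr _ (hb hz.1 hw)).2.differentiableAt).comp w (by fun_prop)).differentiableWithinAt)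
    (m := q.2) (mem_ball_self r0) ?_ hz.2
  filter_upwards [e1 q.2] with w hw
  refine P097.H500.eqOn_of_real isOpen_ball (convex_ball _ _).isPreconnected
    (f := fun x => F (x, w)) (g := fun x => G (x, w))
    (fun x hx => (((hr _ (hb hx hw.2)).1.differentiableAt).comp x (by fun_prop)).differentiableWithinAt)
    (fun x hx => (((hr _ (hb hx hw.2)).2.differentiableAt).comp x (by fun_prop)).differentiableWithinAt)
    (m := q.1) (mem_ball_self r0) ?_ hz.1
  filter_upwards [e1 q.1] with x hx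
  exact hs (x, w) (by rw [← ball_prod_same]; exact ⟨hx.1, hw.1⟩)

/-- identity theorem from a real point -/
theorem eqOn2 {S : Set (ℂ × ℂ)} (hc : IsPreconnected S) {F G : ℂ × ℂ → ℂ}
    (hF : AnalyticOnNhd ℂ F S) (hG : AnalyticOnNhd ℂ G S) {q : ℝ × ℝ} (hq : cx q ∈ S)
    (h : ∀ᶠ p in 𝓝 q, F (cx p) = G (cx p)) : EqOn F G S :=
  hF.eqOn_of_preconnected_of_eventuallyEq hG hc hq (ev_eq (hF _ hq) (hG _ hq) h)

/-- identity theorem on a tube -/
theorem tube_eq {κ e : ℝ} (hκ : 0 < κ) (he : 0 < e) {F G : ℂ × ℂ → ℂ}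
    (hF : AnalyticOnNhd ℂ F (Tb κ e)) (hG : AnalyticOnNhd ℂ G (Tb κ e))
    (h : ∀ q : ℝ × ℝ, |q.2| < e → F (cx q) = G (cx q)) : EqOn F G (Tb κ e) := by
  refine eqOn2 (convex_Tb κ e).isPreconnected hF hG (q := 0) ((cx_mem hκ).2 (by simpa)) ?_
  have : ∀ᶠ p : ℝ × ℝ in 𝓝 0, |p.2| < e :=
    (isOpen_lt (by fun_prop) continuous_const).mem_nhds (by simpa)
  filter_upwards [this] with p hp using h p hp

theorem cx_real {f : ℝ × ℝ → ℝ} {q : ℝ × ℝ} (hf : AnalyticAt ℝ f q) :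
    ∃ G : ℂ × ℂ → ℂ, AnalyticAt ℂ G (cx q) ∧ ∀ᶠ p in 𝓝 q, G (cx p) = f p := by
  obtain ⟨G, hG, h⟩ := P097A.cx2 (f := fun p => f (p + q))
    (AnalyticAt.comp_of_eq hf (analyticAt_id.add analyticAt_const) (zero_add q))
  refine ⟨fun z => G (z - cx q),
    AnalyticAt.comp_of_eq hG (analyticAt_id.sub analyticAt_const) (sub_self _), ?_⟩
  have t : Tendsto (fun p : ℝ × ℝ => p - q) (𝓝 q) (𝓝 0) :=
    Continuous.tendsto' (by fun_prop) _ _ (sub_self q)
  filter_upwards [t.eventually h] with p hp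
  rw [sub_add_cancel] at hp
  rw [← hp]
  congr 1
  simp [cx]

/-- complexification of a germ -/
theorem cx_at {f : ℝ × ℝ → ℂ} {q : ℝ × ℝ} (hf : AnalyticAt ℝ f q) :
    ∃ G : ℂ × ℂ → ℂ, AnalyticAt ℂ G (cx q) ∧ ∀ᶠ p in 𝓝 q, G (cx p) = f p := by
  obtain ⟨A, hA, h1⟩ := cx_real ((Complex.reCLM.analyticAt _).comp hf)
  obtain ⟨B, hB, h2⟩ := cx_real ((Complex.imCLM.analyticAt _).comp hf)
  refine ⟨fun z => A z + B z * Complex.I, hA.add (hB.mul analyticAt_const), ?_⟩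
  filter_upwards [h1, h2] with p k1 k2
  rw [k1, k2]
  exact Complex.re_add_im _

theorem per_int {f : ℝ × ℝ → ℂ} {ε : ℝ} {c : ℂ}
    (hp : ∀ q : ℝ × ℝ, |q.2| < ε → f (q.1 + 1, q.2) = f q + c) (n : ℤ) (x w : ℝ) (hw : |w| < ε) :
    f (x + n, w) = f (x, w) + n * c := by
  induction n using Int.induction_on with
  | zero => simp
  | succ n ih =>
    have := hp (x + n, w) hw
    push_cast at ih ⊢
    rw [← add_assoc, this, ih]
    ring
  | pred n ih =>
    have := hp (x + (-n - 1), w) hw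
    push_cast at ih ⊢
    rw [show x + (-(n : ℝ) - 1) + 1 = x + -n by ring, ih] at this
    linear_combination -this

/-- a quasi-periodic real analytic function on a strip extends holomorphically to a tube -/
theorem tube {f : ℝ × ℝ → ℂ} {ε e : ℝ} {c : ℂ} (he0 : 0 < e) (he : e < ε)
    (hf : AnalyticOnNhd ℝ f {q | |q.2| < ε})
    (hp : ∀ q : ℝ × ℝ, |q.2| < ε → f (q.1 + 1, q.2) = f q + c) :
    ∃ κ > 0, ∃ F : ℂ × ℂ → ℂ, AnalyticOnNhd ℂ F (Tb κ e) ∧
      (∀ q : ℝ × ℝ, |q.2| < e → F (cx q) = f q) ∧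
      ∀ z ∈ Tb κ e, F (z.1 + 1, z.2) = F z + c := by
  have loc : ∀ q : {q : ℝ × ℝ // |q.2| < ε}, ∃ ρ > 0, ∃ G : ℂ × ℂ → ℂ,
      AnalyticOnNhd ℂ G (ball (cx q.1) ρ) ∧ ∀ p ∈ ball q.1 ρ, G (cx p) = f p ∧ |p.2| < ε := by
    rintro ⟨q, hq⟩
    obtain ⟨G, hG, h⟩ := cx_at (hf q hq)
    obtain ⟨r, r0, hr⟩ := Metric.eventually_nhds_iff_ball.1 hG.eventually_analyticAt
    obtain ⟨s, s0, hs⟩ := Metric.eventually_nhds_iff_ball.1 (h.and
      ((isOpen_lt (f := fun p : ℝ × ℝ => |p.2|) (by fun_prop) continuous_const).mem_nhds hq))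
    exact ⟨min r s, lt_min r0 s0, G, fun z hz => hr z (ball_subset_ball (min_le_left ..) hz),
      fun p hp => hs p (ball_subset_ball (min_le_right ..) hp)⟩
  choose ρ hρ G hG hGf using loc
  obtain ⟨δ, hδ, hL⟩ := lebesgue_number_lemma_of_metric (s := cx '' (Icc 0 1 ×ˢ Icc (-e) e))
    (c := fun q => ball (cx q.1) (ρ q)) ((isCompact_Icc.prod isCompact_Icc).image continuous_cx)
    (fun _ => isOpen_ball) (by
      rintro _ ⟨q, hq, rfl⟩
      exact mem_iUnion.2 ⟨⟨q, (abs_le.2 hq.2).trans_lt he⟩, mem_ball_self (hρ _)⟩)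
  have key : ∀ q : ℝ × ℝ, ∃ H : ℂ × ℂ → ℂ, |q.2| < e → AnalyticOnNhd ℂ H (ball (cx q) δ) ∧
      ∀ p ∈ ball q δ, H (cx p) = f p := by
    intro q
    by_cases hq : |q.2| < e
    swap
    · exact ⟨0, fun h => absurd h hq⟩
    obtain ⟨i, hi⟩ := hL (cx (Int.fract q.1, q.2))
      ⟨(_, _), ⟨⟨Int.fract_nonneg _, (Int.fract_lt_one _).le⟩, abs_le.1 hq.le⟩, rfl⟩
    have sh : ∀ z ∈ ball (cx q) δ, z - ((⌊q.1⌋ : ℂ), 0) ∈ ball (cx i.1) (ρ i) := fun z hz => by
      apply hi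
      rw [mem_ball, dist_eq_norm] at hz ⊢
      convert hz using 2
      ext
      · simp only [cx, Int.fract, Prod.fst_sub]
        push_cast
        ring
      · simp [cx]
    refine ⟨fun z => G i (z - ((⌊q.1⌋ : ℂ), 0)) + ⌊q.1⌋ * c, fun _ => ⟨fun z hz =>
      AnalyticAt.fun_add ((hG i _ (sh z hz)).comp_of_eq (analyticAt_id.sub analyticAt_const) rfl)
        analyticAt_const,
      fun p hp' => ?_⟩⟩
    have e1 : cx p - ((⌊q.1⌋ : ℂ), 0) = cx (p.1 - ⌊q.1⌋, p.2) := by ext <;> simp [cx]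
    have h1 := sh (cx p) (by rwa [mem_ball, dist_cx])
    rw [e1, mem_ball, dist_cx] at h1
    have h2 := hGf i _ h1
    show G i _ + _ = _
    rw [e1, h2.1, ← per_int hp _ _ _ h2.2, sub_add_cancel]
  choose H hH using key
  let re : ℂ × ℂ → ℝ × ℝ := fun z => (z.1.re, z.2.re)
  have cre : Continuous re := by fun_prop
  have hn : ∀ z ∈ Tb (δ / 2) e, dist z (cx (re z)) < δ / 2 := fun z hz => by
    have : ∀ y : ℂ, dist y (y.re : ℂ) = |y.im| := fun y => by
      rw [Complex.dist_eq, show y - (y.re : ℂ) = (y.im : ℂ) * Complex.I by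
        apply Complex.ext <;> simp]
      simp
    rw [Prod.dist_eq]
    exact max_lt ((this _).trans_lt hz.1) ((this _).trans_lt hz.2.2)
  have hA : AnalyticOnNhd ℂ (fun z => H (re z) z) (Tb (δ / 2) e) := by
    intro z₀ hz₀
    refine ((hH _ hz₀.2.1).1 z₀ ((hn _ hz₀).trans (half_lt_self hδ))).congr ?_
    filter_upwards [(isOpen_Tb _ _).mem_nhds hz₀,
      cre.continuousAt.eventually (ball_mem_nhds (re z₀) (half_pos hδ))] with z hz hd
    refine eqOn2 ((convex_ball (cx (re z₀)) δ).inter (convex_ball (cx (re z)) δ)).isPreconnected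
      ((hH _ hz₀.2.1).1.mono inter_subset_left) ((hH _ hz.2.1).1.mono inter_subset_right)
      (q := re z) ⟨?_, mem_ball_self hδ⟩ ?_ ⟨?_, (hn _ hz).trans (half_lt_self hδ)⟩
    · rw [mem_ball, dist_cx]
      linarith
    · filter_upwards [ball_mem_nhds (re z) (half_pos hδ)] with p hp'
      rw [mem_ball] at hp'
      rw [(hH _ hz₀.2.1).2 p, (hH _ hz.2.1).2 p (by rw [mem_ball]; linarith)]
      have := dist_triangle p (re z) (re z₀)
      rw [mem_ball]
      linarith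
    · have := dist_triangle z (cx (re z)) (cx (re z₀))
      rw [dist_cx] at this
      have := hn z hz
      rw [mem_ball]
      linarith
  have hR : ∀ q : ℝ × ℝ, |q.2| < e → H (re (cx q)) (cx q) = f q := fun q hq => by
    have : re (cx q) = q := by simp [re, cx]
    rw [this]
    exact (hH q hq).2 q (mem_ball_self hδ)
  refine ⟨δ / 2, half_pos hδ, fun z => H (re z) z, hA, hR, ?_⟩
  refine tube_eq (half_pos hδ) he0 (F := fun z => H (re (z.1 + 1, z.2)) (z.1 + 1, z.2))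
    (fun z hz => (hA (z.1 + 1, z.2) (by simpa [Tb] using hz)).comp_of_eq
      ((analyticAt_fst.add analyticAt_const).prod analyticAt_snd) rfl)
    (fun z hz => (hA z hz).add analyticAt_const) fun q hq => ?_
  have := hR (q.1 + 1, q.2) hq
  rw [hp q (hq.trans he), ← hR q hq] at this
  rw [← this]
  simp [cx]

end Vale.Agent.P097T.Tube
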