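import Vale.Agent.P097T.OutDefs
import Vale.Agent.P097T.Tube
import Vale.Agent.P097A.Bridge
import Vale.Agent.P097A.Ell
import Vale.Agent.P097A.Step

/-!
# P097T: the normal form at a real point in the parameter of the boundary leaf (row Y0)
-/

set_option linter.all false

noncomputable section

namespace Vale.Agent.P097T.Out

open Filter Topology Set Metric Complex
open Vale.Agent.P097T.Gm Vale.Agent.P097A Vale.Agent.P097A.Bridge Vale.Agent.P097T.Tube

namespace Y0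

/-- germs which agree at the real points agree -/
theorem ev_real {f g : ℂ → ℂ} {c : ℝ} (hf : AnalyticAt ℂ f c) (hg : AnalyticAt ℂ g c)
    (h : ∀ᶠ x : ℝ in 𝓝 c, f x = g x) : f =ᶠ[𝓝 (c : ℂ)] g := by
  refine (hf.frequently_eq_iff_eventually_eq hg).1 ?_
  have t : Tendsto ofReal (𝓝[≠] c) (𝓝[≠] (c : ℂ)) :=
    tendsto_nhdsWithin_iff.2 ⟨(continuous_ofReal.tendsto c).mono_left nhdsWithin_le_nhds,
      eventually_mem_nhdsWithin.mono fun w hw => ofReal_injective.ne hw⟩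
  exact t.frequently (Eventually.frequently (nhdsWithin_le_nhds h))

/-- the law at three consecutive real points of a leaf -/
theorem law3 {h : ℝ → ℝ} {ε : ℝ} {ψ δ : ℝ × ℝ → ℝ} (N : NF h ε ψ δ) {H : ℂ → ℂ} {x w : ℝ}
    (hw : |w| < ε) (ha : Rl h H (ψ (x - w, w))) (hb : Rl h H (ψ (x, w)))
    (hc : Rl h H (ψ (x + w, w))) :
    lawZ (Zc H) (Wc H) (ψ (x - w, w), ψ (x, w), ψ (x + w, w)) = 0 := by
  have k := abs_lt.1 hw
  rcases lt_trichotomy w 0 with m | m | m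
  · have sy : ∀ y, ψ (y, -w) = ψ (y, w) := fun y => (N.sym (y, w) hw).1
    have s1 := N.step (x + w) (-w) (by linarith) (by linarith)
    have s2 := N.step x (-w) (by linarith) (by linarith)
    rw [show x + w + -w = x by ring, sy, sy] at s1
    rw [show x + -w = x - w by ring, sy, sy] at s2
    have := law_real s1 s2 hc hb ha
    simp only [lawZ] at this ⊢
    linear_combination this
  · subst m
    simp only [lawZ, sub_zero, add_zero, dslope_same]
    ring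
  · have s1 := N.step (x - w) w m k.2
    have s2 := N.step x w m k.2
    rw [show x - w + w = x by ring] at s1
    exact law_real s1 s2 ha hb hc

end Y0

open Y0 in
theorem y0 : Spec_Y0 := by
  intro h ε ψ δ N c Z W hreg hZW
  have hc0 : (c, (0 : ℝ)) ∈ Lam ε := by simpa [Lam] using N.pos
  have aψ := N.aψ _ hc0
  obtain ⟨Ψ, aΨ, eΨ⟩ := cx_real aψ
  have hcx : cx (c, 0) = ((c : ℂ), (0 : ℂ)) := by simp [cx]
  rw [hcx] at aΨ
  obtain ⟨H, aH, eH⟩ := zw.2.1 h (ψ (c, 0)) (N.tab.1 _)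
  have rl : ∀ᶠ q in 𝓝 (c, (0 : ℝ)), Ψ (cx q) = ψ q ∧ Rl h H (ψ q) :=
    eΨ.and (aψ.continuousAt.tendsto.eventually (ev_rl N.tab aH eH))
  have Ψ0 : Ψ (c, 0) = ψ (c, 0) := by
    rw [← hcx]
    exact eΨ.self_of_nhds
  obtain ⟨B, hB⟩ : ∃ B : ℂ → ℂ, B = fun z => Ψ (z, 0) := ⟨_, rfl⟩
  have B0 : B c = ψ (c, 0) := by rw [hB]; exact Ψ0
  have aB : AnalyticAt ℂ B c := by
    rw [hB]
    exact aΨ.comp_of_eq (f := fun z : ℂ => (z, (0 : ℂ))) (analyticAt_id.prod analyticAt_const) rfl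
  have aZ : AnalyticAt ℂ (Zc H) (B c) := by rw [B0]; exact an_Z aH
  have aW : AnalyticAt ℂ (Wc H) (B c) := by rw [B0]; exact an_W aH
  have t : Tendsto (fun x : ℝ => (x, (0 : ℝ))) (𝓝 c) (𝓝 (c, 0)) :=
    Continuous.tendsto' (by fun_prop) _ _ rfl
  have eB : ∀ x : ℝ, B x = Ψ (cx (x, 0)) := fun x => by simp [hB, cx]
  have eZ : Z =ᶠ[𝓝 (c : ℂ)] Zc H ∘ B := by
    refine ev_real hreg.anZ (aZ.comp aB) ?_
    filter_upwards [hZW, t.eventually rl] with x k1 k2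
    rw [k1.1, Function.comp_apply, eB, k2.1, k2.2.2.1]
    rfl
  have eW : W =ᶠ[𝓝 (c : ℂ)] Wc H ∘ B := by
    refine ev_real hreg.anW (aW.comp aB) ?_
    filter_upwards [hZW, t.eventually rl] with x k1 k2
    rw [k1.2, Function.comp_apply, eB, k2.1, k2.2.2.2]
    rfl
  have dB : deriv B c ≠ 0 := by
    have := hreg.dZ
    rw [eZ.deriv_eq, deriv_comp _ aZ.differentiableAt aB.differentiableAt] at this
    exact right_ne_zero_of_mul this
  let r := aB.hasStrictDerivAt.localInverse _ _ _ dB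
  have hra : AnalyticAt ℂ r (B c) := aB.analyticAt_localInverse dB
  have hr0 : r (B c) = c := HasStrictFDerivAt.localInverse_apply_image ..
  have hri : ∀ᶠ y in 𝓝 (B c), B (r y) = y := HasStrictDerivAt.eventually_right_inverse ..
  have hle : ∀ᶠ z in 𝓝 (c : ℂ), r (B z) = z := HasStrictDerivAt.eventually_left_inverse ..
  have ΨB : Ψ (c, 0) = B c := by rw [hB]
  have aY : AnalyticAt ℂ (fun p => r (Ψ p)) (c, 0) := hra.comp_of_eq aΨ ΨB
  have tΨ : Tendsto Ψ (𝓝 ((c : ℂ), (0 : ℂ))) (𝓝 (B c)) := ΨB ▸ aΨ.continuousAt.tendsto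
  have tY : Tendsto (fun p => r (Ψ p)) (𝓝 ((c : ℂ), (0 : ℂ))) (𝓝 (c : ℂ)) := by
    have := aY.continuousAt.tendsto
    rwa [ΨB, hr0] at this
  refine ⟨fun p => r (Ψ p), aY, ?_, ?_, ?_⟩
  · filter_upwards [hle] with z hz
    rw [hB] at hz
    exact hz
  · have as : AnalyticAt ℂ (fun p : ℂ × ℂ => ((c : ℂ) + p.1, p.2)) 0 :=
      (analyticAt_const.add analyticAt_fst).prod analyticAt_snd
    have s0 : (fun p : ℂ × ℂ => ((c : ℂ) + p.1, p.2)) 0 = ((c : ℂ), (0 : ℂ)) := by simp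
    have aΘ : AnalyticAt ℂ (fun p : ℂ × ℂ => Ψ (c + p.1, p.2)) 0 := aΨ.comp_of_eq as s0
    have aΘ' : AnalyticAt ℂ (fun p : ℂ × ℂ => r (Ψ (c + p.1, p.2))) 0 := aY.comp_of_eq as s0
    have Θ0 : (fun p : ℂ × ℂ => Ψ (c + p.1, p.2)) 0 = B c := by simpa using ΨB
    have Θ0' : (fun p : ℂ × ℂ => r (Ψ (c + p.1, p.2))) 0 = c := by
      simp only [Prod.fst_zero, Prod.snd_zero, add_zero]
      rw [ΨB, hr0]
    have am : AnalyticAt ℂ (fun p : ℂ × ℂ => (p.1 - p.2, p.2)) 0 :=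
      (analyticAt_fst.sub analyticAt_snd).prod analyticAt_snd
    have ap : AnalyticAt ℂ (fun p : ℂ × ℂ => (p.1 + p.2, p.2)) 0 :=
      (analyticAt_fst.add analyticAt_snd).prod analyticAt_snd
    have aG : AnalyticAt ℂ (fun p : ℂ × ℂ => lawZ (Zc H) (Wc H)
        (Ψ (c + (p.1 - p.2), p.2), Ψ (c + p.1, p.2), Ψ (c + (p.1 + p.2), p.2))) 0 :=
      (Law.an_lawZ dd aZ aW).comp_of_eq ((aΘ.comp_of_eq am (by simp)).prod
        (aΘ.prod (aΘ.comp_of_eq ap (by simp)))) (by simp [ΨB])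
    have cx0 : cx 0 = 0 := by simp [cx]
    have G0 : ∀ᶠ p in 𝓝 (0 : ℂ × ℂ), lawZ (Zc H) (Wc H)
        (Ψ (c + (p.1 - p.2), p.2), Ψ (c + p.1, p.2), Ψ (c + (p.1 + p.2), p.2)) = 0 := by
      rw [← cx0] at aG ⊢
      refine ev_eq (G := fun _ => 0) aG analyticAt_const ?_
      have t1 : Tendsto (fun p : ℝ × ℝ => (c + p.1 - p.2, p.2)) (𝓝 0) (𝓝 (c, 0)) :=
        Continuous.tendsto' (by fun_prop) _ _ (by simp)
      have t2 : Tendsto (fun p : ℝ × ℝ => (c + p.1, p.2)) (𝓝 0) (𝓝 (c, 0)) :=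
        Continuous.tendsto' (by fun_prop) _ _ (by simp)
      have t3 : Tendsto (fun p : ℝ × ℝ => (c + p.1 + p.2, p.2)) (𝓝 0) (𝓝 (c, 0)) :=
        Continuous.tendsto' (by fun_prop) _ _ (by simp)
      filter_upwards [t1.eventually rl, t2.eventually rl, t3.eventually rl,
        t2.eventually ((isOpen_Lam ε).mem_nhds hc0)] with p k1 k2 k3 k4
      have := law3 N (x := c + p.1) (w := p.2) k4 k1.2 k2.2 k3.2
      rw [← k1.1, ← k2.1, ← k3.1] at this
      simpa [cx, add_sub_assoc, add_assoc] using this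
    filter_upwards [G0, (Law.tendsto_triple aΘ'.continuousAt Θ0').eventually
      ((Law.lawZ_congr eZ eW).and (Law.lawZ_comp_ev aB aZ aW)),
      (Law.tendsto_triple aΘ.continuousAt Θ0).eventually (Law.ev_triple hri)] with p k1 k2 k3
    rw [k2.1, k2.2]
    rw [k3.1, k3.2.1, k3.2.2, k1, zero_mul]
  · have tc : Tendsto cx (𝓝 (c, (0 : ℝ))) (𝓝 ((c : ℂ), (0 : ℂ))) := hcx ▸ continuous_cx.tendsto _
    filter_upwards [rl, (tY.comp tc).eventually (eZ.and eW), (tΨ.comp tc).eventually hri]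
      with q k1 k2 k3
    simp only [Function.comp_apply] at k2 k3
    refine ⟨k2.1.trans ?_, k2.2.trans ?_⟩
    · rw [k3, k1.1, k1.2.2.1]
      rfl
    · rw [k3, k1.1, k1.2.2.2]
      rfl

end Vale.Agent.P097T.Out
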