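import Vale.Agent.P097T.OutDefs2
import Vale.Agent.P097T.EndDefs

/-!
# P097T: the continuation theorem T3, assembly
-/

set_option linter.all false

noncomputable section

namespace Vale.Agent.P097T.Out

open Filter Topology Set Metric Complex
open Vale.Agent.P097T.Gm Vale.Agent.P097A Vale.Agent.P097T.Q

theorem ext_shift {T : ℝ} {f : ℝ → ℂ} (h : Ext (Hs T) f) (s : ℝ) :
    Ext (Hs T) fun x => f (x + s) := by
  obtain ⟨F, hF, hc⟩ := h
  refine ⟨fun z => F (z + s), fun z hz => ?_, ?_⟩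
  · have h1 : MeromorphicAt F (z + s) := hF _ (by simpa [Hs] using hz)
    exact MeromorphicAt.comp_analyticAt (f := F) (g := fun z : ℂ => z + s) h1
      (analyticAt_id.add analyticAt_const)
  · refine (hc.preimage_of_injOn (f := fun x : ℝ => x + s)
      (fun a _ b _ k => add_right_cancel k)).mono fun x hx => ?_
    exact ⟨by simpa [Hs] using hx.1, by simpa using hx.2⟩

theorem ext_of_St {T : ℝ} {f : ℝ → ℂ} {g : ℂ → ℂ} (hg : MeromorphicOn g (U.St T))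
    (e : ∀ x : ℝ, g x = f x) : Ext (Hs T) f := by
  refine ⟨g, hg.mono_set fun z hz => ?_, ?_⟩
  · rcases hz.1.eq_or_lt with k | k
    · exact Or.inl k.symm
    · exact Or.inr ⟨k, hz.2⟩
  · convert countable_empty
    ext x
    simp [e x]

theorem tubeW_mono {f : ℝ × ℝ → ℂ} {c κ T w₀ η η' : ℝ} (h : TubeW f c κ T w₀ η) (hη : η' ≤ η) :
    TubeW f c κ T w₀ η' := by
  obtain ⟨F, hF, e⟩ := h
  exact ⟨F, hF.mono (prod_mono le_rfl (ball_subset_ball hη)),
    fun x w h1 h2 => e x w h1 (h2.trans_le hη)⟩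

theorem t3t (hM : Spec_MODEL) (hU : Spec_Uw) (hR : Spec_TR) (hV : Spec_VERT) : Spec_T3t := by
  intro h ε ψ δ N c κ T w₀ η hκ hT hη hw ta tb
  obtain ⟨A, _, _, _, C, ι, G, M⟩ := hM h ε ψ δ N
  obtain ⟨aZ, aW, per, eqs, ⟨x₁, w₁, hw₁, ne⟩, -⟩ := hV h ε ψ δ N
  have hη' : 0 < min η (ε - |w₀|) := lt_min hη (by linarith)
  obtain ⟨Z, Zc, hZ⟩ := hU A C ε ι _ _ c κ T w₀ (min η (ε - |w₀|)) G M hκ hT hη'
    (by linarith [min_le_right η (ε - |w₀|)]) (tubeW_mono ta (min_le_left _ _))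
    (tubeW_mono tb (min_le_left _ _))
  have key : ∀ (f : ℝ × ℝ → ℂ) (hf : An ε f), (∀ q : ℝ × ℝ, |q.2| < ε → f (q.1 + 1, q.2) = f q) →
      ι (Gm.mk f hf) ∈ C.K univ → Ext (Hs T) fun x => f (x, w₀) := by
    intro f hf hp hm
    refine hR ε w₀ _ T f Z hf hp hw hη' Zc fun w h1 _ h2 => ?_
    obtain ⟨g, hg, e⟩ := hZ w h1 h2 f hf hm
    exact ext_of_St hg e
  have a0 : C.a 0 ∈ C.K univ := C.a_mem (mem_univ _)
  have b0 : C.b 0 ∈ C.K univ := C.b_mem (mem_univ _)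
  have a1 : C.a 1 ∈ C.K univ := C.a_mem (mem_univ _)
  have b1 : C.b 1 ∈ C.K univ := C.b_mem (mem_univ _)
  have ea : C.a 1 = ι (Gm.mk (fun q => la ψ δ (lin 1 1 q)) (an_lin M.an_a 1 abs_one)) := by
    rw [← shR_mk M.an_a, ← M.sh, ← M.a0, C.S_a]
    rfl
  have eb : C.b 1 = ι (Gm.mk (fun q => lb h ψ δ (lin 1 1 q)) (an_lin M.an_b 1 abs_one)) := by
    rw [← shR_mk M.an_b, ← M.sh, ← M.b0, C.S_b]
    rfl
  have e0 : ι (Gm.mk (fun q => vZ h ψ (lin (1 / 2) 1 q)) (an_lin aZ _ abs_one)) =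
      C.a 0 * ι (Gm.mk (fun q => vW h ψ (lin (1 / 2) 1 q)) (an_lin aW _ abs_one)) + C.b 0 := by
    rw [M.a0, M.b0, ← map_mul, ← map_add, mk_mul, mk_add]
    refine congrArg ι (mk_eq.2 fun q hq => ?_)
    have := (eqs (q.1 + 1 / 2 * q.2) q.2 hq).2
    rw [show q.1 + 1 / 2 * q.2 - q.2 / 2 = q.1 by ring] at this
    simpa [lin_apply] using this
  have e1 : ι (Gm.mk (fun q => vZ h ψ (lin (1 / 2) 1 q)) (an_lin aZ _ abs_one)) =
      C.a 1 * ι (Gm.mk (fun q => vW h ψ (lin (1 / 2) 1 q)) (an_lin aW _ abs_one)) + C.b 1 := by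
    rw [ea, eb, ← map_mul, ← map_add, mk_mul, mk_add]
    refine congrArg ι (mk_eq.2 fun q hq => ?_)
    have := (eqs (q.1 + 1 / 2 * q.2) q.2 hq).1
    rw [show q.1 + 1 / 2 * q.2 + q.2 / 2 = q.1 + q.2 by ring] at this
    simpa [lin_apply] using this
  have nz : C.a 1 - C.a 0 ≠ 0 := by
    rw [sub_ne_zero, ea, M.a0]
    intro k
    have := mk_eq.1 (M.inj k) (x₁ - w₁ / 2, w₁) hw₁
    apply ne
    rw [← this]
    simp only [lin_apply, one_mul]
    congr 2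
    ring
  have mW : ι (Gm.mk (fun q => vW h ψ (lin (1 / 2) 1 q)) (an_lin aW _ abs_one)) ∈ C.K univ := by
    have : ι (Gm.mk (fun q => vW h ψ (lin (1 / 2) 1 q)) (an_lin aW _ abs_one)) =
        -(C.b 1 - C.b 0) / (C.a 1 - C.a 0) := by
      rw [eq_div_iff nz]
      linear_combination e0 - e1
    rw [this]
    exact div_mem (neg_mem (sub_mem b1 b0)) (sub_mem a1 a0)
  have mZ : ι (Gm.mk (fun q => vZ h ψ (lin (1 / 2) 1 q)) (an_lin aZ _ abs_one)) ∈ C.K univ := by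
    rw [e0]
    exact add_mem (mul_mem a0 mW) b0
  have sh : ∀ f : ℝ × ℝ → ℂ, (Ext (Hs T) fun x => f (lin (1 / 2) 1 (x, w₀))) →
      Ext (Hs T) fun x => f (x, w₀) := by
    intro f k
    convert ext_shift k (-(1 / 2 * w₀)) using 3 with x
    simp [lin_apply]
  have pl : ∀ q : ℝ × ℝ, lin (1 / 2) 1 (q.1 + 1, q.2) =
      ((lin (1 / 2) 1 q).1 + 1, (lin (1 / 2) 1 q).2) := by
    intro q
    simp only [lin_apply]
    congr 1
    ring
  refine ⟨key _ M.an_a (fun q hq => (per q hq).1) (M.a0 ▸ a0),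
    key _ M.an_b (fun q hq => (per q hq).2.1) (M.b0 ▸ b0), sh _ (key _ _ ?_ mZ),
    sh _ (key _ _ ?_ mW)⟩
  · intro q hq
    show vZ h ψ _ = vZ h ψ _
    rw [pl]
    exact (per _ (lin_mem abs_one hq)).2.2.1
  · intro q hq
    show vW h ψ _ = vW h ψ _
    rw [pl]
    exact (per _ (lin_mem abs_one hq)).2.2.2

theorem t3c (h3 : Spec_T3t) (hT : Spec_TUBE0) (hX : Spec_XR) (hV : Spec_VERT) : Spec_T3c := by
  intro h ε ψ δ N c T Z W T0 reg real
  obtain ⟨κ, κ0, -, ta, tb⟩ := hT h ε ψ δ N c T Z W T0 reg real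
  obtain ⟨-, -, eZ, eW⟩ := h3 h ε ψ δ N c κ (T + κ) 0 κ κ0 (by linarith) κ0
    (by simpa using N.pos) ta tb
  have an : ∀ x : ℝ, AnalyticAt ℝ (fun x : ℝ => vZ h ψ (x, 0)) x := fun x =>
    AnalyticAt.comp (f := fun x : ℝ => (x, (0 : ℝ)))
      ((hV h ε ψ δ N).1 (x, 0) (by simpa [Lam] using N.pos)) (analyticAt_id.prod analyticAt_const)
  obtain ⟨Z', W', m1, m2, e⟩ := hX _ (T + κ) (by linarith) an eZ eW
  exact ⟨T + κ, Z', W', by linarith, m1, m2, e⟩

theorem t3 (h3 : Spec_T3c) (hS : Spec_SEL) : Out.Spec_T3 := by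
  intro h ε ψ δ N r ρ y₀ Z W r0 ρ0 hy mZ mW real
  have o1 : IsOpen {z : ℂ | |z.im| < r} :=
    isOpen_lt (continuous_abs.comp continuous_im) continuous_const
  have c1 : Convex ℝ {z : ℂ | |z.im| < r} := by
    have : {z : ℂ | |z.im| < r} = {z | -r < z.im} ∩ {z | z.im < r} := by
      ext z
      simp [abs_lt]
    rw [this]
    exact (convex_halfSpace_im_gt _).inter (convex_halfSpace_im_lt _)
  have m0 : 0 < min r ρ := lt_min r0 ρ0
  have pc : IsPreconnected ({z : ℂ | |z.im| < r} ∪ ball y₀ ρ) := by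
    refine IsPreconnected.union (y₀ - (min r ρ / 2 : ℝ) * I) ?_ ?_ c1.isPreconnected
      (convex_ball _ _).isPreconnected
    · have := min_le_left r ρ
      simp only [mem_setOf_eq, sub_im, mul_im, ofReal_re, I_im, mul_one, ofReal_im, I_re,
        mul_zero, add_zero, hy, abs_lt]
      constructor <;> linarith
    · have := min_le_right r ρ
      rw [mem_ball, dist_eq_norm, sub_sub_cancel_left, norm_neg, norm_mul, norm_I, mul_one,
        norm_real, Real.norm_eq_abs, abs_of_pos (by linarith)]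
      linarith
  have cnt := hS h ε ψ δ N _ Z W (o1.union isOpen_ball) pc
    (fun x => Or.inl (by simpa using r0)) mZ mW real
  obtain ⟨c, hc, hn⟩ : ∃ c ∈ Ioo (y₀.re - ρ) (y₀.re + ρ), c ∉ re '' {z ∈ _ | ¬Reg Z W z} := by
    by_contra k
    push Not at k
    have := (cnt.image re).mono k
    rw [← Cardinal.le_aleph0_iff_set_countable, Cardinal.mk_Ioo_real (by linarith)] at this
    exact Cardinal.aleph0_lt_continuum.not_ge this
  refine h3 h ε ψ δ N c r Z W r0.le (fun s hs => ?_) (Eventually.of_forall real)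
  by_contra k
  refine hn ⟨c + s * I, ⟨?_, k⟩, by simp⟩
  rcases hs.2.eq_or_lt with e | e
  · refine Or.inr ?_
    have : (c : ℂ) + s * I - y₀ = ((c - y₀.re : ℝ) : ℂ) := by
      apply Complex.ext <;> simp [e, hy]
    rw [mem_ball, dist_eq_norm, this, norm_real, Real.norm_eq_abs, abs_lt]
    constructor <;> linarith [hc.1, hc.2]
  · refine Or.inl ?_
    simpa [abs_of_nonneg hs.1] using e

/-- the normal form of `IntBd` is a normal form in the sense of the model -/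
def Spec_NFOF : Prop := ∀ (h : ℝ → ℝ) (ε η : ℝ) (Φ J : ℝ × ℝ → ℝ × ℝ), P097.IsTable h →
  NForm h ε η Φ J → NF h ε (fun q => (Φ q).1) (fun q => (Φ q).2)

theorem t3_end (h3 : Out.Spec_T3) (hN : Spec_NFOF) : P097T.Spec_T3 := by
  intro h ε η Φ J Z W r ρ y₀ T _ F r0 ρ0 hy M
  obtain ⟨r', Z', W', h1, m1, m2, e⟩ := h3 h ε _ _ (hN h ε η Φ J T F) r ρ y₀ Z W r0 ρ0 hy M.mZ M.mW
    fun x => ⟨M.eZ x, M.eW x⟩
  exact Or.inr ⟨r', Z', W', h1, m1, m2, fun x => (e x).1, fun x => (e x).2⟩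

end Vale.Agent.P097T.Out
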