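import Vale.Agent.P097T.T3Mod
import Vale.Agent.P097T.GermModel

/-!
# P097T: the continuation theorem T3
-/

namespace Vale.Agent.P097T.Out

theorem t3t' : Spec_T3t := t3t_of model

theorem t3c' : Spec_T3c := t3c_of model

theorem t3' : Out.Spec_T3 := t3_of model

theorem t3_end' : P097T.Spec_T3 := t3_end_of model

end Vale.Agent.P097T.Out
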