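import Vale.Agent.P097T.UDefs

/-!
# P097T: the core in terms of an embedding
-/

set_option linter.all false

noncomputable section

namespace Vale.Agent.P097T.U

open Filter Set Polynomial Vale.Agent.P097T.Q

variable {A : Type} [Field A] [CharZero A]

theorem der_eq (D : Derivation ℤ A A) {F : Subfield A} (z : A) (q : F[X]) :
    D (aeval z q) = aeval z (derivative q) * D z +
      ∑ i ∈ Finset.range (q.natDegree + 1), D (q.coeff i : A) * z ^ i := by
  have h1 : aeval z q = ∑ i ∈ Finset.range (q.natDegree + 1), (q.coeff i : A) * z ^ i := by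
    rw [aeval_eq_sum_range]
    exact Finset.sum_congr rfl fun i _ => by rw [Algebra.smul_def]; rfl
  have h2 : aeval z (derivative q) =
      ∑ i ∈ Finset.range (q.natDegree + 1), (q.coeff i : A) * (i * z ^ (i - 1)) := by
    conv_lhs => rw [q.as_sum_range, map_sum, map_sum]
    refine Finset.sum_congr rfl fun i _ => ?_
    rw [derivative_monomial, aeval_monomial, map_mul, map_natCast]
    have : algebraMap F A (q.coeff i) = (q.coeff i : A) := rfl
    rw [this]
    ring
  rw [h1, h2, map_sum, Finset.sum_mul, ← Finset.sum_add_distrib]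
  refine Finset.sum_congr rfl fun i _ => ?_
  rw [Derivation.leibniz, Derivation.leibniz_pow]
  simp only [smul_eq_mul, nsmul_eq_mul]
  ring

theorem min_facts {F : Subfield A} {z : A} (hz : z ∈ acl F) :
    aeval z (minpoly F z) = 0 ∧ aeval z (derivative (minpoly F z)) ≠ 0 := by
  have hi : IsIntegral F z := (mem_acl.1 hz).isIntegral
  exact ⟨minpoly.aeval F z,
    (minpoly.irreducible hi).separable.aeval_derivative_ne_zero (minpoly.aeval F z)⟩

theorem aeval_mem {F G : Subfield A} (hFG : F ≤ G) {z : A} (hz : z ∈ G) (q : F[X]) :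
    aeval z q ∈ G := by
  rw [aeval_eq_sum_range]
  refine sum_mem fun i _ => ?_
  rw [Algebra.smul_def]
  exact mul_mem (hFG (q.coeff i).2) (pow_mem hz _)

theorem der_mem (D : Derivation ℤ A A) {F G : Subfield A} (h : ∀ z ∈ F, D z ∈ F) (hFG : F ≤ G)
    {z : A} (hz : z ∈ acl F) (hG : z ∈ G) : D z ∈ G := by
  obtain ⟨h0, h1⟩ := min_facts hz
  have h2 := der_eq D z (minpoly F z)
  rw [h0, map_zero] at h2
  have h3 : D z = -(∑ i ∈ Finset.range ((minpoly F z).natDegree + 1),
      D ((minpoly F z).coeff i : A) * z ^ i) / aeval z (derivative (minpoly F z)) := by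
    field_simp
    linear_combination -h2
  rw [h3]
  exact div_mem (neg_mem (sum_mem fun i _ =>
    mul_mem (hFG (h _ ((minpoly F z).coeff i).2)) (pow_mem hG _))) (aeval_mem hFG hG _)

theorem der_comm (D : Derivation ℤ A A) {F : Subfield A} (h : ∀ z ∈ F, D z ∈ F) (ν : RingAut A)
    (hν : ∀ z ∈ F, ν z = z) {z : A} (hz : z ∈ acl F) : D (ν z) = ν (D z) := by
  obtain ⟨h0, h1⟩ := min_facts hz
  have e : ∀ q : F[X], ν (aeval z q) = aeval (ν z) q := by
    intro q
    rw [aeval_eq_sum_range, aeval_eq_sum_range, map_sum]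
    refine Finset.sum_congr rfl fun i _ => ?_
    rw [Algebra.smul_def, Algebra.smul_def, map_mul, map_pow]
    congr 1
    exact hν _ (q.coeff i).2
  have h2 := congrArg ν (der_eq D z (minpoly F z))
  have h3 := der_eq D (ν z) (minpoly F z)
  rw [← e, h0, map_zero, map_zero, ← e] at h3
  rw [h0, map_zero, map_zero, map_add, map_mul, map_sum] at h2
  have h4 : ∑ i ∈ Finset.range ((minpoly F z).natDegree + 1),
      ν (D ((minpoly F z).coeff i : A) * z ^ i) =
      ∑ i ∈ Finset.range ((minpoly F z).natDegree + 1),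
        D ((minpoly F z).coeff i : A) * ν z ^ i := by
    refine Finset.sum_congr rfl fun i _ => ?_
    rw [map_mul, map_pow, hν _ (h _ ((minpoly F z).coeff i).2)]
  rw [h4] at h2
  have h5 : ν (aeval z (derivative (minpoly F z))) ≠ 0 := by
    rwa [Ne, map_eq_zero_iff _ ν.injective]
  apply mul_left_cancel₀ h5
  linear_combination h2 - h3

theorem lines_acl {C : QChain A} (hF : C.FD) {J : Set ℤ} {i j k : ℤ} (hi : i ∈ J) (hk : k ∈ J)
    (h1 : i < j) (h2 : j < k) : C.a j ∈ acl (C.K J) ∧ C.b j ∈ acl (C.K J) := by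
  obtain ⟨ha, hb⟩ := hF (j - i) (k - i) (by omega) (by omega)
  have hs : ∀ z ∈ C.K {0, k - i}, (C.S ^ i) z ∈ C.K J := C.zpow_K i (by
    rintro l (rfl | rfl)
    · simpa using hi
    · simpa using hk)
  have ka := acl_map _ hs (mem_acl.2 ha)
  have kb := acl_map _ hs (mem_acl.2 hb)
  rw [(C.zpow_ab _ _).1, sub_add_cancel] at ka
  rw [(C.zpow_ab _ _).2, sub_add_cancel] at kb
  exact ⟨ka, kb⟩

theorem univ_acl {C : QChain A} (hF : C.FD) {J : Set ℤ} (h1 : ∀ N, ∃ j ∈ J, N ≤ j)
    (h2 : ∀ N, ∃ j ∈ J, j ≤ N) : C.K univ ≤ acl (C.K J) := by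
  refine C.K_le (fun j _ => ?_) (C.acl_closed (C.K_closed J))
  obtain ⟨k, hk, hk'⟩ := h1 (j + 1)
  obtain ⟨i, hi, hi'⟩ := h2 (j - 1)
  exact lines_acl hF hi hk (by omega) (by omega)

theorem ua0 [IsAlgClosed A] (C : QChain A) (hC : Good C) (halg : ∀ z, z ∈ acl (C.K univ))
    (M : Type) [Field M] (Φ : C.K univ →+* M) (O : Subring M) (F : Subfield M) (J : Set ℤ)
    (hO : Hen O) (hOF : ∀ z ∈ O, z ∈ F) (h1 : ∀ N, ∃ j ∈ J, N ≤ j) (h2 : ∀ N, ∃ j ∈ J, j ≤ N)
    (hJ : ∀ c : C.K univ, (c : A) ∈ C.K J → Φ c ∈ F)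
    (hR : ∀ c : C.K univ, ∀ᶠ s : ℤ in cofinite, Φ (sh C s c) ∈ O)
    (c : C.K univ) (hc : (c : A) = C.a 0 ∨ (c : A) = C.b 0) : Φ c ∈ F := by
  classical
  by_contra hn
  let Mb := AlgebraicClosure M
  letI : Algebra (C.K univ) Mb := ((algebraMap M Mb).comp Φ).toAlgebra
  haveI : Algebra.IsAlgebraic (C.K univ) A := ⟨fun z => mem_acl.1 (halg z)⟩
  let Ψ : A →ₐ[C.K univ] Mb := IsAlgClosed.lift
  have hΨ : ∀ e : C.K univ, Ψ (e : A) = algebraMap M Mb (Φ e) := fun e => Ψ.commutes e
  let G : Subfield A := (F.map (algebraMap M Mb)).comap (Ψ : A →+* Mb)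
  have hG : ∀ z, z ∈ G ↔ ∃ y ∈ F, algebraMap M Mb y = Ψ z := fun z => Iff.rfl
  have hJG : C.K J ≤ G := fun z hz => (hG z).2
    ⟨Φ ⟨z, C.K_mono (subset_univ _) hz⟩, hJ _ hz, (hΨ ⟨z, _⟩).symm⟩
  have aJ : ∀ z, z ∈ acl (C.K J) := fun z => acl_le (univ_acl hC.fd h1 h2) (halg z)
  haveI : Algebra.IsAlgebraic G A := ⟨fun z => mem_acl.1 (acl_mono hJG (aJ z))⟩
  haveI : IsAlgClosure G A := ⟨inferInstance, inferInstance⟩
  have hcG : (c : A) ∉ G := by
    intro h
    obtain ⟨y, hy, e⟩ := (hG _).1 h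
    rw [hΨ] at e
    exact hn ((algebraMap M Mb).injective e ▸ hy)
  have hex : ∃ f : Gal(A/G), f (c : A) ≠ c := by
    by_contra h
    push Not at h
    obtain ⟨y, hy⟩ := (InfiniteGalois.mem_range_algebraMap_iff_fixed (k := G) (c : A)).2 h
    exact hcG (hy ▸ y.2)
  obtain ⟨f, hf⟩ := hex
  let ν : RingAut A := f.toRingEquiv
  have hν : ∀ z ∈ G, ν z = z := fun z hz => f.commutes ⟨z, hz⟩
  refine C.core' hC.ne hC.burg hC.ref hC.fd hC.ev ν ⟨fun z => ⟨?_, ?_⟩, ?_, ?_⟩
  · exact der_comm C.dx (fun y hy => (C.K_closed J y hy).1) ν (fun y hy => hν y (hJG hy)) (aJ z)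
  · exact der_comm C.dw (fun y hy => (C.K_closed J y hy).2) ν (fun y hy => hν y (hJG hy)) (aJ z)
  · rcases hc with hc | hc
    · exact Or.inl (hc ▸ hf)
    · exact Or.inr (hc ▸ hf)
  · intro p hp hs hcoef
    have hl : p ∈ Polynomial.lifts (algebraMap (C.K univ) A) := by
      rw [lifts_iff_coeff_lifts]
      exact fun n => ⟨⟨p.coeff n, hcoef n⟩, rfl⟩
    obtain ⟨P, hP, -, hPm⟩ := lifts_and_degree_eq_and_monic hl hp
    have hPs : P.Separable := by
      rw [← separable_map (algebraMap (C.K univ) A), hP]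
      exact hs
    obtain ⟨u, v, huv⟩ := hPs
    have ev : ∀ q : (C.K univ)[X], ∀ᶠ s : ℤ in cofinite, ∀ i, Φ (sh C s (q.coeff i)) ∈ O := by
      intro q
      have := (eventually_all_finset q.support).2 fun i _ => hR (q.coeff i)
      filter_upwards [this] with s hs i
      by_cases hi : i ∈ q.support
      · exact hs i hi
      · rw [notMem_support_iff.1 hi]
        have : sh C s 0 = 0 := Subtype.ext (map_zero _)
        rw [this, map_zero]
        exact O.zero_mem
    filter_upwards [ev P, ev u, ev v] with s e1 e2 e3 r hr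
    let σ : C.K univ →+* C.K univ := ((C.S ^ s : RingAut A) : A →+* A).restrict _ _
      (C.zpow_K s (J := univ) fun _ _ => mem_univ _)
    have hσ : ∀ e, σ e = sh C s e := fun e => rfl
    let χ : C.K univ →+* M := Φ.comp σ
    have lift : ∀ q : (C.K univ)[X], (∀ i, Φ (sh C s (q.coeff i)) ∈ O) →
        ∃ q' : O[X], q'.map O.subtype = q.map χ := by
      intro q hq
      rw [← mem_lifts, lifts_iff_coeff_lifts]
      intro n
      rw [coeff_map]
      exact ⟨⟨_, hq n⟩, rfl⟩
    obtain ⟨P', hP'⟩ := lift P e1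
    obtain ⟨u', hu'⟩ := lift u e2
    obtain ⟨v', hv'⟩ := lift v e3
    have inj : Function.Injective (Polynomial.map O.subtype) :=
      map_injective _ O.subtype_injective
    have m' : P'.Monic := monic_of_injective O.subtype_injective (hP' ▸ hPm.map χ)
    have s' : P'.Separable := by
      refine ⟨u', v', inj ?_⟩
      rw [Polynomial.map_add, Polynomial.map_mul, Polynomial.map_mul, ← derivative_map, hP', hu',
        hv', derivative_map, ← Polynomial.map_mul, ← Polynomial.map_mul, ← Polynomial.map_add, huv,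
        Polynomial.map_one, Polynomial.map_one]
    obtain ⟨l, hl⟩ := hO P' m' s'
    have e4 : (p.map ((C.S ^ s : RingAut A) : A →+* A)).map (Ψ : A →+* Mb) =
        P'.map ((algebraMap M Mb).comp O.subtype) := by
      rw [← Polynomial.map_map, hP', ← hP]
      ext i
      simp only [coeff_map]
      exact hΨ (sh C s (P.coeff i))
    have e5 := hr.map (f := (Ψ : A →+* Mb))
    rw [e4, hl, IsRoot, Polynomial.map_multiset_prod, eval_multiset_prod, Multiset.map_map,
      Multiset.map_map, Multiset.prod_eq_zero_iff, Multiset.mem_map] at e5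
    obtain ⟨y, -, hy⟩ := e5
    simp only [Function.comp, Polynomial.map_sub, map_X, map_C, eval_sub, eval_X, eval_C,
      sub_eq_zero] at hy
    exact hν r ((hG r).2 ⟨y, hOF _ y.2, hy.symm⟩)

/-! ## Restriction to the algebraic closure of the field of the lines -/

/-- Restriction of an automorphism. -/
def resA (B : Subfield A) (σ : RingAut A) (h : ∀ z ∈ B, σ z ∈ B) (h' : ∀ z ∈ B, σ⁻¹ z ∈ B) :
    RingAut B where
  toFun z := ⟨σ z, h z z.2⟩
  invFun z := ⟨σ⁻¹ z, h' z z.2⟩
  left_inv z := Subtype.ext (σ.symm_apply_apply z)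
  right_inv z := Subtype.ext (σ.apply_symm_apply z)
  map_mul' x y := Subtype.ext (map_mul σ _ _)
  map_add' x y := Subtype.ext (map_add σ _ _)

/-- Restriction of a derivation. -/
def resD (B : Subfield A) (D : Derivation ℤ A A) (h : ∀ z ∈ B, D z ∈ B) : Derivation ℤ B B :=
  Derivation.mk' (AddMonoidHom.toIntLinearMap
    { toFun := fun z => ⟨D z, h z z.2⟩
      map_zero' := Subtype.ext (map_zero D)
      map_add' := fun x y => Subtype.ext (map_add D _ _) })
    fun x y => Subtype.ext (D.leibniz _ _)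

theorem rev_inv {C : QChain A} {r : RingAut A} (h : C.Rev r) : C.Rev r⁻¹ := by
  have e : ∀ y, r⁻¹ (r y) = y := fun y => r.symm_apply_apply y
  refine ⟨fun j => ?_, fun j => ?_, fun z => ?_, fun z => ?_⟩
  · conv_lhs => rw [← neg_neg j, ← h.1, e]
  · conv_lhs => rw [← neg_neg j, ← h.2.1, e]
  · obtain ⟨y, rfl⟩ := r.surjective z
    rw [e, h.2.2.1, e]
  · obtain ⟨y, rfl⟩ := r.surjective z
    rw [e, h.2.2.2, map_neg, e, neg_neg]

theorem rev_acl {C : QChain A} {r : RingAut A} (h : C.Rev r) :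
    ∀ z ∈ acl (C.K univ), r z ∈ acl (C.K univ) := fun z hz =>
  acl_map r ((C.withRev r h).ρ_K (J := univ) (J' := univ) fun _ _ => mem_univ _) hz

theorem zpow_acl (C : QChain A) (s : ℤ) :
    ∀ z ∈ acl (C.K univ), (C.S ^ s) z ∈ acl (C.K univ) := fun z hz =>
  acl_map _ (C.zpow_K s (J := univ) (J' := univ) fun _ _ => mem_univ _) hz

theorem rev_ρ (C : QChain A) : C.Rev C.ρ := ⟨C.ρ_a, C.ρ_b, C.ρ_dx, C.ρ_dw⟩

/-- The restricted chain. -/
def res (C : QChain A) : QChain (acl (C.K univ)) where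
  dx := resD _ C.dx fun z hz => (C.acl_closed (C.K_closed _) z hz).1
  dw := resD _ C.dw fun z hz => (C.acl_closed (C.K_closed _) z hz).2
  a j := ⟨C.a j, le_acl _ (C.a_mem (mem_univ j))⟩
  b j := ⟨C.b j, le_acl _ (C.b_mem (mem_univ j))⟩
  S := resA _ C.S (by simpa using zpow_acl C 1) (by simpa using zpow_acl C (-1))
  ρ := resA _ C.ρ (rev_acl (rev_ρ C)) (rev_acl (rev_inv (rev_ρ C)))
  S_a j := Subtype.ext (C.S_a j)
  S_b j := Subtype.ext (C.S_b j)
  ρ_a j := Subtype.ext (C.ρ_a j)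
  ρ_b j := Subtype.ext (C.ρ_b j)
  S_dx z := Subtype.ext (C.S_dx z)
  S_dw z := Subtype.ext (C.S_dw z)
  ρ_dx z := Subtype.ext (C.ρ_dx z)
  ρ_dw z := Subtype.ext (C.ρ_dw z)

theorem res_dfield (C : QChain A) (T : Set (acl (C.K univ))) (z : acl (C.K univ)) :
    z ∈ (res C).dfield T ↔ (z : A) ∈ C.dfield (Subtype.val '' T) := by
  constructor
  · intro hz
    have : (res C).dfield T ≤ (C.dfield (Subtype.val '' T)).comap (acl (C.K univ)).subtype :=
      (res C).dfield_le (fun t ht => C.sub_dfield _ ⟨t, ht, rfl⟩) fun y hy =>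
        C.dfield_closed _ _ hy
    exact this hz
  · intro hz
    have : C.dfield (Subtype.val '' T) ≤ ((res C).dfield T).map (acl (C.K univ)).subtype := by
      refine C.dfield_le ?_ ?_
      · rintro _ ⟨t, ht, rfl⟩
        exact ⟨t, (res C).sub_dfield _ ht, rfl⟩
      · rintro _ ⟨y, hy, rfl⟩
        exact ⟨⟨_, ((res C).dfield_closed _ y hy).1, rfl⟩, ⟨_, ((res C).dfield_closed _ y hy).2, rfl⟩⟩
    obtain ⟨y, hy, e⟩ := this hz
    rwa [show y = z from Subtype.ext e] at hy

theorem res_K (C : QChain A) (J : Set ℤ) (z : acl (C.K univ)) :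
    z ∈ (res C).K J ↔ (z : A) ∈ C.K J := by
  have := res_dfield C ((res C).a '' J ∪ (res C).b '' J) z
  rw [image_union, image_image, image_image] at this
  exact this

theorem res_acl (C : QChain A) (J : Set ℤ) (z : acl (C.K univ)) (hz : (z : A) ∈ acl (C.K J)) :
    z ∈ acl ((res C).K J) := by
  rw [mem_acl, alg_iff] at hz ⊢
  obtain ⟨p, p0, hc, hr⟩ := hz
  have hl : p ∈ Polynomial.lifts (acl (C.K univ)).subtype := by
    rw [lifts_iff_coeff_lifts]
    exact fun n => ⟨⟨p.coeff n, le_acl _ (C.K_mono (subset_univ _) (hc n))⟩, rfl⟩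
  obtain ⟨q, rfl⟩ := (mem_lifts p).1 hl
  refine ⟨q, fun h => p0 (by rw [h, Polynomial.map_zero]), fun i => ?_, ?_⟩
  · rw [res_K]
    have := hc i
    rwa [coeff_map] at this
  · exact IsRoot.of_map (f := (acl (C.K univ)).subtype) hr (acl (C.K univ)).subtype_injective

theorem res_Xp (C : QChain A) : ((res C).Xp : A) = C.Xp := by
  simp only [QChain.Xp]
  push_cast
  rfl

theorem res_Xm (C : QChain A) : ((res C).Xm : A) = C.Xm := by
  simp only [QChain.Xm]
  push_cast
  rfl

theorem res_burg (C : QChain A) (X : acl (C.K univ)) : (res C).Burg X ↔ C.Burg X := by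
  unfold QChain.Burg
  rw [← Subtype.val_inj]
  rfl

theorem res_good {C : QChain A} (h : Good C) : Good (res C) where
  ne e := h.ne (by rw [← res_Xp, ← res_Xm, e])
  burg := by
    rw [res_burg, res_Xp]
    exact h.burg
  ref := by
    have e : Subtype.val '' ({(res C).a 0, (res C).b 0, (res C).Xp} : Set (acl (C.K univ))) =
        {C.a 0, C.b 0, C.Xp} := by
      rw [image_insert_eq, image_insert_eq, image_singleton, res_Xp]
      rfl
    unfold QChain.Ref
    rw [res_dfield, res_dfield, e]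
    exact h.ref
  fd i m h1 h2 := ⟨mem_acl.1 (res_acl C _ _ (mem_acl.2 (h.fd i m h1 h2).1)),
    mem_acl.1 (res_acl C _ _ (mem_acl.2 (h.fd i m h1 h2).2))⟩
  ev X hX := by
    rcases h.ev X ((res_burg C X).1 hX) with e | e | ⟨r, hr, e⟩
    · exact Or.inl (Subtype.ext (e.trans (res_Xp C).symm))
    · exact Or.inr (Or.inl (Subtype.ext (e.trans (res_Xm C).symm)))
    · exact Or.inr (Or.inr ⟨resA _ r (rev_acl hr) (rev_acl (rev_inv hr)),
        ⟨fun j => Subtype.ext (hr.1 j), fun j => Subtype.ext (hr.2.1 j),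
          fun z => Subtype.ext (hr.2.2.1 z), fun z => Subtype.ext (hr.2.2.2 z)⟩, Subtype.ext e⟩)

theorem res_zpow (C : QChain A) (s : ℤ) (z : acl (C.K univ)) :
    ((((res C).S ^ s) z : acl (C.K univ)) : A) = (C.S ^ s) z := by
  induction s using Int.induction_on generalizing z with
  | zero => rfl
  | succ n ih =>
    rw [zpow_add_one, zpow_add_one, RingAut.mul_apply, RingAut.mul_apply, ih]
    rfl
  | pred n ih =>
    rw [zpow_sub_one, zpow_sub_one, RingAut.mul_apply, RingAut.mul_apply, ih]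
    rfl

theorem ua : Spec_UA := by
  intro A _ _ _ C hC M _ Φ O F J hO hOF h1 h2 hJ hR c hc
  haveI : IsAlgClosed (acl (C.K univ)) :=
    (algebraicClosure.isAlgClosure (C.K univ) A).isAlgClosed
  let ι : (res C).K univ →+* C.K univ :=
    ((acl (C.K univ)).subtype.comp ((res C).K univ).subtype).codRestrict _
      fun z => (res_K C univ z).1 z.2
  let c' : (res C).K univ := ⟨⟨c, le_acl _ c.2⟩, (res_K C univ _).2 c.2⟩
  exact ua0 (res C) (res_good hC) (fun z => res_acl C univ z z.2) M (Φ.comp ι) O F J hO hOF h1 h2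
    (fun e he => hJ (ι e) ((res_K C J _).1 he))
    (fun e => (hR (ι e)).mono fun s hs => by
      have : ι (sh (res C) s e) = sh C s (ι e) := Subtype.ext (res_zpow C s e)
      rw [RingHom.comp_apply, this]
      exact hs) c' (hc.imp (fun h => Subtype.ext h) fun h => Subtype.ext h)

end Vale.Agent.P097T.U
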