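import Vale.Agent.P097T.UDefs
import Vale.Agent.P097A.Mer

/-!
# P097T: block (U), gluing meromorphic germs (`Spec_GL1`, `Spec_GL2`, `Spec_GL3`)
-/

set_option linter.all false

noncomputable section

namespace Vale.Agent.P097T.U

open Filter Topology Set Metric Vale.Agent.P097A

namespace Gl

theorem St_convex (t : ℝ) : Convex ℝ (St t) := by
  rcases le_or_gt t 0 with h | h
  · have : St t = {z : ℂ | z.im ≤ 0} ∩ {z : ℂ | 0 ≤ z.im} := by
      ext z
      simp only [St, mem_setOf_eq, mem_inter_iff]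
      constructor
      · rintro (h1 | ⟨h1, h2⟩)
        · exact ⟨h1.le, h1.ge⟩
        · linarith
      · rintro ⟨h1, h2⟩
        exact Or.inl (le_antisymm h1 h2)
    rw [this]
    exact (convex_halfSpace_im_le 0).inter (convex_halfSpace_im_ge 0)
  · have : St t = {z : ℂ | z.im < t} ∩ {z : ℂ | 0 ≤ z.im} := by
      ext z
      simp only [St, mem_setOf_eq, mem_inter_iff]
      constructor
      · rintro (h1 | ⟨h1, h2⟩)
        · exact ⟨by linarith, h1.ge⟩
        · exact ⟨h2, h1.le⟩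
      · rintro ⟨h1, h2⟩
        rcases h2.eq_or_lt with h3 | h3
        · exact Or.inl h3.symm
        · exact Or.inr ⟨h3, h1⟩
    rw [this]
    exact (convex_halfSpace_im_lt t).inter (convex_halfSpace_im_ge 0)

theorem Rect_convex (x₀ δ T : ℝ) : Convex ℝ (Rect x₀ δ T) := by
  have : Rect x₀ δ T = ({z : ℂ | z.re < x₀ + δ} ∩ {z : ℂ | x₀ - δ < z.re}) ∩
      ({z : ℂ | -δ < z.im} ∩ {z : ℂ | z.im < T}) := by
    ext z
    simp only [Rect, mem_setOf_eq, mem_inter_iff, abs_lt]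
    constructor
    · rintro ⟨⟨h1, h2⟩, h3, h4⟩
      exact ⟨⟨by linarith, by linarith⟩, h3, h4⟩
    · rintro ⟨⟨h1, h2⟩, h3, h4⟩
      exact ⟨⟨by linarith, by linarith⟩, h3, h4⟩
  rw [this]
  exact ((convex_halfSpace_re_lt _).inter (convex_halfSpace_re_gt _)).inter
    ((convex_halfSpace_im_gt _).inter (convex_halfSpace_im_lt _))

theorem real_mem (t x : ℝ) : (x : ℂ) ∈ St t := Or.inl (Complex.ofReal_im x)

theorem St0_sub (t : ℝ) : St 0 ⊆ St t := by
  rintro z (h | ⟨h1, h2⟩)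
  · exact Or.inl h
  · linarith

/-- two representatives of one germ agree near the base point -/
theorem near {V : Ultrafilter ℂ} {x₀ : ℂ} (hV : (V : Filter ℂ) ≤ 𝓝[≠] x₀) {f g : ℂ → ℂ}
    (hf : MeromorphicAt f x₀) (hg : MeromorphicAt g x₀)
    (h : (f : Germ (V : Filter ℂ) ℂ) = (g : Germ (V : Filter ℂ) ℂ)) : f =ᶠ[𝓝[≠] x₀] g := by
  have h1 : f =ᶠ[(V : Filter ℂ)] g := Germ.coe_eq.1 h
  rcases (hf.sub hg).eventually_eq_zero_or_eventually_ne_zero with h2 | h2
  · filter_upwards [h2] with u hu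
    simpa [sub_eq_zero] using hu
  · obtain ⟨u, hu1, hu2⟩ := (h1.and (h2.filter_mono hV)).exists
    exact absurd (by simp [hu1]) hu2

/-- the vertical segment below `u` -/
def Seg (u : ℂ) : Set ℂ := {v | v.re = u.re ∧ 0 ≤ v.im ∧ v.im ≤ u.im}

theorem Seg_convex (u : ℂ) : Convex ℝ (Seg u) := by
  have : Seg u = ({z : ℂ | z.re ≤ u.re} ∩ {z : ℂ | u.re ≤ z.re}) ∩
      ({z : ℂ | 0 ≤ z.im} ∩ {z : ℂ | z.im ≤ u.im}) := by
    ext z
    simp only [Seg, mem_setOf_eq, mem_inter_iff]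
    constructor
    · rintro ⟨h1, h3, h4⟩
      exact ⟨⟨h1.le, h1.ge⟩, h3, h4⟩
    · rintro ⟨⟨h1, h2⟩, h3, h4⟩
      exact ⟨le_antisymm h1 h2, h3, h4⟩
  rw [this]
  exact ((convex_halfSpace_re_le _).inter (convex_halfSpace_re_ge _)).inter
    ((convex_halfSpace_im_ge _).inter (convex_halfSpace_im_le _))

/-- `g` represents `m` up to the point `u` -/
def Up (V : Ultrafilter ℂ) (m : Germ (V : Filter ℂ) ℂ) (g : ℂ → ℂ) (u : ℂ) : Prop :=
  MeromorphicOn g (St 0 ∪ Seg u) ∧ m = (g : Germ (V : Filter ℂ) ℂ)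

theorem Up.uniq {V : Ultrafilter ℂ} {x₀ : ℝ} (hV : (V : Filter ℂ) ≤ 𝓝[≠] (x₀ : ℂ))
    {m : Germ (V : Filter ℂ) ℂ} {g g' : ℂ → ℂ} {u : ℂ} (hu : 0 ≤ u.im) (h : Up V m g u)
    (h' : Up V m g' u) : g =ᶠ[𝓝[≠] u] g' := by
  have hc : IsPreconnected (St 0 ∪ Seg u) :=
    IsPreconnected.union (u.re : ℂ) (real_mem 0 _) ⟨by simp, by simp, by simpa using hu⟩
      (St_convex 0).isPreconnected (Seg_convex u).isPreconnected
  have hx : (x₀ : ℂ) ∈ St 0 ∪ Seg u := Or.inl (real_mem 0 _)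
  exact Mer.idt hc h.1 h'.1 hx (near hV (h.1 _ hx) (h'.1 _ hx) (h.2.symm.trans h'.2)) u
    (Or.inr ⟨rfl, hu, le_rfl⟩)

/-- gluing of representatives along vertical segments -/
theorem glv {V : Ultrafilter ℂ} {x₀ : ℝ} (hV : (V : Filter ℂ) ≤ 𝓝[≠] (x₀ : ℂ))
    {m : Germ (V : Filter ℂ) ℂ} (h0 : m ∈ MS V (St 0)) (T : ℝ)
    (H : ∀ z : ℂ, 0 < z.im → z.im < T → ∃ g, ∀ᶠ u in 𝓝 z, Up V m g u) : m ∈ MS V (St T) := by
  classical
  obtain ⟨g0, hg0, hm⟩ := h0
  choose! G hG using H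
  let f : ℂ → ℂ := fun u => if 0 < u.im ∧ u.im < T then limUnder (𝓝[≠] u) (G u) else g0 u
  have key : ∀ (g : ℂ → ℂ) (u : ℂ), 0 < u.im → u.im < T → Up V m g u → ContinuousAt g u →
      f u = g u := by
    intro g u h1 h2 hg hc
    simp only [f, if_pos (And.intro h1 h2)]
    apply Tendsto.limUnder_eq
    exact (hc.tendsto.mono_left nhdsWithin_le_nhds).congr'
      (Up.uniq hV h1.le hg (hG u h1 h2).self_of_nhds)
  have hre : ∀ z : ℂ, z.im = 0 → f =ᶠ[𝓝[≠] z] g0 := by
    intro z hz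
    have hz0 : MeromorphicAt g0 z := hg0 z (Or.inl hz)
    have h1 := hz0.eventually_analyticAt
    obtain ⟨ρ, hρ, h2⟩ := Metric.eventually_nhds_iff.1 (eventually_nhdsWithin_iff.1 h1)
    filter_upwards [h1, nhdsWithin_le_nhds (ball_mem_nhds z hρ)] with u hu hu'
    by_cases h : 0 < u.im ∧ u.im < T
    · refine key g0 u h.1 h.2 ⟨?_, hm⟩ hu.continuousAt
      rintro v (hv | ⟨v1, v2, v3⟩)
      · exact hg0 v hv
      · by_cases hvz : v = z
        · exact hvz ▸ hz0
        · refine (h2 (lt_of_le_of_lt ?_ (mem_ball.1 hu')) hvz).meromorphicAt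
          rw [Complex.dist_eq, Complex.dist_eq]
          refine abs_le_abs ?_ ?_ |>.trans' (le_abs_self _) |>.trans (abs_norm _).le
          · refine (sq_le_sq₀ (norm_nonneg _) (norm_nonneg _)).1 ?_
            rw [Complex.sq_norm, Complex.sq_norm, Complex.normSq_apply, Complex.normSq_apply]
            simp only [Complex.sub_re, Complex.sub_im, v1, hz]
            nlinarith
          · linarith [norm_nonneg (v - z), norm_nonneg (u - z)]
    · simp only [f, if_neg h]
  refine ⟨f, ?_, ?_⟩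
  · rintro z (hz | ⟨h1, h2⟩)
    · exact (hg0 z (Or.inl hz)).congr (hre z hz).symm
    · have hz : MeromorphicAt (G z) z :=
        (hG z h1 h2).self_of_nhds.1 z (Or.inr ⟨rfl, h1.le, le_rfl⟩)
      refine hz.congr ?_
      have o1 : ∀ᶠ u in 𝓝 z, 0 < u.im := Complex.continuous_im.continuousAt.eventually (lt_mem_nhds h1)
      have o2 : ∀ᶠ u in 𝓝 z, u.im < T := Complex.continuous_im.continuousAt.eventually (gt_mem_nhds h2)
      filter_upwards [hz.eventually_analyticAt, nhdsWithin_le_nhds o1, nhdsWithin_le_nhds o2,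
        nhdsWithin_le_nhds (hG z h1 h2)] with u hu u1 u2 u3
      exact (key _ u u1 u2 u3 hu.continuousAt).symm
  · exact hm.trans (Germ.coe_eq.2 ((hre x₀ (Complex.ofReal_im x₀)).symm.filter_mono hV))

end Gl

open Gl

theorem gl1 : Spec_GL1 := by
  classical
  rintro V x₀ δ T t r hV ht hr hδ hT m ⟨⟨g1, h1, e1⟩, ⟨g2, h2, e2⟩⟩
  have hx : (x₀ : ℂ) ∈ St t ∩ Rect x₀ δ T :=
    ⟨real_mem t x₀, by simpa using hr.trans hδ, by simpa using hr.trans hδ,
      by simpa using (by linarith : (0 : ℝ) < T)⟩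
  have hid := Mer.idt ((St_convex t).inter (Rect_convex x₀ δ T)).isPreconnected
    (h1.mono_set inter_subset_left) (h2.mono_set inter_subset_right) hx
    (near hV (h1 _ hx.1) (h2 _ hx.2) (e1.symm.trans e2))
  have hsub : closedBall (pt x₀ t) r ⊆ Rect x₀ δ T := by
    intro z hz
    rw [mem_closedBall, Complex.dist_eq] at hz
    have a1 := (Complex.abs_re_le_norm _).trans hz
    have a2 := (Complex.abs_im_le_norm _).trans hz
    simp only [pt, Complex.sub_re, Complex.sub_im, Complex.add_re, Complex.add_im,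
      Complex.ofReal_re, Complex.ofReal_im, Complex.mul_re, Complex.mul_im, Complex.I_re,
      Complex.I_im, mul_zero, mul_one, zero_mul, sub_zero, add_zero, zero_add] at a1 a2
    have a3 := abs_le.1 a2
    exact ⟨a1.trans_lt hδ, by linarith [a3.1], by linarith [a3.2]⟩
  let g : ℂ → ℂ := fun z => if z ∈ ball (pt x₀ t) r then g2 z else g1 z
  have hs : ∀ z ∈ St t, g =ᶠ[𝓝[≠] z] g1 := by
    intro z hz
    by_cases h : z ∈ closedBall (pt x₀ t) r
    · filter_upwards [hid z ⟨hz, hsub h⟩] with u hu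
      simp only [g]
      split_ifs
      · exact hu.symm
      · rfl
    · filter_upwards [nhdsWithin_le_nhds (isClosed_closedBall.isOpen_compl.mem_nhds h)] with u hu
      simp only [g]
      rw [if_neg fun h' => hu (ball_subset_closedBall h')]
  refine ⟨g, ?_, e1.trans (Germ.coe_eq.2 ((hs _ hx.1).symm.filter_mono hV))⟩
  rintro z (hz | hz)
  · exact (h1 z hz).congr (hs z hz).symm
  · refine (h2 z (hsub (ball_subset_closedBall hz))).congr ?_
    filter_upwards [nhdsWithin_le_nhds (isOpen_ball.mem_nhds hz)] with u hu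
    simp only [g]
    rw [if_pos hu]

theorem gl2 : Spec_GL2 := by
  intro V x₀ t r m hV ht hr H
  refine glv hV (MS_anti V ((St0_sub t).trans subset_union_left) (H 0)) _ fun z h1 h2 => ?_
  obtain ⟨g, hg, e⟩ := H z.re
  refine ⟨g, ?_⟩
  have o2 : ∀ᶠ u in 𝓝 z, u.im < t + r / 2 :=
    Complex.continuous_im.continuousAt.eventually (gt_mem_nhds h2)
  have o3 : ∀ᶠ u in 𝓝 z, u.re < z.re + r / 2 :=
    Complex.continuous_re.continuousAt.eventually (gt_mem_nhds (by linarith))
  have o4 : ∀ᶠ u in 𝓝 z, z.re - r / 2 < u.re :=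
    Complex.continuous_re.continuousAt.eventually (lt_mem_nhds (by linarith))
  filter_upwards [o2, o3, o4] with u u2 u3 u4
  refine ⟨hg.mono_set ?_, e⟩
  rintro v (hv | ⟨v1, v2, v3⟩)
  · exact Or.inl (St0_sub t hv)
  · rcases v2.eq_or_lt with v4 | v4
    · exact Or.inl (Or.inl v4.symm)
    · rcases lt_or_ge v.im t with v5 | v5
      · exact Or.inl (Or.inr ⟨v4, v5⟩)
      · refine Or.inr ?_
        rw [mem_ball, Complex.dist_eq]
        refine (Complex.norm_le_abs_re_add_abs_im _).trans_lt ?_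
        simp only [pt, Complex.sub_re, Complex.sub_im, Complex.add_re, Complex.add_im,
          Complex.ofReal_re, Complex.ofReal_im, Complex.mul_re, Complex.mul_im, Complex.I_re,
          Complex.I_im, mul_zero, mul_one, zero_mul, sub_zero, add_zero, zero_add]
        have a1 : |v.re - z.re| < r / 2 := abs_lt.2 ⟨by linarith, by linarith⟩
        have a2 : |v.im - t| < r / 2 := abs_lt.2 ⟨by linarith, by linarith⟩
        linarith

theorem gl3 : Spec_GL3 := by
  intro V x₀ t m hV H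
  refine glv hV (MS_anti V (St0_sub (t - 1)) (H _ (by linarith))) _ fun z h1 h2 => ?_
  obtain ⟨g, hg, e⟩ := H ((z.im + t) / 2) (by linarith)
  refine ⟨g, ?_⟩
  have o2 : ∀ᶠ u in 𝓝 z, u.im < (z.im + t) / 2 :=
    Complex.continuous_im.continuousAt.eventually (gt_mem_nhds (by linarith))
  filter_upwards [o2] with u u2
  refine ⟨hg.mono_set ?_, e⟩
  rintro v (hv | ⟨v1, v2, v3⟩)
  · exact St0_sub _ hv
  · rcases v2.eq_or_lt with v4 | v4
    · exact Or.inl v4.symm
    · exact Or.inr ⟨v4, v3.trans_lt u2⟩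

end Vale.Agent.P097T.U
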