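import Vale.Agent.P097T.UDefs
import Vale.Agent.P097A.Step

/-!
# P097T: Hensel's lemma for analytic germs
-/

set_option linter.all false

noncomputable section

namespace Vale.Agent.P097T.U

open Filter Topology Set Polynomial

/-- Functions which are analytic at the origin. -/
def AA : Subring (ℂ → ℂ) where
  carrier := {g | AnalyticAt ℂ g 0}
  mul_mem' := fun hf hg => hf.mul hg
  one_mem' := analyticAt_const
  add_mem' := fun hf hg => hf.add hg
  zero_mem' := analyticAt_const
  neg_mem' := fun hf => hf.neg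

/-- The value at `s`. -/
def evA (s : ℂ) : AA →+* ℂ := (Pi.evalRingHom (fun _ : ℂ => ℂ) s).comp AA.subtype

/-- The germ along `V`. -/
def gm (V : Ultrafilter ℂ) : AA →+* OA V :=
  ((Germ.coeRingHom (V : Filter ℂ)).comp AA.subtype).codRestrict (OA V) fun g => ⟨g.1, g.2, rfl⟩

theorem gm_surj (V : Ultrafilter ℂ) : Function.Surjective (gm V) := by
  rintro ⟨_, g, hg, rfl⟩
  exact ⟨⟨g, hg⟩, rfl⟩

theorem gm_eq_zero {V : Ultrafilter ℂ} {g : AA} : gm V g = 0 ↔ ∀ᶠ s in (V : Filter ℂ), g.1 s = 0 :=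
  Subtype.ext_iff.trans (Germ.coe_eq (f := g.1) (g := 0))

theorem an_eval (p : AA[X]) (y : ℂ) :
    AnalyticAt ℂ (fun v : ℂ × ℂ => (p.map (evA v.1)).eval v.2) (0, y) := by
  induction p using Polynomial.induction_on' with
  | add p q hp hq => simpa only [Polynomial.map_add, eval_add] using hp.fun_add hq
  | monomial n a =>
    simp only [map_monomial, eval_monomial]
    exact (AnalyticAt.comp_of_eq a.2 analyticAt_fst rfl).mul (analyticAt_snd.pow n)

/-- a simple root lifts -/
theorem lift_root (p : AA[X]) (y : ℂ) (h0 : (p.map (evA 0)).eval y = 0)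
    (h1 : (derivative (p.map (evA 0))).eval y ≠ 0) :
    ∃ r : AA, ∀ᶠ s in 𝓝 (0 : ℂ), (p.eval r).1 s = 0 := by
  have hF := an_eval p y
  have hd : HasDerivAt (fun t : ℂ => (p.map (evA 0)).eval t) (fderiv ℂ (fun v : ℂ × ℂ =>
      (p.map (evA v.1)).eval v.2) (0, y) (0, 1)) y :=
    hF.differentiableAt.hasFDerivAt.comp_hasDerivAt_of_eq y
      ((hasDerivAt_const y (0 : ℂ)).prodMk (hasDerivAt_id y)) rfl
  obtain ⟨ψ, hψ, e, k⟩ := P097A.Step.imp hF (by
    rwa [hd.unique ((p.map (evA 0)).hasDerivAt y)])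
  refine ⟨⟨ψ, hψ⟩, ?_⟩
  have t : Tendsto (fun s => (s, ψ s)) (𝓝 0) (𝓝 (0, y)) :=
    tendsto_id.prodMk_nhds (e ▸ hψ.continuousAt)
  filter_upwards [t.eventually k] with s hs
  have := hs.2 rfl
  rw [h0] at this
  rw [eval_map] at this
  exact (eval₂_at_apply (evA s) (⟨ψ, hψ⟩ : AA)).symm.trans this

theorem hen : Spec_HEN := by
  intro V hV q
  have hV' : (V : Filter ℂ) ≤ 𝓝 0 := hV.trans nhdsWithin_le_nhds
  have ker : RingHom.ker (gm V) ≤ RingHom.ker (evA 0) := fun g hg =>
    tendsto_nhds_unique (g.2.continuousAt.tendsto.mono_left hV')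
      (tendsto_const_nhds.congr' (EventuallyEq.symm (gm_eq_zero.1 hg)))
  let ev : OA V →+* ℂ := (gm V).liftOfSurjective (gm_surj V) ⟨evA 0, ker⟩
  have hev : ev.comp (gm V) = evA 0 := RingHom.liftOfSurjective_comp ..
  induction hn : q.natDegree generalizing q with
  | zero =>
    intro hm _
    exact ⟨0, by simpa using hm.natDegree_eq_zero.1 hn⟩
  | succ n ih =>
    intro hm hs
    obtain ⟨p, rfl, -, -⟩ := lifts_and_natDegree_eq_and_monic
      ((mem_lifts (f := gm V) q).2 (map_surjective _ (gm_surj V) q)) hm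
    have e : p.map (evA 0) = (p.map (gm V)).map ev := by rw [Polynomial.map_map, hev]
    obtain ⟨y, hy⟩ := IsAlgClosed.exists_root (p.map (evA 0)) (by
      rw [e, hm.degree_map]
      exact (natDegree_pos_iff_degree_pos.1 (by omega)).ne')
    obtain ⟨r, hr⟩ := lift_root p y hy (by
      have := (e ▸ hs.map : (p.map (evA 0)).Separable)
      exact this.eval₂_derivative_ne_zero (RingHom.id ℂ) hy)
    have h0 : (p.map (gm V)).IsRoot (gm V r) := by
      rw [IsRoot, eval_map, eval₂_at_apply]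
      exact gm_eq_zero.2 (hr.filter_mono hV')
    have e2 := mul_divByMonic_eq_iff_isRoot.2 h0
    have m2 : (p.map (gm V) /ₘ (X - C (gm V r))).Monic :=
      (monic_X_sub_C _).of_mul_monic_left (e2.symm ▸ hm)
    obtain ⟨s, h⟩ := ih _ (by
      have := (monic_X_sub_C (gm V r)).natDegree_mul m2
      rw [e2, hn, natDegree_X_sub_C] at this
      omega) m2 (Separable.of_mul_right (e2.symm ▸ hs))
    exact ⟨gm V r ::ₘ s, by rw [Multiset.map_cons, Multiset.prod_cons, ← h, e2]⟩

end Vale.Agent.P097T.U
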