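import Vale.Agent.P097T.UDefs

/-!
# P097T: irrational rotations
-/

set_option linter.all false

noncomputable section

namespace Vale.Agent.P097T.U

open Filter Topology Set Metric

theorem rot_ge {w : ℝ} (hw : Irrational w) (y r : ℝ) (N : ℤ) (hr : 0 < r) :
    ∃ j k : ℤ, N ≤ j ∧ |j * w + k - y| < r := by
  obtain ⟨n, hn⟩ := exists_nat_one_div_lt hr
  obtain ⟨j₀, k₀, hk0, -, hle⟩ := Real.exists_int_int_abs_mul_sub_le w (n := n + 1) n.succ_pos
  set θ : ℝ := k₀ * w - j₀ with hθ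
  have hθr : |θ| < r := by
    refine lt_of_le_of_lt hle (lt_of_le_of_lt ?_ hn)
    apply one_div_le_one_div_of_le
    · positivity
    · push_cast; linarith
  have hθ0 : θ ≠ 0 := by
    have h1 : Irrational θ := (hw.intCast_mul hk0.ne').sub_intCast j₀
    exact h1.ne_zero
  obtain ⟨M, hM⟩ : ∃ M : ℤ, 0 ≤ (y - N * w + M) / θ := by
    rcases lt_or_gt_of_ne hθ0 with h | h
    · refine ⟨⌊N * w - y⌋, div_nonneg_of_nonpos ?_ h.le⟩
      have := Int.floor_le (N * w - y)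
      linarith
    · refine ⟨⌈N * w - y⌉, div_nonneg ?_ h.le⟩
      have := Int.le_ceil (N * w - y)
      linarith
  set u : ℝ := (y - N * w + M) / θ with hu
  have hm0 : 0 ≤ ⌊u⌋ := Int.floor_nonneg.2 hM
  refine ⟨N + ⌊u⌋ * k₀, -(⌊u⌋ * j₀) - M, le_add_of_nonneg_right (mul_nonneg hm0 hk0.le), ?_⟩
  have huθ : u * θ = y - N * w + M := div_mul_cancel₀ _ hθ0
  have e : ((N + ⌊u⌋ * k₀ : ℤ) : ℝ) * w + ((-(⌊u⌋ * j₀) - M : ℤ) : ℝ) - y
      = -((u - ⌊u⌋) * θ) := by
    push_cast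
    rw [sub_mul, huθ, hθ]; ring
  rw [e, abs_neg, abs_mul]
  have h1 : 0 ≤ u - ⌊u⌋ := sub_nonneg.2 (Int.floor_le u)
  have h2 : u - ⌊u⌋ ≤ 1 := by have := Int.lt_floor_add_one u; linarith
  rw [abs_of_nonneg h1]
  exact lt_of_le_of_lt (mul_le_of_le_one_left (abs_nonneg _) h2) hθr

theorem fin_inter {B : Set ℝ} (hB : ∀ y, ∀ᶠ z in 𝓝[≠] y, z ∉ B) {K : Set ℝ} (hK : IsCompact K) :
    (B ∩ K).Finite := by
  have h : ∀ y : ℝ, {z | z ≠ y → z ∉ B} ∈ 𝓝 y := fun y => by
    have := hB y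
    rw [eventually_nhdsWithin_iff] at this
    exact this
  obtain ⟨t, -, ht⟩ := hK.elim_nhds_subcover (fun y => {z | z ≠ y → z ∉ B}) (fun y _ => h y)
  refine t.finite_toSet.subset ?_
  rintro z ⟨hzB, hzK⟩
  obtain ⟨y, hy, hz⟩ := mem_iUnion₂.1 (ht hzK)
  by_cases e : z = y
  · rw [e]; exact hy
  · exact absurd hzB (hz e)

theorem rot : Spec_ROT := by
  intro w hw
  refine ⟨fun y r N hr => ⟨rot_ge hw y r N hr, ?_⟩, fun B x hper hB => ?_⟩
  · obtain ⟨j, k, hj, h⟩ := rot_ge hw.neg y r (-N) hr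
    refine ⟨-j, k, by omega, ?_⟩
    have e : ((-j : ℤ) : ℝ) * w = j * -w := by push_cast; ring
    rw [e]; exact h
  · have hfin := fin_inter hB (isCompact_Icc (a := (0 : ℝ)) (b := 1))
    have hinj : Function.Injective fun s : ℤ => Int.fract (x + s * w) := by
      intro s s' h
      obtain ⟨z, hz⟩ := Int.fract_eq_fract.1 h
      by_contra hne
      have h1 : Irrational (((s - s' : ℤ) : ℝ) * w) := hw.intCast_mul (sub_ne_zero.2 hne)
      refine h1.ne_int z ?_
      push_cast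
      linarith
    rw [eventually_cofinite]
    refine (hfin.preimage hinj.injOn).subset ?_
    intro s hs
    have hs' : x + s * w ∈ B := by simpa using hs
    refine ⟨?_, Int.fract_nonneg _, (Int.fract_lt_one _).le⟩
    have := hper _ hs' (-⌊x + s * w⌋)
    have e : x + s * w + ((-⌊x + s * w⌋ : ℤ) : ℝ) = Int.fract (x + s * w) := by
      rw [Int.fract]; push_cast; ring
    rw [e] at this
    exact this

end Vale.Agent.P097T.U
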