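import Vale.Agent.P097T.UDefs
import Vale.Agent.P097A.Mer

/-!
# P097T: germs at the points of the top line (`U.Spec_TOP`)
-/

set_option linter.all false

noncomputable section

namespace Vale.Agent.P097T.U

open Filter Topology Set Metric Vale.Agent.P097A

theorem mem_St {t : ℝ} (ht : 0 < t) {z : ℂ} : z ∈ St t ↔ 0 ≤ z.im ∧ z.im < t := by
  constructor
  · rintro (h | h)
    · exact ⟨h.ge, by rw [h]; exact ht⟩
    · exact ⟨h.1.le, h.2⟩
  · rintro ⟨h1, h2⟩
    rcases h1.eq_or_lt with h | h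
    · exact Or.inl h.symm
    · exact Or.inr ⟨h, h2⟩

theorem convex_St {t : ℝ} (ht : 0 < t) : Convex ℝ (St t) := by
  have : St t = Complex.imLm ⁻¹' Ico 0 t := by
    ext z
    rw [mem_St ht]
    rfl
  rw [this]
  exact (convex_Ico _ _).linear_preimage _

theorem ev_of_le {L : Filter ℂ} [L.NeBot] {x : ℂ} (hL : L ≤ 𝓝[≠] x) {f g : ℂ → ℂ}
    (hf : MeromorphicAt f x) (hg : MeromorphicAt g x) (h : f =ᶠ[L] g) : f =ᶠ[𝓝[≠] x] g := by
  rcases (hf.sub hg).eventually_eq_zero_or_eventually_ne_zero with k | k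
  · filter_upwards [k] with z hz
    simpa [sub_eq_zero] using hz
  · obtain ⟨z, h1, h2⟩ := ((k.filter_mono hL).and h).exists
    exact absurd (by simp [h2]) h1

theorem cnt_of_ev {U : Set ℂ} {P : ℂ → Prop} (h : ∀ y ∈ U, ∀ᶠ z in 𝓝[≠] y, P z) :
    {y | y ∈ U ∧ ¬P y}.Countable := by
  refine (HereditarilyLindelofSpace.isLindelof _).countable_of_isDiscrete
    (isDiscrete_iff_nhdsNE.2 fun y hy => ?_)
  rw [inf_principal_eq_bot]
  filter_upwards [h y hy.1] with z hz hz' using hz'.2 hz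

/-- Approach to the origin from below, off countable sets. -/
def Lb : Filter ℂ := 𝓝[{s : ℂ | s.im < 0}] 0 ⊓ cocountable

theorem Lb_neBot : Lb.NeBot := by
  refine Filter.inf_neBot_iff.2 fun A hA B hB => ?_
  obtain ⟨U, hU, h0, hs⟩ := mem_nhdsWithin.1 hA
  have hd : Dense B := by
    simpa using Set.Countable.dense_compl ℂ (mem_cocountable.1 hB)
  have ho : IsOpen (U ∩ {s : ℂ | s.im < 0}) :=
    hU.inter (isOpen_lt Complex.continuous_im continuous_const)
  have hn : (U ∩ {s : ℂ | s.im < 0}).Nonempty := by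
    refine mem_closure_iff.1 ?_ U hU h0
    rw [Complex.closure_setOf_im_lt]
    simp
  obtain ⟨z, h1, h2⟩ := hd.inter_open_nonempty _ ho hn
  exact ⟨z, hs h1, h2⟩

theorem Lb_le : Lb ≤ 𝓝[≠] (0 : ℂ) :=
  inf_le_left.trans (nhdsWithin_mono _ fun s hs h => by
    have h1 : s = 0 := h
    simp [h1] at hs)

theorem Lb_St {t : ℝ} (ht : 0 < t) (x : ℝ) : ∀ᶠ s in Lb, pt x t + s ∈ St t := by
  refine (inf_le_left : Lb ≤ _) ?_
  have h1 : ∀ᶠ s : ℂ in 𝓝 0, -t < s.im :=
    (Complex.continuous_im.tendsto 0).eventually (lt_mem_nhds (by simpa using ht))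
  filter_upwards [self_mem_nhdsWithin, mem_nhdsWithin_of_mem_nhds h1] with s h2 h3
  have h4 : s.im < 0 := h2
  rw [mem_St ht]
  simp only [pt, Complex.add_im, Complex.ofReal_im, Complex.mul_im, Complex.ofReal_re,
    Complex.I_im, Complex.I_re]
  constructor <;> linarith

theorem Lb_off {S : Set ℂ} (hS : S.Countable) (p : ℂ) : ∀ᶠ s in Lb, p + s ∉ S := by
  refine (inf_le_right : Lb ≤ _) (mem_cocountable.2 ?_)
  refine (hS.preimage (add_right_injective p)).mono fun s hs => ?_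
  simpa using hs

theorem ev_Lb {t : ℝ} (ht : 0 < t) {f g : ℂ → ℂ} (h : ∀ y ∈ St t, f =ᶠ[𝓝[≠] y] g) (x : ℝ) :
    ∀ᶠ s in Lb, f (pt x t + s) = g (pt x t + s) := by
  filter_upwards [Lb_St ht x, Lb_off (cnt_of_ev h) (pt x t)] with s h1 h2
  by_contra h3
  exact h2 ⟨h1, h3⟩

theorem real_mem_St (t x : ℝ) : (x : ℂ) ∈ St t := Or.inl (Complex.ofReal_im x)

theorem top : Spec_TOP := by
  intro V x₀ t hV ht
  haveI := Lb_neBot
  let W : Ultrafilter ℂ := Ultrafilter.of Lb
  have hW : (W : Filter ℂ) ≤ Lb := Ultrafilter.of_le Lb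
  have uniq : ∀ f g : ℂ → ℂ, MeromorphicOn f (St t) → MeromorphicOn g (St t) →
      (f : Germ (V : Filter ℂ) ℂ) = (g : Germ (V : Filter ℂ) ℂ) → ∀ y ∈ St t, f =ᶠ[𝓝[≠] y] g :=
    fun f g hf hg h => Mer.idt (convex_St ht).isPreconnected hf hg (real_mem_St t x₀)
      (ev_of_le hV (hf _ (real_mem_St t x₀)) (hg _ (real_mem_St t x₀)) (Germ.coe_eq.1 h))
  let F : ℝ → MS V (St t) → Germ (W : Filter ℂ) ℂ := fun x m =>
    ((fun s => m.2.choose (pt x t + s) : ℂ → ℂ) : Germ (W : Filter ℂ) ℂ)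
  have hF : ∀ (x : ℝ) (m : MS V (St t)) (g : ℂ → ℂ), MeromorphicOn g (St t) →
      (m : Germ (V : Filter ℂ) ℂ) = (g : Germ (V : Filter ℂ) ℂ) →
      F x m = ((fun s => g (pt x t + s) : ℂ → ℂ) : Germ (W : Filter ℂ) ℂ) := fun x m g hg h =>
    Germ.coe_eq.2 (hW (ev_Lb ht (uniq _ _ m.2.choose_spec.1 hg (m.2.choose_spec.2.symm.trans h)) x))
  let Φ : ℝ → (MS V (St t) →+* Germ (W : Filter ℂ) ℂ) := fun x =>
    { toFun := F x
      map_one' := hF x 1 1 (MeromorphicOn.const 1) rfl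
      map_zero' := hF x 0 0 (MeromorphicOn.const 0) rfl
      map_mul' := by
        rintro ⟨_, f, hf, rfl⟩ ⟨_, g, hg, rfl⟩
        rw [hF x _ (f * g) (hf.mul hg) rfl, hF x _ f hf rfl, hF x _ g hg rfl]
        rfl
      map_add' := by
        rintro ⟨_, f, hf, rfl⟩ ⟨_, g, hg, rfl⟩
        rw [hF x _ (f + g) (hf.add hg) rfl, hF x _ f hf rfl, hF x _ g hg rfl]
        rfl }
  refine ⟨W, Φ, hW.trans Lb_le, hF, ?_⟩
  rintro x ⟨_, g, hg, rfl⟩ ⟨k, hk, e⟩
  have e1 : ∀ᶠ s in (W : Filter ℂ), g (pt x t + s) = k s :=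
    Germ.coe_eq.1 ((hF x _ g hg rfl).symm.trans e)
  set p := pt x t with hp
  have pim : p.im = t := by simp [hp, pt]
  have hk0 : MeromorphicAt (fun z => k (z - p)) p := by
    have := (hk 0 rfl)
    exact MeromorphicAt.comp_analyticAt (g := fun z => z - p)
      (show MeromorphicAt k (p - p) by rwa [sub_self]) (by fun_prop)
  obtain ⟨r₀, r0, hr⟩ := Metric.eventually_nhds_iff_ball.1
    (eventually_nhdsWithin_iff.1 hk0.eventually_analyticAt)
  set r := min r₀ t with hrd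
  have rp : 0 < r := lt_min r0 ht
  have mk : MeromorphicOn (fun z => k (z - p)) (ball p r) := fun z hz => by
    by_cases h : z = p
    · rw [h]; exact hk0
    · exact (hr z (ball_subset_ball (min_le_left _ _) hz) h).meromorphicAt
  have him : ∀ z ∈ ball p r, 0 < z.im := fun z hz => by
    have h1 := Complex.abs_im_le_norm (z - p)
    rw [mem_ball, dist_eq_norm] at hz
    rw [Complex.sub_im, pim] at h1
    have := (abs_lt.1 (h1.trans_lt (hz.trans_le (min_le_right _ _)))).1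
    linarith
  have hH : Convex ℝ (ball p r ∩ St t) := (convex_ball _ _).inter (convex_St ht)
  have agree : ∀ y ∈ ball p r ∩ St t, g =ᶠ[𝓝[≠] y] fun z => k (z - p) := by
    rcases Mer.dich hH.isPreconnected (f := g - fun z => k (z - p))
      ((hg.mono_set inter_subset_right).sub (mk.mono_set inter_subset_left)) with h | h
    · intro y hy
      filter_upwards [h y hy] with z hz
      simpa [sub_eq_zero] using hz
    · exfalso
      have h1 : ∀ᶠ s in Lb, p + s ∈ ball p r :=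
        (inf_le_left.trans nhdsWithin_le_nhds : Lb ≤ 𝓝 0) (by
          filter_upwards [ball_mem_nhds (0 : ℂ) rp] with s hs
          simpa using hs)
      obtain ⟨s, ⟨⟨h2, h3⟩, h4⟩, h5⟩ :=
        ((((h1.and (Lb_St ht x)).and (Lb_off (cnt_of_ev h) p)).filter_mono hW).and e1).exists
      exact h4 ⟨⟨h2, h3⟩, by simp [h5]⟩
  classical
  let g' : ℂ → ℂ := fun z => if z ∈ ball p (r / 2) then k (z - p) else g z
  have e2 : ∀ y ∈ St t, g' =ᶠ[𝓝[≠] y] g := by
    intro y hy
    by_cases h : y ∈ ball p r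
    · filter_upwards [agree y ⟨h, hy⟩] with z hz
      simp only [g']
      split_ifs
      · exact hz.symm
      · rfl
    · have h1 : y ∈ (closedBall p (r / 2))ᶜ := fun h2 =>
        h (closedBall_subset_ball (by linarith) h2)
      filter_upwards [mem_nhdsWithin_of_mem_nhds (isClosed_closedBall.isOpen_compl.mem_nhds h1)]
        with z hz
      exact if_neg fun h2 => hz (ball_subset_closedBall h2)
  refine ⟨g', ?_, (Germ.coe_eq.2 ((e2 _ (real_mem_St t x₀)).filter_mono hV)).symm⟩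
  rintro y (hy | rfl)
  · exact (hg y hy).congr (e2 y hy).symm
  · refine hk0.congr (mem_nhdsWithin_of_mem_nhds ?_)
    filter_upwards [ball_mem_nhds p (half_pos rp)] with z hz
    exact (if_pos hz).symm

end Vale.Agent.P097T.U
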