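import Vale.Agent.P097T.UDefs
import Vale.Agent.P097.H500.StripExt
import Vale.Agent.P097A.Mer

/-!
# P097T: all but countably many leaves are generic (`Spec_U2`), and block (U)
-/

set_option linter.all false

noncomputable section

namespace Vale.Agent.P097T.U

open Filter Topology Set Metric Vale.Agent.P097T.Q

namespace Two

/-! ### Complexification along the real line -/

theorem cx_loc {F : ℝ → ℂ} {x : ℝ} (hF : AnalyticAt ℝ F x) : ∃ (ρ : ℝ) (G : ℂ → ℂ), 0 < ρ ∧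
    DifferentiableOn ℂ G (ball (x : ℂ) ρ) ∧ ∀ y : ℝ, |y - x| < ρ → G y = F y := by
  obtain ⟨ρ1, G1, h1, d1, e1⟩ := P097.H500.cx_local ((Complex.reCLM.analyticAt _).comp hF)
  obtain ⟨ρ2, G2, h2, d2, e2⟩ := P097.H500.cx_local ((Complex.imCLM.analyticAt _).comp hF)
  refine ⟨min ρ1 ρ2, fun z => G1 z + G2 z * Complex.I, lt_min h1 h2, ?_, fun y hy => ?_⟩
  · exact (d1.mono (ball_subset_ball (min_le_left _ _))).add
      ((d2.mono (ball_subset_ball (min_le_right _ _))).mul_const _)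
  · show G1 y + G2 y * Complex.I = F y
    rw [e1 y (hy.trans_le (min_le_left _ _)), e2 y (hy.trans_le (min_le_right _ _))]
    exact Complex.re_add_im (F y)

theorem re_ball {z : ℂ} {x ρ : ℝ} (h : z ∈ ball (x : ℂ) ρ) : |z.re - x| < ρ := by
  rw [mem_ball, dist_eq_norm] at h
  have := Complex.abs_re_le_norm (z - x)
  simp only [Complex.sub_re, Complex.ofReal_re] at this
  linarith

theorem ball_re {y x ρ : ℝ} (h : |y - x| < ρ) : (y : ℂ) ∈ ball (x : ℂ) ρ := by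
  rw [mem_ball, dist_eq_norm, ← Complex.ofReal_sub, Complex.norm_real, Real.norm_eq_abs]
  exact h

theorem cx_glob {F : ℝ → ℂ} (hF : ∀ x, AnalyticAt ℝ F x) :
    ∃ G : ℂ → ℂ, (∀ x : ℝ, AnalyticAt ℂ G x) ∧ ∀ x : ℝ, G x = F x := by
  classical
  choose ρ G hρ hG hGF using fun x => cx_loc (hF x)
  have key : ∀ x y : ℝ, ∀ z ∈ ball (x : ℂ) (ρ x), z ∈ ball (y : ℂ) (ρ y) → G x z = G y z := by
    intro x y z hx hy
    refine P097.H500.eqOn_of_real (S := ball (x : ℂ) (ρ x) ∩ ball (y : ℂ) (ρ y))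
      (isOpen_ball.inter isOpen_ball) ((convex_ball _ _).inter (convex_ball _ _)).isPreconnected
      ((hG x).mono inter_subset_left) ((hG y).mono inter_subset_right) (m := z.re)
      ⟨ball_re (re_ball hx), ball_re (re_ball hy)⟩ ?_ ⟨hx, hy⟩
    have o : ∀ x : ℝ, IsOpen {t : ℝ | |t - x| < ρ x} := fun x =>
      isOpen_lt (continuous_abs.comp (continuous_id.sub continuous_const)) continuous_const
    filter_upwards [(o x).mem_nhds (re_ball hx), (o y).mem_nhds (re_ball hy)] with t h1 h2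
    rw [hGF x t h1, hGF y t h2]
  let g : ℂ → ℂ := fun z => if h : ∃ x : ℝ, z ∈ ball (x : ℂ) (ρ x) then G h.choose z else 0
  have hg : ∀ x : ℝ, ∀ z ∈ ball (x : ℂ) (ρ x), g z = G x z := by
    intro x z hz
    have h : ∃ x : ℝ, z ∈ ball (x : ℂ) (ρ x) := ⟨x, hz⟩
    simp only [g, dif_pos h]
    exact key _ _ z h.choose_spec hz
  refine ⟨g, fun x => ?_, fun x => ?_⟩
  · have h1 : AnalyticAt ℂ (G x) x := (hG x).analyticAt (ball_mem_nhds _ (hρ x))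
    refine h1.congr ?_
    filter_upwards [ball_mem_nhds (x : ℂ) (hρ x)] with z hz using (hg x z hz).symm
  · rw [hg x x (mem_ball_self (hρ x)), hGF x x (by simpa using hρ x)]

theorem mem_St0 {z : ℂ} : z ∈ St 0 ↔ z.im = 0 :=
  ⟨fun h => h.elim id fun h => absurd (h.1.trans h.2) (lt_irrefl _), Or.inl⟩

theorem real_of {z : ℂ} (h : z.im = 0) : ((z.re : ℝ) : ℂ) = z := by
  apply Complex.ext <;> simp [h]

theorem pre_St0 : IsPreconnected (St 0) := by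
  have : St 0 = range (fun x : ℝ => (x : ℂ)) := by
    ext z
    rw [mem_St0]
    exact ⟨fun h => ⟨z.re, real_of h⟩, fun ⟨x, hx⟩ => hx ▸ Complex.ofReal_im x⟩
  rw [this]
  exact isPreconnected_range Complex.continuous_ofReal

theorem mer_St0 {G : ℂ → ℂ} (h : ∀ x : ℝ, AnalyticAt ℂ G x) : MeromorphicOn G (St 0) := by
  intro z hz
  rw [← real_of (mem_St0.1 hz)]
  exact (h _).meromorphicAt

/-- Two functions with the same germ agree near all real points. -/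
theorem agree {V : Ultrafilter ℂ} {x₀ : ℝ} (hV : (V : Filter ℂ) ≤ 𝓝[≠] (x₀ : ℂ)) {g G : ℂ → ℂ}
    (hg : MeromorphicOn g (St 0)) (hG : MeromorphicOn G (St 0))
    (h : (g : Germ (V : Filter ℂ) ℂ) = (G : Germ (V : Filter ℂ) ℂ)) :
    ∀ y ∈ St 0, g =ᶠ[𝓝[≠] y] G := by
  have m : (x₀ : ℂ) ∈ St 0 := mem_St0.2 (Complex.ofReal_im _)
  refine P097A.Mer.idt pre_St0 hg hG m ?_
  rw [← (hg _ m).frequently_eq_iff_eventuallyEq (hG _ m)]
  exact (Filter.Eventually.frequently (Germ.coe_eq.1 h)).filter_mono hV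

/-! ### Algebra -/

section Alg

variable {A : Type} [Field A] [CharZero A] (C : QChain A)

/-- Words in the two derivations. -/
def wd : List Bool → A → A
  | [], z => z
  | true :: l, z => C.dx (wd l z)
  | false :: l, z => C.dw (wd l z)

theorem der_closure (D : Derivation ℤ A A) (s : Set A)
    (h : ∀ z ∈ s, D z ∈ Subfield.closure s) : ∀ z ∈ Subfield.closure s,
      D z ∈ Subfield.closure s := by
  intro z hz
  induction hz using Subfield.closure_induction with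
  | mem x hx => exact h x hx
  | one => rw [D.map_one_eq_zero]; exact zero_mem _
  | add x y hx hy h1 h2 => rw [map_add]; exact add_mem h1 h2
  | neg x hx h1 => rw [map_neg]; exact neg_mem h1
  | inv x hx h1 =>
    rw [D.leibniz_inv, smul_eq_mul]
    exact mul_mem (neg_mem (pow_mem (inv_mem hx) 2)) h1
  | mul x y hx hy h1 h2 =>
    rw [D.leibniz, smul_eq_mul, smul_eq_mul]
    exact add_mem (mul_mem hx h2) (mul_mem hy h1)

theorem dfield_countable {T : Set A} (hT : T.Countable) : (C.dfield T : Set A).Countable := by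
  let s : Set A := ⋃ l : List Bool, wd C l '' T
  have hs : s.Countable := countable_iUnion fun l => hT.image _
  have h1 : C.dfield T ≤ Subfield.closure s := by
    refine C.dfield_le (fun t ht => Subfield.subset_closure (mem_iUnion.2 ⟨[], t, ht, rfl⟩))
      fun z hz => ⟨der_closure _ s (fun y hy => ?_) z hz, der_closure _ s (fun y hy => ?_) z hz⟩
    · obtain ⟨l, t, ht, rfl⟩ := mem_iUnion.1 hy
      exact Subfield.subset_closure (mem_iUnion.2 ⟨true :: l, t, ht, rfl⟩)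
    · obtain ⟨l, t, ht, rfl⟩ := mem_iUnion.1 hy
      exact Subfield.subset_closure (mem_iUnion.2 ⟨false :: l, t, ht, rfl⟩)
  have h2 : (Subfield.closure s : Set A).Countable := by
    rw [← Cardinal.le_aleph0_iff_set_countable] at hs ⊢
    exact (Subfield.cardinalMk_closure_le_max s).trans (max_le hs le_rfl)
  exact h2.mono h1

theorem K_countable : (C.K univ : Set A).Countable :=
  dfield_countable C ((countable_univ.image _).union (countable_univ.image _))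

variable {C} {ε : ℝ} {ι : Gm.Rg ε →+* A} {a b : ℝ × ℝ → ℂ}

theorem pre_pre (s t : ℝ) (φ : Gm.Rg ε) :
    Gm.pre s 1 abs_one (Gm.pre t 1 abs_one φ) = Gm.pre (s + t) 1 abs_one φ := by
  obtain ⟨f, hf, rfl⟩ := Gm.mk_surj φ
  rw [Gm.pre_mk, Gm.pre_mk, Gm.pre_mk, Gm.mk_eq]
  intro q _
  simp only [Gm.lin_apply, one_mul]
  congr 2
  ring

theorem pre_zero (φ : Gm.Rg ε) : Gm.pre 0 1 abs_one φ = φ := by
  obtain ⟨f, hf, rfl⟩ := Gm.mk_surj φ
  rw [Gm.pre_mk, Gm.mk_eq]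
  intro q _
  simp [Gm.lin_apply]

theorem zpow_sh (M : Model C ε ι a b) (s : ℤ) :
    ∀ φ, (C.S ^ s) (ι φ) = ι (Gm.pre s 1 abs_one φ) := by
  have h1 : ∀ φ, C.S (ι φ) = ι (Gm.pre 1 1 abs_one φ) := M.sh
  induction s using Int.induction_on with
  | zero =>
    intro φ
    rw [Int.cast_zero, pre_zero]
    rfl
  | succ n ih =>
    intro φ
    rw [zpow_add_one, RingAut.mul_apply, h1, ih, pre_pre]
    push_cast
    rfl
  | pred n ih =>
    intro φ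
    have e : ι φ = C.S (ι (Gm.pre (-1) 1 abs_one φ)) := by
      rw [h1, pre_pre, add_neg_cancel, pre_zero]
    rw [zpow_sub_one, RingAut.mul_apply, e]
    show (C.S ^ (-(n : ℤ))) (C.S.symm _) = _
    rw [RingEquiv.symm_apply_apply, ih, pre_pre]
    push_cast
    rfl

theorem a_eq (M : Model C ε ι a b) (j : ℤ) : C.a j = ι (Gm.pre j 1 abs_one (Gm.mk a M.an_a)) := by
  rw [← zpow_sh M, ← M.a0, (C.zpow_ab j 0).1, zero_add]

theorem b_eq (M : Model C ε ι a b) (j : ℤ) : C.b j = ι (Gm.pre j 1 abs_one (Gm.mk b M.an_b)) := by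
  rw [← zpow_sh M, ← M.b0, (C.zpow_ab j 0).2, zero_add]

/-- The elements of `K J` are fractions. -/
theorem frac (M : Model C ε ι a b) (J : Set ℤ) (B : Subring (Gm.Rg ε))
    (h1 : ∀ j ∈ J, Gm.pre j 1 abs_one (Gm.mk a M.an_a) ∈ B ∧
      Gm.pre j 1 abs_one (Gm.mk b M.an_b) ∈ B)
    (h2 : ∀ φ ∈ B, Gm.der (1, 0) φ ∈ B ∧ Gm.der (0, 1) φ ∈ B) :
    ∀ c ∈ C.K J, ∃ φ ∈ B, ∃ ψ ∈ B, ι φ ∈ C.K univ ∧ ι ψ ∈ C.K univ ∧ c = ι φ / ι ψ := by
  let B' : Subring (Gm.Rg ε) := B ⊓ (C.K univ).toSubring.comap ι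
  have h3 : C.K J ≤ Subfield.closure (B'.map ι : Set A) := by
    refine C.K_le (fun j hj => ⟨Subfield.subset_closure ⟨_, ⟨(h1 j hj).1, ?_⟩, (a_eq M j).symm⟩,
      Subfield.subset_closure ⟨_, ⟨(h1 j hj).2, ?_⟩, (b_eq M j).symm⟩⟩)
      fun z hz => ⟨der_closure _ _ (fun y hy => ?_) z hz, der_closure _ _ (fun y hy => ?_) z hz⟩
    · show ι _ ∈ C.K univ
      rw [← a_eq M j]
      exact C.a_mem (mem_univ _)
    · show ι _ ∈ C.K univ
      rw [← b_eq M j]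
      exact C.b_mem (mem_univ _)
    · obtain ⟨φ, hφ, rfl⟩ := hy
      refine Subfield.subset_closure ⟨_, ⟨(h2 φ hφ.1).1, ?_⟩, (M.dx φ).symm⟩
      show ι _ ∈ C.K univ
      rw [← M.dx]
      exact (C.K_closed _ _ hφ.2).1
    · obtain ⟨φ, hφ, rfl⟩ := hy
      refine Subfield.subset_closure ⟨_, ⟨(h2 φ hφ.1).2, ?_⟩, (M.dw φ).symm⟩
      show ι _ ∈ C.K univ
      rw [← M.dw]
      exact (C.K_closed _ _ hφ.2).2
  intro c hc
  obtain ⟨y, hy, z, hz, e⟩ := Subfield.mem_closure_iff.1 (h3 hc)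
  rw [Subring.closure_eq] at hy hz
  obtain ⟨φ, hφ, rfl⟩ := hy
  obtain ⟨ψ, hψ, rfl⟩ := hz
  exact ⟨φ, hφ.1, ψ, hψ.1, hφ.2, hψ.2, e.symm⟩

end Alg

/-! ### Periodic functions and functions on the tube -/

variable {ε : ℝ}

theorem mem_add {q : ℝ × ℝ} (hq : q ∈ Gm.Lam ε) (t : ℝ) : (q.1 + t, q.2) ∈ Gm.Lam ε := hq

/-- The periodic functions. -/
def Per (ε : ℝ) : Subring (Gm.Rg ε) where
  carrier := {φ | ∀ q : Gm.Lam ε, φ.1 ⟨(q.1.1 + 1, q.1.2), mem_add q.2 1⟩ = φ.1 q}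
  mul_mem' := fun {φ ψ} h1 h2 q => by
    show φ.1 _ * ψ.1 _ = φ.1 q * ψ.1 q
    rw [h1 q, h2 q]
  one_mem' := fun q => rfl
  add_mem' := fun {φ ψ} h1 h2 q => by
    show φ.1 _ + ψ.1 _ = φ.1 q + ψ.1 q
    rw [h1 q, h2 q]
  zero_mem' := fun q => rfl
  neg_mem' := fun {φ} h1 q => by
    show -φ.1 _ = -φ.1 q
    rw [h1 q]

theorem mk_Per {f : ℝ × ℝ → ℂ} {hf : Gm.An ε f} :
    Gm.mk f hf ∈ Per ε ↔ ∀ q ∈ Gm.Lam ε, f (q.1 + 1, q.2) = f q :=
  ⟨fun h q hq => h ⟨q, hq⟩, fun h q => h q.1 q.2⟩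

theorem Per_der (v : ℝ × ℝ) : ∀ φ ∈ Per ε, Gm.der v φ ∈ Per ε := by
  intro φ hφ
  obtain ⟨f, hf, rfl⟩ := Gm.mk_surj φ
  rw [Gm.der_mk, mk_Per]
  rw [mk_Per] at hφ
  intro q hq
  have e : ∀ p : ℝ × ℝ, p + (1, 0) = (p.1 + 1, p.2) := fun p => by
    ext <;> simp
  rw [← Gm.fderiv_congr hφ hq, ← e q, ← fderiv_comp_add_right]
  simp only [e]

theorem Per_pre (c : ℝ) : ∀ φ ∈ Per ε, Gm.pre c 1 abs_one φ ∈ Per ε := by
  intro φ hφ
  obtain ⟨f, hf, rfl⟩ := Gm.mk_surj φ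
  rw [Gm.pre_mk, mk_Per]
  rw [mk_Per] at hφ
  intro q hq
  rw [← hφ _ (Gm.lin_mem abs_one hq)]
  simp only [Gm.lin_apply]
  congr 2
  ring

theorem per_int {f : ℝ × ℝ → ℂ} (h : ∀ q ∈ Gm.Lam ε, f (q.1 + 1, q.2) = f q) {w : ℝ}
    (hw : |w| < ε) (x : ℝ) (k : ℤ) : f (x + k, w) = f (x, w) := by
  have : Function.Periodic (fun x => f (x, w)) 1 := fun x => h (x, w) hw
  simpa using this.int_mul k x

/-- The functions which extend to the tube. -/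
def Tb (ε x₀ δ T η : ℝ) : Subring (Gm.Rg ε) where
  carrier := {φ | ∃ F : ℂ × ℂ → ℂ, AnalyticOnNhd ℂ F (Rect x₀ δ T ×ˢ ball 0 η) ∧
    ∀ q : Gm.Lam ε, |q.1.1 - x₀| < δ → |q.1.2| < η → F (q.1.1, q.1.2) = φ.1 q}
  mul_mem' := by
    rintro φ ψ ⟨F, hF, e1⟩ ⟨G, hG, e2⟩
    refine ⟨fun p => F p * G p, hF.mul hG, fun q h1 h2 => ?_⟩
    show F _ * G _ = φ.1 q * ψ.1 q
    rw [e1 q h1 h2, e2 q h1 h2]
  one_mem' := ⟨fun _ => 1, analyticOnNhd_const, fun _ _ _ => rfl⟩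
  add_mem' := by
    rintro φ ψ ⟨F, hF, e1⟩ ⟨G, hG, e2⟩
    refine ⟨fun p => F p + G p, hF.add hG, fun q h1 h2 => ?_⟩
    show F _ + G _ = φ.1 q + ψ.1 q
    rw [e1 q h1 h2, e2 q h1 h2]
  zero_mem' := ⟨fun _ => 0, analyticOnNhd_const, fun _ _ _ => rfl⟩
  neg_mem' := by
    rintro φ ⟨F, hF, e1⟩
    refine ⟨fun p => -F p, hF.neg, fun q h1 h2 => ?_⟩
    show -F _ = -φ.1 q
    rw [e1 q h1 h2]

theorem Tb_of {f : ℝ × ℝ → ℂ} (hf : Gm.An ε f) {x₀ δ T η : ℝ} (h : Tube f x₀ δ T η) :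
    Gm.mk f hf ∈ Tb ε x₀ δ T η := by
  obtain ⟨F, hF, e⟩ := h
  exact ⟨F, hF, fun q h1 h2 => e _ _ h1 h2⟩

/-- The real points. -/
def emb : ℝ × ℝ →L[ℝ] ℂ × ℂ := Complex.ofRealCLM.prodMap Complex.ofRealCLM

theorem emb_apply (q : ℝ × ℝ) : emb q = ((q.1 : ℂ), (q.2 : ℂ)) := rfl

theorem Tb_der {x₀ δ T η : ℝ} (hδ : 0 < δ) (hT : 0 < T) (v : ℝ × ℝ) :
    ∀ φ ∈ Tb ε x₀ δ T η, Gm.der v φ ∈ Tb ε x₀ δ T η := by
  intro φ hφ
  obtain ⟨f, hf, rfl⟩ := Gm.mk_surj φ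
  obtain ⟨F, hF, e⟩ := hφ
  rw [Gm.der_mk]
  refine ⟨fun p => fderiv ℂ F p (emb v), fun p hp =>
    ((ContinuousLinearMap.apply ℂ ℂ (emb v)).analyticAt _).comp (hF p hp).fderiv, ?_⟩
  rintro ⟨q, hq⟩ h1 h2
  show fderiv ℂ F (emb q) (emb v) = fderiv ℝ f q v
  have m : emb q ∈ Rect x₀ δ T ×ˢ ball (0 : ℂ) η := by
    refine ⟨⟨h1, ?_, ?_⟩, ?_⟩
    · simpa [emb_apply] using hδ
    · simpa [emb_apply] using hT
    · simpa [emb_apply] using h2
  have d1 : HasFDerivAt (fun p => F (emb p))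
      (((fderiv ℂ F (emb q)).restrictScalars ℝ).comp emb) q :=
    ((hF _ m).differentiableAt.hasFDerivAt.restrictScalars ℝ).comp q emb.hasFDerivAt
  have o1 : IsOpen {p : ℝ × ℝ | |p.1 - x₀| < δ} :=
    isOpen_lt (continuous_abs.comp (continuous_fst.sub continuous_const)) continuous_const
  have e2 : f =ᶠ[𝓝 q] fun p => F (emb p) := by
    filter_upwards [o1.mem_nhds h1, (Gm.isOpen_Lam η).mem_nhds h2,
      (Gm.isOpen_Lam ε).mem_nhds hq] with p k1 k2 k3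
    exact (e ⟨p, k3⟩ k1 k2).symm
  rw [e2.fderiv_eq, d1.fderiv]
  rfl

/-! ### Restriction to a leaf -/

/-- The restriction to the leaf `w`. -/
def ev (V : Filter ℂ) {w : ℝ} (hw : |w| < ε) : Gm.Rg ε →+* Germ V ℂ where
  toFun φ := ((fun z : ℂ => φ.1 ⟨(z.re, w), hw⟩ : ℂ → ℂ) : Germ V ℂ)
  map_one' := rfl
  map_mul' _ _ := rfl
  map_zero' := rfl
  map_add' _ _ := rfl

theorem ev_mk (V : Filter ℂ) {w : ℝ} (hw : |w| < ε) {f : ℝ × ℝ → ℂ} (hf : Gm.An ε f) :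
    ev V hw (Gm.mk f hf) = ((fun z : ℂ => f (z.re, w) : ℂ → ℂ) : Germ V ℂ) := rfl

theorem an_leaf {f : ℝ × ℝ → ℂ} (hf : Gm.An ε f) {w : ℝ} (hw : |w| < ε) (x : ℝ) :
    AnalyticAt ℝ (fun x => f (x, w)) x :=
  (hf (x, w) hw).comp (f := fun x : ℝ => (x, w)) (analyticAt_id.prod analyticAt_const)

/-- The leaves on which `φ` vanishes. -/
def Zs (φ : Gm.Rg ε) : Set ℝ := {w | ∃ hw : |w| < ε, ∀ x : ℝ, φ.1 ⟨(x, w), hw⟩ = 0}

theorem Zs_countable {φ : Gm.Rg ε} (h : φ ≠ 0) : (Zs φ).Countable := by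
  obtain ⟨f, hf, rfl⟩ := Gm.mk_surj φ
  rw [Ne, Gm.mk_eq_zero] at h
  push Not at h
  obtain ⟨q, hq, h⟩ := h
  have an : AnalyticOnNhd ℝ (fun w => f (q.1, w)) (Ioo (-ε) ε) := fun w hw =>
    (hf (q.1, w) (abs_lt.2 hw)).comp (f := fun w : ℝ => (q.1, w))
      (analyticAt_const.prod analyticAt_id)
  rcases an.eqOn_zero_or_eventually_ne_zero_of_preconnected isPreconnected_Ioo with k | k
  · exact absurd (k (abs_lt.1 hq)) h
  · have h1 : ({w | f (q.1, w) = 0} ∩ Ioo (-ε) ε).Countable :=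
      (HereditarilyLindelofSpace.isLindelof _).countable_of_isDiscrete
        (isDiscrete_of_codiscreteWithin k)
    refine h1.mono ?_
    rintro w ⟨hw, k⟩
    exact ⟨k q.1, abs_lt.1 hw⟩

/-- An ultrafilter of real points. -/
def VR (x₀ : ℝ) : Ultrafilter ℂ := (Ultrafilter.of (𝓝[≠] x₀)).map fun x : ℝ => (x : ℂ)

theorem VR_ev {x₀ : ℝ} {p : ℂ → Prop} (h : ∀ᶠ x : ℝ in 𝓝[≠] x₀, p x) :
    ∀ᶠ z in (VR x₀ : Filter ℂ), p z := by
  rw [VR, Ultrafilter.coe_map, eventually_map]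
  exact h.filter_mono (Ultrafilter.of_le _)

theorem VR_fr {x₀ : ℝ} {p : ℂ → Prop} (h : ∀ᶠ z in (VR x₀ : Filter ℂ), p z) :
    ∃ᶠ x : ℝ in 𝓝[≠] x₀, p x := by
  rw [VR, Ultrafilter.coe_map, eventually_map] at h
  exact h.frequently.filter_mono (Ultrafilter.of_le _)

theorem VR_le (x₀ : ℝ) : (VR x₀ : Filter ℂ) ≤ 𝓝[≠] (x₀ : ℂ) := by
  have h1 : Tendsto (fun y : ℝ => (y : ℂ)) (𝓝[≠] x₀) (𝓝[≠] (x₀ : ℂ)) := by
    refine tendsto_nhdsWithin_iff.2 ⟨?_, ?_⟩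
    · exact (Complex.continuous_ofReal.tendsto x₀).mono_left nhdsWithin_le_nhds
    · filter_upwards [self_mem_nhdsWithin] with y hy
      simpa using hy
  exact fun s hs => VR_ev (h1.eventually hs)

theorem VR_im (x₀ : ℝ) : ∀ᶠ z in (VR x₀ : Filter ℂ), z.im = 0 :=
  VR_ev (Eventually.of_forall fun x => Complex.ofReal_im x)

theorem ev_zero {x₀ w : ℝ} (hw : |w| < ε) {φ : Gm.Rg ε} (h : ev (VR x₀) hw φ = 0) : w ∈ Zs φ := by
  obtain ⟨f, hf, rfl⟩ := Gm.mk_surj φ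
  have h1 : ∀ᶠ z in (VR x₀ : Filter ℂ), f (z.re, w) = 0 := Germ.coe_eq.1 h
  have h2 := VR_fr h1
  simp only [Complex.ofReal_re] at h2
  have an : AnalyticOnNhd ℝ (fun x => f (x, w)) univ := fun x _ => an_leaf hf hw x
  exact ⟨hw, fun x => an.eqOn_zero_of_preconnected_of_frequently_eq_zero isPreconnected_univ
    (mem_univ x₀) h2 (mem_univ x)⟩

theorem ev_cx {V : Filter ℂ} (hV : ∀ᶠ z in V, z.im = 0) {F : ℝ → ℂ} {G : ℂ → ℂ}
    (h : ∀ x : ℝ, G x = F x) :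
    ((fun z : ℂ => F z.re : ℂ → ℂ) : Germ V ℂ) = (G : Germ V ℂ) := by
  rw [Germ.coe_eq]
  filter_upwards [hV] with z hz
  rw [← h, real_of hz]

end Two

open Two

theorem u2 : Spec_U2 := by
  intro A _ _ C ε ι a b x₀ δ T η M hδ hT hη hε ta tb
  let R : Subring (Gm.Rg ε) := (C.K univ).toSubring.comap ι
  have hR : (R : Set (Gm.Rg ε)).Countable := (K_countable C).preimage_of_injOn M.inj.injOn
  refine ⟨range ((↑) : ℚ → ℝ) ∪ ⋃ φ ∈ (R : Set (Gm.Rg ε)) \ {0}, Zs φ,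
    (countable_range _).union ((hR.mono diff_subset).biUnion fun φ h => Zs_countable h.2),
    fun w hZ hw => ?_⟩
  have hw' : |w| < ε := hw.trans_le hε
  let θ : R →+* C.K univ := (ι.comp R.subtype).codRestrict _ fun φ => φ.2
  letI : Algebra R (C.K univ) := θ.toAlgebra
  have hθ : ∀ φ : R, ((algebraMap R (C.K univ) φ : C.K univ) : A) = ι φ := fun _ => rfl
  haveI : FaithfulSMul R (C.K univ) := (faithfulSMul_iff_algebraMap_injective _ _).2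
    fun φ ψ h => Subtype.ext (M.inj (by rw [← hθ, ← hθ, h]))
  have fP := frac M univ (Per ε) (fun j _ => ⟨Per_pre _ _ (mk_Per.2 fun q hq => (M.per q hq).1),
    Per_pre _ _ (mk_Per.2 fun q hq => (M.per q hq).2)⟩) fun φ h => ⟨Per_der _ φ h, Per_der _ φ h⟩
  have fT := frac M {0} (Tb ε x₀ δ T η) (by
    rintro j rfl
    rw [Int.cast_zero, pre_zero, pre_zero]
    exact ⟨Tb_of _ ta, Tb_of _ tb⟩) fun φ h => ⟨Tb_der hδ hT _ φ h, Tb_der hδ hT _ φ h⟩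
  haveI : IsFractionRing R (C.K univ) := IsFractionRing.of_field _ _ fun z => by
    obtain ⟨φ, -, ψ, -, h1, h2, e⟩ := fP z z.2
    exact ⟨⟨φ, h1⟩, ⟨ψ, h2⟩, Subtype.ext e⟩
  have inj : Function.Injective ((ev (VR x₀ : Filter ℂ) hw').comp R.subtype) := by
    rw [injective_iff_map_eq_zero]
    intro φ h
    by_contra k
    exact hZ (Or.inr (mem_iUnion₂.2 ⟨φ.1, ⟨φ.2, fun e => k (Subtype.ext e)⟩, ev_zero hw' h⟩))
  let lf : C.K univ →+* Germ (VR x₀ : Filter ℂ) ℂ := IsFractionRing.lift inj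
  have l1 : ∀ (c : C.K univ) (φ : Gm.Rg ε), (c : A) = ι φ → lf c = ev _ hw' φ := by
    intro c φ e
    have h1 : φ ∈ R := by
      show ι φ ∈ C.K univ
      rw [← e]
      exact c.2
    have h2 : c = algebraMap R (C.K univ) ⟨φ, h1⟩ := Subtype.ext e
    rw [h2]
    exact IsFractionRing.lift_algebraMap inj _
  have l2 : ∀ (c : C.K univ) (φ ψ : Gm.Rg ε), ι φ ∈ C.K univ → ι ψ ∈ C.K univ →
      (c : A) = ι φ / ι ψ → lf c = ev _ hw' φ / ev _ hw' ψ := by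
    intro c φ ψ h1 h2 e
    have h3 : c = ⟨ι φ, h1⟩ / ⟨ι ψ, h2⟩ := Subtype.ext e
    rw [h3, map_div₀, l1 _ φ rfl, l1 _ ψ rfl]
  have m0 : ∀ φ : Gm.Rg ε, ev _ hw' φ ∈ MS (VR x₀) (St 0) := by
    intro φ
    obtain ⟨f, hf, rfl⟩ := Gm.mk_surj φ
    obtain ⟨G, hG, e⟩ := cx_glob (an_leaf hf hw')
    exact ⟨G, mer_St0 hG, ev_cx (VR_im x₀) e⟩
  have mT : ∀ φ ∈ Tb ε x₀ δ T η, ev _ hw' φ ∈ MS (VR x₀) (Rect x₀ δ T) := by
    rintro φ ⟨F, hF, e⟩
    refine ⟨fun z => F (z, w), fun z hz => AnalyticAt.meromorphicAt ?_, ?_⟩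
    · refine (hF (z, w) ⟨hz, ?_⟩).comp (f := fun z : ℂ => (z, (w : ℂ)))
        (analyticAt_id.prod analyticAt_const)
      simpa using hw
    · refine Germ.coe_eq.2 (VR_ev ?_)
      have o : IsOpen {t : ℝ | |t - x₀| < δ} :=
        isOpen_lt (continuous_abs.comp (continuous_id.sub continuous_const)) continuous_const
      filter_upwards [nhdsWithin_le_nhds (o.mem_nhds (by simpa using hδ))] with x hx
      exact (e ⟨(x, w), hw'⟩ hx hw).symm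
  refine ⟨VR x₀, lf, ⟨VR_le x₀, fun k => hZ (Or.inl k), fun c => ?_, ?_, fun c hc => ?_⟩,
    VR_im x₀, fun f hf c e => l1 c _ e⟩
  · obtain ⟨φ, -, ψ, -, h1, h2, e⟩ := fP c c.2
    rw [l2 c φ ψ h1 h2 e]
    exact div_mem (m0 φ) (m0 ψ)
  · intro c g s k hg eg
    obtain ⟨φ, p1, ψ, p2, h1, h2, e⟩ := fP c c.2
    obtain ⟨f1, a1, rfl⟩ := Gm.mk_surj φ
    obtain ⟨f2, a2, rfl⟩ := Gm.mk_surj ψ
    obtain ⟨G1, hG1, e1⟩ := cx_glob (an_leaf a1 hw')
    obtain ⟨G2, hG2, e2⟩ := cx_glob (an_leaf a2 hw')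
    have k1 : (g : Germ (VR x₀ : Filter ℂ) ℂ) = ((G1 / G2 : ℂ → ℂ) : Germ (VR x₀ : Filter ℂ) ℂ) := by
      rw [← eg, l2 c _ _ h1 h2 e, ev_mk, ev_mk, ev_cx (VR_im x₀) e1, ev_cx (VR_im x₀) e2]
      rfl
    have k2 := agree (VR_le x₀) hg ((mer_St0 hG1).div (mer_St0 hG2)) k1
      ((x₀ : ℂ) + ((s * w + k : ℝ) : ℂ)) (mem_St0.2 (by simp))
    have k3 : Tendsto (fun z : ℂ => z + ((s * w + k : ℝ) : ℂ)) (𝓝[≠] (x₀ : ℂ))
        (𝓝[≠] ((x₀ : ℂ) + ((s * w + k : ℝ) : ℂ))) := by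
      refine tendsto_nhdsWithin_iff.2 ⟨?_, ?_⟩
      · exact ((continuous_add_right _).tendsto _).mono_left nhdsWithin_le_nhds
      · filter_upwards [self_mem_nhdsWithin] with y hy
        simpa using hy
    have k4 := (k3.eventually k2).filter_mono (VR_le x₀)
    have z1 := C.zpow_K s (J := univ) (J' := univ) (fun _ _ => mem_univ _) _ h1
    have z2 := C.zpow_K s (J := univ) (J' := univ) (fun _ _ => mem_univ _) _ h2
    rw [zpow_sh M] at z1 z2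
    rw [l2 (sh C s c) _ _ z1 z2 (by
      show (C.S ^ s) (c : A) = _
      rw [e, map_div₀, zpow_sh M, zpow_sh M]), Gm.pre_mk, Gm.pre_mk, ev_mk, ev_mk,
      ← Germ.coe_div, Germ.coe_eq]
    filter_upwards [k4, VR_im x₀] with z hz hi
    rw [hz, ← real_of hi, ← Complex.ofReal_add, Pi.div_apply, Pi.div_apply, e1, e2, ← add_assoc,
      per_int (mk_Per.1 p1) hw', per_int (mk_Per.1 p2) hw']
    simp [Gm.lin_apply]
  · obtain ⟨φ, t1, ψ, t2, h1, h2, e⟩ := fT c hc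
    rw [l2 c φ ψ h1 h2 e]
    exact div_mem (mT φ t1) (mT ψ t2)

theorem u_of (U1 : Spec_U1) (U2 : Spec_U2) : Spec_U := by
  intro A _ _ _ C ε ι a b x₀ δ T η G M hδ hT hη hε ta tb
  obtain ⟨Z, hZ, h⟩ := U2 A C ε ι a b x₀ δ T η M hδ hT hη hε ta tb
  refine ⟨Z, hZ, fun w hw hw' f hf hK => ?_⟩
  obtain ⟨V, lf, L, hV, e⟩ := h w hw hw'
  obtain ⟨g, hg, eg⟩ := U1 A C G V x₀ w δ T lf hδ L ⟨_, hK⟩
  obtain ⟨H, hH, eH⟩ := cx_glob (an_leaf hf (hw'.trans_le hε))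
  have k1 : (g : Germ (V : Filter ℂ) ℂ) = (H : Germ (V : Filter ℂ) ℂ) := by
    rw [← eg, e f hf _ rfl, ev_cx hV eH]
  have k2 := agree L.hV (hg.mono_set fun z hz => Or.inl (mem_St0.1 hz)) (mer_St0 hH) k1
  refine ⟨fun z => if z.im = 0 then H z else g z, fun z hz => ?_, fun x => ?_⟩
  · rcases hz with hz | hz
    · refine (mer_St0 hH z (mem_St0.2 hz)).congr ?_
      filter_upwards [k2 z (mem_St0.2 hz)] with u hu
      split_ifs
      · rfl
      · exact hu.symm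
    · refine (hg z (Or.inr hz)).congr ?_
      have o : IsOpen {u : ℂ | 0 < u.im} := isOpen_lt continuous_const Complex.continuous_im
      filter_upwards [nhdsWithin_le_nhds (o.mem_nhds hz.1)] with u hu
      rw [if_neg (ne_of_gt hu)]
  · simp only [Complex.ofReal_im, if_true]
    exact eH x

end Vale.Agent.P097T.U
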