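import Vale.Agent.P097T.OutDefs2
import Vale.Agent.P097T.UTwo

/-!
# P097T: block (U) around an arbitrary real leaf (`Spec_U2w`, `Spec_Uw`)
-/

set_option linter.all false

noncomputable section

namespace Vale.Agent.P097T.Out

open Filter Topology Set Metric Vale.Agent.P097T.Q Vale.Agent.P097T.U Vale.Agent.P097T.U.Two

namespace TwoW

variable {ε : ℝ}

theorem abs_lt_of {w w₀ η : ℝ} (h : |w - w₀| < η) (hε : |w₀| + η ≤ ε) : |w| < ε := by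
  have := abs_add_le (w - w₀) w₀
  rw [sub_add_cancel] at this
  linarith

/-- The functions which extend to the tube. -/
def Tw (ε x₀ δ T w₀ η : ℝ) : Subring (Gm.Rg ε) where
  carrier := {φ | ∃ F : ℂ × ℂ → ℂ, AnalyticOnNhd ℂ F (Rect x₀ δ T ×ˢ ball (w₀ : ℂ) η) ∧
    ∀ q : Gm.Lam ε, |q.1.1 - x₀| < δ → |q.1.2 - w₀| < η → F (q.1.1, q.1.2) = φ.1 q}
  mul_mem' := by
    rintro φ ψ ⟨F, hF, e1⟩ ⟨G, hG, e2⟩
    refine ⟨fun p => F p * G p, hF.mul hG, fun q h1 h2 => ?_⟩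
    show F _ * G _ = φ.1 q * ψ.1 q
    rw [e1 q h1 h2, e2 q h1 h2]
  one_mem' := ⟨fun _ => 1, analyticOnNhd_const, fun _ _ _ => rfl⟩
  add_mem' := by
    rintro φ ψ ⟨F, hF, e1⟩ ⟨G, hG, e2⟩
    refine ⟨fun p => F p + G p, hF.add hG, fun q h1 h2 => ?_⟩
    show F _ + G _ = φ.1 q + ψ.1 q
    rw [e1 q h1 h2, e2 q h1 h2]
  zero_mem' := ⟨fun _ => 0, analyticOnNhd_const, fun _ _ _ => rfl⟩
  neg_mem' := by
    rintro φ ⟨F, hF, e1⟩
    refine ⟨fun p => -F p, hF.neg, fun q h1 h2 => ?_⟩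
    show -F _ = -φ.1 q
    rw [e1 q h1 h2]

theorem Tw_of {f : ℝ × ℝ → ℂ} (hf : Gm.An ε f) {x₀ δ T w₀ η : ℝ} (h : TubeW f x₀ δ T w₀ η) :
    Gm.mk f hf ∈ Tw ε x₀ δ T w₀ η := by
  obtain ⟨F, hF, e⟩ := h
  exact ⟨F, hF, fun q h1 h2 => e _ _ h1 h2⟩

theorem Tw_der {x₀ δ T w₀ η : ℝ} (hδ : 0 < δ) (hT : 0 < T) (v : ℝ × ℝ) :
    ∀ φ ∈ Tw ε x₀ δ T w₀ η, Gm.der v φ ∈ Tw ε x₀ δ T w₀ η := by
  intro φ hφ
  obtain ⟨f, hf, rfl⟩ := Gm.mk_surj φ
  obtain ⟨F, hF, e⟩ := hφ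
  rw [Gm.der_mk]
  refine ⟨fun p => fderiv ℂ F p (emb v), fun p hp =>
    ((ContinuousLinearMap.apply ℂ ℂ (emb v)).analyticAt _).comp (hF p hp).fderiv, ?_⟩
  rintro ⟨q, hq⟩ h1 h2
  show fderiv ℂ F (emb q) (emb v) = fderiv ℝ f q v
  have m : emb q ∈ Rect x₀ δ T ×ˢ ball (w₀ : ℂ) η := by
    refine ⟨⟨h1, ?_, ?_⟩, ?_⟩
    · simpa [emb_apply] using hδ
    · simpa [emb_apply] using hT
    · exact ball_re h2
  have d1 : HasFDerivAt (fun p => F (emb p))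
      (((fderiv ℂ F (emb q)).restrictScalars ℝ).comp emb) q :=
    ((hF _ m).differentiableAt.hasFDerivAt.restrictScalars ℝ).comp q emb.hasFDerivAt
  have o1 : IsOpen {p : ℝ × ℝ | |p.1 - x₀| < δ} :=
    isOpen_lt (continuous_abs.comp (continuous_fst.sub continuous_const)) continuous_const
  have o2 : IsOpen {p : ℝ × ℝ | |p.2 - w₀| < η} :=
    isOpen_lt (continuous_abs.comp (continuous_snd.sub continuous_const)) continuous_const
  have e2 : f =ᶠ[𝓝 q] fun p => F (emb p) := by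
    filter_upwards [o1.mem_nhds h1, o2.mem_nhds h2,
      (Gm.isOpen_Lam ε).mem_nhds hq] with p k1 k2 k3
    exact (e ⟨p, k3⟩ k1 k2).symm
  rw [e2.fderiv_eq, d1.fderiv]
  rfl

end TwoW

open TwoW

theorem u2w : Spec_U2w := by
  intro A _ _ C ε ι a b x₀ δ T w₀ η M hδ hT hη hε ta tb
  let R : Subring (Gm.Rg ε) := (C.K univ).toSubring.comap ι
  have hR : (R : Set (Gm.Rg ε)).Countable := (K_countable C).preimage_of_injOn M.inj.injOn
  refine ⟨range ((↑) : ℚ → ℝ) ∪ ⋃ φ ∈ (R : Set (Gm.Rg ε)) \ {0}, Zs φ,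
    (countable_range _).union ((hR.mono diff_subset).biUnion fun φ h => Zs_countable h.2),
    fun w hZ hw => ?_⟩
  have hw' : |w| < ε := abs_lt_of hw hε
  let θ : R →+* C.K univ := (ι.comp R.subtype).codRestrict _ fun φ => φ.2
  letI : Algebra R (C.K univ) := θ.toAlgebra
  have hθ : ∀ φ : R, ((algebraMap R (C.K univ) φ : C.K univ) : A) = ι φ := fun _ => rfl
  haveI : FaithfulSMul R (C.K univ) := (faithfulSMul_iff_algebraMap_injective _ _).2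
    fun φ ψ h => Subtype.ext (M.inj (by rw [← hθ, ← hθ, h]))
  have fP := frac M univ (Per ε) (fun j _ => ⟨Per_pre _ _ (mk_Per.2 fun q hq => (M.per q hq).1),
    Per_pre _ _ (mk_Per.2 fun q hq => (M.per q hq).2)⟩) fun φ h => ⟨Per_der _ φ h, Per_der _ φ h⟩
  have fT := frac M {0} (Tw ε x₀ δ T w₀ η) (by
    rintro j rfl
    rw [Int.cast_zero, pre_zero, pre_zero]
    exact ⟨Tw_of _ ta, Tw_of _ tb⟩) fun φ h => ⟨Tw_der hδ hT _ φ h, Tw_der hδ hT _ φ h⟩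
  haveI : IsFractionRing R (C.K univ) := IsFractionRing.of_field _ _ fun z => by
    obtain ⟨φ, -, ψ, -, h1, h2, e⟩ := fP z z.2
    exact ⟨⟨φ, h1⟩, ⟨ψ, h2⟩, Subtype.ext e⟩
  have inj : Function.Injective ((ev (VR x₀ : Filter ℂ) hw').comp R.subtype) := by
    rw [injective_iff_map_eq_zero]
    intro φ h
    by_contra k
    exact hZ (Or.inr (mem_iUnion₂.2 ⟨φ.1, ⟨φ.2, fun e => k (Subtype.ext e)⟩, ev_zero hw' h⟩))
  let lf : C.K univ →+* Germ (VR x₀ : Filter ℂ) ℂ := IsFractionRing.lift inj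
  have l1 : ∀ (c : C.K univ) (φ : Gm.Rg ε), (c : A) = ι φ → lf c = ev _ hw' φ := by
    intro c φ e
    have h1 : φ ∈ R := by
      show ι φ ∈ C.K univ
      rw [← e]
      exact c.2
    have h2 : c = algebraMap R (C.K univ) ⟨φ, h1⟩ := Subtype.ext e
    rw [h2]
    exact IsFractionRing.lift_algebraMap inj _
  have l2 : ∀ (c : C.K univ) (φ ψ : Gm.Rg ε), ι φ ∈ C.K univ → ι ψ ∈ C.K univ →
      (c : A) = ι φ / ι ψ → lf c = ev _ hw' φ / ev _ hw' ψ := by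
    intro c φ ψ h1 h2 e
    have h3 : c = ⟨ι φ, h1⟩ / ⟨ι ψ, h2⟩ := Subtype.ext e
    rw [h3, map_div₀, l1 _ φ rfl, l1 _ ψ rfl]
  have m0 : ∀ φ : Gm.Rg ε, ev _ hw' φ ∈ MS (VR x₀) (St 0) := by
    intro φ
    obtain ⟨f, hf, rfl⟩ := Gm.mk_surj φ
    obtain ⟨G, hG, e⟩ := cx_glob (an_leaf hf hw')
    exact ⟨G, mer_St0 hG, ev_cx (VR_im x₀) e⟩
  have mT : ∀ φ ∈ Tw ε x₀ δ T w₀ η, ev _ hw' φ ∈ MS (VR x₀) (Rect x₀ δ T) := by
    rintro φ ⟨F, hF, e⟩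
    refine ⟨fun z => F (z, w), fun z hz => AnalyticAt.meromorphicAt ?_, ?_⟩
    · refine (hF (z, w) ⟨hz, ?_⟩).comp (f := fun z : ℂ => (z, (w : ℂ)))
        (analyticAt_id.prod analyticAt_const)
      exact ball_re hw
    · refine Germ.coe_eq.2 (VR_ev ?_)
      have o : IsOpen {t : ℝ | |t - x₀| < δ} :=
        isOpen_lt (continuous_abs.comp (continuous_id.sub continuous_const)) continuous_const
      filter_upwards [nhdsWithin_le_nhds (o.mem_nhds (by simpa using hδ))] with x hx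
      exact (e ⟨(x, w), hw'⟩ hx hw).symm
  refine ⟨VR x₀, lf, ⟨VR_le x₀, fun k => hZ (Or.inl k), fun c => ?_, ?_, fun c hc => ?_⟩,
    VR_im x₀, fun f hf c e => l1 c _ e⟩
  · obtain ⟨φ, -, ψ, -, h1, h2, e⟩ := fP c c.2
    rw [l2 c φ ψ h1 h2 e]
    exact div_mem (m0 φ) (m0 ψ)
  · intro c g s k hg eg
    obtain ⟨φ, p1, ψ, p2, h1, h2, e⟩ := fP c c.2
    obtain ⟨f1, a1, rfl⟩ := Gm.mk_surj φ
    obtain ⟨f2, a2, rfl⟩ := Gm.mk_surj ψ
    obtain ⟨G1, hG1, e1⟩ := cx_glob (an_leaf a1 hw')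
    obtain ⟨G2, hG2, e2⟩ := cx_glob (an_leaf a2 hw')
    have k1 : (g : Germ (VR x₀ : Filter ℂ) ℂ) = ((G1 / G2 : ℂ → ℂ) : Germ (VR x₀ : Filter ℂ) ℂ) := by
      rw [← eg, l2 c _ _ h1 h2 e, ev_mk, ev_mk, ev_cx (VR_im x₀) e1, ev_cx (VR_im x₀) e2]
      rfl
    have k2 := agree (VR_le x₀) hg ((mer_St0 hG1).div (mer_St0 hG2)) k1
      ((x₀ : ℂ) + ((s * w + k : ℝ) : ℂ)) (mem_St0.2 (by simp))
    have k3 : Tendsto (fun z : ℂ => z + ((s * w + k : ℝ) : ℂ)) (𝓝[≠] (x₀ : ℂ))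
        (𝓝[≠] ((x₀ : ℂ) + ((s * w + k : ℝ) : ℂ))) := by
      refine tendsto_nhdsWithin_iff.2 ⟨?_, ?_⟩
      · exact ((continuous_add_right _).tendsto _).mono_left nhdsWithin_le_nhds
      · filter_upwards [self_mem_nhdsWithin] with y hy
        simpa using hy
    have k4 := (k3.eventually k2).filter_mono (VR_le x₀)
    have z1 := C.zpow_K s (J := univ) (J' := univ) (fun _ _ => mem_univ _) _ h1
    have z2 := C.zpow_K s (J := univ) (J' := univ) (fun _ _ => mem_univ _) _ h2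
    rw [zpow_sh M] at z1 z2
    rw [l2 (sh C s c) _ _ z1 z2 (by
      show (C.S ^ s) (c : A) = _
      rw [e, map_div₀, zpow_sh M, zpow_sh M]), Gm.pre_mk, Gm.pre_mk, ev_mk, ev_mk,
      ← Germ.coe_div, Germ.coe_eq]
    filter_upwards [k4, VR_im x₀] with z hz hi
    rw [hz, ← real_of hi, ← Complex.ofReal_add, Pi.div_apply, Pi.div_apply, e1, e2, ← add_assoc,
      per_int (mk_Per.1 p1) hw', per_int (mk_Per.1 p2) hw']
    simp [Gm.lin_apply]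
  · obtain ⟨φ, t1, ψ, t2, h1, h2, e⟩ := fT c hc
    rw [l2 c φ ψ h1 h2 e]
    exact div_mem (mT φ t1) (mT ψ t2)

theorem uw (U1 : U.Spec_U1) : Spec_Uw := by
  intro A _ _ _ C ε ι a b x₀ δ T w₀ η G M hδ hT hη hε ta tb
  obtain ⟨Z, hZ, h⟩ := u2w A C ε ι a b x₀ δ T w₀ η M hδ hT hη hε ta tb
  refine ⟨Z, hZ, fun w hw hw' f hf hK => ?_⟩
  obtain ⟨V, lf, L, hV, e⟩ := h w hw hw'
  obtain ⟨g, hg, eg⟩ := U1 A C G V x₀ w δ T lf hδ L ⟨_, hK⟩
  obtain ⟨H, hH, eH⟩ := cx_glob (an_leaf hf (abs_lt_of hw' hε))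
  have k1 : (g : Germ (V : Filter ℂ) ℂ) = (H : Germ (V : Filter ℂ) ℂ) := by
    rw [← eg, e f hf _ rfl, ev_cx hV eH]
  have k2 := agree L.hV (hg.mono_set fun z hz => Or.inl (mem_St0.1 hz)) (mer_St0 hH) k1
  refine ⟨fun z => if z.im = 0 then H z else g z, fun z hz => ?_, fun x => ?_⟩
  · rcases hz with hz | hz
    · refine (mer_St0 hH z (mem_St0.2 hz)).congr ?_
      filter_upwards [k2 z (mem_St0.2 hz)] with u hu
      split_ifs
      · rfl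
      · exact hu.symm
    · refine (hg z (Or.inr hz)).congr ?_
      have o : IsOpen {u : ℂ | 0 < u.im} := isOpen_lt continuous_const Complex.continuous_im
      filter_upwards [nhdsWithin_le_nhds (o.mem_nhds hz.1)] with u hu
      rw [if_neg (ne_of_gt hu)]
  · simp only [Complex.ofReal_im, if_true]
    exact eH x

end Vale.Agent.P097T.Out
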