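import Vale.Agent.P097T.UOne
import Vale.Agent.P097T.UAlg
import Vale.Agent.P097T.UHen
import Vale.Agent.P097T.UTop
import Vale.Agent.P097T.UGlue
import Vale.Agent.P097T.URot
import Vale.Agent.P097T.UTwo
import Vale.Agent.P097T.UTwoW

/-!
# P097T: block (U), closed terms
-/

set_option linter.all false

noncomputable section

namespace Vale.Agent.P097T

theorem U.u1' : U.Spec_U1 := U.u1 U.hen U.top U.gl1 U.gl2 U.gl3 U.rot U.ua

theorem U.u' : U.Spec_U := U.u_of U.u1' U.u2

theorem Out.uw' : Out.Spec_Uw := Out.uw U.u1'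

end Vale.Agent.P097T
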