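import Vale.Agent.P097T.T3
import Vale.Agent.P097T.RTr
import Vale.Agent.P097T.OutCont
import Vale.Agent.P097T.SY0
import Vale.Agent.P097T.STube
import Vale.Agent.P097T.SVert
import Vale.Agent.P097T.SSel
import Vale.Agent.P097T.UAll
import Vale.Agent.P097T.NfOf

/-!
# P097T: the continuation theorem T3 from the model
-/

set_option linter.all false

namespace Vale.Agent.P097T.Out

theorem t3t_of (hM : Spec_MODEL) : Spec_T3t := t3t hM uw' tr' vert

theorem t3c_of (hM : Spec_MODEL) : Spec_T3c := t3c (t3t_of hM) (tube0 cont y0 vert) xr vert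

theorem t3_of (hM : Spec_MODEL) : Out.Spec_T3 := t3 (t3c_of hM) sel

theorem t3_end_of (hM : Spec_MODEL) : P097T.Spec_T3 :=
  t3_end (t3_of hM) fun _ _ _ _ _ a b => nf_of' a b

end Vale.Agent.P097T.Out
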