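import Vale.Agent.P097T.UAlg

/-!
# P097T: on a generic leaf everything is meromorphic up to the height of the rectangle
-/

set_option linter.all false

noncomputable section

namespace Vale.Agent.P097T.U

open Filter Topology Set Metric Polynomial Vale.Agent.P097T.Q

theorem closure_der {A : Type} [Field A] (D : Derivation ℤ A A) {T : Set A}
    (h : ∀ s ∈ T, D s ∈ Subfield.closure T) : ∀ z ∈ Subfield.closure T, D z ∈ Subfield.closure T := by
  intro z hz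
  induction hz using Subfield.closure_induction with
  | mem x hx => exact h x hx
  | one =>
    rw [D.map_one_eq_zero]
    exact zero_mem _
  | add x y _ _ hx hy =>
    rw [map_add]
    exact add_mem hx hy
  | neg x _ hx =>
    rw [map_neg]
    exact neg_mem hx
  | inv x h1 hx =>
    rw [D.leibniz_inv, smul_eq_mul]
    exact mul_mem (neg_mem (pow_mem (inv_mem h1) _)) hx
  | mul x y h1 h2 hx hy =>
    rw [D.leibniz, smul_eq_mul, smul_eq_mul]
    exact add_mem (mul_mem h1 hy) (mul_mem h2 hx)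

theorem K_le_of {A : Type} [Field A] [CharZero A] (C : QChain A) {J : Set ℤ} {G : Subfield A}
    (h : ∀ j ∈ J, C.K {j} ≤ G) : C.K J ≤ G := by
  have h1 : ∀ j ∈ J, ∀ z ∈ C.K {j}, z ∈ Subfield.closure (⋃ j ∈ J, (C.K {j} : Set A)) :=
    fun j hj z hz => Subfield.subset_closure (mem_biUnion hj hz)
  refine le_trans (C.K_le (F := Subfield.closure (⋃ j ∈ J, (C.K {j} : Set A)))
    (fun j hj => ⟨h1 j hj _ (C.a_mem rfl), h1 j hj _ (C.b_mem rfl)⟩) fun z hz => ⟨?_, ?_⟩) ?_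
  · refine closure_der C.dx (fun s hs => ?_) z hz
    obtain ⟨j, hj, hs⟩ := mem_iUnion₂.1 hs
    exact h1 j hj _ (C.K_closed _ s hs).1
  · refine closure_der C.dw (fun s hs => ?_) z hz
    obtain ⟨j, hj, hs⟩ := mem_iUnion₂.1 hs
    exact h1 j hj _ (C.K_closed _ s hs).2
  · exact Subfield.closure_le.2 (iUnion₂_subset fun j hj => h j hj)

theorem root_mem {F M : Type} [Field F] [Field M] {O : Subring M} (hO : Hen O) (χ : F →+* M)
    {q u v : F[X]} (hq : q.Monic) (huv : u * q + v * derivative q = 1)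
    (e1 : ∀ i, χ (q.coeff i) ∈ O) (e2 : ∀ i, χ (u.coeff i) ∈ O) (e3 : ∀ i, χ (v.coeff i) ∈ O)
    {r : M} (hr : (q.map χ).IsRoot r) : r ∈ O := by
  have lift : ∀ q : F[X], (∀ i, χ (q.coeff i) ∈ O) → ∃ q' : O[X], q'.map O.subtype = q.map χ := by
    intro q hq
    rw [← mem_lifts, lifts_iff_coeff_lifts]
    intro n
    rw [coeff_map]
    exact ⟨⟨_, hq n⟩, rfl⟩
  obtain ⟨P', hP'⟩ := lift q e1
  obtain ⟨u', hu'⟩ := lift u e2
  obtain ⟨v', hv'⟩ := lift v e3
  have inj : Function.Injective (Polynomial.map O.subtype) :=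
    map_injective _ O.subtype_injective
  have m' : P'.Monic := monic_of_injective O.subtype_injective (hP' ▸ hq.map χ)
  have s' : P'.Separable := by
    refine ⟨u', v', inj ?_⟩
    rw [Polynomial.map_add, Polynomial.map_mul, Polynomial.map_mul, ← derivative_map, hP', hu',
      hv', derivative_map, ← Polynomial.map_mul, ← Polynomial.map_mul, ← Polynomial.map_add, huv,
      Polynomial.map_one, Polynomial.map_one]
  obtain ⟨l, hl⟩ := hO P' m' s'
  rw [← hP', hl, IsRoot, Polynomial.map_multiset_prod, eval_multiset_prod, Multiset.map_map,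
    Multiset.map_map, Multiset.prod_eq_zero_iff, Multiset.mem_map] at hr
  obtain ⟨y, -, hy⟩ := hr
  simp only [Function.comp, Polynomial.map_sub, map_X, map_C, eval_sub, eval_X, eval_C,
    sub_eq_zero] at hy
  rw [hy]
  exact y.2

theorem St_mono {t t' : ℝ} (h : t ≤ t') : St t ⊆ St t' := fun z hz =>
  hz.imp_right fun k => ⟨k.1, k.2.trans_le h⟩

theorem St_zero (t : ℝ) : St 0 ⊆ St t := fun z hz =>
  Or.inl (hz.elim id fun k => absurd (k.1.trans k.2) (lt_irrefl _))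

theorem St_add {t τ : ℝ} {z : ℂ} (h : z ∈ St t) : z + (τ : ℂ) ∈ St t := by
  simpa [St] using h

theorem pt_add (x t τ : ℝ) : pt (x + τ) t = pt x t + τ := by
  simp only [pt]
  push_cast
  ring

theorem dist_pt (x y t : ℝ) : dist (pt x t) (pt y t) = |x - y| := by
  rw [dist_eq_norm, show pt x t - pt y t = ((x - y : ℝ) : ℂ) by simp [pt], Complex.norm_real,
    Real.norm_eq_abs]

theorem mer_add {g : ℂ → ℂ} {z : ℂ} (c : ℂ) (h : MeromorphicAt g (z + c)) :
    MeromorphicAt (fun y => g (y + c)) z :=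
  MeromorphicAt.comp_analyticAt (f := g) (g := fun y => y + c) h (by fun_prop)

theorem mer_add' {g : ℂ → ℂ} (c : ℂ) (h : MeromorphicAt g c) :
    MeromorphicAt (fun y => g (c + y)) 0 :=
  MeromorphicAt.comp_analyticAt (f := g) (g := fun y => c + y) (by simpa using h) (by fun_prop)

theorem an_add' {g : ℂ → ℂ} (c : ℂ) (h : AnalyticAt ℂ g c) :
    AnalyticAt ℂ (fun y => g (c + y)) 0 :=
  AnalyticAt.comp (g := g) (f := fun y => c + y) (by simpa using h) (by fun_prop)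

theorem MS_ball {V : Ultrafilter ℂ} {W : Set ℂ} {p : ℂ} {m : Germ (V : Filter ℂ) ℂ}
    (h : m ∈ MS V (W ∪ {p})) : ∃ ρ > 0, m ∈ MS V (W ∪ ball p ρ) := by
  obtain ⟨g, hg, rfl⟩ := h
  have h1 := (hg p (Or.inr rfl)).eventually_analyticAt
  rw [eventually_nhdsWithin_iff, Metric.eventually_nhds_iff_ball] at h1
  obtain ⟨ρ, hρ, h2⟩ := h1
  refine ⟨ρ, hρ, g, fun z hz => ?_, rfl⟩
  rcases hz with hz | hz
  · exact hg z (Or.inl hz)
  · by_cases e : z = p
    · exact hg z (Or.inr e)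
    · exact (h2 z hz e).meromorphicAt

section main

variable {A : Type} [Field A] [CharZero A] {C : QChain A} {V : Ultrafilter ℂ} {x₀ w δ T : ℝ}
  {lf : C.K univ →+* Germ (V : Filter ℂ) ℂ}

/-- The elements which are meromorphic on `W`. -/
def PP (lf : C.K univ →+* Germ (V : Filter ℂ) ℂ) (W : Set ℂ) : Subfield A :=
  ((MS V W).comap lf).map (C.K univ).subtype

theorem mem_PP {W : Set ℂ} (c : C.K univ) : (c : A) ∈ PP lf W ↔ lf c ∈ MS V W := by
  constructor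
  · rintro ⟨y, hy, e⟩
    rwa [show y = c from Subtype.ext e] at hy
  · exact fun h => ⟨c, h, rfl⟩

theorem sh_zero (c : C.K univ) : sh C 0 c = c := Subtype.ext rfl

theorem shift_MS (L : Leaf C V x₀ w δ T lf) {W W' : Set ℂ} (hW : St 0 ⊆ W) (s k : ℤ)
    (h : ∀ z ∈ W', z + ((s * w + k : ℝ) : ℂ) ∈ W) {c : C.K univ} (hc : lf c ∈ MS V W) :
    lf (sh C s c) ∈ MS V W' := by
  obtain ⟨g, hg, e⟩ := hc
  exact ⟨_, fun z hz => mer_add _ (hg _ (h z hz)), L.lS c g s k (hg.mono_set hW) e⟩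

theorem Kj_le (L : Leaf C V x₀ w δ T lf) {W W' : Set ℂ} (hW : St 0 ⊆ W) (j k : ℤ)
    (h : ∀ z ∈ W', z + ((j * w + k : ℝ) : ℂ) ∈ W) (h0 : C.K {0} ≤ PP lf W) :
    C.K {j} ≤ PP lf W' := by
  intro z hz
  let c : C.K univ := ⟨z, C.K_mono (subset_univ _) hz⟩
  have h1 : (sh C (-j) c : A) ∈ C.K {0} := C.zpow_K (-j) (J := {j}) (by simp) _ hz
  have h2 := shift_MS L hW j k h ((mem_PP _).1 (h0 h1))
  have e : sh C j (sh C (-j) c) = c := Subtype.ext (by
    show (C.S ^ j) ((C.S ^ (-j)) z) = z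
    rw [← RingAut.mul_apply, ← zpow_add, add_neg_cancel, zpow_zero]
    rfl)
  rw [e] at h2
  exact (mem_PP c).2 h2

theorem ext_of (L : Leaf C V x₀ w δ T lf) {t : ℝ} (h0 : C.K {0} ≤ PP lf (St t)) :
    ∀ c, lf c ∈ MS V (St t) := fun c =>
  (mem_PP c).1 (K_le_of C (fun j _ => Kj_le L (St_zero t) j 0 (fun z hz => St_add hz) h0) c.2)

/-- The indices of the lines which are near the rectangle. -/
def JJ (x₀ w r x : ℝ) : Set ℤ := {j | ∃ k : ℤ, |j * w + k - (x₀ - x)| < r / 2}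

theorem KJ_le (L : Leaf C V x₀ w δ T lf) {t r : ℝ}
    (h0 : C.K {0} ≤ PP lf (St t ∪ ball (pt x₀ t) r)) (x : ℝ) :
    C.K (JJ x₀ w r x) ≤ PP lf (St t ∪ ball (pt x t) (r / 2)) := by
  refine K_le_of C fun j ⟨k, hk⟩ => Kj_le L ((St_zero t).trans subset_union_left) j k ?_ h0
  rintro z (hz | hz)
  · exact Or.inl (St_add hz)
  · refine Or.inr ?_
    rw [mem_ball] at hz ⊢
    have h1 := dist_triangle (z + ((j * w + k : ℝ) : ℂ)) (pt x t + ((j * w + k : ℝ) : ℂ)) (pt x₀ t)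
    rw [dist_add_right, ← pt_add, dist_pt,
      show x + (j * w + k) - x₀ = j * w + k - (x₀ - x) by ring] at h1
    linarith

/-- The homomorphisms `Ψ y` are the germs at the top points. -/
def TopH (lf : C.K univ →+* Germ (V : Filter ℂ) ℂ) (t : ℝ) (W : Ultrafilter ℂ)
    (Ψ : ℝ → (C.K univ →+* Germ (W : Filter ℂ) ℂ)) : Prop :=
  ∀ (x : ℝ) (e : C.K univ) (g : ℂ → ℂ), MeromorphicOn g (St t) →
    lf e = (g : Germ (V : Filter ℂ) ℂ) →
    Ψ x e = ((fun s => g (pt x t + s) : ℂ → ℂ) : Germ (W : Filter ℂ) ℂ)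

theorem top_shf (L : Leaf C V x₀ w δ T lf) {t : ℝ} (hE : ∀ c, lf c ∈ MS V (St t))
    {W : Ultrafilter ℂ} {Ψ : ℝ → (C.K univ →+* Germ (W : Filter ℂ) ℂ)} (h1 : TopH lf t W Ψ)
    (y : ℝ) (s k : ℤ) (e : C.K univ) : Ψ y (sh C s e) = Ψ (y + (s * w + k)) e := by
  obtain ⟨g, hg, eg⟩ := hE e
  have e1 := h1 y (sh C s e) _ (fun z hz => mer_add _ (hg _ (St_add hz)))
    (L.lS e g s k (hg.mono_set (St_zero t)) eg)
  have e2 := h1 (y + (s * w + k)) e g hg eg
  have e3 : (fun u => g (pt y t + u + ((s * w + k : ℝ) : ℂ))) =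
      fun u => g (pt (y + (s * w + k)) t + u) := by
    funext u
    rw [pt_add, add_right_comm]
  rw [e1, e2, e3]

theorem top_loc (L : Leaf C V x₀ w δ T lf) {t r : ℝ} (hr : 0 < r)
    (h0 : C.K {0} ≤ PP lf (St t ∪ ball (pt x₀ t) r))
    {W : Ultrafilter ℂ} {Ψ : ℝ → (C.K univ →+* Germ (W : Filter ℂ) ℂ)} (h1 : TopH lf t W Ψ)
    (y : ℝ) (e : C.K univ) (he : (e : A) ∈ C.K (JJ x₀ w r y)) :
    Ψ y e ∈ MS W {0} ∧ ∀ᶠ z in 𝓝[≠] y, Ψ z e ∈ OA W := by
  obtain ⟨g, hg, eg⟩ := (mem_PP e).1 (KJ_le L h0 y he)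
  have m := hg (pt y t) (Or.inr (mem_ball_self (by linarith)))
  have k := fun z => h1 z e g (hg.mono_set subset_union_left) eg
  refine ⟨⟨_, fun z hz => ?_, k y⟩, ?_⟩
  · rw [mem_singleton_iff.1 hz]
    exact mer_add' _ m
  · have tt : Tendsto (fun z : ℝ => pt z t) (𝓝[≠] y) (𝓝[≠] (pt y t)) := by
      refine tendsto_nhdsWithin_iff.2 ⟨?_, ?_⟩
      · refine (Continuous.tendsto ?_ y).mono_left nhdsWithin_le_nhds
        unfold pt
        fun_prop
      · filter_upwards [self_mem_nhdsWithin] with z hz e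
        refine hz ?_
        have := dist_pt z y t
        rw [mem_singleton_iff.1 e, dist_self] at this
        exact sub_eq_zero.1 (abs_eq_zero.1 this.symm)
    filter_upwards [tt.eventually m.eventually_analyticAt] with z hz
    exact ⟨_, an_add' _ hz, k z⟩

theorem reg_loc {M : Type} [Field M] {O : Subring M} (hO : Hen O) {E F : Subfield A} (h : F ≤ E)
    {l : Filter ℝ} (Ψ : ℝ → (E →+* M)) (hl : ∀ e : E, (e : A) ∈ F → ∀ᶠ z in l, Ψ z e ∈ O)
    (e : E) (he : (e : A) ∈ acl F) : ∀ᶠ z in l, Ψ z e ∈ O := by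
  have hi : IsIntegral F (e : A) := (mem_acl.1 he).isIntegral
  obtain ⟨u, v, huv⟩ := (minpoly.irreducible hi).separable
  let ι : F →+* E := Subfield.inclusion h
  have ev : ∀ q : F[X], ∀ᶠ z in l, ∀ i, Ψ z (ι (q.coeff i)) ∈ O := by
    intro q
    have := (eventually_all_finset q.support).2 fun i _ => hl (ι (q.coeff i)) (q.coeff i).2
    filter_upwards [this] with s hs i
    by_cases hi : i ∈ q.support
    · exact hs i hi
    · rw [notMem_support_iff.1 hi, map_zero, map_zero]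
      exact zero_mem _
  have rt : ((minpoly F (e : A)).map ι).IsRoot e := by
    refine IsRoot.of_map (f := E.subtype) ?_ E.subtype_injective
    rw [Polynomial.map_map, IsRoot]
    have := minpoly.aeval F (e : A)
    rw [← eval_map_algebraMap] at this
    exact this
  filter_upwards [ev (minpoly F (e : A)), ev u, ev v] with z e1 e2 e3
  refine root_mem hO ((Ψ z).comp ι) (minpoly.monic hi) huv e1 e2 e3 ?_
  have := rt.map (f := Ψ z)
  rwa [Polynomial.map_map] at this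

theorem top_ua [IsAlgClosed A] (hRo : Spec_ROT) (hA : Spec_UA)
    (hC : Good C) (L : Leaf C V x₀ w δ T lf) {t r : ℝ} (hr : 0 < r)
    (hE : ∀ c, lf c ∈ MS V (St t)) (h0 : C.K {0} ≤ PP lf (St t ∪ ball (pt x₀ t) r))
    {W : Ultrafilter ℂ} {Ψ : ℝ → (C.K univ →+* Germ (W : Filter ℂ) ℂ)} (h1 : TopH lf t W Ψ)
    (hO : Hen (OA W)) (x : ℝ) (c : C.K univ) (hc : (c : A) = C.a 0 ∨ (c : A) = C.b 0) :
    Ψ x c ∈ MS W {0} := by
  have J1 : ∀ y N, ∃ j ∈ JJ x₀ w r y, N ≤ j := fun y N => by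
    obtain ⟨j, k, a, b⟩ := ((hRo w L.irr).1 (x₀ - y) (r / 2) N (by linarith)).1
    exact ⟨j, ⟨k, b⟩, a⟩
  have J2 : ∀ y N, ∃ j ∈ JJ x₀ w r y, j ≤ N := fun y N => by
    obtain ⟨j, k, a, b⟩ := ((hRo w L.irr).1 (x₀ - y) (r / 2) N (by linarith)).2
    exact ⟨j, ⟨k, b⟩, a⟩
  refine hA A C hC _ (Ψ x) (OA W) (MS W {0}) (JJ x₀ w r x) hO ?_
    (J1 x) (J2 x) (fun e he => (top_loc L hr h0 h1 x e he).1) (fun e => ?_) c hc
  · rintro _ ⟨g, hg, rfl⟩
    exact ⟨g, fun z hz => by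
      rw [mem_singleton_iff.1 hz]
      exact hg.meromorphicAt, rfl⟩
  · have p1 : ∀ y ∈ {y | Ψ y e ∉ OA W}, ∀ k : ℤ, y + k ∈ {y | Ψ y e ∉ OA W} := by
      intro y hy k hk
      have := top_shf L hE h1 y 0 k e
      rw [sh_zero, Int.cast_zero, zero_mul, zero_add] at this
      exact hy (this ▸ hk)
    have p2 : ∀ y, ∀ᶠ z in 𝓝[≠] y, z ∉ {y | Ψ y e ∉ OA W} := fun y =>
      (reg_loc hO (C.K_mono (subset_univ _)) Ψ (fun e he => (top_loc L hr h0 h1 y e he).2) e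
        (univ_acl hC.fd (J1 y) (J2 y) e.2)).mono fun z hz => not_not.2 hz
    filter_upwards [(hRo w L.irr).2 _ x p1 p2] with s hs
    have := top_shf L hE h1 x s 0 e
    rw [Int.cast_zero, add_zero] at this
    rw [this]
    exact not_not.1 hs

theorem top_mem [IsAlgClosed A] (hH : Spec_HEN) (hT : Spec_TOP) (hRo : Spec_ROT) (hA : Spec_UA)
    (hC : Good C) (L : Leaf C V x₀ w δ T lf) {t r : ℝ} (ht : 0 < t) (hr : 0 < r)
    (hE : ∀ c, lf c ∈ MS V (St t)) (h0 : C.K {0} ≤ PP lf (St t ∪ ball (pt x₀ t) r)) (x : ℝ)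
    (c : C.K univ) (hc : (c : A) = C.a 0 ∨ (c : A) = C.b 0) :
    lf c ∈ MS V (St t ∪ {pt x t}) := by
  obtain ⟨W, Φ, hW, h1, h2⟩ := hT V x₀ t L.hV ht
  exact h2 x (lf.codRestrict _ hE c) (top_ua hRo hA hC L hr hE h0
    (Ψ := fun y => (Φ y).comp (lf.codRestrict _ hE))
    (fun y e g hg eg => h1 y (lf.codRestrict _ hE e) g hg eg) (hH W hW) x c hc)

theorem step [IsAlgClosed A] (hH : Spec_HEN) (hT : Spec_TOP) (g1 : Spec_GL1) (g2 : Spec_GL2)
    (hRo : Spec_ROT) (hA : Spec_UA) (hC : Good C) (hδ : 0 < δ) (L : Leaf C V x₀ w δ T lf) {t : ℝ}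
    (ht : 0 ≤ t) (htT : t < T) (hE : ∀ c, lf c ∈ MS V (St t)) :
    ∃ t', t < t' ∧ ∀ c, lf c ∈ MS V (St t') := by
  obtain ⟨r, hr, r1, r2⟩ : ∃ r, 0 < r ∧ r < δ ∧ t + r < T :=
    ⟨min δ (T - t) / 2, by have := lt_min hδ (sub_pos.2 htT); linarith,
      by have := min_le_left δ (T - t); linarith, by have := min_le_right δ (T - t); linarith⟩
  have h0 : C.K {0} ≤ PP lf (St t ∪ ball (pt x₀ t) r) := fun z hz =>
    (mem_PP ⟨z, C.K_mono (subset_univ _) hz⟩).2
      (g1 V x₀ δ T t r L.hV ht hr r1 r2 ⟨hE _, L.lT _ hz⟩)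
  have s1 : ∀ (x : ℝ) (c : C.K univ), ((c : A) = C.a 0 ∨ (c : A) = C.b 0) →
      lf c ∈ MS V (St t ∪ {pt x t}) := by
    intro x c hc
    rcases ht.eq_or_lt with rfl | ht'
    · refine MS_anti V ?_ (hE c)
      rintro z (hz | hz)
      · exact hz
      · rw [mem_singleton_iff.1 hz]
        exact Or.inl (by simp [pt])
    · exact top_mem hH hT hRo hA hC L ht' hr hE h0 x c hc
  have s2 : ∀ x : ℝ, ∃ ρ > 0, C.K {0} ≤ PP lf (St t ∪ ball (pt x t) ρ) := by
    intro x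
    obtain ⟨ρ1, p1, k1⟩ := MS_ball (s1 x ⟨C.a 0, C.a_mem (mem_univ _)⟩ (Or.inl rfl))
    obtain ⟨ρ2, p2, k2⟩ := MS_ball (s1 x ⟨C.b 0, C.b_mem (mem_univ _)⟩ (Or.inr rfl))
    refine ⟨min (r / 2) (min ρ1 ρ2), lt_min (by linarith) (lt_min p1 p2), ?_⟩
    have sub : ∀ ρ, min (r / 2) (min ρ1 ρ2) ≤ ρ →
        St t ∪ ball (pt x t) (min (r / 2) (min ρ1 ρ2)) ⊆ St t ∪ ball (pt x t) ρ := fun ρ h =>
      union_subset_union_right _ (ball_subset_ball h)
    obtain ⟨i, k, hi, hk⟩ := ((hRo w L.irr).1 (x₀ - x) (r / 2) (-1) (by linarith)).2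
    obtain ⟨j, k', hj, hk'⟩ := ((hRo w L.irr).1 (x₀ - x) (r / 2) 1 (by linarith)).1
    have al := lines_acl hC.fd (J := JJ x₀ w r x) (j := 0) ⟨k, hk⟩ ⟨k', hk'⟩ (by omega) (by omega)
    set F := C.K (JJ x₀ w r x) with hF
    have fH : F ≤ Subfield.closure ((F : Set A) ∪ {C.a 0, C.b 0}) := fun z hz =>
      Subfield.subset_closure (Or.inl hz)
    have cl : ∀ D : Derivation ℤ A A, (∀ z ∈ F, D z ∈ F) →
        ∀ z ∈ Subfield.closure ((F : Set A) ∪ {C.a 0, C.b 0}),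
          D z ∈ Subfield.closure ((F : Set A) ∪ {C.a 0, C.b 0}) := by
      intro D hD
      refine closure_der D ?_
      rintro s (hs | rfl | rfl)
      · exact fH (hD s hs)
      · exact der_mem D hD fH al.1 (Subfield.subset_closure (by simp))
      · exact der_mem D hD fH al.2 (Subfield.subset_closure (by simp))
    refine le_trans (C.K_le (F := Subfield.closure ((F : Set A) ∪ {C.a 0, C.b 0})) ?_
      fun z hz => ⟨cl _ (fun y hy => (C.K_closed _ y hy).1) z hz,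
        cl _ (fun y hy => (C.K_closed _ y hy).2) z hz⟩) (Subfield.closure_le.2 ?_)
    · rintro j rfl
      exact ⟨Subfield.subset_closure (by simp), Subfield.subset_closure (by simp)⟩
    · rintro z (hz | rfl | rfl)
      · exact (mem_PP ⟨z, C.K_mono (subset_univ _) hz⟩).2 (MS_anti V (sub _ (min_le_left _ _))
          ((mem_PP ⟨z, C.K_mono (subset_univ _) hz⟩).1 (KJ_le L h0 x hz)))
      · exact (mem_PP ⟨C.a 0, C.a_mem (mem_univ _)⟩).2
          (MS_anti V (sub _ ((min_le_right _ _).trans (min_le_left _ _))) k1)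
      · exact (mem_PP ⟨C.b 0, C.b_mem (mem_univ _)⟩).2
          (MS_anti V (sub _ ((min_le_right _ _).trans (min_le_right _ _))) k2)
  choose ρ hρ s2 using s2
  have cp : IsCompact ((fun x : ℝ => pt x t) '' Icc 0 1) :=
    isCompact_Icc.image (by unfold pt; fun_prop)
  obtain ⟨ρ0, p0, s3⟩ := lebesgue_number_lemma_of_metric cp
    (c := fun x : ℝ => ball (pt x t) (ρ x)) (fun _ => isOpen_ball) (by
      rintro _ ⟨x, -, rfl⟩
      exact mem_iUnion.2 ⟨x, mem_ball_self (hρ x)⟩)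
  refine ⟨t + ρ0 / 2, by linarith, ext_of L fun z hz => ?_⟩
  let c : C.K univ := ⟨z, C.K_mono (subset_univ _) hz⟩
  refine (mem_PP c).2 (g2 V x₀ t ρ0 _ L.hV ht p0 fun x => ?_)
  obtain ⟨y, hy⟩ := s3 (pt (Int.fract x) t)
    ⟨_, ⟨Int.fract_nonneg x, (Int.fract_lt_one x).le⟩, rfl⟩
  have := shift_MS L (W' := St t ∪ ball (pt x t) ρ0) ((St_zero t).trans subset_union_left) 0
    (-⌊x⌋) ?_ ((mem_PP c).1 (s2 y hz))
  · rwa [sh_zero] at this
  · rintro u (hu | hu)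
    · exact Or.inl (St_add hu)
    · refine Or.inr (hy ?_)
      have e : pt (Int.fract x) t = pt x t + ((((0 : ℤ) : ℝ) * w + ((-⌊x⌋ : ℤ) : ℝ) : ℝ) : ℂ) := by
        rw [← pt_add, Int.fract]
        congr 1
        push_cast
        ring
      rw [mem_ball, e, dist_add_right]
      exact hu

end main

theorem u1 (hH : Spec_HEN) (hT : Spec_TOP) (g1 : Spec_GL1) (g2 : Spec_GL2) (g3 : Spec_GL3)
    (hRo : Spec_ROT) (hA : Spec_UA) : Spec_U1 := by
  intro A _ _ _ C hC V x₀ w δ T lf hδ L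
  rcases le_or_gt T 0 with hT0 | hT0
  · exact fun c => MS_anti V (St_mono hT0) (L.l0 c)
  let S : Set ℝ := {t | t ≤ T ∧ ∀ c, lf c ∈ MS V (St t)}
  have h0 : (0 : ℝ) ∈ S := ⟨hT0.le, L.l0⟩
  have bd : BddAbove S := ⟨T, fun t ht => ht.1⟩
  have e1 : ∀ c, lf c ∈ MS V (St (sSup S)) := fun c =>
    g3 V x₀ _ _ L.hV fun t' ht' => by
      obtain ⟨t, ht, h⟩ := exists_lt_of_lt_csSup ⟨0, h0⟩ ht'
      exact MS_anti V (St_mono h.le) (ht.2 c)
  have e2 : sSup S ≤ T := csSup_le ⟨0, h0⟩ fun t ht => ht.1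
  rcases e2.eq_or_lt with e | e
  · rwa [e] at e1
  · obtain ⟨t', h1, h2⟩ := step hH hT g1 g2 hRo hA hC hδ L (le_csSup bd h0) e e1
    have : min t' T ∈ S := ⟨min_le_right _ _, fun c => MS_anti V (St_mono (min_le_left _ _)) (h2 c)⟩
    exact absurd (le_csSup bd this) (not_le.2 (lt_min h1 e))

end Vale.Agent.P097T.U
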